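import Mathlib.Analysis.Convex.Contractible
import Mathlib.Analysis.InnerProductSpace.PiL2
import Mathlib.CategoryTheory.Functor.OfSequence
import Mathlib.CategoryTheory.Limits.FunctorCategory.Basic
import Mathlib.CategoryTheory.Limits.Presheaf
import Mathlib.CategoryTheory.Limits.Shapes.Pullback.IsPullback.Basic
import Mathlib.CategoryTheory.Limits.Types.Colimits
import Mathlib.CategoryTheory.Limits.Types.Pushouts
import Mathlib.CategoryTheory.Localization.Predicate
import Mathlib.CategoryTheory.MorphismProperty.LiftingProperty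
import Mathlib.CategoryTheory.MorphismProperty.Limits
import Mathlib.CategoryTheory.ObjectProperty.FullSubcategory
import Mathlib.Data.ENat.Basic
import Mathlib.Data.Nat.Notation
import Mathlib.Topology.Category.CompactlyGenerated
import Mathlib.Topology.Category.TopCat.Limits.Basic
import Mathlib.Topology.Homotopy.Contractible
import Mathlib.CategoryTheory.Adjunction.Reflective
import Mathlib.CategoryTheory.Limits.Types.Pullbacks
import Mathlib.CategoryTheory.Limits.Yoneda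
import Mathlib.CategoryTheory.Presentable.Finite
import Mathlib.CategoryTheory.Presentable.Limits
import Mathlib.CategoryTheory.Presentable.OrthogonalReflection
import Mathlib.CategoryTheory.Presentable.Presheaf
import Mathlib.CategoryTheory.SmallObject.Basic
import Mathlib.CategoryTheory.Limits.Shapes.Terminal
import Mathlib.Topology.CompactOpen
import Mathlib.Topology.Homotopy.Equiv
import Mathlib.CategoryTheory.MorphismProperty.RetractArgument
import Mathlib.Topology.UnitInterval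
import Mathlib.CategoryTheory.Localization.Equivalence
import Mathlib.CategoryTheory.Localization.LocalizerMorphism
import Mathlib.CategoryTheory.MorphismProperty.Basic
import Mathlib.Topology.Homotopy.Basic
import Mathlib.Topology.Homotopy.HomotopyGroup
import Mathlib.CategoryTheory.Adjunction.Evaluation
import Mathlib.CategoryTheory.LiftingProperties.Adjunction
import Mathlib.CategoryTheory.Limits.Preserves.Shapes.Products
import Mathlib.CategoryTheory.Limits.Types.Coproducts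
import Mathlib.CategoryTheory.Limits.Types.Filtered
import Mathlib.CategoryTheory.Presentable.Adjunction
import Mathlib.CategoryTheory.Types.Monomorphisms
import Mathlib.Topology.Category.TopCat.Limits.Products
import Mathlib.Topology.Category.TopCat.Limits.Pullbacks
import Mathlib.Analysis.Convex.GaugeRescale
import Mathlib.CategoryTheory.Comma.Over.Basic
import Mathlib.CategoryTheory.SmallObject.Construction
import Mathlib.Topology.Category.TopCat.Basic
import Mathlib.Topology.ContinuousMap.Sigma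
import Mathlib.Topology.MetricSpace.Pseudo.Lemmas
import Mathlib.Topology.MetricSpace.Pseudo.Pi
import Mathlib.Topology.UniformSpace.Compact
import Mathlib.CategoryTheory.Adjunction.Restrict
import Mathlib.CategoryTheory.Adjunction.Unique
import Mathlib.Analysis.Real.Sqrt
import Vale.Agent.P259.Tabs
import Vale.Agent.P259.Stmt
import Vale.Agent.P259.StmtB

set_option linter.all false

section

section

open CategoryTheory Limits

namespace Vale.Agent.P259

/-- The globe category: the object `⟨n⟩` is `D_n`. -/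
structure Globe where
  dim : ℕ

namespace Globe

/-- Morphisms `D_n ⟶ D_m` of the globe category: the identity, and for `n < m` the two
iterated cosource / cotarget maps (`b = false` for the source side, `b = true` for the
target side). -/
inductive Hom : ℕ → ℕ → Type
  | id (n : ℕ) : Hom n n
  | face (b : Bool) {n m : ℕ} (h : n < m) : Hom n m

/-- Composition: the composite of two non-identity faces is determined by the first one
(the relations `σσ = τσ` and `στ = ττ`). -/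
def Hom.comp : {n m k : ℕ} → Hom n m → Hom m k → Hom n k
  | _, _, _, .id _, g => g
  | _, _, _, .face b h, .id _ => .face b h
  | _, _, _, .face b h, .face _ h' => .face b (h.trans h')

lemma Hom.comp_id' {n m : ℕ} (f : Hom n m) : Hom.comp f (.id m) = f := by
  cases f <;> rfl

lemma Hom.assoc' {n m k l : ℕ} (f : Hom n m) (g : Hom m k) (h : Hom k l) :
    Hom.comp (Hom.comp f g) h = Hom.comp f (Hom.comp g h) := by
  cases f <;> cases g <;> cases h <;> rfl

instance : Category Globe where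
  Hom X Y := Hom X.dim Y.dim
  id X := Hom.id X.dim
  comp f g := Hom.comp f g
  id_comp _ := rfl
  comp_id f := Hom.comp_id' f
  assoc f g h := Hom.assoc' f g h

/-- The object `D_n`. -/
abbrev D (n : ℕ) : Globe := ⟨n⟩

/-- The iterated cosource (`b = false`) or cotarget (`b = true`) map `D_n ⟶ D_m`, `n < m`. -/
def face (b : Bool) {n m : ℕ} (h : n < m) : D n ⟶ D m := Hom.face b h

/-- `σ_n : D_n ⟶ D_{n+1}`. -/
abbrev σ (n : ℕ) : D n ⟶ D (n + 1) := face false (Nat.lt_succ_self n)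

/-- `τ_n : D_n ⟶ D_{n+1}`. -/
abbrev τ (n : ℕ) : D n ⟶ D (n + 1) := face true (Nat.lt_succ_self n)

@[reassoc (attr := simp)]
lemma face_comp_face (b c : Bool) {n m k : ℕ} (h : n < m) (h' : m < k) :
    face b h ≫ face c h' = face b (h.trans h') := rfl

end Globe

/-- Globular sets: presheaves on the globe category. -/
abbrev GSet := Globeᵒᵖ ⥤ Type

/-- The representable globular set `D_n`. -/
abbrev GSet.disc (n : ℕ) : GSet := yoneda.obj (Globe.D n)

/-- The dimension of a table: the maximum of the `i_l`. -/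
def Tab.dim : {l : ℕ} → Tab l → ℕ
  | _, .disc i => i
  | _, .glue t _ i _ _ => max t.dim i

/-- The globular sum of a table, as an iterated pushout of presheaves on the globe category,
together with the inclusion of its last disc. -/
noncomputable def Tab.build : {l : ℕ} → Tab l → (X : GSet) × (GSet.disc l ⟶ X)
  | _, .disc i => ⟨GSet.disc i, 𝟙 _⟩
  | _, .glue t _ _ hl hi =>
      ⟨pushout (yoneda.map (Globe.face true hl) ≫ t.build.2) (yoneda.map (Globe.face false hi)),
        pushout.inr _ _⟩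

namespace Theta0

/-- The globular set underlying a globular sum. -/
noncomputable def toGSet (S : Theta0) : GSet := S.tab.build.1

/-- The category `Θ₀`: the full subcategory of presheaves on the globular sums. -/
noncomputable instance : Category Theta0 where
  Hom S T := S.toGSet ⟶ T.toGSet
  id S := 𝟙 S.toGSet
  comp f g := (f ≫ g : _ ⟶ _)
  id_comp f := Category.id_comp (obj := GSet) f
  comp_id f := Category.comp_id (obj := GSet) f
  assoc f g h := Category.assoc (obj := GSet) f g h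

/-- The dimension of a globular sum. -/
def dim (S : Theta0) : ℕ := S.tab.dim

/-- The globular sum obtained by gluing `D_i` to `S` along `D_j`. -/
def glue {l : ℕ} (t : Tab l) (j i : ℕ) (hl : j < l) (hi : j < i) : Theta0 :=
  ⟨.glue t j i hl hi⟩

/-- The map `D_n ⟶ D_m` of `Θ₀` given by a map of the globe category. -/
noncomputable def discMap {n m : ℕ} (f : Globe.D n ⟶ Globe.D m) : disc n ⟶ disc m :=
  (yoneda.map f : GSet.disc n ⟶ GSet.disc m)

/-- The iterated cosource or cotarget map `D_n ⟶ D_m` in `Θ₀`. -/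
noncomputable def face (b : Bool) {n m : ℕ} (h : n < m) : disc n ⟶ disc m :=
  discMap (Globe.face b h)

/-- `σ_n : D_n ⟶ D_{n+1}` in `Θ₀`. -/
noncomputable abbrev σ (n : ℕ) : disc n ⟶ disc (n + 1) := face false (Nat.lt_succ_self n)

/-- `τ_n : D_n ⟶ D_{n+1}` in `Θ₀`. -/
noncomputable abbrev τ (n : ℕ) : disc n ⟶ disc (n + 1) := face true (Nat.lt_succ_self n)

/-- The inclusion of the last disc of a globular sum. -/
noncomputable def lastIncl {l : ℕ} (t : Tab l) : disc l ⟶ ⟨t⟩ :=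
  (t.build.2 : GSet.disc l ⟶ t.build.1)

/-- The inclusion of `S` in the globular sum obtained by gluing one more disc. -/
noncomputable def inl {l : ℕ} (t : Tab l) (j i : ℕ) (hl : j < l) (hi : j < i) :
    (⟨t⟩ : Theta0) ⟶ glue t j i hl hi :=
  (pushout.inl (yoneda.map (Globe.face true hl) ≫ t.build.2)
    (yoneda.map (Globe.face false hi)) : _ ⟶ _)

/-- The inclusion of the new disc. -/
noncomputable def inr {l : ℕ} (t : Tab l) (j i : ℕ) (hl : j < l) (hi : j < i) :
    disc i ⟶ glue t j i hl hi :=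
  (pushout.inr (yoneda.map (Globe.face true hl) ≫ t.build.2)
    (yoneda.map (Globe.face false hi)) : _ ⟶ _)

/-- The forgetful functor to globular sets. -/
noncomputable def toG : Theta0 ⥤ GSet where
  obj S := S.toGSet
  map f := f

@[simp] lemma discMap_id (n : ℕ) : discMap (𝟙 (Globe.D n)) = 𝟙 (disc n) :=
  (yoneda (C := Globe)).map_id _

@[reassoc (attr := simp)]
lemma discMap_comp {n m k : ℕ} (f : Globe.D n ⟶ Globe.D m) (g : Globe.D m ⟶ Globe.D k) :
    discMap f ≫ discMap g = discMap (f ≫ g) :=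
  ((yoneda (C := Globe)).map_comp _ _).symm

@[reassoc (attr := simp)]
lemma face_comp_face (b c : Bool) {n m k : ℕ} (h : n < m) (h' : m < k) :
    face b h ≫ face c h' = face b (h.trans h') := by
  simp [face]

lemma lastIncl_glue {l : ℕ} (t : Tab l) (j i : ℕ) (hl : j < l) (hi : j < i) :
    lastIncl (.glue t j i hl hi) = inr t j i hl hi := rfl

lemma lastIncl_disc (i : ℕ) : lastIncl (.disc i) = 𝟙 (disc i) := rfl

lemma isPushout {l : ℕ} (t : Tab l) (j i : ℕ) (hl : j < l) (hi : j < i) :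
    IsPushout (toG.map (face true hl ≫ lastIncl t)) (toG.map (face false hi))
      (toG.map (inl t j i hl hi)) (toG.map (inr t j i hl hi)) :=
  IsPushout.of_hasPushout (yoneda.map (Globe.face true hl) ≫ t.build.2)
    (yoneda.map (Globe.face false hi))

end Theta0

end Vale.Agent.P259
end
end

section

section

open CategoryTheory Limits

namespace Vale.Agent.P259

open Theta0

/-- A globular extension: a category whose objects are the globular sums, with an
identity-on-objects functor `incl` from `Θ₀` which preserves the globular sums. -/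
structure GlobExt where
  Hom : Theta0 → Theta0 → Type
  id : ∀ S, Hom S S
  comp : ∀ {S T U}, Hom S T → Hom T U → Hom S U
  id_comp : ∀ {S T} (f : Hom S T), comp (id S) f = f
  comp_id : ∀ {S T} (f : Hom S T), comp f (id T) = f
  assoc : ∀ {S T U V} (f : Hom S T) (g : Hom T U) (h : Hom U V),
    comp (comp f g) h = comp f (comp g h)
  incl : ∀ {S T : Theta0}, (S ⟶ T) → Hom S T
  incl_id : ∀ S, incl (𝟙 S) = id S
  incl_comp : ∀ {S T U : Theta0} (f : S ⟶ T) (g : T ⟶ U),
    incl (f ≫ g) = comp (incl f) (incl g)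
  glue : ∀ {l : ℕ} (t : Tab l) (j i : ℕ) (hl : j < l) (hi : j < i) (U : Theta0)
    (a : Hom ⟨t⟩ U) (b : Hom (disc i) U),
    comp (incl (face true hl ≫ lastIncl t)) a = comp (incl (face false hi)) b →
      ∃! c : Hom (Theta0.glue t j i hl hi) U,
        comp (incl (inl t j i hl hi)) c = a ∧ comp (incl (inr t j i hl hi)) c = b

namespace GlobExt

/-- The type of objects of a globular extension, as a category. -/
structure Obj (C : GlobExt) where
  of ::
  sum : Theta0

instance (C : GlobExt) : Category C.Obj where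
  Hom S T := C.Hom S.sum T.sum
  id S := C.id S.sum
  comp f g := C.comp f g
  id_comp := C.id_comp
  comp_id := C.comp_id
  assoc := C.assoc

/-- The functor `Θ₀ ⥤ C`. -/
def J (C : GlobExt) : Theta0 ⥤ C.Obj where
  obj S := .of S
  map f := C.incl f
  map_id S := C.incl_id S
  map_comp f g := C.incl_comp f g

lemma isPushout (C : GlobExt) {l : ℕ} (t : Tab l) (j i : ℕ) (hl : j < l) (hi : j < i) :
    IsPushout (C.J.map (face true hl ≫ lastIncl t)) (C.J.map (face false hi))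
      (C.J.map (inl t j i hl hi)) (C.J.map (inr t j i hl hi)) := by
  have w : C.J.map (face true hl ≫ lastIncl t) ≫ C.J.map (inl t j i hl hi) =
      C.J.map (face false hi) ≫ C.J.map (inr t j i hl hi) := by
    rw [← C.J.map_comp, ← C.J.map_comp]
    congr 1
    exact (Theta0.isPushout t j i hl hi).w
  refine ⟨⟨w⟩, ⟨PushoutCocone.IsColimit.mk w
    (fun s => (C.glue t j i hl hi s.pt.sum s.inl s.inr s.condition).choose)
    (fun s => (C.glue t j i hl hi s.pt.sum s.inl s.inr s.condition).choose_spec.1.1)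
    (fun s => (C.glue t j i hl hi s.pt.sum s.inl s.inr s.condition).choose_spec.1.2)
    (fun s m h1 h2 => (C.glue t j i hl hi s.pt.sum s.inl s.inr s.condition).choose_spec.2 m
      ⟨h1, h2⟩)⟩⟩

/-- A morphism of globular extensions: an identity-on-objects functor under `Θ₀`. -/
@[ext]
structure Map (C D : GlobExt) where
  map : ∀ {S T : Theta0}, C.Hom S T → D.Hom S T
  map_id : ∀ S, map (C.id S) = D.id S
  map_comp : ∀ {S T U} (f : C.Hom S T) (g : C.Hom T U), map (C.comp f g) = D.comp (map f) (map g)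
  map_incl : ∀ {S T : Theta0} (f : S ⟶ T), map (C.incl f) = D.incl f

/-- Composition of morphisms of globular extensions. -/
def Map.comp {C D E : GlobExt} (F : Map C D) (G : Map D E) : Map C E where
  map f := G.map (F.map f)
  map_id S := by rw [F.map_id, G.map_id]
  map_comp f g := by rw [F.map_comp, G.map_comp]
  map_incl f := by rw [F.map_incl, G.map_incl]

/-- The identity morphism. -/
def Map.id (C : GlobExt) : Map C C where
  map f := f
  map_id _ := rfl
  map_comp _ _ := rfl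
  map_incl _ := rfl

/-- Two maps `D_n ⟶ S` are parallel if `n = 0` or if they have the same source and target. -/
def Parallel (C : GlobExt) {S : Theta0} : {n : ℕ} → (f g : C.Hom (disc n) S) → Prop
  | 0, _, _ => True
  | n + 1, f, g => C.comp (C.incl (σ n)) f = C.comp (C.incl (σ n)) g ∧
      C.comp (C.incl (τ n)) f = C.comp (C.incl (τ n)) g

/-- `h : D_{n+1} ⟶ S` is a lift of the pair `f, g : D_n ⟶ S`. -/
def IsLift (C : GlobExt) {S : Theta0} {n : ℕ} (f g : C.Hom (disc n) S)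
    (h : C.Hom (disc (n + 1)) S) : Prop :=
  C.comp (C.incl (σ n)) h = f ∧ C.comp (C.incl (τ n)) h = g

/-- A parallel pair `D_n ⇉ S` with `dim S ≤ n + 1`. -/
structure Pair (C : GlobExt) where
  n : ℕ
  S : Theta0
  f : C.Hom (disc n) S
  g : C.Hom (disc n) S
  parallel : C.Parallel f g
  dim_le : S.dim ≤ n + 1

/-- `F : C ⟶ C'` with the lifts `lift` exhibits `C'` as obtained from `C` by universally
adjoining lifts of the pairs in the set `E`. -/
structure IsFree {C C' : GlobExt} (F : Map C C') (E : Set (Pair C))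
    (lift : ∀ p : E, C'.Hom (disc (p.1.n + 1)) p.1.S) : Prop where
  isLift : ∀ p : E, C'.IsLift (F.map p.1.f) (F.map p.1.g) (lift p)
  univ : ∀ (D : GlobExt) (G : Map C D) (l : ∀ p : E, D.Hom (disc (p.1.n + 1)) p.1.S),
    (∀ p : E, D.IsLift (G.map p.1.f) (G.map p.1.g) (l p)) →
      ∃! G' : Map C' D, F.comp G' = G ∧ ∀ p : E, G'.map (lift p) = l p

/-- A presentation of `C` as the colimit of a tower `C_0 = Θ₀ ⟶ C_1 ⟶ ⋯` of globular
extensions in which each `C_{k+1}` universally adjoins to `C_k` lifts of a set of parallel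
pairs `D_n ⇉ S` with `dim S ≤ n + 1`. -/
structure Tower (C : GlobExt) where
  stage : ℕ → GlobExt
  zero : ∀ S T : Theta0, Function.Bijective ((stage 0).incl : (S ⟶ T) → (stage 0).Hom S T)
  next : ∀ k, Map (stage k) (stage (k + 1))
  pairs : ∀ k, Set (Pair (stage k))
  lift : ∀ k (p : pairs k), (stage (k + 1)).Hom (disc (p.1.n + 1)) p.1.S
  free : ∀ k, IsFree (next k) (pairs k) (lift k)
  toC : ∀ k, Map (stage k) C
  toC_next : ∀ k, (next k).comp (toC (k + 1)) = toC k
  colim : ∀ (D : GlobExt) (G : ∀ k, Map (stage k) D), (∀ k, (next k).comp (G (k + 1)) = G k) →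
    ∃! G' : Map C D, ∀ k, (toC k).comp G' = G k

/-- Coherators. -/
structure IsCoherator (C : GlobExt) : Prop where
  tower : Nonempty (Tower C)
  lifts : ∀ {n : ℕ} {S : Theta0} (f g : C.Hom (disc n) S), C.Parallel f g →
    ∃ h : C.Hom (disc (n + 1)) S, C.IsLift f g h

end GlobExt

end Vale.Agent.P259
end
end

section

section

/-!
The functor from `Θ₀` to a globular extension of the statement: existence and uniqueness.
-/

open CategoryTheory Limits Opposite

namespace Vale.Agent.P259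

open Theta0

namespace S

/-- The structure maps in `Θ₀`. -/
noncomputable def Str.toTheta : ∀ {S T : Theta0}, Str S T → (S ⟶ T)
  | _, _, .face b h => Theta0.face b h
  | _, _, .last t => Theta0.lastIncl t
  | _, _, .inl t j n h h' => Theta0.inl t j n h h'

namespace Ext

variable (A : Ext)

/-- The action of the globe category on the discs. -/
def gm : ∀ {n m : ℕ}, Globe.Hom n m → A.H (disc n) (disc m)
  | _, _, .id n => 𝟙 (A.G.o (disc n))
  | _, _, .face b h => A.G.s (.face b h)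

/-- The functor from the globe category. -/
def Fd : Globe ⥤ A.C where
  obj X := A.G.o (disc X.dim)
  map f := A.gm f
  map_id _ := rfl
  map_comp {X Y Z} f g := by
    obtain ⟨x⟩ := X
    obtain ⟨y⟩ := Y
    obtain ⟨z⟩ := Z
    cases f with
    | id => exact (Category.id_comp _).symm
    | face b h =>
      cases g with
      | id => exact (Category.comp_id _).symm
      | face c h' => exact (A.G.face_face h h' (h.trans h') b c).symm

/-- The globular set of discs of an object. -/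
def N : A.C ⥤ GSet where
  obj U := A.Fd.op ⋙ yoneda.obj U
  map g := Functor.whiskerLeft A.Fd.op (yoneda.map g)

/-- Elements of the globular set of discs. -/
def el {n : ℕ} {U : A.C} (g : A.G.o (disc n) ⟶ U) : (A.N.obj U).obj (op (Globe.D n)) := g

/-- The universal element on a disc. -/
def ud (n : ℕ) : GSet.disc n ⟶ A.N.obj (A.G.o (disc n)) :=
  yonedaEquiv.symm (A.el (𝟙 (A.G.o (disc n))))

lemma ud_comp {n : ℕ} {U : A.C} (g : A.G.o (disc n) ⟶ U) :
    A.ud n ≫ A.N.map g = yonedaEquiv.symm (A.el g) := by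
  apply yonedaEquiv.injective
  refine Eq.trans ?_ (Equiv.apply_symm_apply yonedaEquiv (A.el g)).symm
  refine (yonedaEquiv_comp (A.ud n) (A.N.map g)).trans ?_
  refine (congrArg ((A.N.map g).app (op (Globe.D n)))
    (Equiv.apply_symm_apply yonedaEquiv (A.el (𝟙 (A.G.o (disc n)))))).trans ?_
  exact Category.id_comp g

lemma map_ud {n m : ℕ} (f : Globe.D n ⟶ Globe.D m) :
    yoneda.map f ≫ A.ud m = A.ud n ≫ A.N.map (A.gm f) := by
  refine Eq.trans ?_ (A.ud_comp (A.gm f)).symm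
  apply yonedaEquiv.injective
  refine Eq.trans ?_ (Equiv.apply_symm_apply yonedaEquiv (A.el (A.gm f))).symm
  refine (yonedaEquiv_naturality (A.ud m) f).symm.trans ?_
  refine (congrArg ((A.N.obj (A.G.o (disc m))).map f.op)
    (Equiv.apply_symm_apply yonedaEquiv (A.el (𝟙 (A.G.o (disc m)))))).trans ?_
  exact Category.comp_id _

lemma bij_ud (n : ℕ) (U : A.C) :
    Function.Bijective fun g : A.G.o (disc n) ⟶ U => A.ud n ≫ A.N.map g := by
  have h : (fun g : A.G.o (disc n) ⟶ U => A.ud n ≫ A.N.map g) =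
      (yonedaEquiv (X := Globe.D n) (F := A.N.obj U)).symm := by
    funext g
    exact A.ud_comp g
  rw [h]
  exact Equiv.bijective _

lemma glue_w {l : ℕ} (t : Tab l) (j n : ℕ) (h : j < l) (h' : j < n) {U : A.C}
    (x : A.G.o ⟨t.glue j n h h'⟩ ⟶ U) :
    A.G.s (.face true h) ≫ A.G.s (.last t) ≫ A.G.s (.inl t j n h h') ≫ x =
      A.G.s (.face false h') ≫ A.G.s (.last (t.glue j n h h')) ≫ x :=
  (A.G.glue U t j n h h').mapsTo (Set.mem_univ x)

lemma glue_ext {l : ℕ} (t : Tab l) (j n : ℕ) (h : j < l) (h' : j < n) {U : A.C}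
    {x y : A.G.o ⟨t.glue j n h h'⟩ ⟶ U}
    (h1 : A.G.s (.inl t j n h h') ≫ x = A.G.s (.inl t j n h h') ≫ y)
    (h2 : A.G.s (.last (t.glue j n h h')) ≫ x = A.G.s (.last (t.glue j n h h')) ≫ y) : x = y :=
  (A.G.glue U t j n h h').injOn (Set.mem_univ x) (Set.mem_univ y) (Prod.ext h1 h2)

lemma glue_ex {l : ℕ} (t : Tab l) (j n : ℕ) (h : j < l) (h' : j < n) {U : A.C}
    (a : A.G.o ⟨t⟩ ⟶ U) (b : A.G.o (disc n) ⟶ U)
    (w : A.G.s (.face true h) ≫ A.G.s (.last t) ≫ a = A.G.s (.face false h') ≫ b) :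
    ∃ x : A.G.o ⟨t.glue j n h h'⟩ ⟶ U, A.G.s (.inl t j n h h') ≫ x = a ∧
      A.G.s (.last (t.glue j n h h')) ≫ x = b := by
  obtain ⟨x, -, hx⟩ := (A.G.glue U t j n h h').surjOn (show (a, b) ∈ _ from w)
  exact ⟨x, congrArg Prod.fst hx, congrArg Prod.snd hx⟩

/-- The universal element on a globular sum. -/
noncomputable def ut : ∀ {l : ℕ} (t : Tab l),
    {u : t.build.1 ⟶ A.N.obj (A.G.o ⟨t⟩) // t.build.2 ≫ u = A.ud l ≫ A.N.map (A.G.s (.last t))}
  | _, .disc i => ⟨A.ud i, by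
      rw [A.G.last_D]
      exact (Category.id_comp (A.ud i)).trans
        ((Category.comp_id (A.ud i)).symm.trans (congrArg (A.ud i ≫ ·) (A.N.map_id _).symm))⟩
  | _, .glue t j i hl hi => ⟨pushout.desc ((ut t).1 ≫ A.N.map (A.G.s (.inl t j i hl hi)))
      (A.ud i ≫ A.N.map (A.G.s (.last (t.glue j i hl hi)))) (by
        have h1 : yoneda.map (Globe.face true hl) ≫ A.ud _ = A.ud j ≫ A.N.map (A.G.s (.face true hl)) :=
          A.map_ud (Globe.face true hl)
        have h2 : yoneda.map (Globe.face false hi) ≫ A.ud _ =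
          A.ud j ≫ A.N.map (A.G.s (.face false hi)) := A.map_ud (Globe.face false hi)
        have h3 := A.glue_w t j i hl hi (𝟙 _)
        rw [Category.comp_id, Category.comp_id] at h3
        rw [Category.assoc, ← Category.assoc t.build.2, (ut t).2, ← Category.assoc (yoneda.map _),
          ← Category.assoc (yoneda.map _), h1, ← Category.assoc (yoneda.map (Globe.face false hi)),
          h2, Category.assoc, Category.assoc, Category.assoc, ← A.N.map_comp, ← A.N.map_comp,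
          ← A.N.map_comp, h3]),
      pushout.inr_desc _ _ _⟩

/-- The universal element on a globular sum. -/
noncomputable def us (S : Theta0) : S.toGSet ⟶ A.N.obj (A.G.o S) := (A.ut S.tab).1

/-- The underlying map of globular sets. -/
noncomputable def ge {S T : Theta0} (f : S ⟶ T) : S.toGSet ⟶ T.toGSet := f

lemma ge_comp {S T U : Theta0} (f : S ⟶ T) (g : T ⟶ U) : ge (f ≫ g) = ge f ≫ ge g := rfl

/-- The left piece of a glued sum. -/
noncomputable def pl {l : ℕ} (t : Tab l) (j i : ℕ) (hl : j < l) (hi : j < i) :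
    t.build.1 ⟶ (t.glue j i hl hi).build.1 :=
  pushout.inl (yoneda.map (Globe.face true hl) ≫ t.build.2) (yoneda.map (Globe.face false hi))

/-- The right piece of a glued sum. -/
noncomputable def pr {l : ℕ} (t : Tab l) (j i : ℕ) (hl : j < l) (hi : j < i) :
    GSet.disc i ⟶ (t.glue j i hl hi).build.1 :=
  pushout.inr (yoneda.map (Globe.face true hl) ≫ t.build.2) (yoneda.map (Globe.face false hi))

lemma pw {l : ℕ} (t : Tab l) (j i : ℕ) (hl : j < l) (hi : j < i) :
    yoneda.map (Globe.face true hl) ≫ t.build.2 ≫ pl t j i hl hi =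
      yoneda.map (Globe.face false hi) ≫ pr t j i hl hi :=
  (Category.assoc _ _ _).symm.trans pushout.condition

lemma p_ext {l : ℕ} (t : Tab l) (j i : ℕ) (hl : j < l) (hi : j < i) {Z : GSet}
    {u v : (t.glue j i hl hi).build.1 ⟶ Z} (h1 : pl t j i hl hi ≫ u = pl t j i hl hi ≫ v)
    (h2 : pr t j i hl hi ≫ u = pr t j i hl hi ≫ v) : u = v :=
  pushout.hom_ext h1 h2

lemma pl_ut {l : ℕ} (t : Tab l) (j i : ℕ) (hl : j < l) (hi : j < i) :
    pl t j i hl hi ≫ (A.ut (t.glue j i hl hi)).1 =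
      (A.ut t).1 ≫ A.N.map (A.G.s (.inl t j i hl hi)) :=
  pushout.inl_desc _ _ _

lemma pr_ut {l : ℕ} (t : Tab l) (j i : ℕ) (hl : j < l) (hi : j < i) :
    pr t j i hl hi ≫ (A.ut (t.glue j i hl hi)).1 =
      A.ud i ≫ A.N.map (A.G.s (.last (t.glue j i hl hi))) :=
  pushout.inr_desc _ _ _

lemma us_inl {l : ℕ} (t : Tab l) (j i : ℕ) (hl : j < l) (hi : j < i) :
    ge (inl t j i hl hi) ≫ A.us (glue t j i hl hi) =
      A.us ⟨t⟩ ≫ A.N.map (A.G.s (.inl t j i hl hi)) :=
  A.pl_ut t j i hl hi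

lemma us_last {l : ℕ} (t : Tab l) :
    ge (lastIncl t) ≫ A.us ⟨t⟩ = A.us (disc l) ≫ A.N.map (A.G.s (.last t)) := (A.ut t).2

lemma us_discMap {j n : ℕ} (f : Globe.D j ⟶ Globe.D n) :
    ge (discMap f) ≫ A.us (disc n) = A.us (disc j) ≫ A.N.map (A.gm f) := A.map_ud f

lemma us_str {S T : Theta0} (x : Str S T) :
    ge x.toTheta ≫ A.us T = A.us S ≫ A.N.map (A.G.s x) := by
  cases x with
  | face b h => exact A.us_discMap (Globe.face b h)
  | last t => exact A.us_last t
  | inl t j n h h' => exact A.us_inl t j n h h'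

lemma bij_ut {l : ℕ} (t : Tab l) (U : A.C) :
    Function.Bijective fun g : A.G.o ⟨t⟩ ⟶ U => (A.ut t).1 ≫ A.N.map g := by
  induction t with
  | disc i => exact A.bij_ud i U
  | glue t j i hl hi ih =>
    have e1 : ∀ g : A.G.o ⟨t.glue j i hl hi⟩ ⟶ U,
        pl t j i hl hi ≫ (A.ut (t.glue j i hl hi)).1 ≫ A.N.map g =
        (A.ut t).1 ≫ A.N.map (A.G.s (.inl t j i hl hi) ≫ g) := by
      intro g
      rw [← Category.assoc, A.pl_ut, A.N.map_comp, Category.assoc]
    have e2 : ∀ g : A.G.o ⟨t.glue j i hl hi⟩ ⟶ U,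
        pr t j i hl hi ≫ (A.ut (t.glue j i hl hi)).1 ≫ A.N.map g =
        A.ud i ≫ A.N.map (A.G.s (.last (t.glue j i hl hi)) ≫ g) := by
      intro g
      rw [← Category.assoc, A.pr_ut, A.N.map_comp, Category.assoc]
    constructor
    · intro g g' h
      change (A.ut (t.glue j i hl hi)).1 ≫ A.N.map g = (A.ut (t.glue j i hl hi)).1 ≫ A.N.map g' at h
      apply A.glue_ext t j i hl hi
      · apply ih.injective
        change (A.ut t).1 ≫ A.N.map _ = (A.ut t).1 ≫ A.N.map _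
        rw [← e1, ← e1, h]
      · apply (A.bij_ud i U).injective
        change A.ud i ≫ A.N.map _ = A.ud i ≫ A.N.map _
        rw [← e2, ← e2, h]
    · intro v
      obtain ⟨a, ha⟩ := ih.surjective (pl t j i hl hi ≫ v)
      obtain ⟨b, hb⟩ := (A.bij_ud i U).surjective (pr t j i hl hi ≫ v)
      change (A.ut t).1 ≫ A.N.map a = pl t j i hl hi ≫ v at ha
      change A.ud i ≫ A.N.map b = pr t j i hl hi ≫ v at hb
      have w : A.G.s (.face true hl) ≫ A.G.s (.last t) ≫ a = A.G.s (.face false hi) ≫ b := by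
        apply (A.bij_ud j U).injective
        have h1 : yoneda.map (Globe.face true hl) ≫ A.ud _ =
          A.ud j ≫ A.N.map (A.G.s (.face true hl)) := A.map_ud (Globe.face true hl)
        have h2 : yoneda.map (Globe.face false hi) ≫ A.ud _ =
          A.ud j ≫ A.N.map (A.G.s (.face false hi)) := A.map_ud (Globe.face false hi)
        have h3 := (A.ut t).2
        calc A.ud j ≫ A.N.map (A.G.s (.face true hl) ≫ A.G.s (.last t) ≫ a)
            = (A.ud j ≫ A.N.map (A.G.s (.face true hl))) ≫ A.N.map (A.G.s (.last t)) ≫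
                A.N.map a := by
              rw [A.N.map_comp, A.N.map_comp, Category.assoc]
          _ = yoneda.map (Globe.face true hl) ≫ (A.ud _ ≫ A.N.map (A.G.s (.last t))) ≫
                A.N.map a := by
              rw [← h1, Category.assoc, Category.assoc]
          _ = yoneda.map (Globe.face true hl) ≫ t.build.2 ≫ pl t j i hl hi ≫ v := by
              rw [← h3, Category.assoc, ha]
          _ = yoneda.map (Globe.face false hi) ≫ pr t j i hl hi ≫ v := by
              have h4 := congrArg (· ≫ v) (pw t j i hl hi)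
              refine Eq.trans ?_ (h4.trans (Category.assoc _ _ _))
              exact ((Category.assoc _ _ _).trans
                (congrArg (yoneda.map (Globe.face true hl) ≫ ·) (Category.assoc _ _ _))).symm
          _ = A.ud j ≫ A.N.map (A.G.s (.face false hi) ≫ b) := by
              rw [← hb, A.N.map_comp, ← Category.assoc, ← Category.assoc, h2]
      obtain ⟨x, hx1, hx2⟩ := A.glue_ex t j i hl hi a b w
      refine ⟨x, p_ext t j i hl hi ?_ ?_⟩
      · refine (e1 x).trans ?_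
        rw [hx1]
        exact ha
      · refine (e2 x).trans ?_
        rw [hx2]
        exact hb

lemma bij_us (S : Theta0) (U : A.C) :
    Function.Bijective fun g : A.G.o S ⟶ U => A.us S ≫ A.N.map g := A.bij_ut S.tab U

/-- The functor `Θ₀ ⟶ A` on morphisms. -/
noncomputable def inc {S T : Theta0} (f : S ⟶ T) : A.H S T :=
  ((A.bij_us S (A.G.o T)).surjective (ge f ≫ A.us T)).choose

lemma us_inc {S T : Theta0} (f : S ⟶ T) : A.us S ≫ A.N.map (A.inc f) = ge f ≫ A.us T :=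
  ((A.bij_us S (A.G.o T)).surjective (ge f ≫ A.us T)).choose_spec

lemma eq_inc {S T : Theta0} (f : S ⟶ T) (g : A.H S T)
    (h : A.us S ≫ A.N.map g = ge f ≫ A.us T) : g = A.inc f :=
  (A.bij_us S (A.G.o T)).injective (h.trans (A.us_inc f).symm)

lemma inc_id (S : Theta0) : A.inc (𝟙 S) = 𝟙 (A.G.o S) := by
  refine (A.eq_inc _ _ ?_).symm
  rw [A.N.map_id, Category.comp_id]
  exact (Category.id_comp (A.us S)).symm

lemma inc_comp {S T U : Theta0} (f : S ⟶ T) (g : T ⟶ U) :
    A.inc (f ≫ g) = A.inc f ≫ A.inc g := by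
  refine (A.eq_inc _ _ ?_).symm
  rw [A.N.map_comp, ← Category.assoc, A.us_inc, Category.assoc, A.us_inc, ge_comp, Category.assoc]

lemma inc_str {S T : Theta0} (x : Str S T) : A.inc x.toTheta = A.G.s x :=
  (A.eq_inc _ _ (A.us_str x).symm).symm

/-- The functor `Θ₀ ⟶ A`. -/
theorem exists_incl (A : Ext) : ∃ incl : ∀ {S T : Theta0}, (S ⟶ T) → A.H S T,
    (∀ S : Theta0, incl (𝟙 S) = 𝟙 (A.G.o S)) ∧
    (∀ {S T U : Theta0} (f : S ⟶ T) (g : T ⟶ U), incl (f ≫ g) = incl f ≫ incl g) ∧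
    (∀ {S T : Theta0} (x : Str S T), incl x.toTheta = A.G.s x) :=
  ⟨fun f => A.inc f, A.inc_id, fun f g => A.inc_comp f g, fun x => A.inc_str x⟩

/-- Maps between discs. -/
lemma disc_disc {n m : ℕ} (x : disc n ⟶ disc m) : ∃ f : Globe.D n ⟶ Globe.D m, x = discMap f :=
  ⟨yoneda.preimage (x : GSet.disc n ⟶ GSet.disc m),
    (yoneda.map_preimage (x : GSet.disc n ⟶ GSet.disc m)).symm⟩

/-- A map from a disc to a glued sum factors through one of the two pieces. -/
lemma disc_glue {n l : ℕ} (t : Tab l) (j i : ℕ) (hl : j < l) (hi : j < i)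
    (x : disc n ⟶ glue t j i hl hi) :
    (∃ y : disc n ⟶ ⟨t⟩, x = y ≫ inl t j i hl hi) ∨
      ∃ y : disc n ⟶ disc i, x = y ≫ inr t j i hl hi := by
  have h1 := (Theta0.isPushout t j i hl hi).map ((evaluation _ _).obj (op (Globe.D n)))
  let x0 : yoneda.obj (Globe.D n) ⟶ toG.obj (Theta0.glue t j i hl hi) := x
  rcases Types.eq_or_eq_of_isPushout h1 (yonedaEquiv x0) with ⟨y, hy⟩ | ⟨y, hy⟩
  · left
    have h2 : x0 = yonedaEquiv.symm y ≫ toG.map (inl t j i hl hi) := by
      apply yonedaEquiv.injective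
      rw [yonedaEquiv_comp, Equiv.apply_symm_apply]
      exact hy.symm
    exact ⟨(yonedaEquiv.symm y : yoneda.obj (Globe.D n) ⟶ _), h2⟩
  · right
    have h2 : x0 = yonedaEquiv.symm y ≫ toG.map (inr t j i hl hi) := by
      apply yonedaEquiv.injective
      rw [yonedaEquiv_comp, Equiv.apply_symm_apply]
      exact hy.symm
    exact ⟨(yonedaEquiv.symm y : yoneda.obj (Globe.D n) ⟶ _), h2⟩

/-- Uniqueness of the functor `Θ₀ ⟶ A`. -/
theorem eq_inc_of (I : ∀ {S T : Theta0}, (S ⟶ T) → A.H S T)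
    (hid : ∀ S : Theta0, I (𝟙 S) = 𝟙 (A.G.o S))
    (hcomp : ∀ {S T U : Theta0} (f : S ⟶ T) (g : T ⟶ U), I (f ≫ g) = I f ≫ I g)
    (hstr : ∀ {S T : Theta0} (x : Str S T), I x.toTheta = A.G.s x) {S T : Theta0} (f : S ⟶ T) :
    I f = A.inc f := by
  have hd : ∀ {n m : ℕ} (x : disc n ⟶ disc m),
      ge x ≫ A.us (disc m) = A.us (disc n) ≫ A.N.map (I x) := by
    intro n m x
    obtain ⟨f, rfl⟩ := disc_disc x
    rw [A.us_discMap]
    congr 2
    cases f with
    | id =>
      refine (hid (disc n)).symm.trans ?_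
      exact congrArg I (Theta0.discMap_id n).symm
    | face b h => exact (hstr (.face b h)).symm
  have hc : ∀ {R S T : Theta0} (y : R ⟶ S) (g : S ⟶ T),
      ge y ≫ A.us S = A.us R ≫ A.N.map (I y) → ge g ≫ A.us T = A.us S ≫ A.N.map (I g) →
      ge (y ≫ g) ≫ A.us T = A.us R ≫ A.N.map (I (y ≫ g)) := by
    intro R S T y g h1 h2
    rw [hcomp, A.N.map_comp, ge_comp, Category.assoc, h2, ← Category.assoc, h1, Category.assoc]
  have key : ∀ {l : ℕ} (t : Tab l) {n : ℕ} (x : disc n ⟶ (⟨t⟩ : Theta0)),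
      ge x ≫ A.us ⟨t⟩ = A.us (disc n) ≫ A.N.map (I x) := by
    intro l t
    induction t with
    | disc i =>
      intro n x
      exact hd x
    | glue t j i hl hi ih =>
      intro n x
      rcases disc_glue t j i hl hi x with ⟨y, rfl⟩ | ⟨y, rfl⟩
      · have h1 : I (inl t j i hl hi) = A.G.s (.inl t j i hl hi) := hstr (.inl t j i hl hi)
        exact hc y (inl t j i hl hi) (ih y) (by
          rw [h1]
          exact A.us_inl t j i hl hi)
      · have h1 : I (inr t j i hl hi) = A.G.s (.last (t.glue j i hl hi)) :=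
          hstr (.last (t.glue j i hl hi))
        exact hc y (inr t j i hl hi) (hd y) (by
          rw [h1]
          exact A.us_last (t.glue j i hl hi))
  apply A.eq_inc
  obtain @⟨l, t⟩ := S
  obtain @⟨l', t'⟩ := T
  apply NatTrans.ext
  funext X
  ext z
  have h6 : ∀ u : (⟨t⟩ : Theta0).toGSet ⟶ A.N.obj (A.G.o ⟨t'⟩),
      yonedaEquiv ((yonedaEquiv.symm z : yoneda.obj X.unop ⟶ _) ≫ u) = u.app X z := by
    intro u
    rw [yonedaEquiv_comp, Equiv.apply_symm_apply]
  let x : disc X.unop.dim ⟶ (⟨t⟩ : Theta0) := (yonedaEquiv.symm z : yoneda.obj X.unop ⟶ _)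
  have h1 := key t x
  have h2 := key t' (x ≫ f)
  have h3 : ge x ≫ A.us ⟨t⟩ ≫ A.N.map (I f) = ge x ≫ ge f ≫ A.us ⟨t'⟩ := by
    rw [hcomp, A.N.map_comp, ge_comp, Category.assoc, ← Category.assoc (A.us _), ← h1,
      Category.assoc] at h2
    exact h2.symm
  exact (h6 _).symm.trans ((congrArg yonedaEquiv h3).trans (h6 _))

end Ext

end S

end Vale.Agent.P259
end
end

section

section

/-!
The globular extension of the development attached to a globular extension of the statement.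
-/

open CategoryTheory Limits Opposite

namespace Vale.Agent.P259

open Theta0

namespace S

/-- The functor `Θ₀ ⟶ A` on morphisms. -/
noncomputable def Ext.incl (A : Ext) {S T : Theta0} (f : S ⟶ T) : A.H S T := A.inc f

lemma Ext.incl_id (A : Ext) (S : Theta0) : A.incl (𝟙 S) = 𝟙 (A.G.o S) := A.inc_id S

lemma Ext.incl_comp (A : Ext) {S T U : Theta0} (f : S ⟶ T) (g : T ⟶ U) :
    A.incl (f ≫ g) = A.incl f ≫ A.incl g := A.inc_comp f g

lemma Ext.incl_str (A : Ext) {S T : Theta0} (x : Str S T) : A.incl x.toTheta = A.G.s x :=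
  A.inc_str x

lemma Ext.incl_face (A : Ext) (b : Bool) {j n : ℕ} (h : j < n) :
    A.incl (Theta0.face b h) = A.G.s (.face b h) :=
  A.incl_str (.face b h)

lemma Ext.incl_last (A : Ext) {l : ℕ} (t : Tab l) :
    A.incl (Theta0.lastIncl t) = A.G.s (.last t) :=
  A.incl_str (.last t)

lemma Ext.incl_inl (A : Ext) {l : ℕ} (t : Tab l) (j n : ℕ) (h : j < l) (h' : j < n) :
    A.incl (Theta0.inl t j n h h') = A.G.s (.inl t j n h h') :=
  A.incl_str (.inl t j n h h')

/-- The globular extension of the development attached to a globular extension. -/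
noncomputable def Ext.GE (A : Ext) : GlobExt where
  Hom S T := A.H S T
  id S := 𝟙 (A.G.o S)
  comp f g := f ≫ g
  id_comp _ := Category.id_comp _
  comp_id _ := Category.comp_id _
  assoc _ _ _ := Category.assoc _ _ _
  incl f := A.incl f
  incl_id S := A.incl_id S
  incl_comp f g := A.incl_comp f g
  glue t j i hl hi U a b h := by
    have h1 : A.G.s (.face true hl) ≫ A.G.s (.last t) ≫ a = A.G.s (.face false hi) ≫ b := by
      rw [← Category.assoc, ← A.incl_face, ← A.incl_last, ← A.incl_face]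
      have h2 := A.incl_comp (Theta0.face true hl) (Theta0.lastIncl t)
      rw [← h2]
      exact h
    have h3 := A.G.glue (A.G.o U) t j i hl hi
    obtain ⟨x, -, hx⟩ := h3.surjOn (show (a, b) ∈ _ from h1)
    have hx1 : A.G.s (.inl t j i hl hi) ≫ x = a := congrArg Prod.fst hx
    have hx2 : A.G.s (.last (t.glue j i hl hi)) ≫ x = b := congrArg Prod.snd hx
    have e2 : A.incl (Theta0.inr t j i hl hi) = A.G.s (.last (t.glue j i hl hi)) :=
      A.incl_last (t.glue j i hl hi)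
    refine ⟨x, ⟨?_, ?_⟩, ?_⟩
    · rw [A.incl_inl]
      exact hx1
    · change A.incl (Theta0.inr t j i hl hi) ≫ x = b
      rw [e2]
      exact hx2
    · rintro y ⟨hy1, hy2⟩
      change A.incl (Theta0.inr t j i hl hi) ≫ y = b at hy2
      rw [A.incl_inl] at hy1
      rw [e2] at hy2
      apply h3.injOn (Set.mem_univ y) (Set.mem_univ x)
      exact Prod.ext (hy1.trans hx1.symm) (hy2.trans hx2.symm)

/-- The comparison functor from the category of the development. -/
noncomputable def Ext.Φ (A : Ext) : A.GE.Obj ⥤ A.C where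
  obj S := A.G.o S.sum
  map f := f
  map_id _ := rfl
  map_comp _ _ := rfl

end S

end Vale.Agent.P259
end
end

section

section

open CategoryTheory

namespace Vale.Agent.P259

universe v u

variable {C : Type u} [Category.{v} C]

/-- The data of a coglobular object of a category. -/
structure CoglobData (C : Type u) [Category.{v} C] where
  obj : ℕ → C
  s : ∀ n, obj n ⟶ obj (n + 1)
  t : ∀ n, obj n ⟶ obj (n + 1)
  ss : ∀ n, s n ≫ s (n + 1) = s n ≫ t (n + 1)
  ts : ∀ n, t n ≫ s (n + 1) = t n ≫ t (n + 1)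

namespace CoglobData

variable (A : CoglobData C)

/-- The cosource or cotarget map. -/
def st : Bool → ∀ n, A.obj n ⟶ A.obj (n + 1)
  | false, n => A.s n
  | true, n => A.t n

/-- The iterated cosource map. -/
noncomputable def sMap {n m : ℕ} (h : n ≤ m) : A.obj n ⟶ A.obj m :=
  (Functor.ofSequence A.s).map (homOfLE h)

lemma sMap_refl {n : ℕ} (h : n ≤ n) : A.sMap h = 𝟙 _ := (Functor.ofSequence A.s).map_id _

lemma sMap_succ {n : ℕ} (h : n ≤ n + 1) : A.sMap h = A.s n :=
  Functor.ofSequence_map_homOfLE_succ A.s n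

lemma sMap_comp {n m k : ℕ} (h : n ≤ m) (h' : m ≤ k) :
    A.sMap h ≫ A.sMap h' = A.sMap (h.trans h') :=
  ((Functor.ofSequence A.s).map_comp (homOfLE h) (homOfLE h')).symm

/-- The iterated cosource or cotarget map. -/
noncomputable def face (b : Bool) {n m : ℕ} (h : n < m) : A.obj n ⟶ A.obj m :=
  A.st b n ≫ A.sMap (Nat.succ_le_of_lt h)

lemma st_st (b c : Bool) (n : ℕ) : A.st b n ≫ A.st c (n + 1) = A.st b n ≫ A.s (n + 1) := by
  cases b <;> cases c
  · rfl
  · exact (A.ss n).symm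
  · rfl
  · exact (A.ts n).symm

lemma face_succ (b : Bool) {n : ℕ} (h : n < n + 1) : A.face b h = A.st b n := by
  unfold face
  rw [A.sMap_refl, Category.comp_id]

lemma face_sMap (b : Bool) {n m k : ℕ} (h : n < m) (h' : m ≤ k) :
    A.face b h ≫ A.sMap h' = A.face b (h.trans_le h') := by
  unfold face
  rw [Category.assoc, A.sMap_comp]

lemma face_st (b c : Bool) {n m : ℕ} (h : n < m) :
    A.face b h ≫ A.st c m = A.face b h ≫ A.s m := by
  obtain ⟨m, rfl⟩ : ∃ k, m = k + 1 := ⟨m - 1, by omega⟩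
  rcases Nat.lt_succ_iff_lt_or_eq.mp h with h' | rfl
  · rw [← A.face_sMap b h' (Nat.le_succ m), A.sMap_succ, Category.assoc, Category.assoc]
    congr 1
    exact A.st_st false c m
  · rw [A.face_succ]
    exact A.st_st b c n

lemma face_comp_face (b c : Bool) {n m k : ℕ} (h : n < m) (h' : m < k) :
    A.face b h ≫ A.face c h' = A.face b (h.trans h') := by
  rw [face.eq_def A c, ← Category.assoc, face_st, Category.assoc, ← A.sMap_succ (Nat.le_succ m),
    A.sMap_comp, A.face_sMap]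

/-- The map attached to a map of the globe category. -/
noncomputable def mapHom : ∀ {n m : ℕ}, Globe.Hom n m → (A.obj n ⟶ A.obj m)
  | _, _, .id _ => 𝟙 _
  | _, _, .face b h => A.face b h

lemma mapHom_comp {n m k : ℕ} (f : Globe.Hom n m) (g : Globe.Hom m k) :
    A.mapHom (Globe.Hom.comp f g) = A.mapHom f ≫ A.mapHom g := by
  cases f with
  | id => exact (Category.id_comp _).symm
  | face b h =>
    cases g with
    | id => exact (Category.comp_id _).symm
    | face c h' => exact (A.face_comp_face b c h h').symm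

/-- The functor attached to a coglobular object. -/
noncomputable def functor : Globe ⥤ C where
  obj X := A.obj X.dim
  map f := A.mapHom f
  map_id _ := rfl
  map_comp f g := A.mapHom_comp f g

lemma functor_obj (n : ℕ) : A.functor.obj (Globe.D n) = A.obj n := rfl

lemma functor_face (b : Bool) {n m : ℕ} (h : n < m) :
    A.functor.map (Globe.face b h) = A.face b h := rfl

lemma functor_σ (n : ℕ) : A.functor.map (Globe.σ n) = A.s n :=
  A.face_succ false (Nat.lt_succ_self n)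

lemma functor_τ (n : ℕ) : A.functor.map (Globe.τ n) = A.t n :=
  A.face_succ true (Nat.lt_succ_self n)

end CoglobData

/-- Naturality with respect to the generating maps is enough. -/
lemma Globe.naturality_of {F G : Globe ⥤ C} (α : ∀ n, F.obj (Globe.D n) ⟶ G.obj (Globe.D n))
    (hs : ∀ n, F.map (Globe.σ n) ≫ α (n + 1) = α n ≫ G.map (Globe.σ n))
    (ht : ∀ n, F.map (Globe.τ n) ≫ α (n + 1) = α n ≫ G.map (Globe.τ n))
    (b : Bool) {n m : ℕ} (h : n < m) :
    F.map (Globe.face b h) ≫ α m = α n ≫ G.map (Globe.face b h) := by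
  induction m with
  | zero => omega
  | succ m ih =>
    rcases Nat.lt_succ_iff_lt_or_eq.mp h with h' | rfl
    · have e : Globe.face b h = Globe.face b h' ≫ Globe.σ m := by
        rw [Globe.face_comp_face]
      rw [e, F.map_comp, G.map_comp, Category.assoc, hs, ← Category.assoc, ih h',
        Category.assoc]
    · cases b
      · exact hs n
      · exact ht n

/-- A natural transformation of coglobular objects. -/
def Globe.natTrans {F G : Globe ⥤ C} (α : ∀ n, F.obj (Globe.D n) ⟶ G.obj (Globe.D n))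
    (hs : ∀ n, F.map (Globe.σ n) ≫ α (n + 1) = α n ≫ G.map (Globe.σ n))
    (ht : ∀ n, F.map (Globe.τ n) ≫ α (n + 1) = α n ≫ G.map (Globe.τ n)) : F ⟶ G where
  app X := α X.dim
  naturality := by
    rintro ⟨n⟩ ⟨m⟩ f
    change Globe.Hom n m at f
    cases f with
    | id =>
      have hF : F.map (𝟙 (Globe.D n)) ≫ α n = α n := by rw [F.map_id, Category.id_comp]
      have hG : α n ≫ G.map (𝟙 (Globe.D n)) = α n := by rw [G.map_id, Category.comp_id]
      exact hF.trans hG.symm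
    | face b h => exact Globe.naturality_of α hs ht b h

@[simp] lemma Globe.natTrans_app {F G : Globe ⥤ C}
    (α : ∀ n, F.obj (Globe.D n) ⟶ G.obj (Globe.D n))
    (hs : ∀ n, F.map (Globe.σ n) ≫ α (n + 1) = α n ≫ G.map (Globe.σ n))
    (ht : ∀ n, F.map (Globe.τ n) ≫ α (n + 1) = α n ≫ G.map (Globe.τ n)) (n : ℕ) :
    (Globe.natTrans α hs ht).app (Globe.D n) = α n := rfl

end Vale.Agent.P259
end
end

section

section

open CategoryTheory Limits

namespace Vale.Agent.P259

/-- The closed unit ball of the Euclidean space `ℝ^n`. -/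
abbrev Ball (n : ℕ) : Type := Metric.closedBall (0 : EuclideanSpace ℝ (Fin n)) 1

/-- The point `(x, y)` of `ℝ^{n+1}`. -/
noncomputable def snocE {n : ℕ} (x : EuclideanSpace ℝ (Fin n)) (y : ℝ) :
    EuclideanSpace ℝ (Fin (n + 1)) :=
  WithLp.toLp 2 (Fin.snoc (α := fun _ => ℝ) x.ofLp y)

/-- The projection `(x, y) ↦ x` from `ℝ^{n+1}` to `ℝ^n`. -/
noncomputable def initE {n : ℕ} (x : EuclideanSpace ℝ (Fin (n + 1))) :
    EuclideanSpace ℝ (Fin n) :=
  WithLp.toLp 2 (Fin.init (α := fun _ => ℝ) x.ofLp)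

@[simp] lemma initE_snocE {n : ℕ} (x : EuclideanSpace ℝ (Fin n)) (y : ℝ) :
    initE (snocE x y) = x := by
  unfold initE snocE
  simp only [Fin.init_snoc]

@[simp] lemma snocE_last {n : ℕ} (x : EuclideanSpace ℝ (Fin n)) (y : ℝ) :
    snocE x y (Fin.last n) = y := by
  simp [snocE]

lemma snocE_initE {n : ℕ} (x : EuclideanSpace ℝ (Fin (n + 1))) :
    snocE (initE x) (x (Fin.last n)) = x := by
  unfold initE snocE
  ext i
  refine Fin.lastCases ?_ (fun i => ?_) i
  · simp
  · simp [Fin.init]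

lemma norm_snocE_sq {n : ℕ} (x : EuclideanSpace ℝ (Fin n)) (y : ℝ) :
    ‖snocE x y‖ ^ 2 = ‖x‖ ^ 2 + y ^ 2 := by
  rw [EuclideanSpace.norm_sq_eq, EuclideanSpace.norm_sq_eq, Fin.sum_univ_castSucc]
  simp [snocE]

lemma norm_sq_succ {n : ℕ} (x : EuclideanSpace ℝ (Fin (n + 1))) :
    ‖x‖ ^ 2 = ‖initE x‖ ^ 2 + (x (Fin.last n)) ^ 2 := by
  conv_lhs => rw [← snocE_initE x]
  rw [norm_snocE_sq]

lemma continuous_snocE {n : ℕ} {T : Type*} [TopologicalSpace T]
    {f : T → EuclideanSpace ℝ (Fin n)} {g : T → ℝ} (hf : Continuous f) (hg : Continuous g) :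
    Continuous (fun t => snocE (f t) (g t)) := by
  unfold snocE
  refine (PiLp.continuous_toLp 2 _).comp ?_
  exact Continuous.finSnoc (A := fun _ => ℝ) ((PiLp.continuous_ofLp 2 _).comp hf) hg

lemma continuous_initE {n : ℕ} :
    Continuous (initE : EuclideanSpace ℝ (Fin (n + 1)) → EuclideanSpace ℝ (Fin n)) := by
  unfold initE
  refine (PiLp.continuous_toLp 2 _).comp ?_
  refine continuous_pi (fun i => ?_)
  exact (continuous_apply i.castSucc).comp (PiLp.continuous_ofLp 2 _)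

lemma mem_ball_iff {n : ℕ} (x : EuclideanSpace ℝ (Fin n)) :
    x ∈ Metric.closedBall (0 : EuclideanSpace ℝ (Fin n)) 1 ↔ ‖x‖ ^ 2 ≤ 1 := by
  rw [mem_closedBall_zero_iff, sq_le_one_iff₀ (norm_nonneg x)]

/-- The sign of a side: `-1` for the source, `1` for the target. -/
def sgn : Bool → ℝ
  | false => -1
  | true => 1

@[simp] lemma sgn_sq (b : Bool) : sgn b ^ 2 = 1 := by cases b <;> simp [sgn]

/-- The hemispheres: `x ↦ (x, ∓ √(1 - |x|²))`. -/
noncomputable def hemi (b : Bool) (n : ℕ) : C(Ball n, Ball (n + 1)) where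
  toFun x := ⟨snocE x.1 (sgn b * Real.sqrt (1 - ‖x.1‖ ^ 2)), by
    rw [mem_ball_iff, norm_snocE_sq, mul_pow, sgn_sq, one_mul, Real.sq_sqrt]
    · linarith
    · have := (mem_ball_iff x.1).1 x.2
      linarith⟩
  continuous_toFun := by
    refine Continuous.subtype_mk (continuous_snocE continuous_subtype_val ?_) _
    fun_prop

lemma norm_hemi (b : Bool) {n : ℕ} (x : Ball n) : ‖(hemi b n x).1‖ ^ 2 = 1 := by
  change ‖snocE x.1 (sgn b * Real.sqrt (1 - ‖x.1‖ ^ 2))‖ ^ 2 = 1
  rw [norm_snocE_sq, mul_pow, sgn_sq, one_mul, Real.sq_sqrt]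
  · linarith
  · have := (mem_ball_iff x.1).1 x.2
    linarith

/-- The projection `(x, y) ↦ x`. -/
noncomputable def projB (n : ℕ) : C(Ball (n + 1), Ball n) where
  toFun x := ⟨initE x.1, by
    have h := (mem_ball_iff x.1).1 x.2
    rw [norm_sq_succ] at h
    rw [mem_ball_iff]
    have := sq_nonneg (x.1 (Fin.last n))
    linarith⟩
  continuous_toFun := by
    refine Continuous.subtype_mk (continuous_initE.comp continuous_subtype_val) _

@[simp] lemma projB_hemi (b : Bool) {n : ℕ} (x : Ball n) : projB n (hemi b n x) = x := by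
  apply Subtype.ext
  change initE (snocE _ _) = _
  simp

lemma hemi_injective (b : Bool) (n : ℕ) : Function.Injective (hemi b n) := by
  intro x y h
  rw [← projB_hemi b x, ← projB_hemi b y, h]

lemma hemi_of_norm_eq_one {n : ℕ} (x : Ball n) (hx : ‖x.1‖ ^ 2 = 1) (b c : Bool) :
    hemi b n x = hemi c n x := by
  apply Subtype.ext
  change snocE _ _ = snocE _ _
  rw [hx]
  simp

lemma hemi_hemi (b c d : Bool) {n : ℕ} (x : Ball n) :
    hemi c (n + 1) (hemi b n x) = hemi d (n + 1) (hemi b n x) :=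
  hemi_of_norm_eq_one _ (norm_hemi b x) c d

/-- Every point of the boundary sphere lies on one of the two hemispheres. -/
lemma exists_hemi_eq {n : ℕ} (x : Ball (n + 1)) (hx : ‖x.1‖ ^ 2 = 1) :
    ∃ b, hemi b n (projB n x) = x := by
  have h := norm_sq_succ x.1
  rw [hx] at h
  have h1 : 1 - ‖initE x.1‖ ^ 2 = (x.1 (Fin.last n)) ^ 2 := by linarith
  rcases le_total (x.1 (Fin.last n)) 0 with h2 | h2
  · refine ⟨false, Subtype.ext ?_⟩
    change snocE (initE x.1) (sgn false * Real.sqrt (1 - ‖initE x.1‖ ^ 2)) = x.1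
    rw [h1, Real.sqrt_sq_eq_abs, abs_of_nonpos h2]
    simp [sgn, snocE_initE]
  · refine ⟨true, Subtype.ext ?_⟩
    change snocE (initE x.1) (sgn true * Real.sqrt (1 - ‖initE x.1‖ ^ 2)) = x.1
    rw [h1, Real.sqrt_sq_eq_abs, abs_of_nonneg h2]
    simp [sgn, snocE_initE]

/-- Radial projection to the sphere (arbitrary at the origin). -/
noncomputable def radial {n : ℕ} (x : EuclideanSpace ℝ (Fin (n + 1))) :
    Metric.sphere (0 : EuclideanSpace ℝ (Fin (n + 1))) 1 :=
  if h : x = 0 then ⟨EuclideanSpace.single 0 1, by simp⟩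
  else ⟨‖x‖⁻¹ • x, by
    rw [mem_sphere_zero_iff_norm, norm_smul, norm_inv, norm_norm]
    exact inv_mul_cancel₀ (norm_ne_zero_iff.2 h)⟩

lemma radial_of_norm {n : ℕ} (x : Metric.sphere (0 : EuclideanSpace ℝ (Fin (n + 1))) 1) :
    radial x.1 = x := by
  have h : ‖x.1‖ = 1 := mem_sphere_zero_iff_norm.1 x.2
  have h0 : x.1 ≠ 0 := by
    intro h0
    rw [h0, norm_zero] at h
    exact zero_ne_one h
  apply Subtype.ext
  unfold radial
  rw [dif_neg h0]
  simp [h]

lemma continuousOn_radial {n : ℕ} :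
    ContinuousOn (radial (n := n)) {x | x ≠ 0} := by
  rw [continuousOn_iff_continuous_domRestrict]
  have : Set.domRestrict {x : EuclideanSpace ℝ (Fin (n + 1)) | x ≠ 0} (radial (n := n)) =
      fun x => ⟨‖x.1‖⁻¹ • x.1, by
        rw [mem_sphere_zero_iff_norm, norm_smul, norm_inv, norm_norm]
        exact inv_mul_cancel₀ (norm_ne_zero_iff.2 x.2)⟩ := by
    funext x
    change radial x.1 = _
    unfold radial
    rw [dif_neg x.2]
  rw [this]
  refine Continuous.subtype_mk ?_ _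
  exact Continuous.smul (Continuous.inv₀ (continuous_norm.comp continuous_subtype_val)
    (fun x => norm_ne_zero_iff.2 x.2)) continuous_subtype_val

/-- A map from the sphere to a contractible space extends to the ball. -/
theorem exists_extension {n : ℕ} {Z : Type*} [TopologicalSpace Z] [ContractibleSpace Z]
    (f : C(Metric.sphere (0 : EuclideanSpace ℝ (Fin (n + 1))) 1, Z)) :
    ∃ g : C(Ball (n + 1), Z), ∀ x : Metric.sphere (0 : EuclideanSpace ℝ (Fin (n + 1))) 1,
      g ⟨x.1, Metric.sphere_subset_closedBall x.2⟩ = f x := by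
  obtain ⟨z₀, ⟨H⟩⟩ := id_nullhomotopic Z
  have hg : Continuous (fun x : Ball (n + 1) => if ‖x.1‖ ≤ 1 / 2 then z₀ else
      H (Set.projIcc (0 : ℝ) 1 zero_le_one (2 - 2 * ‖x.1‖), f (radial x.1))) := by
    refine continuous_if_le (by fun_prop) continuous_const continuousOn_const ?_ ?_
    · refine H.continuous.comp_continuousOn ?_
      refine ContinuousOn.prodMk (Continuous.continuousOn (continuous_projIcc.comp (by fun_prop)))
        (f.continuous.comp_continuousOn ?_)
      refine ContinuousOn.comp (t := {x | x ≠ 0}) continuousOn_radial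
        continuous_subtype_val.continuousOn ?_
      intro x hx
      have hx' : 1 / 2 ≤ ‖x.1‖ := hx
      have : 0 < ‖x.1‖ := by linarith
      exact norm_pos_iff.1 this
    · intro x hx
      rw [hx]
      have : Set.projIcc (0 : ℝ) 1 zero_le_one (2 - 2 * (1 / 2)) = 1 := by
        norm_num
      rw [this]
      exact (H.apply_one _).symm
  refine ⟨⟨_, hg⟩, fun x => ?_⟩
  have h : ‖x.1‖ = 1 := mem_sphere_zero_iff_norm.1 x.2
  change (if ‖x.1‖ ≤ 1 / 2 then z₀ else
      H (Set.projIcc (0 : ℝ) 1 zero_le_one (2 - 2 * ‖x.1‖), f (radial x.1))) = f x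
  rw [h, if_neg (by norm_num), radial_of_norm]
  have : Set.projIcc (0 : ℝ) 1 zero_le_one (2 - 2 * 1) = 0 := by
    norm_num
  rw [this]
  exact H.apply_zero _

/-- Two maps from the ball `D^n` to a contractible space which agree on the boundary are the
restrictions to the hemispheres of a map from the ball `D^{n+1}`. -/
theorem exists_filler {n : ℕ} {Z : Type*} [TopologicalSpace Z] [ContractibleSpace Z]
    (u v : C(Ball n, Z)) (h : ∀ x : Ball n, ‖x.1‖ ^ 2 = 1 → u x = v x) :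
    ∃ g : C(Ball (n + 1), Z), (∀ x, g (hemi false n x) = u x) ∧
      (∀ x, g (hemi true n x) = v x) := by
  have hc : Continuous (fun x : Metric.sphere (0 : EuclideanSpace ℝ (Fin (n + 1))) 1 =>
      if x.1 (Fin.last n) ≤ 0 then
        u (projB n ⟨x.1, Metric.sphere_subset_closedBall x.2⟩) else
        v (projB n ⟨x.1, Metric.sphere_subset_closedBall x.2⟩)) := by
    refine Continuous.if_le ?_ ?_ ?_ continuous_const ?_
    · fun_prop
    · fun_prop
    · exact (continuous_apply (Fin.last n)).comp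
        ((PiLp.continuous_ofLp 2 _).comp continuous_subtype_val)
    · intro x hx
      apply h
      change ‖initE x.1‖ ^ 2 = 1
      have h1 : ‖x.1‖ = 1 := mem_sphere_zero_iff_norm.1 x.2
      have h2 := norm_sq_succ x.1
      rw [hx, h1] at h2
      linarith
  obtain ⟨g, hg⟩ := exists_extension (Z := Z) ⟨_, hc⟩
  have key : ∀ (b : Bool) (x : Ball n), (hemi b n x).1 ∈
      Metric.sphere (0 : EuclideanSpace ℝ (Fin (n + 1))) 1 := by
    intro b x
    rw [mem_sphere_zero_iff_norm]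
    have := norm_hemi b x
    have h0 := norm_nonneg (hemi b n x).1
    nlinarith
  refine ⟨g, fun x => ?_, fun x => ?_⟩
  · have := hg ⟨(hemi false n x).1, key false x⟩
    refine this.trans ?_
    change (if (hemi false n x).1 (Fin.last n) ≤ 0 then u (projB n (hemi false n x))
      else v (projB n (hemi false n x))) = u x
    rw [projB_hemi, if_pos]
    change snocE x.1 (sgn false * Real.sqrt (1 - ‖x.1‖ ^ 2)) (Fin.last n) ≤ 0
    rw [snocE_last]
    simp [sgn]
  · have := hg ⟨(hemi true n x).1, key true x⟩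
    refine this.trans ?_
    change (if (hemi true n x).1 (Fin.last n) ≤ 0 then u (projB n (hemi true n x))
      else v (projB n (hemi true n x))) = v x
    rw [projB_hemi]
    split_ifs with h1
    · apply h
      change snocE x.1 (sgn true * Real.sqrt (1 - ‖x.1‖ ^ 2)) (Fin.last n) ≤ 0 at h1
      rw [snocE_last] at h1
      simp only [sgn, one_mul] at h1
      have h2 := (mem_ball_iff x.1).1 x.2
      have h3 : Real.sqrt (1 - ‖x.1‖ ^ 2) = 0 := le_antisymm h1 (Real.sqrt_nonneg _)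
      rw [Real.sqrt_eq_zero (by linarith)] at h3
      linarith
    · rfl

/-- The coglobular space of Euclidean balls and hemispheres. -/
noncomputable def ballData : CoglobData TopCat where
  obj n := TopCat.of (Ball n)
  s n := TopCat.ofHom (hemi false n)
  t n := TopCat.ofHom (hemi true n)
  ss n := by
    apply TopCat.hom_ext
    apply ContinuousMap.ext
    intro x
    exact hemi_hemi false false true x
  ts n := by
    apply TopCat.hom_ext
    apply ContinuousMap.ext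
    intro x
    exact hemi_hemi true false true x

/-- The coglobular space of Euclidean balls and hemispheres, as a functor. -/
noncomputable def ballF : Globe ⥤ TopCat := ballData.functor

end Vale.Agent.P259
end
end

section

section

open CategoryTheory Limits

namespace Vale.Agent.P259

open Theta0

namespace GlobExt

variable {C D E : GlobExt}

lemma Map.comp_assoc {A B C D : GlobExt} (F : Map A B) (G : Map B C) (H : Map C D) :
    (F.comp G).comp H = F.comp (G.comp H) := rfl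

lemma Parallel.map {S : Theta0} (F : Map C D) : {n : ℕ} → {f g : C.Hom (disc n) S} →
    C.Parallel f g → D.Parallel (F.map f) (F.map g)
  | 0, _, _, _ => trivial
  | n + 1, f, g, h => by
    constructor
    · rw [← F.map_incl, ← F.map_comp, ← F.map_comp, h.1]
    · rw [← F.map_incl, ← F.map_comp, ← F.map_comp, h.2]

lemma IsLift.map {S : Theta0} (F : Map C D) {n : ℕ} {f g : C.Hom (disc n) S}
    {h : C.Hom (disc (n + 1)) S} (H : C.IsLift f g h) :
    D.IsLift (F.map f) (F.map g) (F.map h) := by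
  constructor
  · rw [← F.map_incl, ← F.map_comp, H.1]
  · rw [← F.map_incl, ← F.map_comp, H.2]

/-- The map from the initial stage. -/
noncomputable def Tower.fromZero (T : Tower C) (E : GlobExt) : Map (T.stage 0) E where
  map {A B} f := E.incl ((Equiv.ofBijective _ (T.zero A B)).symm f)
  map_id S := by
    rw [← E.incl_id]
    congr 1
    apply (Equiv.ofBijective _ (T.zero S S)).injective
    rw [Equiv.apply_symm_apply]
    exact ((T.stage 0).incl_id S).symm
  map_comp {A B B'} f g := by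
    rw [← E.incl_comp]
    congr 1
    apply (Equiv.ofBijective _ (T.zero A B')).injective
    rw [Equiv.apply_symm_apply]
    have h := (T.stage 0).incl_comp ((Equiv.ofBijective _ (T.zero A B)).symm f)
      ((Equiv.ofBijective _ (T.zero B B')).symm g)
    have h1 : (T.stage 0).incl ((Equiv.ofBijective _ (T.zero A B)).symm f) = f :=
      (Equiv.ofBijective _ (T.zero A B)).apply_symm_apply f
    have h2 : (T.stage 0).incl ((Equiv.ofBijective _ (T.zero B B')).symm g) = g :=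
      (Equiv.ofBijective _ (T.zero B B')).apply_symm_apply g
    rw [h1, h2] at h
    exact h.symm
  map_incl {A B} f := by
    congr 1
    exact (Equiv.ofBijective _ (T.zero A B)).symm_apply_apply f

lemma Tower.fromZero_unique (T : Tower C) {E : GlobExt} (F G : Map (T.stage 0) E) : F = G := by
  ext A B f
  obtain ⟨f, rfl⟩ := (T.zero A B).2 f
  rw [F.map_incl, G.map_incl]

/-- The lifting property used in the section principle. -/
def LiftsAlong (π : Map E C) : Prop :=
  ∀ {n : ℕ} {S : Theta0}, S.dim ≤ n + 1 → ∀ (u v : E.Hom (disc n) S), E.Parallel u v →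
    ∀ w : C.Hom (disc (n + 1)) S, C.IsLift (π.map u) (π.map v) w →
      ∃ w' : E.Hom (disc (n + 1)) S, E.IsLift u v w' ∧ π.map w' = w

/-- One step of the construction of the section. -/
lemma Tower.section_step (T : Tower C) (π : Map E C) (h : LiftsAlong π) (k : ℕ)
    (s : Map (T.stage k) E) (hs : s.comp π = T.toC k) :
    ∃ s' : Map (T.stage (k + 1)) E, s'.comp π = T.toC (k + 1) ∧ (T.next k).comp s' = s := by
  have key : ∀ p : T.pairs k, ∃ w' : E.Hom (disc (p.1.n + 1)) p.1.S,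
      E.IsLift (s.map p.1.f) (s.map p.1.g) w' ∧
        π.map w' = (T.toC (k + 1)).map (T.lift k p) := by
    intro p
    apply h p.1.dim_le _ _ (Parallel.map s p.1.parallel)
    have h1 := ((T.free k).isLift p).map (T.toC (k + 1))
    have h2 : ∀ {A B} (f : (T.stage k).Hom A B),
        (T.toC (k + 1)).map ((T.next k).map f) = π.map (s.map f) := by
      intro A B f
      have := T.toC_next k
      rw [← hs] at this
      exact congrArg (fun F : Map (T.stage k) C => F.map f) this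
    rw [h2, h2] at h1
    exact h1
  choose l hl hl' using key
  obtain ⟨s', ⟨hs1, hs2⟩, -⟩ := (T.free k).univ E s l hl
  refine ⟨s', ?_, hs1⟩
  obtain ⟨G, -, hG⟩ := (T.free k).univ C (T.toC k)
    (fun p => (T.toC (k + 1)).map (T.lift k p)) (fun p => by
      have h1 := ((T.free k).isLift p).map (T.toC (k + 1))
      have h2 : ∀ {A B} (f : (T.stage k).Hom A B),
          (T.toC (k + 1)).map ((T.next k).map f) = (T.toC k).map f := fun f =>
        congrArg (fun F : Map (T.stage k) C => F.map f) (T.toC_next k)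
      rw [h2, h2] at h1
      exact h1)
  rw [hG (s'.comp π) ⟨?_, ?_⟩, hG (T.toC (k + 1)) ⟨T.toC_next k, fun p => rfl⟩]
  · rw [← Map.comp_assoc, hs1, hs]
  · intro p
    change π.map (s'.map (T.lift k p)) = _
    rw [hs2, hl']

/-- The section principle. -/
theorem Tower.exists_section (T : Tower C) (π : Map E C) (h : LiftsAlong π) :
    ∃ s : Map C E, s.comp π = Map.id C := by
  classical
  let F : ∀ k, {s : Map (T.stage k) E // s.comp π = T.toC k} := fun k =>
    Nat.rec (motive := fun k => {s : Map (T.stage k) E // s.comp π = T.toC k})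
      ⟨T.fromZero E, T.fromZero_unique _ _⟩
      (fun k s => ⟨(T.section_step π h k s.1 s.2).choose,
        (T.section_step π h k s.1 s.2).choose_spec.1⟩) k
  have hF : ∀ k, (T.next k).comp (F (k + 1)).1 = (F k).1 := fun k =>
    (T.section_step π h k (F k).1 (F k).2).choose_spec.2
  obtain ⟨s, hs, -⟩ := T.colim E (fun k => (F k).1) hF
  refine ⟨s, ?_⟩
  obtain ⟨G, -, hG⟩ := T.colim C (fun k => T.toC k) T.toC_next
  rw [hG (s.comp π) ?_, hG (Map.id C) (fun k => rfl)]
  intro k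
  rw [← Map.comp_assoc]
  rw [hs k, (F k).2]

end GlobExt

end Vale.Agent.P259
end
end

section

section

open CategoryTheory Limits

namespace Vale.Agent.P259

universe v u

variable {𝓜 : Type u} [Category.{v} 𝓜]

/-- The `j`-th object of a coglobular object. -/
abbrev cob (F : Globe ⥤ 𝓜) (j : ℕ) : 𝓜 := F.obj (Globe.D j)

/-- The cosource maps of a coglobular object. -/
abbrev sg (F : Globe ⥤ 𝓜) (k : ℕ) : cob F k ⟶ cob F (k + 1) := F.map (Globe.σ k)

/-- The cotarget maps of a coglobular object. -/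
abbrev tg (F : Globe ⥤ 𝓜) (k : ℕ) : cob F k ⟶ cob F (k + 1) := F.map (Globe.τ k)

lemma sg_sg (F : Globe ⥤ 𝓜) (k : ℕ) : sg F k ≫ sg F (k + 1) = sg F k ≫ tg F (k + 1) := by
  rw [← F.map_comp, ← F.map_comp]; rfl

lemma tg_sg (F : Globe ⥤ 𝓜) (k : ℕ) : tg F k ≫ sg F (k + 1) = tg F k ≫ tg F (k + 1) := by
  rw [← F.map_comp, ← F.map_comp]; rfl

section Sphere

variable [HasPushouts 𝓜] [HasInitial 𝓜]

/-- Auxiliary recursive construction of the spheres of a coglobular object. -/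
noncomputable def sphAux (F : Globe ⥤ 𝓜) : ∀ j : ℕ,
    {p : (B : 𝓜) × (B ⟶ cob F j) // p.2 ≫ sg F j = p.2 ≫ tg F j}
  | 0 => ⟨⟨⊥_ 𝓜, initial.to _⟩, by apply initial.hom_ext⟩
  | j + 1 => ⟨⟨pushout (sphAux F j).1.2 (sphAux F j).1.2,
      pushout.desc (sg F j) (tg F j) (sphAux F j).2⟩, by
        apply pushout.hom_ext
        · simp only [pushout.inl_desc_assoc]; exact sg_sg F j
        · simp only [pushout.inr_desc_assoc]; exact tg_sg F j⟩

/-- The boundary `∂D_j` of a coglobular object. -/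
noncomputable def sph (F : Globe ⥤ 𝓜) (j : ℕ) : 𝓜 := (sphAux F j).1.1

/-- The inclusion of the boundary. -/
noncomputable def bd (F : Globe ⥤ 𝓜) (j : ℕ) : sph F j ⟶ cob F j := (sphAux F j).1.2

/-- The source hemisphere. -/
noncomputable def hemS (F : Globe ⥤ 𝓜) (j : ℕ) : cob F j ⟶ sph F (j + 1) :=
  pushout.inl (sphAux F j).1.2 (sphAux F j).1.2

/-- The target hemisphere. -/
noncomputable def hemT (F : Globe ⥤ 𝓜) (j : ℕ) : cob F j ⟶ sph F (j + 1) :=
  pushout.inr (sphAux F j).1.2 (sphAux F j).1.2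

lemma bd_sg (F : Globe ⥤ 𝓜) (j : ℕ) : bd F j ≫ sg F j = bd F j ≫ tg F j := (sphAux F j).2

noncomputable def isInitialSphZero (F : Globe ⥤ 𝓜) : IsInitial (sph F 0) := initialIsInitial

lemma isPushout_sph (F : Globe ⥤ 𝓜) (j : ℕ) :
    IsPushout (bd F j) (bd F j) (hemS F j) (hemT F j) :=
  IsPushout.of_hasPushout _ _

@[reassoc (attr := simp)]
lemma hemS_bd (F : Globe ⥤ 𝓜) (j : ℕ) : hemS F j ≫ bd F (j + 1) = sg F j :=
  pushout.inl_desc _ _ _

@[reassoc (attr := simp)]
lemma hemT_bd (F : Globe ⥤ 𝓜) (j : ℕ) : hemT F j ≫ bd F (j + 1) = tg F j :=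
  pushout.inr_desc _ _ _

/-- The map from a sphere given by two parallel cells. -/
noncomputable def sphDesc (F : Globe ⥤ 𝓜) {j : ℕ} {X : 𝓜} (u v : cob F j ⟶ X)
    (h : bd F j ≫ u = bd F j ≫ v) : sph F (j + 1) ⟶ X :=
  (isPushout_sph F j).desc u v h

@[reassoc (attr := simp)]
lemma hemS_sphDesc (F : Globe ⥤ 𝓜) {j : ℕ} {X : 𝓜} (u v : cob F j ⟶ X)
    (h : bd F j ≫ u = bd F j ≫ v) : hemS F j ≫ sphDesc F u v h = u :=
  (isPushout_sph F j).inl_desc _ _ _

@[reassoc (attr := simp)]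
lemma hemT_sphDesc (F : Globe ⥤ 𝓜) {j : ℕ} {X : 𝓜} (u v : cob F j ⟶ X)
    (h : bd F j ≫ u = bd F j ≫ v) : hemT F j ≫ sphDesc F u v h = v :=
  (isPushout_sph F j).inr_desc _ _ _

lemma sph_hom_ext (F : Globe ⥤ 𝓜) {j : ℕ} {X : 𝓜} {f g : sph F (j + 1) ⟶ X}
    (h₁ : hemS F j ≫ f = hemS F j ≫ g) (h₂ : hemT F j ≫ f = hemT F j ≫ g) : f = g :=
  (isPushout_sph F j).hom_ext h₁ h₂

lemma sph_zero_hom_ext (F : Globe ⥤ 𝓜) {X : 𝓜} (f g : sph F 0 ⟶ X) : f = g :=
  (isInitialSphZero F).hom_ext _ _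

/-- Two maps `D_{j+1} ⟶ X` agree on the boundary iff they have the same source and target. -/
lemma bd_comp_eq_iff (F : Globe ⥤ 𝓜) {j : ℕ} {X : 𝓜} (u v : cob F (j + 1) ⟶ X) :
    bd F (j + 1) ≫ u = bd F (j + 1) ≫ v ↔ sg F j ≫ u = sg F j ≫ v ∧ tg F j ≫ u = tg F j ≫ v := by
  constructor
  · intro h
    constructor
    · rw [← hemS_bd, Category.assoc, Category.assoc, h]
    · rw [← hemT_bd, Category.assoc, Category.assoc, h]
  · rintro ⟨h1, h2⟩
    apply sph_hom_ext
    · rw [hemS_bd_assoc, hemS_bd_assoc, h1]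
    · rw [hemT_bd_assoc, hemT_bd_assoc, h2]

/-- Auxiliary: the map induced on spheres. -/
noncomputable def sphMapAux {F G : Globe ⥤ 𝓜} (α : F ⟶ G) : ∀ j : ℕ,
    {f : sph F j ⟶ sph G j // f ≫ bd G j = bd F j ≫ α.app (Globe.D j)}
  | 0 => ⟨(isInitialSphZero F).to _, (isInitialSphZero F).hom_ext _ _⟩
  | j + 1 => ⟨sphDesc F (α.app _ ≫ hemS G j) (α.app _ ≫ hemT G j) (by
      rw [← Category.assoc, ← Category.assoc, ← (sphMapAux α j).2, Category.assoc,
        Category.assoc, (isPushout_sph G j).w]), by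
      apply sph_hom_ext
      · rw [hemS_sphDesc_assoc, Category.assoc, hemS_bd, hemS_bd_assoc]
        exact (α.naturality _).symm
      · rw [hemT_sphDesc_assoc, Category.assoc, hemT_bd, hemT_bd_assoc]
        exact (α.naturality _).symm⟩

/-- The map induced on spheres by a map of coglobular objects. -/
noncomputable def sphMap {F G : Globe ⥤ 𝓜} (α : F ⟶ G) (j : ℕ) : sph F j ⟶ sph G j :=
  (sphMapAux α j).1

@[reassoc (attr := simp)]
lemma sphMap_bd {F G : Globe ⥤ 𝓜} (α : F ⟶ G) (j : ℕ) :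
    sphMap α j ≫ bd G j = bd F j ≫ α.app (Globe.D j) := (sphMapAux α j).2

@[reassoc (attr := simp)]
lemma hemS_sphMap {F G : Globe ⥤ 𝓜} (α : F ⟶ G) (j : ℕ) :
    hemS F j ≫ sphMap α (j + 1) = α.app (Globe.D j) ≫ hemS G j :=
  hemS_sphDesc _ _ _ _

@[reassoc (attr := simp)]
lemma hemT_sphMap {F G : Globe ⥤ 𝓜} (α : F ⟶ G) (j : ℕ) :
    hemT F j ≫ sphMap α (j + 1) = α.app (Globe.D j) ≫ hemT G j :=
  hemT_sphDesc _ _ _ _

/-- `X` is contractible (relatively to the discs `F`): every sphere in `X` has a filler. -/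
def Contr (F : Globe ⥤ 𝓜) (X : 𝓜) : Prop :=
  ∀ (j : ℕ) (β : sph F j ⟶ X), ∃ w : cob F j ⟶ X, bd F j ≫ w = β

/-- The boundary inclusions. -/
def bds (F : Globe ⥤ 𝓜) : MorphismProperty 𝓜 := MorphismProperty.ofHoms (fun j : ℕ => bd F j)

/-- Trivial fibrations. -/
abbrev TrivFib (F : Globe ⥤ 𝓜) : MorphismProperty 𝓜 := (bds F).rlp

/-- Cofibrations. -/
abbrev Cof (F : Globe ⥤ 𝓜) : MorphismProperty 𝓜 := (bds F).rlp.llp

end Sphere

/-- The cosource maps of index at least `n`. -/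
def sgs (F : Globe ⥤ 𝓜) (n : ℕ) : MorphismProperty 𝓜 :=
  MorphismProperty.ofHoms (fun k : {k : ℕ // n ≤ k} => sg F k.1)

/-- Maps with the right lifting property against the cosource maps of index `≥ n`. -/
abbrev Fib (F : Globe ⥤ 𝓜) (n : ℕ) : MorphismProperty 𝓜 := (sgs F n).rlp

/-- Anodyne maps of type `≥ n`. -/
abbrev AN (F : Globe ⥤ 𝓜) (n : ℕ) : MorphismProperty 𝓜 := (sgs F n).rlp.llp

lemma AN.sg (F : Globe ⥤ 𝓜) {n k : ℕ} (h : n ≤ k) : AN F n (sg F k) :=
  MorphismProperty.le_llp_rlp _ _ (MorphismProperty.ofHoms.mk (f := fun k : {k : ℕ // n ≤ k} =>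
    Vale.Agent.P259.sg F k.1) ⟨k, h⟩)

lemma AN.mono (F : Globe ⥤ 𝓜) {n m : ℕ} (h : n ≤ m) : AN F m ≤ AN F n := by
  apply MorphismProperty.antitone_llp
  apply MorphismProperty.antitone_rlp
  intro A B f hf
  obtain ⟨k⟩ := hf
  exact MorphismProperty.ofHoms.mk (f := fun k : {k : ℕ // n ≤ k} =>
    Vale.Agent.P259.sg F k.1) ⟨k.1, h.trans k.2⟩

/-- `IsGSum F X d e`: the object `X`, with its last disc `e : D_d ⟶ X`, is a globular sum of
the coglobular object `F`. -/
inductive IsGSum (F : Globe ⥤ 𝓜) : ∀ (X : 𝓜) (d : ℕ), (cob F d ⟶ X) → Prop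
  | disc (i : ℕ) (X : 𝓜) (e : cob F i ⟶ X) (h : IsIso e) : IsGSum F X i e
  | glue {X : 𝓜} {d : ℕ} {e : cob F d ⟶ X} (h : IsGSum F X d e) {j i : ℕ} (hj : j < d)
      (hi : j < i) {X' : 𝓜} (inl : X ⟶ X') (inr : cob F i ⟶ X')
      (sq : IsPushout (F.map (Globe.face true hj) ≫ e) (F.map (Globe.face false hi)) inl inr) :
      IsGSum F X' i inr

section

variable [HasPushouts 𝓜] [HasInitial 𝓜]

/-- `X` is hereditarily contractible: every anodyne extension of type `≥ n` is contractible. -/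
def Hered (F : Globe ⥤ 𝓜) (n : ℕ) (X : 𝓜) : Prop :=
  ∀ ⦃Y : 𝓜⦄ (f : X ⟶ Y), AN F n f → Contr F Y

/-- The main inductive statement. -/
def HypH (F : Globe ⥤ 𝓜) (n : ℕ) : Prop :=
  ∀ ⦃X : 𝓜⦄ ⦃d : ℕ⦄ (e : cob F d ⟶ X), IsGSum F X d e → Hered F n X

/-- A cylinder relative to dimensions `< n`. -/
structure Cyl (F : Globe ⥤ 𝓜) (n : ℕ) where
  E : Globe ⥤ 𝓜
  im : F ⟶ E
  ip : F ⟶ E
  q : E ⟶ F
  im_q : im ≫ q = 𝟙 F
  ip_q : ip ≫ q = 𝟙 F
  low_eq : ∀ j, j < n → im.app (Globe.D j) = ip.app (Globe.D j)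
  low_iso : ∀ j, j < n → IsIso (im.app (Globe.D j))
  /-- the corner map of `im` is anodyne (in lifting form) -/
  corner : ∀ j, ∀ ⦃X Y : 𝓜⦄ (f : X ⟶ Y), Fib F n f → ∀ (β : sph E j ⟶ X)
    (w : cob F j ⟶ X) (c' : cob E j ⟶ Y), sphMap im j ≫ β = bd F j ≫ w →
    bd E j ≫ c' = β ≫ f → im.app _ ≫ c' = w ≫ f →
    ∃ c : cob E j ⟶ X, bd E j ≫ c = β ∧ im.app _ ≫ c = w ∧ c ≫ f = c'
  /-- extension of maps, relative to a trivial fibration -/
  ext : ∀ j, n ≤ j → ∀ ⦃X Y : 𝓜⦄ (f : X ⟶ Y), TrivFib F f → ∀ (β : sph E j ⟶ X)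
    (wm wp : cob F j ⟶ X) (c' : cob E j ⟶ Y), bd F j ≫ wm = sphMap im j ≫ β →
    bd F j ≫ wp = sphMap ip j ≫ β → bd E j ≫ c' = β ≫ f → im.app _ ≫ c' = wm ≫ f →
    ip.app _ ≫ c' = wp ≫ f →
    ∃ c : cob E j ⟶ X, bd E j ≫ c = β ∧ im.app _ ≫ c = wm ∧ ip.app _ ≫ c = wp ∧ c ≫ f = c'
  /-- lifting along the cosource maps -/
  fib : ∀ k, n ≤ k → ∀ ⦃X : 𝓜⦄ (a : cob E k ⟶ X) (em ep : cob F (k + 1) ⟶ X),
    sg F k ≫ em = im.app _ ≫ a → sg F k ≫ ep = ip.app _ ≫ a →
    ∃ c : cob E (k + 1) ⟶ X, sg E k ≫ c = a ∧ im.app _ ≫ c = em ∧ ip.app _ ≫ c = ep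
  /-- boundary maps inherit the property of being epimorphisms (used in truncated contexts) -/
  thin : ∀ j, Epi (sg F j) → Epi (bd F j) → Epi (bd E j)
  /-- globular sums of cylinders are contractible -/
  gsum : ∀ ⦃X : 𝓜⦄ ⦃d : ℕ⦄ (e : cob E d ⟶ X), IsGSum E X d e → Contr F X

end

end Vale.Agent.P259
end
end

section

section

open CategoryTheory Limits Opposite

namespace Vale.Agent.P259

open Theta0

namespace GlobExt

variable (C : GlobExt)

/-- The coglobular object of discs of a globular extension. -/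
noncomputable def discF : Globe ⥤ C.Obj where
  obj j := .of (disc j.dim)
  map {a b} f := C.J.map (discMap f)
  map_id a := by rw [Theta0.discMap_id]; exact C.J.map_id _
  map_comp f g := by rw [← Theta0.discMap_comp, C.J.map_comp]; rfl

/-- A presheaf on `C` which sends globular sums to iterated fibre products: it sends each square
`D_j, S, D_i, S ⨿_{D_j} D_i` to a pullback square of sets. -/
def IsSegal (X : C.Objᵒᵖ ⥤ Type) : Prop :=
  ∀ {l : ℕ} (t : Tab l) (j i : ℕ) (hl : j < l) (hi : j < i),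
    IsPullback (X.map (C.J.map (inl t j i hl hi)).op) (X.map (C.J.map (inr t j i hl hi)).op)
      (X.map (C.J.map (face true hl ≫ lastIncl t)).op) (X.map (C.J.map (face false hi)).op)

/-- Parallel `(k+1)`-cells are equal for `k ≥ m`. -/
def IsThin (m : ℕ∞) (X : C.Objᵒᵖ ⥤ Type) : Prop :=
  ∀ k : ℕ, m ≤ k → ∀ x y : X.obj (op (.of (disc (k + 1)))),
    X.map (C.J.map (σ k)).op x = X.map (C.J.map (σ k)).op y →
    X.map (C.J.map (τ k)).op x = X.map (C.J.map (τ k)).op y → x = y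

/-- `C`-∞-groupoids in which parallel `(k+1)`-cells are equal for `k ≥ m` (all `C`-∞-groupoids
if `m = ⊤`). -/
def isMd (m : ℕ∞) : ObjectProperty (C.Objᵒᵖ ⥤ Type) := fun X => C.IsSegal X ∧ C.IsThin m X

/-- The category of `m`-truncated `C`-∞-groupoids. -/
abbrev Md (m : ℕ∞) := (C.isMd m).FullSubcategory

/-- The category of `C`-∞-groupoids. -/
abbrev Gpd := C.Md ⊤

end GlobExt

end Vale.Agent.P259
end
end

section

section

open CategoryTheory Limits

namespace Vale.Agent.P259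

universe v u

variable {𝓜 : Type u} [Category.{v} 𝓜] [HasPushouts 𝓜] [HasInitial 𝓜]

/-- Globular sums are contractible. -/
def GContr (F : Globe ⥤ 𝓜) : Prop :=
  ∀ ⦃X : 𝓜⦄ ⦃d : ℕ⦄ (e : cob F d ⟶ X), IsGSum F X d e → Contr F X

/-- There is a `(k+1)`-cell from `u` to `v`. -/
def Hty (F : Globe ⥤ 𝓜) {X : 𝓜} {k : ℕ} (u v : cob F k ⟶ X) : Prop :=
  ∃ w : cob F (k + 1) ⟶ X, sg F k ≫ w = u ∧ tg F k ≫ w = v

variable {F : Globe ⥤ 𝓜}

lemma HypH.gContr {n : ℕ} (h : HypH F n) : GContr F := by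
  intro X d e he
  exact h e he (𝟙 X) (MorphismProperty.id_mem _ X)

lemma Hty.parallel {X : 𝓜} {k : ℕ} {u v : cob F k ⟶ X} (h : Hty F u v) :
    bd F k ≫ u = bd F k ≫ v := by
  obtain ⟨w, rfl, rfl⟩ := h
  rw [← Category.assoc, bd_sg, Category.assoc]

omit [HasPushouts 𝓜] [HasInitial 𝓜] in
lemma Hty.comp {X Y : 𝓜} {k : ℕ} {u v : cob F k ⟶ X} (h : Hty F u v) (f : X ⟶ Y) :
    Hty F (u ≫ f) (v ≫ f) := by
  obtain ⟨w, rfl, rfl⟩ := h
  exact ⟨w ≫ f, by rw [Category.assoc], by rw [Category.assoc]⟩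

lemma Contr.hty {X : 𝓜} (hX : Contr F X) {k : ℕ} (u v : cob F k ⟶ X)
    (h : bd F k ≫ u = bd F k ≫ v) : Hty F u v := by
  obtain ⟨w, hw⟩ := hX (k + 1) (sphDesc F u v h)
  refine ⟨w, ?_, ?_⟩
  · rw [← hemS_bd, Category.assoc, hw, hemS_sphDesc]
  · rw [← hemT_bd, Category.assoc, hw, hemT_sphDesc]

lemma GContr.disc (hF : GContr F) (k : ℕ) : Contr F (cob F k) :=
  hF (𝟙 _) (IsGSum.disc k _ (𝟙 _) inferInstance)

lemma GContr.hty_refl (hF : GContr F) {X : 𝓜} {k : ℕ} (u : cob F k ⟶ X) : Hty F u u := by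
  have h := ((hF.disc k).hty (𝟙 _) (𝟙 _) rfl).comp u
  rwa [Category.id_comp] at h

lemma GContr.hty_symm (hF : GContr F) {X : 𝓜} {k : ℕ} {u v : cob F k ⟶ X} (h : Hty F u v) :
    Hty F v u := by
  obtain ⟨w, rfl, rfl⟩ := h
  exact ((hF.disc (k + 1)).hty (tg F k) (sg F k) (bd_sg F k).symm).comp w

/-- Composable pairs of cells of dimensions `m` and `k+1` glued along `k`-cells. -/
lemma GContr.pair (hF : GContr F) {k m i : ℕ} (h : k < m) (h' : k < i) :
    Contr F (pushout (F.map (Globe.face true h)) (F.map (Globe.face false h'))) := by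
  refine hF (pushout.inr _ _) (IsGSum.glue (IsGSum.disc m _ (𝟙 _) inferInstance) h h'
    (pushout.inl _ _) (pushout.inr _ _) ?_)
  rw [Category.comp_id]
  exact IsPushout.of_hasPushout _ _

/-- The universal composable triple is contractible. -/
lemma GContr.triple (hF : GContr F) (k : ℕ) :
    Contr F (pushout (tg F k ≫ pushout.inr (tg F k) (sg F k)) (sg F k)) := by
  refine hF (pushout.inr _ _) (IsGSum.glue (IsGSum.glue (IsGSum.disc (k + 1) _ (𝟙 _) inferInstance)
    (Nat.lt_succ_self k) (Nat.lt_succ_self k) (pushout.inl _ _) (pushout.inr _ _) ?_)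
    (Nat.lt_succ_self k) (Nat.lt_succ_self k) (pushout.inl _ _) (pushout.inr _ _) ?_)
  · rw [Category.comp_id]
    exact IsPushout.of_hasPushout _ _
  · exact IsPushout.of_hasPushout _ _

lemma GContr.hty_trans (hF : GContr F) {X : 𝓜} {k : ℕ} {u v w : cob F k ⟶ X}
    (h : Hty F u v) (h' : Hty F v w) : Hty F u w := by
  obtain ⟨a, rfl, ha⟩ := h
  obtain ⟨b, hb, rfl⟩ := h'
  have hab : tg F k ≫ a = sg F k ≫ b := ha.trans hb.symm
  have h1 := ((hF.pair (Nat.lt_succ_self k) (Nat.lt_succ_self k)).hty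
    (sg F k ≫ pushout.inl (tg F k) (sg F k)) (tg F k ≫ pushout.inr (tg F k) (sg F k)) (by
      rw [← Category.assoc, bd_sg, Category.assoc, pushout.condition, ← Category.assoc, bd_sg,
        Category.assoc])).comp (pushout.desc a b hab)
  rw [Category.assoc, Category.assoc, pushout.inl_desc, pushout.inr_desc] at h1
  exact h1

/-- A composition operation, as a cell of the universal composable pair. -/
theorem GContr.exists_cmp (hF : GContr F) (k : ℕ) :
    ∃ c : cob F (k + 1) ⟶ pushout (tg F k) (sg F k),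
      sg F k ≫ c = sg F k ≫ pushout.inl _ _ ∧ tg F k ≫ c = tg F k ≫ pushout.inr _ _ := by
  exact (hF.pair (Nat.lt_succ_self k) (Nat.lt_succ_self k)).hty
    (sg F k ≫ pushout.inl (tg F k) (sg F k)) (tg F k ≫ pushout.inr (tg F k) (sg F k)) (by
      rw [← Category.assoc, bd_sg, Category.assoc, pushout.condition, ← Category.assoc, bd_sg,
        Category.assoc])

/-- A chosen composition operation. -/
noncomputable def cmpOp (hF : GContr F) (k : ℕ) : cob F (k + 1) ⟶ pushout (tg F k) (sg F k) :=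
  (hF.exists_cmp k).choose

/-- The composite of two `(k+1)`-cells along `k`-cells. -/
noncomputable def cmp (hF : GContr F) {X : 𝓜} {k : ℕ} (z g : cob F (k + 1) ⟶ X)
    (h : tg F k ≫ z = sg F k ≫ g) : cob F (k + 1) ⟶ X :=
  cmpOp hF k ≫ pushout.desc z g h

lemma sg_cmp (hF : GContr F) {X : 𝓜} {k : ℕ} (z g : cob F (k + 1) ⟶ X)
    (h : tg F k ≫ z = sg F k ≫ g) : sg F k ≫ cmp hF z g h = sg F k ≫ z := by
  have h1 := (hF.exists_cmp k).choose_spec.1
  unfold cmp cmpOp
  rw [← Category.assoc, h1, Category.assoc, pushout.inl_desc]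

lemma tg_cmp (hF : GContr F) {X : 𝓜} {k : ℕ} (z g : cob F (k + 1) ⟶ X)
    (h : tg F k ≫ z = sg F k ≫ g) : tg F k ≫ cmp hF z g h = tg F k ≫ g := by
  have h1 := (hF.exists_cmp k).choose_spec.2
  unfold cmp cmpOp
  rw [← Category.assoc, h1, Category.assoc, pushout.inr_desc]

lemma cmp_comp (hF : GContr F) {X Y : 𝓜} {k : ℕ} (z g : cob F (k + 1) ⟶ X)
    (h : tg F k ≫ z = sg F k ≫ g) (f : X ⟶ Y) :
    cmp hF z g h ≫ f = cmp hF (z ≫ f) (g ≫ f) (by rw [← Category.assoc, h, Category.assoc]) := by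
  unfold cmp
  rw [Category.assoc]
  congr 1
  apply pushout.hom_ext
  · rw [pushout.inl_desc_assoc, pushout.inl_desc]
  · rw [pushout.inr_desc_assoc, pushout.inr_desc]

lemma cmp_comp_eq (hF : GContr F) {X Y : 𝓜} {k : ℕ} (z g : cob F (k + 1) ⟶ X)
    (h : tg F k ≫ z = sg F k ≫ g) (f : X ⟶ Y) {z' g' : cob F (k + 1) ⟶ Y} (hz : z ≫ f = z')
    (hg : g ≫ f = g') (h' : tg F k ≫ z' = sg F k ≫ g') :
    cmp hF z g h ≫ f = cmp hF z' g' h' := by
  subst hz hg
  exact cmp_comp hF z g h f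

lemma cmp_congr (hF : GContr F) {X : 𝓜} {k : ℕ} {z z' g g' : cob F (k + 1) ⟶ X}
    (h : tg F k ≫ z = sg F k ≫ g) (hz : z = z') (hg : g = g')
    (h' : tg F k ≫ z' = sg F k ≫ g') : cmp hF z g h = cmp hF z' g' h' := by
  subst hz hg
  rfl

/-- Two `(k+1)`-cells with the same source and target in a contractible object are homotopic. -/
lemma Contr.hty_succ {X : 𝓜} (hX : Contr F X) {k : ℕ} (u v : cob F (k + 1) ⟶ X)
    (h1 : sg F k ≫ u = sg F k ≫ v) (h2 : tg F k ≫ u = tg F k ≫ v) : Hty F u v :=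
  hX.hty u v ((bd_comp_eq_iff F u v).2 ⟨h1, h2⟩)

/-- Associativity up to homotopy. -/
lemma GContr.cmp_assoc (hF : GContr F) {X : 𝓜} {k : ℕ} (a b c : cob F (k + 1) ⟶ X)
    (hab : tg F k ≫ a = sg F k ≫ b) (hbc : tg F k ≫ b = sg F k ≫ c) :
    Hty F (cmp hF a (cmp hF b c hbc) (by rw [sg_cmp, hab]))
      (cmp hF (cmp hF a b hab) c (by rw [tg_cmp, hbc])) := by
  let P := pushout (tg F k) (sg F k)
  let T := pushout (tg F k ≫ pushout.inr (tg F k) (sg F k)) (sg F k)
  let a' : cob F (k + 1) ⟶ T := pushout.inl (tg F k) (sg F k) ≫ pushout.inl _ _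
  let b' : cob F (k + 1) ⟶ T := pushout.inr (tg F k) (sg F k) ≫ pushout.inl _ _
  let c' : cob F (k + 1) ⟶ T := pushout.inr _ _
  have hab' : tg F k ≫ a' = sg F k ≫ b' := by
    simp only [a', b']
    rw [← Category.assoc, ← Category.assoc]
    congr 1
    exact pushout.condition
  have hbc' : tg F k ≫ b' = sg F k ≫ c' := by
    simp only [b', c']
    rw [← Category.assoc]
    exact pushout.condition
  have key : Hty F (cmp hF a' (cmp hF b' c' hbc') (by rw [sg_cmp, hab']))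
      (cmp hF (cmp hF a' b' hab') c' (by rw [tg_cmp, hbc'])) := by
    apply (hF.triple k).hty_succ
    · rw [sg_cmp, sg_cmp, sg_cmp]
    · rw [tg_cmp, tg_cmp, tg_cmp]
  let f : T ⟶ X := pushout.desc (pushout.desc a b hab) c (by
    rw [Category.assoc, pushout.inr_desc, hbc])
  have ha : a' ≫ f = a := by
    simp only [a', f]
    rw [Category.assoc, pushout.inl_desc, pushout.inl_desc]
  have hb : b' ≫ f = b := by
    simp only [b', f]
    rw [Category.assoc, pushout.inl_desc, pushout.inr_desc]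
  have hc : c' ≫ f = c := pushout.inr_desc _ _ _
  have h1 := key.comp f
  rw [cmp_comp_eq hF _ _ _ f ha (cmp_comp_eq hF _ _ _ f hb hc hbc) (by rw [sg_cmp, hab]),
    cmp_comp_eq hF _ _ _ f (cmp_comp_eq hF _ _ _ f ha hb hab) hc (by rw [tg_cmp, hbc])] at h1
  exact h1

/-- Whiskering on the left factor. -/
lemma GContr.whisker (hF : GContr F) {X : 𝓜} {k : ℕ} {u u' : cob F (k + 1) ⟶ X}
    (H : Hty F u u') (w : cob F (k + 1) ⟶ X) (hu : tg F k ≫ u = sg F k ≫ w)
    (hu' : tg F k ≫ u' = sg F k ≫ w) : Hty F (cmp hF u w hu) (cmp hF u' w hu') := by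
  obtain ⟨W, hW1, hW2⟩ := H
  have hk : k < k + 2 := by omega
  let T := pushout (F.map (Globe.face true hk)) (F.map (Globe.face false (Nat.lt_succ_self k)))
  let W' : cob F (k + 2) ⟶ T := pushout.inl _ _
  let w' : cob F (k + 1) ⟶ T := pushout.inr _ _
  have f1 : tg F k ≫ sg F (k + 1) = F.map (Globe.face true hk) := by
    rw [← F.map_comp]; rfl
  have f2 : tg F k ≫ tg F (k + 1) = F.map (Globe.face true hk) := by
    rw [← F.map_comp]; rfl
  have cond : F.map (Globe.face true hk) ≫ W' = sg F k ≫ w' := pushout.condition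
  have h1 : tg F k ≫ (sg F (k + 1) ≫ W') = sg F k ≫ w' := by
    rw [← Category.assoc, f1, cond]
  have h2 : tg F k ≫ (tg F (k + 1) ≫ W') = sg F k ≫ w' := by
    rw [← Category.assoc, f2, cond]
  have key : Hty F (cmp hF (sg F (k + 1) ≫ W') w' h1) (cmp hF (tg F (k + 1) ≫ W') w' h2) := by
    apply (hF.pair hk (Nat.lt_succ_self k)).hty_succ
    · rw [sg_cmp, sg_cmp, ← Category.assoc, ← Category.assoc, sg_sg]
    · rw [tg_cmp, tg_cmp]
  let f : T ⟶ X := pushout.desc W w (by
    rw [← f1, Category.assoc, hW1]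
    exact hu)
  have hW' : W' ≫ f = W := pushout.inl_desc _ _ _
  have hw' : w' ≫ f = w := pushout.inr_desc _ _ _
  have h3 := key.comp f
  have e1 : (sg F (k + 1) ≫ W') ≫ f = u := by rw [Category.assoc, hW', hW1]
  have e2 : (tg F (k + 1) ≫ W') ≫ f = u' := by rw [Category.assoc, hW', hW2]
  rw [cmp_comp_eq hF _ _ _ f e1 hw' hu, cmp_comp_eq hF _ _ _ f e2 hw' hu'] at h3
  exact h3

/-- There is a retraction `D_{k+1} ⟶ D_k` of both faces. -/
lemma GContr.exists_kappa (hF : GContr F) (k : ℕ) :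
    ∃ κ : cob F (k + 1) ⟶ cob F k, sg F k ≫ κ = 𝟙 _ ∧ tg F k ≫ κ = 𝟙 _ :=
  (hF.disc k).hty (𝟙 _) (𝟙 _) rfl

/-- There is an inverse operation. -/
lemma GContr.exists_inv (hF : GContr F) (k : ℕ) :
    ∃ i : cob F (k + 1) ⟶ cob F (k + 1), sg F k ≫ i = tg F k ∧ tg F k ≫ i = sg F k :=
  (hF.disc (k + 1)).hty (tg F k) (sg F k) (bd_sg F k).symm

/-- The division lemma. -/
theorem GContr.exists_division (hF : GContr F) {X : 𝓜} {k : ℕ} (z w : cob F (k + 1) ⟶ X)
    (h : sg F k ≫ z = sg F k ≫ w) :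
    ∃ (g : cob F (k + 1) ⟶ X) (hg : tg F k ≫ z = sg F k ≫ g),
      tg F k ≫ g = tg F k ≫ w ∧ Hty F (cmp hF z g hg) w := by
  obtain ⟨κ, hκ1, hκ2⟩ := hF.exists_kappa k
  obtain ⟨i, hi1, hi2⟩ := hF.exists_inv k
  have hiz : tg F k ≫ (i ≫ z) = sg F k ≫ w := by
    rw [← Category.assoc, hi2, h]
  have hzi : tg F k ≫ z = sg F k ≫ (i ≫ z) := by
    rw [← Category.assoc, hi1]
  refine ⟨cmp hF (i ≫ z) w hiz, ?_, ?_, ?_⟩
  · rw [sg_cmp, hzi]
  · rw [tg_cmp]
  · have h1 := hF.cmp_assoc z (i ≫ z) w hzi hiz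
    -- `z · z⁻¹` is homotopic to a unit
    have h2 : Hty F (cmp hF z (i ≫ z) hzi) ((κ ≫ sg F k) ≫ z) := by
      have hi' : tg F k ≫ 𝟙 (cob F (k + 1)) = sg F k ≫ i := by rw [Category.comp_id, hi1]
      have h3 : Hty F (cmp hF (𝟙 (cob F (k + 1))) i hi') (κ ≫ sg F k) := by
        apply (hF.disc (k + 1)).hty_succ
        · rw [sg_cmp, Category.comp_id, ← Category.assoc, hκ1, Category.id_comp]
        · rw [tg_cmp, hi2, ← Category.assoc, hκ2, Category.id_comp]
      have h4 := h3.comp z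
      rwa [cmp_comp_eq hF _ _ _ z (Category.id_comp z) rfl hzi] at h4
    have hun : tg F k ≫ ((κ ≫ sg F k) ≫ z) = sg F k ≫ w := by
      rw [← Category.assoc, ← Category.assoc, hκ2, Category.id_comp, h]
    have h5 := hF.whisker h2 w (by rw [tg_cmp, hiz]) hun
    -- the unit law
    have h6 : Hty F (cmp hF ((κ ≫ sg F k) ≫ z) w hun) w := by
      have hk' : tg F k ≫ (κ ≫ sg F k) = sg F k ≫ 𝟙 (cob F (k + 1)) := by
        rw [← Category.assoc, hκ2, Category.id_comp, Category.comp_id]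
      have h7 : Hty F (cmp hF (κ ≫ sg F k) (𝟙 (cob F (k + 1))) hk') (𝟙 _) := by
        apply (hF.disc (k + 1)).hty_succ
        · rw [sg_cmp, ← Category.assoc, hκ1, Category.id_comp, Category.comp_id]
        · rw [tg_cmp]
      have h8 := h7.comp w
      have e1 : (κ ≫ sg F k) ≫ w = (κ ≫ sg F k) ≫ z := by
        rw [Category.assoc, Category.assoc, h]
      rwa [cmp_comp_eq hF _ _ _ w e1 (Category.id_comp w) hun, Category.id_comp] at h8
    exact hF.hty_trans (hF.hty_trans h1 h5) h6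

end Vale.Agent.P259
end
end

section

section

open CategoryTheory Limits Opposite

namespace Vale.Agent.P259

open Theta0

namespace GlobExt

variable (C : GlobExt) (m : ℕ∞)

/-- Index set of the gluing squares. -/
structure GlueIdx where
  {l : ℕ}
  t : Tab l
  j : ℕ
  i : ℕ
  hl : j < l
  hi : j < i

/-- The Segal map of a gluing square. -/
noncomputable def segMap (g : GlueIdx) :
    pushout (yoneda.map (C.J.map (face true g.hl ≫ lastIncl g.t)))
      (yoneda.map (C.J.map (face false g.hi))) ⟶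
      yoneda.obj (C.J.obj (Theta0.glue g.t g.j g.i g.hl g.hi)) :=
  pushout.desc (yoneda.map (C.J.map (inl g.t g.j g.i g.hl g.hi)))
    (yoneda.map (C.J.map (inr g.t g.j g.i g.hl g.hi))) (by
      rw [← yoneda.map_comp, ← yoneda.map_comp, (C.isPushout g.t g.j g.i g.hl g.hi).w])

@[reassoc]
lemma inl_segMap (g : GlueIdx) :
    pushout.inl _ _ ≫ C.segMap g = yoneda.map (C.J.map (inl g.t g.j g.i g.hl g.hi)) :=
  pushout.inl_desc _ _ _

@[reassoc]
lemma inr_segMap (g : GlueIdx) :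
    pushout.inr _ _ ≫ C.segMap g = yoneda.map (C.J.map (inr g.t g.j g.i g.hl g.hi)) :=
  pushout.inr_desc _ _ _

/-- The map `D_k ⨿ D_k ⟶ D_{k+1}`. -/
noncomputable def twoFaces (k : ℕ) :
    (yoneda.obj (C.J.obj (disc k)) ⨿ yoneda.obj (C.J.obj (disc k))) ⟶
    yoneda.obj (C.J.obj (disc (k + 1))) :=
  coprod.desc (yoneda.map (C.J.map (σ k))) (yoneda.map (C.J.map (τ k)))

@[reassoc]
lemma inl_twoFaces (k : ℕ) : coprod.inl ≫ C.twoFaces k = yoneda.map (C.J.map (σ k)) :=
  coprod.inl_desc _ _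

@[reassoc]
lemma inr_twoFaces (k : ℕ) : coprod.inr ≫ C.twoFaces k = yoneda.map (C.J.map (τ k)) :=
  coprod.inr_desc _ _

/-- The codiagonal expressing that parallel `(k+1)`-cells are equal. -/
noncomputable def thinMap (k : ℕ) : pushout (C.twoFaces k) (C.twoFaces k) ⟶
    yoneda.obj (C.J.obj (disc (k + 1))) :=
  pushout.desc (𝟙 _) (𝟙 _) rfl

@[reassoc]
lemma inl_thinMap (k : ℕ) : pushout.inl _ _ ≫ C.thinMap k = 𝟙 _ :=
  pushout.inl_desc _ _ _

@[reassoc]
lemma inr_thinMap (k : ℕ) : pushout.inr _ _ ≫ C.thinMap k = 𝟙 _ :=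
  pushout.inr_desc _ _ _

/-- The maps whose local objects are the objects of `Md C m`. -/
noncomputable def locMaps : MorphismProperty (C.Objᵒᵖ ⥤ Type) :=
  MorphismProperty.ofHoms C.segMap ⊔
    MorphismProperty.ofHoms (fun k : {k : ℕ // m ≤ k} => C.thinMap k.1)

lemma yonedaEquiv_comp' {S T : C.Obj} (f : S ⟶ T) {X : C.Objᵒᵖ ⥤ Type} (h : yoneda.obj T ⟶ X) :
    yonedaEquiv (yoneda.map f ≫ h) = X.map f.op (yonedaEquiv h) :=
  (yonedaEquiv_naturality h f).symm

lemma bijective_segMap_iff (X : C.Objᵒᵖ ⥤ Type) (g : GlueIdx) :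
    Function.Bijective (fun (h : _ ⟶ X) => C.segMap g ≫ h) ↔
    IsPullback (X.map (C.J.map (inl g.t g.j g.i g.hl g.hi)).op)
      (X.map (C.J.map (inr g.t g.j g.i g.hl g.hi)).op)
      (X.map (C.J.map (face true g.hl ≫ lastIncl g.t)).op)
      (X.map (C.J.map (face false g.hi)).op) := by
  rw [Limits.Types.isPullback_iff]
  constructor
  · intro hb
    refine ⟨?_, ?_, ?_⟩
    · rw [← X.map_comp, ← X.map_comp, ← op_comp, ← op_comp,
        (C.isPushout g.t g.j g.i g.hl g.hi).w]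
    · rintro x y ⟨h1, h2⟩
      apply yonedaEquiv.symm.injective
      apply hb.1
      apply pushout.hom_ext
      · dsimp only
        rw [inl_segMap_assoc, inl_segMap_assoc]
        apply yonedaEquiv.injective
        rw [yonedaEquiv_comp', yonedaEquiv_comp', Equiv.apply_symm_apply, Equiv.apply_symm_apply]
        exact h1
      · dsimp only
        rw [inr_segMap_assoc, inr_segMap_assoc]
        apply yonedaEquiv.injective
        rw [yonedaEquiv_comp', yonedaEquiv_comp', Equiv.apply_symm_apply, Equiv.apply_symm_apply]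
        exact h2
    · intro a b hab
      obtain ⟨h, hh⟩ := hb.2 (pushout.desc (yonedaEquiv.symm a) (yonedaEquiv.symm b) (by
        apply yonedaEquiv.injective
        rw [yonedaEquiv_comp', yonedaEquiv_comp', Equiv.apply_symm_apply, Equiv.apply_symm_apply]
        exact hab))
      dsimp only at hh
      refine ⟨yonedaEquiv h, ?_, ?_⟩
      · rw [← yonedaEquiv_comp', ← inl_segMap_assoc, hh, pushout.inl_desc,
          Equiv.apply_symm_apply]
      · rw [← yonedaEquiv_comp', ← inr_segMap_assoc, hh, pushout.inr_desc,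
          Equiv.apply_symm_apply]
  · rintro ⟨-, h1, h2⟩
    constructor
    · intro u v huv
      dsimp only at huv
      apply yonedaEquiv.injective
      apply h1
      constructor
      · rw [← yonedaEquiv_comp', ← yonedaEquiv_comp', ← inl_segMap_assoc, huv, inl_segMap_assoc]
      · rw [← yonedaEquiv_comp', ← yonedaEquiv_comp', ← inr_segMap_assoc, huv, inr_segMap_assoc]
    · intro u
      obtain ⟨x, hx1, hx2⟩ := h2 (yonedaEquiv (pushout.inl _ _ ≫ u))
        (yonedaEquiv (pushout.inr _ _ ≫ u)) (by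
          rw [← yonedaEquiv_comp', ← yonedaEquiv_comp', pushout.condition_assoc])
      refine ⟨yonedaEquiv.symm x, ?_⟩
      apply pushout.hom_ext
      · dsimp only
        rw [inl_segMap_assoc]
        apply yonedaEquiv.injective
        rw [yonedaEquiv_comp', Equiv.apply_symm_apply, hx1]
      · dsimp only
        rw [inr_segMap_assoc]
        apply yonedaEquiv.injective
        rw [yonedaEquiv_comp', Equiv.apply_symm_apply, hx2]

lemma bijective_thinMap_iff (X : C.Objᵒᵖ ⥤ Type) (k : ℕ) :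
    Function.Bijective (fun (h : _ ⟶ X) => C.thinMap k ≫ h) ↔
    ∀ x y : X.obj (op (.of (disc (k + 1)))),
    X.map (C.J.map (σ k)).op x = X.map (C.J.map (σ k)).op y →
    X.map (C.J.map (τ k)).op x = X.map (C.J.map (τ k)).op y → x = y := by
  constructor
  · intro hb x y h1 h2
    obtain ⟨x, rfl⟩ := (yonedaEquiv (X := C.J.obj (disc (k + 1))) (F := X)).surjective x
    obtain ⟨y, rfl⟩ := (yonedaEquiv (X := C.J.obj (disc (k + 1))) (F := X)).surjective y
    have h3 : C.twoFaces k ≫ x = C.twoFaces k ≫ y := by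
      apply coprod.hom_ext
      · rw [inl_twoFaces_assoc, inl_twoFaces_assoc]
        apply yonedaEquiv.injective
        rw [yonedaEquiv_comp', yonedaEquiv_comp']
        exact h1
      · rw [inr_twoFaces_assoc, inr_twoFaces_assoc]
        apply yonedaEquiv.injective
        rw [yonedaEquiv_comp', yonedaEquiv_comp']
        exact h2
    obtain ⟨h, hh⟩ := hb.2 (pushout.desc _ _ h3)
    replace hh : C.thinMap k ≫ h = pushout.desc _ _ h3 := hh
    have e1 : h = x := by rw [← C.inl_thinMap_assoc k h, hh, pushout.inl_desc]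
    have e2 : h = y := by rw [← C.inr_thinMap_assoc k h, hh, pushout.inr_desc]
    rw [← e1, ← e2]
  · intro hX
    constructor
    · intro u v huv
      rw [← C.inl_thinMap_assoc k u, ← C.inl_thinMap_assoc k v]
      exact congrArg (fun z => pushout.inl _ _ ≫ z) huv
    · intro u
      have hc : C.twoFaces k ≫ pushout.inl _ _ ≫ u = C.twoFaces k ≫ pushout.inr _ _ ≫ u := by
        rw [pushout.condition_assoc]
      have key : pushout.inl (C.twoFaces k) (C.twoFaces k) ≫ u = pushout.inr _ _ ≫ u := by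
        apply yonedaEquiv.injective
        apply hX
        · rw [← yonedaEquiv_comp', ← yonedaEquiv_comp', ← inl_twoFaces_assoc, hc,
            inl_twoFaces_assoc]
        · rw [← yonedaEquiv_comp', ← yonedaEquiv_comp', ← inr_twoFaces_assoc, hc,
            inr_twoFaces_assoc]
      refine ⟨pushout.inl _ _ ≫ u, ?_⟩
      apply pushout.hom_ext
      · dsimp only
        rw [inl_thinMap_assoc]
      · dsimp only
        rw [inr_thinMap_assoc]
        exact key

lemma isMd_eq : C.isMd m = (C.locMaps m).isLocal := by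
  ext X
  constructor
  · rintro ⟨h1, h2⟩ A B f hf
    rcases hf with ⟨⟨g⟩⟩ | ⟨⟨k, hk⟩⟩
    · exact (C.bijective_segMap_iff _ g).2 (h1 g.t g.j g.i g.hl g.hi)
    · exact (C.bijective_thinMap_iff _ k).2 (h2 k hk)
  · intro h
    constructor
    · intro l t j i hl hi
      exact (C.bijective_segMap_iff _ ⟨t, j, i, hl, hi⟩).1 (h _ (Or.inl ⟨_⟩))
    · intro k hk
      exact (C.bijective_thinMap_iff _ k).1 (h _ (Or.inr ⟨(⟨k, hk⟩ : {k : ℕ // m ≤ k})⟩))


attribute [local instance] Cardinal.fact_isRegular_aleph0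

instance presentable_yoneda (X : C.Obj) :
    IsCardinalPresentable (yoneda.obj X : C.Objᵒᵖ ⥤ Type) Cardinal.aleph0.{0} where
  preservesColimitOfShape J _ _ := by
    let e : (coyoneda.obj (op (yoneda.obj X))) ≅ (evaluation C.Objᵒᵖ (Type)).obj (op X) :=
      NatIso.ofComponents (fun P ↦ Equiv.toIso yonedaEquiv)
    exact preservesColimitsOfShape_of_natIso e.symm

instance presentable_coprod {A B : C.Objᵒᵖ ⥤ Type} [IsCardinalPresentable A Cardinal.aleph0.{0}]
    [IsCardinalPresentable B Cardinal.aleph0.{0}] :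
    IsCardinalPresentable (A ⨿ B) Cardinal.aleph0.{0} := by
  have : ∀ k, IsCardinalPresentable ((pair A B).obj k) Cardinal.aleph0.{0} := by
    rintro ⟨⟨⟩⟩ <;> dsimp <;> infer_instance
  exact isCardinalPresentable_of_isColimit _ (coprodIsCoprod A B) _
    (hasCardinalLT_of_finite _ _ le_rfl)

instance presentable_pushout {A B D : C.Objᵒᵖ ⥤ Type} (f : A ⟶ B) (g : A ⟶ D)
    [IsCardinalPresentable A Cardinal.aleph0.{0}]
    [IsCardinalPresentable B Cardinal.aleph0.{0}] [IsCardinalPresentable D Cardinal.aleph0.{0}] :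
    IsCardinalPresentable (pushout f g) Cardinal.aleph0.{0} := by
  have : ∀ k, IsCardinalPresentable ((span f g).obj k) Cardinal.aleph0.{0} := by
    rintro (_ | _ | _) <;> dsimp <;> infer_instance
  exact isCardinalPresentable_of_isColimit _ (colimit.isColimit (span f g)) _
    (hasCardinalLT_of_finite _ _ le_rfl)

lemma presentable_locMaps ⦃X Y : C.Objᵒᵖ ⥤ Type⦄ (f : X ⟶ Y) (hf : C.locMaps m f) :
    IsCardinalPresentable X Cardinal.aleph0.{0} ∧
      IsCardinalPresentable Y Cardinal.aleph0.{0} := by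
  rcases hf with ⟨⟨g⟩⟩ | ⟨⟨k, hk⟩⟩
  · exact ⟨inferInstance, inferInstance⟩
  · exact ⟨inferInstance, inferInstance⟩

instance isSmall_locMaps : MorphismProperty.IsSmall.{0} (C.locMaps m) := by
  let φ : GlueIdx ⊕ {k : ℕ // m ≤ k} → (C.locMaps m).toSet
    | .inl g => ⟨Arrow.mk (C.segMap g), Or.inl ⟨g⟩⟩
    | .inr k => ⟨Arrow.mk (C.thinMap k.1), Or.inr ⟨k⟩⟩
  have hφ : Function.Surjective φ := by
    rintro ⟨⟨_, _, f⟩, h⟩
    rcases h with ⟨⟨g⟩⟩ | ⟨⟨k⟩⟩
    · exact ⟨.inl g, rfl⟩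
    · exact ⟨.inr k, rfl⟩
  exact ⟨small_of_surjective hφ⟩

instance isRightAdjoint_ι : (C.isMd m).ι.IsRightAdjoint := by
  rw [C.isMd_eq m]
  exact MorphismProperty.isRightAdjoint_ι_isLocal _ Cardinal.aleph0.{0}
    (C.presentable_locMaps m)


noncomputable instance reflective : Reflective (C.isMd m).ι where
  L := (C.isMd m).ι.leftAdjoint
  adj := Adjunction.ofIsRightAdjoint _

instance : HasLimits (C.Md m) :=
  hasLimits_of_reflective (C.isMd m).ι

instance : HasColimits (C.Md m) :=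
  hasColimits_of_reflective (C.isMd m).ι

/-- The functor `C ⥤ Md C m` (Yoneda embedding followed by the reflection). -/
noncomputable def y : C.Obj ⥤ C.Md m := yoneda ⋙ (C.isMd m).ι.leftAdjoint

variable {C m}

/-- Maps from `y S` are elements of `X(S)`. -/
noncomputable def yEquiv (S : C.Obj) (X : C.Md m) : ((C.y m).obj S ⟶ X) ≃ X.obj.obj (op S) :=
  ((Adjunction.ofIsRightAdjoint (C.isMd m).ι).homEquiv _ _).trans yonedaEquiv

lemma yEquiv_naturality_left {S T : C.Obj} (φ : S ⟶ T) {X : C.Md m} (f : (C.y m).obj T ⟶ X) :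
    yEquiv S X ((C.y m).map φ ≫ f) = X.obj.map φ.op (yEquiv T X f) := by
  have h := (Adjunction.ofIsRightAdjoint (C.isMd m).ι).homEquiv_naturality_left
    (yoneda.map φ) f
  refine (congrArg yonedaEquiv h).trans ?_
  exact C.yonedaEquiv_comp' φ _

lemma yEquiv_naturality_right {S : C.Obj} {X Y : C.Md m} (f : (C.y m).obj S ⟶ X) (g : X ⟶ Y) :
    yEquiv S Y (f ≫ g) = g.hom.app (op S) (yEquiv S X f) := by
  have h := (Adjunction.ofIsRightAdjoint (C.isMd m).ι).homEquiv_naturality_right f g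
  refine (congrArg yonedaEquiv h).trans ?_
  exact yonedaEquiv_comp _ _

/-- Maps out of an arbitrary object are determined by their composites with maps from
representables. -/
lemma Md.hom_ext {X Y : C.Md m} {f g : X ⟶ Y}
    (h : ∀ (S : C.Obj) (x : (C.y m).obj S ⟶ X), x ≫ f = x ≫ g) : f = g := by
  apply ObjectProperty.hom_ext
  ext S x
  obtain ⟨x, rfl⟩ := (yEquiv S.unop X).surjective x
  have := congrArg (yEquiv S.unop Y) (h S.unop x)
  rwa [yEquiv_naturality_right, yEquiv_naturality_right] at this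

/-- Density: a natural family of operations on generalized elements comes from a map. -/
theorem Md.exists_hom {X Y : C.Md m} (φ : ∀ S : C.Obj, ((C.y m).obj S ⟶ X) → ((C.y m).obj S ⟶ Y))
    (hφ : ∀ (S T : C.Obj) (u : S ⟶ T) (x : (C.y m).obj T ⟶ X),
      φ S ((C.y m).map u ≫ x) = (C.y m).map u ≫ φ T x) :
    ∃ f : X ⟶ Y, ∀ (S : C.Obj) (x : (C.y m).obj S ⟶ X), x ≫ f = φ S x := by
  refine ⟨⟨{ app := fun S => ↾(fun x => yEquiv S.unop Y (φ S.unop ((yEquiv S.unop X).symm x))),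
             naturality := ?_ }⟩, ?_⟩
  · intro S T u
    ext x
    obtain ⟨x, rfl⟩ := (yEquiv S.unop X).surjective x
    change yEquiv T.unop Y (φ T.unop ((yEquiv T.unop X).symm (X.obj.map u (yEquiv S.unop X x)))) =
      Y.obj.map u (yEquiv S.unop Y (φ S.unop ((yEquiv S.unop X).symm (yEquiv S.unop X x))))
    have h1 := yEquiv_naturality_left (m := m) u.unop x
    have h2 := yEquiv_naturality_left (m := m) u.unop (φ S.unop x)
    rw [Equiv.symm_apply_apply]
    refine Eq.trans ?_ h2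
    rw [← hφ]
    congr 2
    rw [Equiv.symm_apply_eq]
    exact h1.symm
  · intro S x
    apply (yEquiv S Y).injective
    rw [yEquiv_naturality_right]
    simp


variable (C m)

/-- `y` sends a square which is sent to a pullback square by all objects of `Md C m` to a
pushout square. -/
theorem y_isPushout_of {A B D E : C.Obj} (f : A ⟶ B) (g : A ⟶ D) (p : B ⟶ E) (q : D ⟶ E)
    (w : f ≫ p = g ≫ q)
    (H : ∀ X : C.Md m, IsPullback (X.obj.map p.op) (X.obj.map q.op) (X.obj.map f.op)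
      (X.obj.map g.op)) :
    IsPushout ((C.y m).map f) ((C.y m).map g) ((C.y m).map p) ((C.y m).map q) := by
  have w' : (C.y m).map f ≫ (C.y m).map p = (C.y m).map g ≫ (C.y m).map q := by
    rw [← (C.y m).map_comp, ← (C.y m).map_comp, w]
  have key : ∀ X : C.Md m, ∀ (a : (C.y m).obj B ⟶ X) (b : (C.y m).obj D ⟶ X),
      (C.y m).map f ≫ a = (C.y m).map g ≫ b →
      ∃! c : (C.y m).obj E ⟶ X,
        (C.y m).map p ≫ c = a ∧ (C.y m).map q ≫ c = b := by
    intro X a b hab
    obtain ⟨-, h1, h2⟩ := (Limits.Types.isPullback_iff _ _ _ _).1 (H X)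
    obtain ⟨x, hx1, hx2⟩ := h2 (yEquiv _ X a) (yEquiv _ X b) (by
      have := congrArg (yEquiv _ X) hab
      rwa [yEquiv_naturality_left, yEquiv_naturality_left] at this)
    refine ⟨(yEquiv _ X).symm x, ⟨?_, ?_⟩, ?_⟩
    · apply (yEquiv _ X).injective
      rw [yEquiv_naturality_left, Equiv.apply_symm_apply, hx1]
    · apply (yEquiv _ X).injective
      rw [yEquiv_naturality_left, Equiv.apply_symm_apply, hx2]
    · rintro c ⟨hc1, hc2⟩
      apply (yEquiv _ X).injective
      rw [Equiv.apply_symm_apply]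
      apply h1
      constructor
      · rw [hx1, ← hc1, yEquiv_naturality_left]
      · rw [hx2, ← hc2, yEquiv_naturality_left]
  refine ⟨⟨w'⟩, ⟨PushoutCocone.IsColimit.mk w'
    (fun s => (key s.pt s.inl s.inr s.condition).choose)
    (fun s => (key s.pt s.inl s.inr s.condition).choose_spec.1.1)
    (fun s => (key s.pt s.inl s.inr s.condition).choose_spec.1.2)
    (fun s m h1 h2 => (key s.pt s.inl s.inr s.condition).choose_spec.2 m ⟨h1, h2⟩)⟩⟩

/-- `y` preserves the squares defining globular sums. -/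
theorem y_isPushout {l : ℕ} (t : Tab l) (j i : ℕ) (hl : j < l) (hi : j < i) :
    IsPushout ((C.y m).map (C.J.map (face true hl ≫ lastIncl t)))
      ((C.y m).map (C.J.map (face false hi)))
      ((C.y m).map (C.J.map (inl t j i hl hi))) ((C.y m).map (C.J.map (inr t j i hl hi))) :=
  C.y_isPushout_of m _ _ _ _ (C.isPushout t j i hl hi).w (fun X => X.2.1 t j i hl hi)

/-- The discs of `Md C m`. -/
noncomputable def F : Globe ⥤ C.Md m := C.discF ⋙ C.y m

/-- The representable objects are globular sums. -/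
theorem isGSum_y {l : ℕ} (t : Tab l) :
    IsGSum (C.F m) ((C.y m).obj (.of ⟨t⟩)) l ((C.y m).map (C.J.map (lastIncl t))) := by
  induction t with
  | disc i =>
    apply IsGSum.disc
    have : IsIso (C.J.map (𝟙 (disc i))) := inferInstance
    exact inferInstanceAs (IsIso ((C.y m).map (C.J.map (𝟙 (disc i)))))
  | glue t j i hl hi ih =>
    rw [lastIncl_glue]
    refine IsGSum.glue ih hl hi ((C.y m).map (C.J.map (inl t j i hl hi))) _ ?_
    have := C.y_isPushout m t j i hl hi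
    rw [C.J.map_comp, (C.y m).map_comp] at this
    exact this

/-- Globular sums are invariant under isomorphisms. -/
lemma _root_.Vale.Agent.P259.IsGSum.of_iso {𝓜 : Type*} [Category* 𝓜] {F : Globe ⥤ 𝓜} {X Y : 𝓜} {d : ℕ}
    {e : cob F d ⟶ X} (h : IsGSum F X d e) (β : X ⟶ Y) [IsIso β] : IsGSum F Y d (e ≫ β) := by
  cases h with
  | disc i X e h => exact IsGSum.disc _ _ _ inferInstance
  | glue h hj hi inl inr sq =>
    refine IsGSum.glue h hj hi (inl ≫ β) _ ?_
    exact sq.of_iso (Iso.refl _) (Iso.refl _) (Iso.refl _) (asIso β) (by simp) (by simp)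
      (by simp) (by simp)

lemma exists_iso_of_isPushout {𝓜 : Type*} [Category* 𝓜] {A B D E X E' : 𝓜} {f : A ⟶ B}
    {g : A ⟶ D} {p : B ⟶ E} {q : D ⟶ E} (sq₁ : IsPushout f g p q) {α : B ⟶ X} (hα : IsIso α)
    {f' : A ⟶ X} (hf : f ≫ α = f')
    {p' : X ⟶ E'} {q' : D ⟶ E'} (sq : IsPushout f' g p' q') :
    ∃ β : E ⟶ E', IsIso β ∧ q ≫ β = q' := by
  have sq₂ : IsPushout f' g (inv α ≫ p) q :=
    sq₁.of_iso (Iso.refl _) (asIso α) (Iso.refl _) (Iso.refl _) (by simpa using hf) (by simp)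
      (by simp) (by simp)
  exact ⟨(sq₂.isoIsPushout _ _ sq).hom, inferInstance, sq₂.inr_isoIsPushout_hom _ _ sq⟩

/-- All globular sums of discs are representable. -/
theorem isGSum_iff {X : C.Md m} {d : ℕ} (e : cob (C.F m) d ⟶ X) :
    IsGSum (C.F m) X d e ↔ ∃ (t : Tab d) (α : (C.y m).obj (.of ⟨t⟩) ⟶ X), IsIso α ∧
      (C.y m).map (C.J.map (lastIncl t)) ≫ α = e := by
  constructor
  · intro h
    induction h with
    | disc i X e h =>
      refine ⟨.disc i, e, h, ?_⟩
      have : (C.y m).map (C.J.map (𝟙 (disc i))) = 𝟙 _ := by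
        rw [C.J.map_id]
        exact (C.y m).map_id _
      exact (congrArg (fun z => z ≫ e) this).trans (Category.id_comp _)
    | @glue X d e h j i hj hi X' inl' inr' sq ih =>
      obtain ⟨t, α, hα, rfl⟩ := ih
      have sq1 := C.y_isPushout m t j i hj hi
      rw [C.J.map_comp, (C.y m).map_comp] at sq1
      obtain ⟨β, hβ, hβ'⟩ := exists_iso_of_isPushout sq1 hα (Category.assoc _ _ _) sq
      exact ⟨.glue t j i hj hi, β, hβ, hβ'⟩
  · rintro ⟨t, α, hα, rfl⟩
    exact (C.isGSum_y m t).of_iso α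


variable {C m} in
/-- Parallel cells above dimension `m` are equal. -/
lemma thin_hom {X : C.Md m} {k : ℕ} (hk : m ≤ k) {u v : cob (C.F m) (k + 1) ⟶ X}
    (h1 : sg (C.F m) k ≫ u = sg (C.F m) k ≫ v) (h2 : tg (C.F m) k ≫ u = tg (C.F m) k ≫ v) :
    u = v := by
  apply (yEquiv (.of (disc (k + 1))) X).injective
  apply X.2.2 k hk
  · exact (yEquiv_naturality_left _ _).symm.trans ((congrArg (yEquiv (.of (disc k)) X) h1).trans
      (yEquiv_naturality_left _ _))
  · exact (yEquiv_naturality_left _ _).symm.trans ((congrArg (yEquiv (.of (disc k)) X) h2).trans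
      (yEquiv_naturality_left _ _))

variable {C} in
/-- A degeneracy operation. -/
lemma exists_kappa_disc (hC : C.IsCoherator) (k : ℕ) :
    ∃ κ : cob (C.F m) (k + 1) ⟶ cob (C.F m) k,
      sg (C.F m) k ≫ κ = 𝟙 _ ∧ tg (C.F m) k ≫ κ = 𝟙 _ := by
  obtain ⟨κ, h1, h2⟩ : ∃ κ : C.Hom (disc (k + 1)) (disc k), C.IsLift (C.id _) (C.id _) κ := by
    apply hC.lifts
    cases k
    · trivial
    · exact ⟨rfl, rfl⟩
  refine ⟨(C.y m).map (X := Obj.of (disc (k + 1))) (Y := Obj.of (disc k)) κ, ?_, ?_⟩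
  · refine ((C.y m).map_comp _ _).symm.trans ?_
    refine (congrArg (fun z => (C.y m).map (X := Obj.of (disc k)) (Y := Obj.of (disc k)) z)
      h1).trans ?_
    exact (C.y m).map_id _
  · refine ((C.y m).map_comp _ _).symm.trans ?_
    refine (congrArg (fun z => (C.y m).map (X := Obj.of (disc k)) (Y := Obj.of (disc k)) z)
      h2).trans ?_
    exact (C.y m).map_id _

lemma exists_pred_of_le {k : ℕ} (hk : m + 1 ≤ k) : ∃ k', k = k' + 1 ∧ m ≤ k' := by
  cases k with
  | zero =>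
    exfalso
    simp at hk
  | succ k =>
    refine ⟨k, rfl, ?_⟩
    have h : m + 1 ≤ (k : ℕ∞) + 1 := by exact_mod_cast hk
    exact (ENat.add_le_add_iff_right (by simp)).1 h

/-- In dimension above `m` the cosource maps are isomorphisms. -/
theorem isIso_sg (hC : C.IsCoherator) (k : ℕ) (hk : m + 1 ≤ k) : IsIso (sg (C.F m) k) := by
  obtain ⟨k, rfl, hk'⟩ := exists_pred_of_le m hk
  have hk'' : m ≤ ((k + 1 : ℕ) : ℕ∞) := hk'.trans (by exact_mod_cast Nat.le_succ k)
  have hst : sg (C.F m) (k + 1) = tg (C.F m) (k + 1) :=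
    thin_hom hk' (sg_sg _ _) (tg_sg _ _)
  obtain ⟨κ, hκ1, hκ2⟩ := exists_kappa_disc m hC (k + 1)
  refine ⟨κ, hκ1, ?_⟩
  apply thin_hom hk''
  · rw [← Category.assoc, hκ1, Category.id_comp, Category.comp_id]
  · rw [← Category.assoc, hκ2, Category.id_comp, Category.comp_id, hst]

/-- In dimension above `m` the boundary maps are epimorphisms. -/
theorem epi_bd (k : ℕ) (hk : m + 1 ≤ k) : Epi (bd (C.F m) k) := by
  obtain ⟨k, rfl, hk'⟩ := exists_pred_of_le m hk
  constructor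
  intro Z u v h
  obtain ⟨h1, h2⟩ := (bd_comp_eq_iff (C.F m) u v).1 h
  exact thin_hom hk' h1 h2

/-- The base of the induction (needs contractibility of the representables). -/
theorem hypH_base (hC : C.IsCoherator) (m : ℕ) (h : GContr (C.F m)) : HypH (C.F m) (m + 1) := by
  intro X d e he Y f hf
  have hfib : ∀ ⦃A B : C.Md m⦄ (g : A ⟶ B), Fib (C.F m) (m + 1) g := by
    intro A B g U V i hi
    obtain ⟨k, hk⟩ := hi
    have : IsIso (sg (C.F m) k) := C.isIso_sg m hC k (by exact_mod_cast hk)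
    infer_instance
  have hl : HasLiftingProperty f f := hf f (hfib f)
  have sq : CommSq (𝟙 X) f f (𝟙 Y) := ⟨by simp⟩
  have : IsIso f := ⟨sq.lift, sq.fac_left, sq.fac_right⟩
  intro j β
  obtain ⟨w, hw⟩ := h e he j (β ≫ inv f)
  exact ⟨w ≫ f, by rw [← Category.assoc, hw, Category.assoc, IsIso.inv_hom_id, Category.comp_id]⟩


/-- The inclusion preserves filtered colimits. -/
instance accessible_ι : (C.isMd m).ι.IsCardinalAccessible Cardinal.aleph0.{0} := by
  rw [C.isMd_eq m]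
  exact MorphismProperty.isCardinalAccessible_ι_isLocal _ _ (C.presentable_locMaps m)

instance presentable_y (S : C.Obj) :
    IsCardinalPresentable ((C.y m).obj S) Cardinal.aleph0.{0} := by
  let e : coyoneda.obj (op ((C.y m).obj S)) ≅
      (C.isMd m).ι ⋙ (evaluation C.Objᵒᵖ (Type)).obj (op S) :=
    NatIso.ofComponents (fun X => Equiv.toIso (yEquiv S X)) (by
      intro X Y f
      ext u
      exact yEquiv_naturality_right u f)
  have : (coyoneda.obj (op ((C.y m).obj S))).IsCardinalAccessible Cardinal.aleph0.{0} :=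
    Functor.isCardinalAccessible_of_natIso e.symm _
  exact this

instance presentable_cob (j : ℕ) :
    IsCardinalPresentable (cob (C.F m) j) Cardinal.aleph0.{0} :=
  C.presentable_y m _

/-- Pushouts of finitely presentable objects. -/
lemma presentable_of_isPushout {A B D E : C.Md m} {f : A ⟶ B} {g : A ⟶ D} {p : B ⟶ E}
    {q : D ⟶ E} (sq : IsPushout f g p q)
    [IsCardinalPresentable A Cardinal.aleph0.{0}]
    [IsCardinalPresentable B Cardinal.aleph0.{0}] [IsCardinalPresentable D Cardinal.aleph0.{0}] :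
    IsCardinalPresentable E Cardinal.aleph0.{0} := by
  have : ∀ k, IsCardinalPresentable ((span f g).obj k) Cardinal.aleph0.{0} := by
    rintro (_ | _ | _) <;> dsimp <;> infer_instance
  exact isCardinalPresentable_of_isColimit _ sq.isColimit _
    (hasCardinalLT_of_finite _ _ le_rfl)

instance presentable_sph (j : ℕ) :
    IsCardinalPresentable (sph (C.F m) j) Cardinal.aleph0.{0} := by
  induction j with
  | zero =>
    have : ∀ k, IsCardinalPresentable ((Functor.empty (C.Md m)).obj k) Cardinal.aleph0.{0} := by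
      rintro ⟨⟨⟩⟩
    exact isCardinalPresentable_of_isColimit _ (isInitialSphZero (C.F m)) _
      (hasCardinalLT_of_finite _ _ le_rfl)
  | succ j ih =>
    exact C.presentable_of_isPushout m (isPushout_sph (C.F m) j)

attribute [local instance] Cardinal.orderBotAleph0OrdToType

instance isSmall_sgs (n : ℕ) : MorphismProperty.IsSmall.{0} (sgs (C.F m) n) :=
  MorphismProperty.isSmall_ofHoms ..

instance isSmall_bds : MorphismProperty.IsSmall.{0} (bds (C.F m)) :=
  MorphismProperty.isSmall_ofHoms ..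

instance cardSmall_sgs (n : ℕ) :
    MorphismProperty.IsCardinalForSmallObjectArgument (sgs (C.F m) n) Cardinal.aleph0.{0} where
  preservesColimit {A B X Y} i hi f hf := by
    have : IsFinitelyPresentable.{0} A := by
      obtain ⟨k⟩ := hi
      exact C.presentable_cob m k.1
    infer_instance

instance cardSmall_bds :
    MorphismProperty.IsCardinalForSmallObjectArgument (bds (C.F m)) Cardinal.aleph0.{0} where
  preservesColimit {A B X Y} i hi f hf := by
    have : IsFinitelyPresentable.{0} A := by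
      obtain ⟨k⟩ := hi
      exact C.presentable_sph m k
    infer_instance

instance smallObj_sgs (n : ℕ) :
    MorphismProperty.HasSmallObjectArgument.{0} (sgs (C.F m) n) :=
  ⟨.aleph0, inferInstance, inferInstance, inferInstance⟩

instance smallObj_bds : MorphismProperty.HasSmallObjectArgument.{0} (bds (C.F m)) :=
  ⟨.aleph0, inferInstance, inferInstance, inferInstance⟩

/-- Small object argument for anodyne maps. -/
theorem exists_fact_an {X Y : C.Md m} (f : X ⟶ Y) : ∃ (Z : C.Md m) (i : X ⟶ Z) (p : Z ⟶ Y),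
    AN (C.F m) 0 i ∧ Fib (C.F m) 0 p ∧ i ≫ p = f := by
  let d := MorphismProperty.factorizationData (sgs (C.F m) 0).rlp.llp (sgs (C.F m) 0).rlp f
  exact ⟨d.Z, d.i, d.p, d.hi, d.hp, d.fac⟩

/-- Small object argument for cofibrations. -/
theorem exists_fact_cof {X Y : C.Md m} (f : X ⟶ Y) : ∃ (Z : C.Md m) (i : X ⟶ Z) (p : Z ⟶ Y),
    Cof (C.F m) i ∧ TrivFib (C.F m) p ∧ i ≫ p = f := by
  let d := MorphismProperty.factorizationData (bds (C.F m)).rlp.llp (bds (C.F m)).rlp f
  exact ⟨d.Z, d.i, d.p, d.hi, d.hp, d.fac⟩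

end GlobExt

end Vale.Agent.P259
end
end

section

section

open CategoryTheory Limits Opposite

namespace Vale.Agent.P259

open Theta0

/-- A map from a disc to a glued globular sum factors through one of the two parts. -/
lemma Theta0.disc_factors {l l' : ℕ} (t : Tab l) (j i : ℕ) (hl : j < l) (hi : j < i)
    (ψ : disc l' ⟶ Theta0.glue t j i hl hi) :
    (∃ ψ' : disc l' ⟶ (⟨t⟩ : Theta0), ψ = ψ' ≫ inl t j i hl hi) ∨
    (∃ ψ' : disc l' ⟶ disc i, ψ = ψ' ≫ inr t j i hl hi) := by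
  have h1 := (Theta0.isPushout t j i hl hi).map ((evaluation _ _).obj (op (Globe.D l')))
  let ψ0 : yoneda.obj (Globe.D l') ⟶ toG.obj (Theta0.glue t j i hl hi) := ψ
  rcases Types.eq_or_eq_of_isPushout h1 (yonedaEquiv ψ0) with ⟨x, hx⟩ | ⟨x, hx⟩
  · left
    have h2 : ψ0 = yonedaEquiv.symm x ≫ toG.map (inl t j i hl hi) := by
      apply yonedaEquiv.injective
      rw [yonedaEquiv_comp, Equiv.apply_symm_apply]
      exact hx.symm
    exact ⟨(yonedaEquiv.symm x : yoneda.obj (Globe.D l') ⟶ _), h2⟩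
  · right
    have h2 : ψ0 = yonedaEquiv.symm x ≫ toG.map (inr t j i hl hi) := by
      apply yonedaEquiv.injective
      rw [yonedaEquiv_comp, Equiv.apply_symm_apply]
      exact hx.symm
    exact ⟨(yonedaEquiv.symm x : yoneda.obj (Globe.D l') ⟶ _), h2⟩

/-- Maps between discs in `Θ₀` come from the globe category. -/
lemma Theta0.disc_hom {l k : ℕ} (ψ : disc l ⟶ disc k) :
    ∃ f : Globe.D l ⟶ Globe.D k, ψ = discMap f := by
  refine ⟨yoneda.preimage (X := Globe.D l) (Y := Globe.D k) ψ, ?_⟩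
  exact (yoneda.map_preimage (X := Globe.D l) (Y := Globe.D k) ψ).symm

/-- Maps `D_l ⟶ D_k` in `Θ₀` with `l < k` are faces. -/
lemma Theta0.disc_hom_lt {l k : ℕ} (h : l < k) (ψ : disc l ⟶ disc k) :
    ∃ b : Bool, ψ = face b h := by
  obtain ⟨f, rfl⟩ := Theta0.disc_hom ψ
  change Globe.Hom l k at f
  cases f with
  | id => exact absurd h (lt_irrefl _)
  | face b h' => exact ⟨b, rfl⟩

namespace GlobExt

variable {C : GlobExt}

/-- Two elements of `X(S)` agree in dimension `≤ i` if their restrictions along all maps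
`D_l ⟶ S` of `Θ₀` with `l ≤ i` are equal. -/
def AgreeUpTo (X : C.Objᵒᵖ ⥤ Type) (i : ℕ) {S : Theta0} (x x' : X.obj (op (.of S))) : Prop :=
  ∀ (l : ℕ), l ≤ i → ∀ ψ : disc l ⟶ S, X.map (C.J.map ψ).op x = X.map (C.J.map ψ).op x'

/-- Functoriality of the restriction of elements. -/
lemma map_map (X : C.Objᵒᵖ ⥤ Type) {S T U : C.Obj} (f : S ⟶ T) (g : T ⟶ U) (x : X.obj (op U)) :
    X.map f.op (X.map g.op x) = X.map (f ≫ g).op x := by
  rw [op_comp, X.map_comp]
  rfl

lemma map_J_comp (X : C.Objᵒᵖ ⥤ Type) {S T U : Theta0} (f : S ⟶ T) (g : T ⟶ U)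
    (x : X.obj (op (.of U))) :
    X.map (C.J.map f).op (X.map (C.J.map g).op x) = X.map (C.J.map (f ≫ g)).op x := by
  rw [C.J.map_comp]
  exact map_map X _ _ x

lemma map_J_id (X : C.Objᵒᵖ ⥤ Type) {S : Theta0} (x : X.obj (op (.of S))) :
    X.map (C.J.map (𝟙 S)).op x = x := by
  rw [C.J.map_id, op_id, X.map_id]
  rfl

lemma AgreeUpTo.restrict {X : C.Objᵒᵖ ⥤ Type} {i : ℕ} {S T : Theta0} (f : S ⟶ T)
    {x x' : X.obj (op (.of T))} (h : AgreeUpTo X i x x') :
    AgreeUpTo X i (X.map (C.J.map f).op x) (X.map (C.J.map f).op x') := by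
  intro l hl ψ
  rw [map_J_comp, map_J_comp]
  exact h l hl (ψ ≫ f)

lemma AgreeUpTo.refl {X : C.Objᵒᵖ ⥤ Type} {i : ℕ} {S : Theta0} (x : X.obj (op (.of S))) :
    AgreeUpTo X i x x := fun _ _ _ => rfl

lemma AgreeUpTo.symm {X : C.Objᵒᵖ ⥤ Type} {i : ℕ} {S : Theta0} {x x' : X.obj (op (.of S))}
    (h : AgreeUpTo X i x x') : AgreeUpTo X i x' x := fun l hl ψ => (h l hl ψ).symm

lemma AgreeUpTo.trans {X : C.Objᵒᵖ ⥤ Type} {i : ℕ} {S : Theta0}
    {x x' x'' : X.obj (op (.of S))} (h : AgreeUpTo X i x x') (h' : AgreeUpTo X i x' x'') :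
    AgreeUpTo X i x x'' := fun l hl ψ => (h l hl ψ).trans (h' l hl ψ)

lemma AgreeUpTo.eq_disc {X : C.Objᵒᵖ ⥤ Type} {i l : ℕ} (hl : l ≤ i)
    {x x' : X.obj (op (.of (disc l)))} (h : AgreeUpTo X i x x') : x = x' := by
  have := h l hl (𝟙 _)
  rwa [map_J_id, map_J_id] at this

lemma IsSegal.ext_aux {X : C.Objᵒᵖ ⥤ Type} (hX : C.IsSegal X) {l : ℕ} (t : Tab l) {i : ℕ}
    (hS : t.dim ≤ i) {x x' : X.obj (op (.of ⟨t⟩))} (h : AgreeUpTo X i x x') : x = x' := by
  induction t with
  | disc k => exact AgreeUpTo.eq_disc (l := k) hS h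
  | glue t j k hl hi ih =>
    have h1 : t.dim ≤ i := (le_max_left _ _).trans hS
    have h2 : k ≤ i := (le_max_right _ _).trans hS
    apply Types.ext_of_isPullback (hX t j k hl hi)
    · exact ih h1 (h.restrict (inl t j k hl hi))
    · exact AgreeUpTo.eq_disc h2 (h.restrict (inr t j k hl hi))

/-- Restrictions to discs of dimension at most `dim S` are enough. -/
theorem IsSegal.ext_dim {X : C.Objᵒᵖ ⥤ Type} (hX : C.IsSegal X) {S : Theta0} {i : ℕ}
    (hS : S.dim ≤ i) {x x' : X.obj (op (.of S))} (h : AgreeUpTo X i x x') : x = x' :=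
  hX.ext_aux S.tab hS h

/-- Elements of a Segal presheaf are determined by their restrictions to discs. -/
theorem IsSegal.ext {X : C.Objᵒᵖ ⥤ Type} (hX : C.IsSegal X) {S : Theta0}
    {x x' : X.obj (op (.of S))} (h : ∀ i, AgreeUpTo X i x x') : x = x' :=
  hX.ext_dim le_rfl (h S.dim)

/-- The action of operations on elements. -/
def act (X : C.Objᵒᵖ ⥤ Type) {S T : Theta0} (φ : C.Hom S T) (x : X.obj (op (.of T))) :
    X.obj (op (.of S)) :=
  X.map (Quiver.Hom.op (X := (.of S : C.Obj)) (Y := .of T) φ) x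

lemma act_act (X : C.Objᵒᵖ ⥤ Type) {S T U : Theta0} (φ : C.Hom S T) (ψ : C.Hom T U)
    (x : X.obj (op (.of U))) : act X φ (act X ψ x) = act X (C.comp φ ψ) x :=
  map_map X (S := .of S) (T := .of T) (U := .of U) φ ψ x

lemma act_id (X : C.Objᵒᵖ ⥤ Type) {S : Theta0} (x : X.obj (op (.of S))) :
    act X (C.id S) x = x := by
  have h : X.map (Quiver.Hom.op (𝟙 (.of S : C.Obj))) x = x := by
    rw [op_id, X.map_id]
    rfl
  exact h

lemma AgreeUpTo.act_eq {X : C.Objᵒᵖ ⥤ Type} {i : ℕ} {S : Theta0} {x x' : X.obj (op (.of S))}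
    (h : AgreeUpTo X i x x') {l : ℕ} (hl : l ≤ i) (ψ : disc l ⟶ S) :
    act X (C.incl ψ) x = act X (C.incl ψ) x' := h l hl ψ

lemma AgreeUpTo.of_act {X : C.Objᵒᵖ ⥤ Type} {i : ℕ} {S : Theta0} {x x' : X.obj (op (.of S))}
    (h : ∀ l, l ≤ i → ∀ ψ : disc l ⟶ S, act X (C.incl ψ) x = act X (C.incl ψ) x') :
    AgreeUpTo X i x x' := fun l hl ψ => h l hl ψ

/-- The property of operations to preserve agreement up to each dimension. -/
def Preserves (C : GlobExt) {S T : Theta0} (φ : C.Hom S T) : Prop :=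
  ∀ (X : C.Objᵒᵖ ⥤ Type), C.IsSegal X → ∀ (i : ℕ) (x x' : X.obj (op (.of T))),
    AgreeUpTo X i x x' → AgreeUpTo X i (act X φ x) (act X φ x')

lemma Preserves.id (S : Theta0) : Preserves C (C.id S) := by
  intro X _ i x x' h
  rw [act_id, act_id]
  exact h

lemma Preserves.comp {S T U : Theta0} {f : C.Hom S T} {g : C.Hom T U} (hf : Preserves C f)
    (hg : Preserves C g) : Preserves C (C.comp f g) := by
  intro X hX i x x' h
  rw [← act_act, ← act_act]
  exact hf X hX i _ _ (hg X hX i x x' h)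

lemma Preserves.incl {S T : Theta0} (f : S ⟶ T) : Preserves C (C.incl f) := by
  intro X _ i x x' h
  exact h.restrict f

lemma Preserves.of_glue {l : ℕ} (t : Tab l) (j i : ℕ) (hl : j < l) (hi : j < i) {U : Theta0}
    {c : C.Hom (Theta0.glue t j i hl hi) U} (ha : Preserves C (C.comp (C.incl (inl t j i hl hi)) c))
    (hb : Preserves C (C.comp (C.incl (inr t j i hl hi)) c)) : Preserves C c := by
  intro X hX k x x' h
  apply AgreeUpTo.of_act
  intro l' hl' ψ
  rcases Theta0.disc_factors t j i hl hi ψ with ⟨ψ', rfl⟩ | ⟨ψ', rfl⟩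
  · have h1 := (ha X hX k x x' h).act_eq hl' ψ'
    rw [act_act, act_act] at h1
    rw [act_act, act_act, C.incl_comp, C.assoc]
    exact h1
  · have h1 := (hb X hX k x x' h).act_eq hl' ψ'
    rw [act_act, act_act] at h1
    rw [act_act, act_act, C.incl_comp, C.assoc]
    exact h1

/-- The sub-extension of operations which preserve agreement. -/
noncomputable def presExt (C : GlobExt) : GlobExt where
  Hom S T := {φ : C.Hom S T // Preserves C φ}
  id S := ⟨C.id S, Preserves.id S⟩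
  comp f g := ⟨C.comp f.1 g.1, f.2.comp g.2⟩
  id_comp f := Subtype.ext (C.id_comp f.1)
  comp_id f := Subtype.ext (C.comp_id f.1)
  assoc f g h := Subtype.ext (C.assoc f.1 g.1 h.1)
  incl f := ⟨C.incl f, Preserves.incl f⟩
  incl_id S := Subtype.ext (C.incl_id S)
  incl_comp f g := Subtype.ext (C.incl_comp f g)
  glue t j i hl hi U a b hab := by
    obtain ⟨c, ⟨hc1, hc2⟩, huniq⟩ := C.glue t j i hl hi U a.1 b.1 (congrArg Subtype.val hab)
    have hc : Preserves C c := Preserves.of_glue t j i hl hi (hc1 ▸ a.2) (hc2 ▸ b.2)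
    refine ⟨⟨c, hc⟩, ⟨Subtype.ext hc1, Subtype.ext hc2⟩, ?_⟩
    rintro ⟨c', hc'⟩ ⟨h1, h2⟩
    exact Subtype.ext (huniq c' ⟨congrArg Subtype.val h1, congrArg Subtype.val h2⟩)

/-- The inclusion of the sub-extension. -/
noncomputable def presIncl (C : GlobExt) : Map (presExt C) C where
  map f := f.1
  map_id _ := rfl
  map_comp _ _ := rfl
  map_incl _ := rfl

lemma Preserves.of_lift {n : ℕ} {S : Theta0} (hS : S.dim ≤ n + 1) {u v : C.Hom (disc n) S}
    (hu : Preserves C u) (hv : Preserves C v) {w : C.Hom (disc (n + 1)) S}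
    (hw : C.IsLift u v w) : Preserves C w := by
  intro X hX i x x' h
  rcases Nat.lt_or_ge n i with hi | hi
  · have : x = x' := hX.ext_dim (hS.trans hi) h
    rw [this]
    exact AgreeUpTo.refl _
  · apply AgreeUpTo.of_act
    intro l hl ψ
    have hln : l < n + 1 := by omega
    obtain ⟨b, rfl⟩ := Theta0.disc_hom_lt hln ψ
    have key : Preserves C (C.comp (C.incl (face b hln)) w) := by
      rcases Nat.lt_or_ge l n with h1 | h1
      · have e : C.comp (C.incl (face b hln)) w = C.comp (C.incl (face b h1)) u := by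
          rw [← hw.1, ← C.assoc, ← C.incl_comp, face_comp_face]
        rw [e]
        exact (Preserves.incl _).comp hu
      · have h2 : l = n := by omega
        subst h2
        cases b with
        | false =>
          have e : C.comp (C.incl (face false hln)) w = u := hw.1
          rw [e]
          exact hu
        | true =>
          have e : C.comp (C.incl (face true hln)) w = v := hw.2
          rw [e]
          exact hv
    rw [act_act, act_act]
    exact (key X hX i x x' h).eq_disc hl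

lemma presIncl_liftsAlong : LiftsAlong (presIncl C) := by
  intro n S hS u v huv w hw
  exact ⟨⟨w, Preserves.of_lift hS u.2 v.2 hw⟩, ⟨Subtype.ext hw.1, Subtype.ext hw.2⟩, rfl⟩

/-- All operations of a coherator preserve agreement. -/
lemma preserves (hC : C.IsCoherator) {S T : Theta0} (φ : C.Hom S T) : Preserves C φ := by
  obtain ⟨T⟩ := hC.tower
  obtain ⟨s, hs⟩ := T.exists_section (presIncl C) presIncl_liftsAlong
  have h1 : (s.map φ).1 = φ := congrArg (fun F : Map C C => F.map φ) hs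
  exact h1 ▸ (s.map φ).2

/-- The dimension property: all operations of a coherator preserve agreement up to dimension
`i`. -/
theorem AgreeUpTo.map (hC : C.IsCoherator) {X : C.Objᵒᵖ ⥤ Type} (hX : C.IsSegal X) {i : ℕ}
    {S T : Theta0} (φ : (.of S : C.Obj) ⟶ .of T) {x x' : X.obj (op (.of T))}
    (h : AgreeUpTo X i x x') : AgreeUpTo X i (X.map φ.op x) (X.map φ.op x') :=
  preserves hC φ X hX i x x' h

/-! ### Truncation -/

lemma Parallel.refl {S : Theta0} : ∀ {n : ℕ} (f : C.Hom (disc n) S), C.Parallel f f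
  | 0, _ => trivial
  | _ + 1, _ => ⟨rfl, rfl⟩

/-- Iterated degeneracies. -/
lemma exists_degen (hC : C.IsCoherator) {j i : ℕ} (h : j < i) :
    ∃ κ : C.Hom (disc i) (disc j), C.comp (C.incl (face false h)) κ = C.id _ := by
  induction i with
  | zero => omega
  | succ i ih =>
    rcases Nat.lt_or_ge j i with h1 | h1
    · obtain ⟨κ, hκ⟩ := ih h1
      obtain ⟨κ', hκ', -⟩ := hC.lifts (C.id (disc i)) (C.id (disc i)) (Parallel.refl _)
      refine ⟨C.comp κ' κ, ?_⟩
      have e : C.incl (face false h) = C.comp (C.incl (face false h1)) (C.incl (σ i)) := by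
        rw [← C.incl_comp, face_comp_face]
      rw [e, C.assoc, ← C.assoc (C.incl (σ i)), hκ', C.id_comp, hκ]
    · have h2 : j = i := by omega
      subst h2
      obtain ⟨κ, hκ, -⟩ := hC.lifts (C.id (disc j)) (C.id (disc j)) (Parallel.refl _)
      exact ⟨κ, hκ⟩

/-- The equivalence relation defining the truncation. -/
def truncSetoid (X : C.Objᵒᵖ ⥤ Type) (m : ℕ) (T : C.Objᵒᵖ) : Setoid (X.obj T) where
  r x x' := AgreeUpTo X m (S := T.unop.sum) x x'
  iseqv := ⟨fun x => AgreeUpTo.refl (S := T.unop.sum) x, fun h => AgreeUpTo.symm h,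
    fun h h' => AgreeUpTo.trans h h'⟩

/-- A wrapper around `IsSegal`. -/
structure Seg (X : C.Objᵒᵖ ⥤ Type) : Prop where
  isSegal : C.IsSegal X

lemma Seg.ext_glue {X : C.Objᵒᵖ ⥤ Type} (hX : Seg X) {l : ℕ} (t : Tab l) (j i : ℕ) (hl : j < l)
    (hi : j < i) {x x' : X.obj (op (.of (Theta0.glue t j i hl hi)))}
    (h1 : act X (C.incl (inl t j i hl hi)) x = act X (C.incl (inl t j i hl hi)) x')
    (h2 : act X (C.incl (inr t j i hl hi)) x = act X (C.incl (inr t j i hl hi)) x') : x = x' :=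
  Types.ext_of_isPullback (hX.isSegal t j i hl hi) h1 h2

lemma Seg.exists_glue {X : C.Objᵒᵖ ⥤ Type} (hX : Seg X) {l : ℕ} (t : Tab l) (j i : ℕ)
    (hl : j < l) (hi : j < i) (x : X.obj (op (.of ⟨t⟩))) (z : X.obj (op (.of (disc i))))
    (h : act X (C.incl (face true hl ≫ lastIncl t)) x = act X (C.incl (face false hi)) z) :
    ∃ y : X.obj (op (.of (Theta0.glue t j i hl hi))), act X (C.incl (inl t j i hl hi)) y = x ∧
      act X (C.incl (inr t j i hl hi)) y = z :=
  Types.exists_of_isPullback (hX.isSegal t j i hl hi) x z h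

lemma Seg.of {X : C.Objᵒᵖ ⥤ Type}
    (h1 : ∀ {l : ℕ} (t : Tab l) (j i : ℕ) (hl : j < l) (hi : j < i)
      (x x' : X.obj (op (.of (Theta0.glue t j i hl hi)))),
      act X (C.incl (inl t j i hl hi)) x = act X (C.incl (inl t j i hl hi)) x' →
      act X (C.incl (inr t j i hl hi)) x = act X (C.incl (inr t j i hl hi)) x' → x = x')
    (h2 : ∀ {l : ℕ} (t : Tab l) (j i : ℕ) (hl : j < l) (hi : j < i) (x : X.obj (op (.of ⟨t⟩)))
      (z : X.obj (op (.of (disc i)))),
      act X (C.incl (face true hl ≫ lastIncl t)) x = act X (C.incl (face false hi)) z →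
      ∃ y : X.obj (op (.of (Theta0.glue t j i hl hi))), act X (C.incl (inl t j i hl hi)) y = x ∧
      act X (C.incl (inr t j i hl hi)) y = z) : Seg X := by
  refine ⟨?_⟩
  intro l t j i hl hi
  rw [Types.isPullback_iff]
  refine ⟨?_, fun x x' h => h1 t j i hl hi x x' h.1 h.2, fun x z h => h2 t j i hl hi x z h⟩
  rw [← Functor.map_comp, ← Functor.map_comp, ← op_comp, ← op_comp]
  rw [(C.isPushout t j i hl hi).w]

/-- The presheaf of classes of elements. -/
noncomputable def trunc (hC : C.IsCoherator) (m : ℕ) (X : C.Objᵒᵖ ⥤ Type) (hX : Seg X) :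
    C.Objᵒᵖ ⥤ Type where
  obj T := Quotient (truncSetoid X m T)
  map {T T'} f := TypeCat.ofHom (Quotient.map (X.map f) (fun x x' h =>
    AgreeUpTo.map hC hX.isSegal (S := T'.unop.sum) (T := T.unop.sum) f.unop h))
  map_id T := by
    ext x
    obtain ⟨x, rfl⟩ := Quotient.exists_rep x
    change Quotient.mk (truncSetoid X m T) (X.map (𝟙 T) x) = Quotient.mk (truncSetoid X m T) x
    rw [X.map_id]
    rfl
  map_comp {T T' T''} f g := by
    ext x
    obtain ⟨x, rfl⟩ := Quotient.exists_rep x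
    change Quotient.mk (truncSetoid X m T'') (X.map (f ≫ g) x) =
      Quotient.mk (truncSetoid X m T'') (X.map g (X.map f x))
    rw [X.map_comp]
    rfl

/-- The projection to the truncation. -/
noncomputable def truncMap (hC : C.IsCoherator) (m : ℕ) (X : C.Objᵒᵖ ⥤ Type)
    (hX : Seg X) : X ⟶ trunc hC m X hX where
  app T := TypeCat.ofHom (fun x => Quotient.mk (truncSetoid X m T) x)
  naturality T T' f := by
    ext x
    rfl

/-- The class of an element. -/
noncomputable def tr (hC : C.IsCoherator) (m : ℕ) {X : C.Objᵒᵖ ⥤ Type} (hX : Seg X) {S : Theta0}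
    (x : X.obj (op (.of S))) : (trunc hC m X hX).obj (op (.of S)) :=
  Quotient.mk (truncSetoid X m (op (.of S))) x

lemma tr_eq_iff (hC : C.IsCoherator) (m : ℕ) {X : C.Objᵒᵖ ⥤ Type} (hX : Seg X) {S : Theta0}
    (x x' : X.obj (op (.of S))) : tr hC m hX x = tr hC m hX x' ↔ AgreeUpTo X m x x' :=
  Quotient.eq (r := truncSetoid X m (op (.of S)))

lemma tr_surjective (hC : C.IsCoherator) (m : ℕ) {X : C.Objᵒᵖ ⥤ Type} (hX : Seg X) {S : Theta0}
    (z : (trunc hC m X hX).obj (op (.of S))) : ∃ x, tr hC m hX x = z :=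
  Quotient.exists_rep z

lemma act_tr (hC : C.IsCoherator) (m : ℕ) {X : C.Objᵒᵖ ⥤ Type} (hX : Seg X) {S T : Theta0}
    (φ : C.Hom S T) (x : X.obj (op (.of T))) :
    act (trunc hC m X hX) φ (tr hC m hX x) = tr hC m hX (act X φ x) := rfl

lemma trunc_seg (hC : C.IsCoherator) (m : ℕ) (X : C.Objᵒᵖ ⥤ Type) (hX : Seg X) :
    Seg (trunc hC m X hX) := by
  apply Seg.of
  · intro l t j i hl hi z z' h1 h2
    obtain ⟨x, rfl⟩ := tr_surjective hC m hX z
    obtain ⟨x', rfl⟩ := tr_surjective hC m hX z'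
    rw [act_tr, act_tr, tr_eq_iff] at h1 h2
    rw [tr_eq_iff]
    apply AgreeUpTo.of_act
    intro l' hl' ψ
    rcases Theta0.disc_factors t j i hl hi ψ with ⟨ψ', rfl⟩ | ⟨ψ', rfl⟩
    · rw [C.incl_comp, ← act_act, ← act_act]
      exact h1.act_eq hl' ψ'
    · rw [C.incl_comp, ← act_act, ← act_act]
      exact h2.act_eq hl' ψ'
  · intro l t j i hl hi z z' h1
    obtain ⟨x, rfl⟩ := tr_surjective hC m hX z
    obtain ⟨x', rfl⟩ := tr_surjective hC m hX z'
    rw [act_tr, act_tr, tr_eq_iff] at h1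
    -- a representative `x''` of the class of `x'` which can be glued to `x`
    have key : ∃ x'' : X.obj (op (.of (disc i))), AgreeUpTo X m x'' x' ∧
        act X (C.incl (face true hl ≫ lastIncl t)) x = act X (C.incl (face false hi)) x'' := by
      rcases Nat.lt_or_ge m j with hj | hj
      · obtain ⟨κ, hκ⟩ := exists_degen hC hi
        refine ⟨act X κ (act X (C.incl (face true hl ≫ lastIncl t)) x), ?_, ?_⟩
        · apply AgreeUpTo.of_act
          intro l' hl' ψ
          have h2 : l' < i := by omega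
          have h3 : l' < j := by omega
          obtain ⟨b, rfl⟩ := Theta0.disc_hom_lt h2 ψ
          have e : C.incl (face b h2) = C.comp (C.incl (face b h3)) (C.incl (face false hi)) := by
            rw [← C.incl_comp, face_comp_face]
          have h4 := h1.act_eq hl' (face b h3)
          rw [act_act X (C.incl (face b h3)) (C.incl (face false hi)), ← e] at h4
          rw [← h4, e, act_act, C.assoc, hκ, C.comp_id]
        · rw [act_act, hκ, act_id]
      · exact ⟨x', AgreeUpTo.refl _, h1.eq_disc hj⟩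
    obtain ⟨x'', hx1, hx2⟩ := key
    obtain ⟨y, hy1, hy2⟩ := hX.exists_glue t j i hl hi x x'' hx2
    refine ⟨tr hC m hX y, ?_, ?_⟩
    · rw [act_tr, hy1]
    · rw [act_tr, hy2, tr_eq_iff]
      exact hx1

/-- The cells of dimension above `m` of the truncation. -/
lemma trunc_isThin (hC : C.IsCoherator) (m : ℕ) (X : C.Objᵒᵖ ⥤ Type) (hX : Seg X) :
    C.IsThin m (trunc hC m X hX) := by
  intro k hk z z' h1 h2
  have hk' : m ≤ k := by exact_mod_cast hk
  obtain ⟨x, rfl⟩ := tr_surjective hC m hX z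
  obtain ⟨x', rfl⟩ := tr_surjective hC m hX z'
  have h1' : tr hC m hX (act X (C.incl (σ k)) x) = tr hC m hX (act X (C.incl (σ k)) x') := h1
  have h2' : tr hC m hX (act X (C.incl (τ k)) x) = tr hC m hX (act X (C.incl (τ k)) x') := h2
  rw [tr_eq_iff] at h1' h2'
  rw [tr_eq_iff]
  apply AgreeUpTo.of_act
  intro l hl ψ
  have h3 : l < k + 1 := by omega
  obtain ⟨b, rfl⟩ := Theta0.disc_hom_lt h3 ψ
  rcases Nat.lt_or_ge l k with h4 | h4
  · have e : C.incl (face b h3) = C.comp (C.incl (face b h4)) (C.incl (σ k)) := by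
      rw [← C.incl_comp, face_comp_face]
    rw [e, ← act_act, ← act_act]
    exact h1'.act_eq hl (face b h4)
  · have h5 : l = k := by omega
    subst h5
    cases b with
    | false => exact h1'.eq_disc hl
    | true => exact h2'.eq_disc hl

/-- In an `m`-thin object, elements which agree up to dimension `m` are equal. -/
lemma AgreeUpTo.eq_of_thin {m : ℕ} {Y : C.Objᵒᵖ ⥤ Type} (hY : Seg Y) (hY' : C.IsThin m Y)
    {S : Theta0} {y y' : Y.obj (op (.of S))} (h : AgreeUpTo Y m y y') : y = y' := by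
  refine IsSegal.ext hY.isSegal ?_
  have key : ∀ (l : ℕ) (ψ : disc l ⟶ S), act Y (C.incl ψ) y = act Y (C.incl ψ) y' := by
    intro l
    induction l with
    | zero => exact fun ψ => h.act_eq (Nat.zero_le _) ψ
    | succ l ih =>
      intro ψ
      rcases Nat.lt_or_ge m (l + 1) with h1 | h1
      · apply hY' l (by exact_mod_cast (by omega : m ≤ l))
        · have h2 := ih (σ l ≫ ψ)
          rw [C.incl_comp, ← act_act, ← act_act] at h2
          exact h2
        · have h2 := ih (τ l ≫ ψ)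
          rw [C.incl_comp, ← act_act, ← act_act] at h2
          exact h2
      · exact h.act_eq h1 ψ
  exact fun i => AgreeUpTo.of_act (fun l _ ψ => key l ψ)

/-- Naturality of maps of presheaves, on elements. -/
lemma app_act {X Y : C.Objᵒᵖ ⥤ Type} (g : X ⟶ Y) {S T : Theta0} (φ : C.Hom S T)
    (x : X.obj (op (.of T))) :
    g.app (op (.of S)) (act X φ x) = act Y φ (g.app (op (.of T)) x) :=
  NatTrans.naturality_apply g (Quiver.Hom.op (X := (.of S : C.Obj)) (Y := .of T) φ) x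

lemma AgreeUpTo.app {X Y : C.Objᵒᵖ ⥤ Type} (g : X ⟶ Y) {S : Theta0} {i : ℕ}
    {x x' : X.obj (op (.of S))} (h : AgreeUpTo X i x x') :
    AgreeUpTo Y i (g.app (op (.of S)) x) (g.app (op (.of S)) x') := by
  apply AgreeUpTo.of_act
  intro l hl ψ
  rw [← app_act, ← app_act, h.act_eq hl ψ]

/-- The truncation of an `∞`-groupoid. -/
theorem exists_trunc (hC : C.IsCoherator) (m : ℕ) (X : C.Gpd) :
    ∃ (Z : C.Md m) (η : X.obj ⟶ Z.obj),
      (∀ j ≤ m, Function.Bijective (η.app (op (.of (disc j))))) ∧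
      (∀ S, Function.Surjective (η.app S)) ∧
      (∀ (Y : C.Md m) (g : X.obj ⟶ Y.obj), ∃! g' : Z.obj ⟶ Y.obj, η ≫ g' = g) := by
  have hX : Seg X.obj := ⟨X.property.1⟩
  refine ⟨⟨trunc hC m X.obj hX, (trunc_seg hC m X.obj hX).isSegal, trunc_isThin hC m X.obj hX⟩,
    truncMap hC m X.obj hX, ?_, ?_, ?_⟩
  · intro j hj
    refine ⟨?_, Quotient.mk_surjective⟩
    intro x x' h
    have h1 : tr hC m hX x = tr hC m hX x' := h
    rw [tr_eq_iff] at h1
    exact h1.eq_disc hj
  · intro S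
    exact Quotient.mk_surjective
  · intro Y g
    have hY : Seg Y.obj := ⟨Y.property.1⟩
    refine ⟨{ app := fun T => TypeCat.ofHom (Quotient.lift (fun x => g.app T x) ?_),
              naturality := ?_ }, ?_, ?_⟩
    · intro x x' h
      exact AgreeUpTo.eq_of_thin (S := T.unop.sum) hY Y.property.2 (AgreeUpTo.app g h)
    · intro T T' f
      ext z
      obtain ⟨x, rfl⟩ := Quotient.exists_rep z
      exact NatTrans.naturality_apply g f x
    · ext T x
      rfl
    · intro g' hg'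
      ext T z
      obtain ⟨x, rfl⟩ := Quotient.exists_rep z
      have h1 := congrArg (fun k => k.app T x) hg'
      exact h1

/-! ### Contractibility in terms of elements -/

/-- Parallel elements. -/
def EPar (X : C.Objᵒᵖ ⥤ Type) : ∀ {k : ℕ}, X.obj (op (.of (disc k))) →
    X.obj (op (.of (disc k))) → Prop
  | 0, _, _ => True
  | k + 1, x, y => act X (C.incl (σ k)) x = act X (C.incl (σ k)) y ∧
      act X (C.incl (τ k)) x = act X (C.incl (τ k)) y

/-- The element corresponding to a map from a disc. -/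
noncomputable def el {m : ℕ∞} {X : C.Md m} {k : ℕ} (u : cob (C.F m) k ⟶ X) :
    X.obj.obj (op (.of (disc k))) := yEquiv (.of (disc k)) X u

lemma el_injective {m : ℕ∞} {X : C.Md m} {k : ℕ} {u v : cob (C.F m) k ⟶ X} (h : el u = el v) :
    u = v := (yEquiv _ _).injective h

lemma el_surjective {m : ℕ∞} {X : C.Md m} {k : ℕ} (x : X.obj.obj (op (.of (disc k)))) :
    ∃ u : cob (C.F m) k ⟶ X, el u = x := (yEquiv _ _).surjective x

lemma el_sg {m : ℕ∞} {X : C.Md m} {k : ℕ} (u : cob (C.F m) (k + 1) ⟶ X) :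
    el (sg (C.F m) k ≫ u) = act X.obj (C.incl (σ k)) (el u) :=
  yEquiv_naturality_left (C.J.map (σ k)) u

lemma el_tg {m : ℕ∞} {X : C.Md m} {k : ℕ} (u : cob (C.F m) (k + 1) ⟶ X) :
    el (tg (C.F m) k ≫ u) = act X.obj (C.incl (τ k)) (el u) :=
  yEquiv_naturality_left (C.J.map (τ k)) u

lemma bd_eq_iff_ePar {m : ℕ∞} {X : C.Md m} {k : ℕ} (u v : cob (C.F m) k ⟶ X) :
    bd (C.F m) k ≫ u = bd (C.F m) k ≫ v ↔ EPar X.obj (el u) (el v) := by
  cases k with
  | zero => exact ⟨fun _ => trivial, fun _ => sph_zero_hom_ext _ _ _⟩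
  | succ k =>
    rw [bd_comp_eq_iff]
    constructor
    · rintro ⟨h1, h2⟩
      refine ⟨?_, ?_⟩
      · rw [← el_sg, ← el_sg, h1]
      · rw [← el_tg, ← el_tg, h2]
    · rintro ⟨h1, h2⟩
      rw [← el_sg, ← el_sg] at h1
      rw [← el_tg, ← el_tg] at h2
      exact ⟨el_injective h1, el_injective h2⟩

/-- Contractibility in terms of elements. -/
theorem contr_iff {m : ℕ∞} (X : C.Md m) : Contr (C.F m) X ↔
    (∃ _x : X.obj.obj (op (.of (disc 0))), True) ∧
    ∀ (k : ℕ) (x y : X.obj.obj (op (.of (disc k)))), EPar X.obj x y →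
      ∃ z : X.obj.obj (op (.of (disc (k + 1)))),
        act X.obj (C.incl (σ k)) z = x ∧ act X.obj (C.incl (τ k)) z = y := by
  constructor
  · intro h
    refine ⟨?_, ?_⟩
    · obtain ⟨w, -⟩ := h 0 ((isInitialSphZero (C.F m)).to X)
      exact ⟨el w, trivial⟩
    · intro k x y hxy
      obtain ⟨u, rfl⟩ := el_surjective x
      obtain ⟨v, rfl⟩ := el_surjective y
      obtain ⟨w, hw1, hw2⟩ := h.hty u v ((bd_eq_iff_ePar u v).2 hxy)
      refine ⟨el w, ?_, ?_⟩
      · rw [← el_sg, hw1]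
      · rw [← el_tg, hw2]
  · rintro ⟨⟨x0, -⟩, h⟩ j β
    cases j with
    | zero =>
      obtain ⟨u, -⟩ := el_surjective x0
      exact ⟨u, sph_zero_hom_ext _ _ _⟩
    | succ k =>
      have hpar : bd (C.F m) k ≫ (hemS (C.F m) k ≫ β) = bd (C.F m) k ≫ (hemT (C.F m) k ≫ β) := by
        rw [← Category.assoc, (isPushout_sph (C.F m) k).w, Category.assoc]
      obtain ⟨z, hz1, hz2⟩ := h k _ _ ((bd_eq_iff_ePar _ _).1 hpar)
      obtain ⟨w, rfl⟩ := el_surjective z
      rw [← el_sg] at hz1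
      rw [← el_tg] at hz2
      refine ⟨w, ?_⟩
      apply sph_hom_ext
      · rw [hemS_bd_assoc]
        exact el_injective hz1
      · rw [hemT_bd_assoc]
        exact el_injective hz2

/-! ### Representable objects -/

lemma yoneda_seg (S : Theta0) : Seg (yoneda.obj (.of S : C.Obj)) := by
  apply Seg.of
  · intro l t j i hl hi x x' h1 h2
    have h1' : C.J.map (inl t j i hl hi) ≫ (show C.J.obj (Theta0.glue t j i hl hi) ⟶ .of S from x) =
      C.J.map (inl t j i hl hi) ≫ (show C.J.obj (Theta0.glue t j i hl hi) ⟶ .of S from x') := h1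
    have h2' : C.J.map (inr t j i hl hi) ≫ (show C.J.obj (Theta0.glue t j i hl hi) ⟶ .of S from x) =
      C.J.map (inr t j i hl hi) ≫ (show C.J.obj (Theta0.glue t j i hl hi) ⟶ .of S from x') := h2
    exact (C.isPushout t j i hl hi).hom_ext h1' h2'
  · intro l t j i hl hi x z h
    exact ⟨(C.isPushout t j i hl hi).desc (W := .of S) x z h,
      (C.isPushout t j i hl hi).inl_desc (W := .of S) x z h,
      (C.isPushout t j i hl hi).inr_desc (W := .of S) x z h⟩

/-- The representable `∞`-groupoid. -/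
noncomputable def rep (S : Theta0) : C.Gpd :=
  ⟨yoneda.obj (.of S), (yoneda_seg S).isSegal, fun k hk => by
    have : (⊤ : ℕ∞) ≤ k := hk
    simp at this⟩

lemma exists_univ (hC : C.IsCoherator) (m : ℕ∞) (S : Theta0) :
    ∃ (Z : C.Md m) (ζ : yoneda.obj (.of S : C.Obj) ⟶ Z.obj),
      (∀ j : ℕ, (j : ℕ∞) ≤ m → Function.Bijective (ζ.app (op (.of (disc j))))) ∧
      (∀ T, Function.Surjective (ζ.app T)) ∧
      (∀ (Y : C.Md m) (g : yoneda.obj (.of S : C.Obj) ⟶ Y.obj),
        ∃! g' : Z.obj ⟶ Y.obj, ζ ≫ g' = g) := by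
  induction m using ENat.recTopCoe with
  | top =>
    refine ⟨rep S, 𝟙 _, ?_, ?_, ?_⟩
    · intro j _
      exact Function.bijective_id
    · intro T
      exact Function.surjective_id
    · intro Y g
      refine ⟨g, Category.id_comp g, ?_⟩
      intro g' hg'
      rw [← hg']
      exact (Category.id_comp g').symm
  | coe n =>
    obtain ⟨Z, η, h1, h2, h3⟩ := exists_trunc hC n (rep S)
    exact ⟨Z, η, fun j hj => h1 j (by exact_mod_cast hj), h2, h3⟩

section Unit

variable {m : ℕ∞} (P : C.Objᵒᵖ ⥤ Type)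

/-- The reflection. -/
noncomputable abbrev Lr (m : ℕ∞) : (C.Objᵒᵖ ⥤ Type) ⥤ C.Md m := (C.isMd m).ι.leftAdjoint

/-- The unit of the reflection. -/
noncomputable def un (m : ℕ∞) : P ⟶ ((Lr (C := C) m).obj P).obj :=
  (Adjunction.ofIsRightAdjoint (C.isMd m).ι).unit.app P

lemma un_ex (Y : C.Md m) (g : P ⟶ Y.obj) :
    ∃ g' : (Lr m).obj P ⟶ Y, un P m ≫ (C.isMd m).ι.map g' = g := by
  refine ⟨((Adjunction.ofIsRightAdjoint (C.isMd m).ι).homEquiv _ _).symm g, ?_⟩
  have h := ((Adjunction.ofIsRightAdjoint (C.isMd m).ι).homEquiv P Y).apply_symm_apply g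
  rw [Adjunction.homEquiv_unit] at h
  exact h

lemma un_un (Y : C.Md m) (g g' : (Lr m).obj P ⟶ Y)
    (h : un P m ≫ (C.isMd m).ι.map g = un P m ≫ (C.isMd m).ι.map g') : g = g' := by
  apply ((Adjunction.ofIsRightAdjoint (C.isMd m).ι).homEquiv P Y).injective
  rw [Adjunction.homEquiv_unit, Adjunction.homEquiv_unit]
  exact h

/-- Comparison of the reflection with another object having the universal property. -/
lemma un_cmp {Z : C.Md m} (ζ : P ⟶ Z.obj)
    (h : ∀ (Y : C.Md m) (g : P ⟶ Y.obj), ∃! g' : Z.obj ⟶ Y.obj, ζ ≫ g' = g) :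
    ∃ b : Z.obj ⟶ ((Lr (C := C) m).obj P).obj, un P m = ζ ≫ b ∧
      ∀ T, Function.Bijective (b.app T) := by
  obtain ⟨a, ha⟩ := un_ex P Z ζ
  obtain ⟨b, hb, -⟩ := h ((Lr m).obj P) (un P m)
  have hab : (C.isMd m).ι.map a ≫ b = 𝟙 _ := by
    have h4 := un_un P _ (a ≫ (C.isMd m).fullyFaithfulι.preimage b) (𝟙 _) (by
      rw [Functor.map_comp, Functor.FullyFaithful.map_preimage, ← Category.assoc, ha, hb,
        CategoryTheory.Functor.map_id]
      exact (Category.comp_id _).symm)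
    have h5 := congrArg (fun k => (C.isMd m).ι.map k) h4
    simp only [Functor.map_comp, CategoryTheory.Functor.map_id] at h5
    exact h5
  have hba : b ≫ (C.isMd m).ι.map a = 𝟙 _ := by
    apply (h Z ζ).unique
    · rw [← Category.assoc, hb, ha]
    · exact Category.comp_id ζ
  refine ⟨b, hb.symm, ?_⟩
  intro T
  have e1 : ∀ z, ((C.isMd m).ι.map a).app T (b.app T z) = z := by
    intro z
    exact congrArg (fun k => k.app T z) hba
  have e2 : ∀ z, b.app T (((C.isMd m).ι.map a).app T z) = z := by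
    intro z
    exact congrArg (fun k => k.app T z) hab
  exact ⟨Function.LeftInverse.injective e1, Function.RightInverse.surjective e2⟩

end Unit

/-- Properties of the unit at representables. -/
theorem exists_unit (hC : C.IsCoherator) (m : ℕ∞) (S : Theta0) :
    ∃ η : yoneda.obj (.of S : C.Obj) ⟶ ((C.y m).obj (.of S)).obj,
      (∀ j : ℕ, (j : ℕ∞) ≤ m → Function.Bijective (η.app (op (.of (disc j))))) ∧
      (∀ T, Function.Surjective (η.app T)) ∧
      (∀ (T : Theta0) (φ : (.of T : C.Obj) ⟶ .of S),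
        yEquiv (.of T) _ ((C.y m).map φ) = η.app (op (.of T)) φ) := by
  obtain ⟨Z, ζ, h1, h2, h3⟩ := exists_univ hC m S
  obtain ⟨b, hb, hbij⟩ := un_cmp (m := m) (yoneda.obj (.of S : C.Obj)) ζ h3
  have hη : ∀ T, ((un (yoneda.obj (.of S : C.Obj)) m).app T : _ → _) = b.app T ∘ ζ.app T := by
    intro T
    rw [hb]
    rfl
  refine ⟨un (yoneda.obj (.of S : C.Obj)) m, ?_, ?_, ?_⟩
  · intro j hj
    have := (hbij (op (.of (disc j)))).comp (h1 j hj)
    rw [← hη] at this
    exact this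
  · intro T
    have := (hbij T).surjective.comp (h2 T)
    rw [← hη] at this
    exact this
  · intro T φ
    have h4 := (Adjunction.ofIsRightAdjoint (C.isMd m).ι).unit.naturality (yoneda.map φ)
    have h5 : ((Adjunction.ofIsRightAdjoint (C.isMd m).ι).homEquiv (yoneda.obj (.of T : C.Obj))
        ((Lr m).obj (yoneda.obj (.of S : C.Obj)))) ((Lr m).map (yoneda.map φ)) =
        yoneda.map φ ≫ un (yoneda.obj (.of S : C.Obj)) m := by
      rw [Adjunction.homEquiv_unit]
      exact h4.symm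
    have h6 := congrArg yonedaEquiv h5
    rw [yonedaEquiv_comp, yonedaEquiv_yoneda_map] at h6
    exact h6

/-- Every globular sum has a `0`-cell. -/
lemma exists_zero (S : Theta0) : ∃ _ψ : disc 0 ⟶ S, True := by
  obtain ⟨t⟩ := S
  rename_i l
  rcases Nat.eq_zero_or_pos l with h | h
  · subst h
    exact ⟨lastIncl t, trivial⟩
  · exact ⟨face false h ≫ lastIncl t, trivial⟩

/-- The representable objects are contractible. -/
theorem contr_y (hC : C.IsCoherator) (m : ℕ∞) (S : Theta0) :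
    Contr (C.F m) ((C.y m).obj (.of S)) := by
  obtain ⟨η, h1, h2, -⟩ := exists_unit hC m S
  rw [contr_iff]
  refine ⟨?_, ?_⟩
  · obtain ⟨ψ, -⟩ := exists_zero S
    exact ⟨η.app (op (.of (disc 0))) (C.incl ψ), trivial⟩
  · intro k x y hxy
    by_cases hk : (k : ℕ∞) ≤ m
    · obtain ⟨φ, rfl⟩ := h2 (op (.of (disc k))) x
      obtain ⟨ψ, rfl⟩ := h2 (op (.of (disc k))) y
      have hpar : C.Parallel (S := S) (n := k) φ ψ := by
        cases k with
        | zero => trivial
        | succ k =>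
          have hk' : (k : ℕ∞) ≤ m := le_trans (by exact_mod_cast Nat.le_succ k) hk
          obtain ⟨e1, e2⟩ := hxy
          constructor
          · apply (h1 k hk').injective
            have a1 := app_act η (C.incl (σ k)) φ
            have a2 := app_act η (C.incl (σ k)) ψ
            exact a1.trans (e1.trans a2.symm)
          · apply (h1 k hk').injective
            have a1 := app_act η (C.incl (τ k)) φ
            have a2 := app_act η (C.incl (τ k)) ψ
            exact a1.trans (e2.trans a2.symm)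
      obtain ⟨h, hh1, hh2⟩ := hC.lifts (S := S) (n := k) φ ψ hpar
      refine ⟨η.app (op (.of (disc (k + 1)))) h, ?_, ?_⟩
      · have a1 := app_act η (C.incl (σ k)) h
        exact a1.symm.trans (congrArg (η.app (op (.of (disc k)))) hh1)
      · have a1 := app_act η (C.incl (τ k)) h
        exact a1.symm.trans (congrArg (η.app (op (.of (disc k)))) hh2)
    · have hk1 : m < (k : ℕ∞) := not_le.1 hk
      cases k with
      | zero => exact absurd hk1 (by simp)
      | succ k =>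
        have hk2 : m ≤ (k : ℕ∞) := by
          have : m < ((k : ℕ∞) + 1) := by exact_mod_cast hk1
          exact Order.le_of_lt_add_one this
        have hxy' : x = y := ((C.y m).obj (.of S)).property.2 k hk2 x y hxy.1 hxy.2
        subst hxy'
        obtain ⟨κ, hκ1, hκ2⟩ := hC.lifts (C.id (disc (k + 1))) (C.id (disc (k + 1)))
          (Parallel.refl _)
        refine ⟨act _ κ x, ?_, ?_⟩
        · rw [act_act, hκ1, act_id]
        · rw [act_act, hκ2, act_id]

lemma contr_of_isIso {m : ℕ∞} {X Y : C.Md m} (hX : Contr (C.F m) X) (α : X ⟶ Y) [IsIso α] :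
    Contr (C.F m) Y := by
  intro j β
  obtain ⟨w, hw⟩ := hX j (β ≫ inv α)
  exact ⟨w ≫ α, by rw [← Category.assoc, hw, Category.assoc, IsIso.inv_hom_id, Category.comp_id]⟩

/-- Globular sums are contractible in all the categories `Md C m`. -/
theorem gContr (hC : C.IsCoherator) (m : ℕ∞) : GContr (C.F m) := by
  intro X d e he
  obtain ⟨t, α, hα, -⟩ := (isGSum_iff C m e).1 he
  exact contr_of_isIso (contr_y hC m ⟨t⟩) α

/-! ### Fibrations in terms of elements -/

lemma el_comp {m : ℕ∞} {X Y : C.Md m} {k : ℕ} (u : cob (C.F m) k ⟶ X) (p : X ⟶ Y) :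
    el (u ≫ p) = p.hom.app (op (.of (disc k))) (el u) :=
  yEquiv_naturality_right u p

/-- Fibrations in terms of elements. -/
theorem fib_iff {m : ℕ∞} {n : ℕ} {X Y : C.Md m} (p : X ⟶ Y) : Fib (C.F m) n p ↔
    ∀ k, n ≤ k → ∀ (x : X.obj.obj (op (.of (disc k)))) (y : Y.obj.obj (op (.of (disc (k + 1))))),
      p.hom.app (op (.of (disc k))) x = act Y.obj (C.incl (σ k)) y →
      ∃ z : X.obj.obj (op (.of (disc (k + 1)))), act X.obj (C.incl (σ k)) z = x ∧
        p.hom.app (op (.of (disc (k + 1)))) z = y := by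
  constructor
  · intro hp k hk x y hxy
    have h1 : HasLiftingProperty (sg (C.F m) k) p :=
      hp _ (MorphismProperty.ofHoms.mk (f := fun k : {k : ℕ // n ≤ k} =>
        Vale.Agent.P259.sg (C.F m) k.1) ⟨k, hk⟩)
    obtain ⟨u, rfl⟩ := el_surjective x
    obtain ⟨v, rfl⟩ := el_surjective y
    have sq : CommSq u (sg (C.F m) k) p v := ⟨by
      apply el_injective
      rw [el_comp, el_sg, hxy]⟩
    refine ⟨el sq.lift, ?_, ?_⟩
    · rw [← el_sg, sq.fac_left]
    · rw [← el_comp, sq.fac_right]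
  · intro h A B f hf
    obtain ⟨k, hk⟩ := hf
    refine ⟨fun {u v} sq => ?_⟩
    obtain ⟨z, hz1, hz2⟩ := h k hk (el u) (el v) (by
      rw [← el_comp, ← el_sg, sq.w])
    obtain ⟨w, rfl⟩ := el_surjective z
    rw [← el_sg] at hz1
    rw [← el_comp] at hz2
    exact ⟨⟨⟨w, el_injective hz1, el_injective hz2⟩⟩⟩

/-- An object of `Md C m` as an `∞`-groupoid. -/
def toGpd {m : ℕ∞} (X : C.Md m) : C.Gpd :=
  ⟨X.obj, X.property.1, fun k hk => by
    have : (⊤ : ℕ∞) ≤ k := hk
    simp at this⟩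

/-- The truncation of a `J`-cellular extension of a representable object is contractible. -/
theorem contr_trunc {m : ℕ} (h : HypH (C.F m) 0) {l : ℕ} (t : Tab l)
    {K : C.Gpd} (f : (C.y ⊤).obj (.of ⟨t⟩) ⟶ K) (hf : AN (C.F ⊤) 0 f) {Z : C.Md m}
    (η : K.obj ⟶ Z.obj)
    (huniv : ∀ (Y : C.Md m) (g : K.obj ⟶ Y.obj), ∃! g' : Z.obj ⟶ Y.obj, η ≫ g' = g) :
    Contr (C.F m) Z := by
  let x : K.obj.obj (op (.of ⟨t⟩)) := yEquiv (.of ⟨t⟩) K f
  let f' : (C.y m).obj (.of ⟨t⟩) ⟶ Z := (yEquiv (.of ⟨t⟩) Z).symm (η.app (op (.of ⟨t⟩)) x)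
  have hf'x : yEquiv (.of ⟨t⟩) Z f' = η.app (op (.of ⟨t⟩)) x := Equiv.apply_symm_apply _ _
  have key : AN (C.F m) 0 f' := by
    intro A B p hp
    refine ⟨fun {a b} sq => ?_⟩
    let p' : toGpd A ⟶ toGpd B := ObjectProperty.homMk p.hom
    have hp' : Fib (C.F ⊤) 0 p' := (fib_iff p').2 ((fib_iff p).1 hp)
    let a' : (C.y ⊤).obj (.of ⟨t⟩) ⟶ toGpd A :=
      (yEquiv (.of ⟨t⟩) (toGpd A)).symm (yEquiv (.of ⟨t⟩) A a)
    have ha' : yEquiv (.of ⟨t⟩) (toGpd A) a' = yEquiv (.of ⟨t⟩) A a := Equiv.apply_symm_apply _ _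
    let b' : K ⟶ toGpd B := ObjectProperty.homMk (η ≫ b.hom)
    have sq' : CommSq a' f p' b' := by
      refine ⟨?_⟩
      apply (yEquiv (.of ⟨t⟩) (toGpd B)).injective
      rw [yEquiv_naturality_right, yEquiv_naturality_right, ha']
      have e1 : p.hom.app (op (.of ⟨t⟩)) (yEquiv (.of ⟨t⟩) A a) =
          b.hom.app (op (.of ⟨t⟩)) (η.app (op (.of ⟨t⟩)) x) := by
        rw [← hf'x, ← yEquiv_naturality_right, ← yEquiv_naturality_right, sq.w]
      exact e1
    have hlift := hf p' hp'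
    obtain ⟨g', hg', huniq⟩ := huniv A sq'.lift.hom
    refine ⟨⟨⟨ObjectProperty.homMk g', ?_, ?_⟩⟩⟩
    · apply (yEquiv (.of ⟨t⟩) A).injective
      rw [yEquiv_naturality_right, hf'x, ← ha', ← sq'.fac_left, yEquiv_naturality_right, ← hg']
      rfl
    · apply ObjectProperty.hom_ext
      apply (huniv B (η ≫ b.hom)).unique
      · have e1 : (sq'.lift ≫ p').hom = b'.hom := by rw [sq'.fac_right]
        have e2 : sq'.lift.hom ≫ p.hom = η ≫ b.hom := e1
        have e3 : (η ≫ g') ≫ p.hom = η ≫ b.hom :=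
          (congrArg (fun k => k ≫ p.hom) hg').trans e2
        rw [Category.assoc] at e3
        exact e3
      · rfl
  exact h _ (isGSum_y C m t) f' key

/-- Reduction of the main statement to the truncated categories. -/
theorem hypH_top (hC : C.IsCoherator) (h : ∀ m : ℕ, HypH (C.F m) 0) : HypH (C.F ⊤) 0 := by
  intro X d e he K f hf
  obtain ⟨t, α, hα, -⟩ := (isGSum_iff C ⊤ e).1 he
  have hf' : AN (C.F ⊤) 0 (α ≫ f) :=
    MorphismProperty.comp_mem _ _ _ (MorphismProperty.llp_of_isIso _ α) hf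
  rw [contr_iff]
  refine ⟨?_, ?_⟩
  · obtain ⟨Z, η, h1, h2, h3⟩ := exists_trunc hC 0 K
    have hZ := contr_trunc (h 0) t (α ≫ f) hf' η h3
    obtain ⟨⟨z, -⟩, -⟩ := (contr_iff Z).1 hZ
    obtain ⟨x, -⟩ := h2 (op (.of (disc 0))) z
    exact ⟨x, trivial⟩
  · intro k x y hxy
    obtain ⟨Z, η, h1, h2, h3⟩ := exists_trunc hC (k + 1) K
    have hZ := contr_trunc (h (k + 1)) t (α ≫ f) hf' η h3
    have hpar : EPar Z.obj (η.app (op (.of (disc k))) x) (η.app (op (.of (disc k))) y) := by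
      cases k with
      | zero => trivial
      | succ k =>
        refine ⟨?_, ?_⟩
        · rw [← app_act, ← app_act, hxy.1]
        · rw [← app_act, ← app_act, hxy.2]
    obtain ⟨z', hz1, hz2⟩ := ((contr_iff Z).1 hZ).2 k _ _ hpar
    obtain ⟨z, rfl⟩ := h2 (op (.of (disc (k + 1)))) z'
    rw [← app_act] at hz1 hz2
    exact ⟨z, (h1 k (Nat.le_succ k)).injective hz1, (h1 k (Nat.le_succ k)).injective hz2⟩

end GlobExt

end Vale.Agent.P259
end
end

section

section

open CategoryTheory Limits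

namespace Vale.Agent.P259

universe v u

variable {𝓜 : Type u} [Category.{v} 𝓜] [HasPushouts 𝓜] [HasInitial 𝓜]

/-- `Reach F e e' f`: the pointed object `(Y, e')` is obtained from the pointed object `(X, e)`
by successively gluing discs at the target side of the last disc; `f : X ⟶ Y` is the
inclusion. -/
inductive Reach (F : Globe ⥤ 𝓜) {X : 𝓜} {d : ℕ} (e : cob F d ⟶ X) :
    ∀ {Y : 𝓜} {d' : ℕ}, (cob F d' ⟶ Y) → (X ⟶ Y) → Prop
  | refl : Reach F e e (𝟙 X)
  | step {Y : 𝓜} {d' : ℕ} {e' : cob F d' ⟶ Y} {f : X ⟶ Y} (h : Reach F e e' f)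
      {j i : ℕ} (hj : j < d') (hi : j < i) {Y' : 𝓜} (inl : Y ⟶ Y') (inr : cob F i ⟶ Y')
      (sq : IsPushout (F.map (Globe.face true hj) ≫ e') (F.map (Globe.face false hi)) inl inr) :
      Reach F e inr (f ≫ inl)

/-- A pointed object is extendable if all anodyne extensions (of type `≥ m`) of the objects
reached from it are contractible. -/
def Extendable (F : Globe ⥤ 𝓜) (m : ℕ) {X : 𝓜} {d : ℕ} (e : cob F d ⟶ X) : Prop :=
  ∀ ⦃Y : 𝓜⦄ ⦃d' : ℕ⦄ (e' : cob F d' ⟶ Y) (f : X ⟶ Y), Reach F e e' f →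
    ∀ ⦃Z : 𝓜⦄ (g : Y ⟶ Z), AN F m g → Contr F Z

variable {F : Globe ⥤ 𝓜}

lemma Extendable.hered {m : ℕ} {X : 𝓜} {d : ℕ} {e : cob F d ⟶ X} (h : Extendable F m e) :
    Hered F m X :=
  fun _ f hf => h e (𝟙 X) Reach.refl f hf

omit [HasPushouts 𝓜] [HasInitial 𝓜] in
lemma Reach.trans {X Y Z : 𝓜} {d d' d'' : ℕ} {e : cob F d ⟶ X} {e' : cob F d' ⟶ Y}
    {e'' : cob F d'' ⟶ Z} {f : X ⟶ Y} {g : Y ⟶ Z} (h : Reach F e e' f)
    (h' : Reach F e' e'' g) : Reach F e e'' (f ≫ g) := by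
  induction h' with
  | refl => rwa [Category.comp_id]
  | step _ hj hi inl inr sq ih =>
    rw [← Category.assoc]
    exact Reach.step ih hj hi inl inr sq

omit [HasInitial 𝓜] in
/-- Reaching commutes with cobase change along an anodyne map. -/
lemma Reach.exists_an {m : ℕ} {X X' : 𝓜} {d : ℕ} {e : cob F d ⟶ X} {g : X ⟶ X'}
    (hg : AN F m g) {Y : 𝓜} {d' : ℕ} {e' : cob F d' ⟶ Y} {f : X' ⟶ Y}
    (h : Reach F (e ≫ g) e' f) :
    ∃ (Y₀ : 𝓜) (e₀ : cob F d' ⟶ Y₀) (f₀ : X ⟶ Y₀) (k : Y₀ ⟶ Y), Reach F e e₀ f₀ ∧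
      AN F m k ∧ e₀ ≫ k = e' := by
  induction h with
  | refl => exact ⟨X, e, 𝟙 X, g, Reach.refl, hg, rfl⟩
  | @step Y d' e' f h j i hj hi Y' inl inr sq ih =>
    obtain ⟨Y₀, e₀, f₀, k, h1, h2, h3⟩ := ih
    have sq0 : IsPushout (F.map (Globe.face true hj) ≫ e₀) (F.map (Globe.face false hi))
        (pushout.inl _ _) (pushout.inr _ _) := IsPushout.of_hasPushout _ _
    have hcond : (F.map (Globe.face true hj) ≫ e₀) ≫ (k ≫ inl) =
        F.map (Globe.face false hi) ≫ inr := by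
      rw [← sq.w, ← h3]
      simp only [Category.assoc]
    refine ⟨_, _, _, sq0.desc (k ≫ inl) inr hcond, Reach.step h1 hj hi _ _ sq0, ?_, ?_⟩
    · have sq' : IsPushout ((F.map (Globe.face true hj) ≫ e₀) ≫ k)
          (F.map (Globe.face false hi)) inl inr := by
        rw [Category.assoc, h3]
        exact sq
      have sq2 : IsPushout k (pushout.inl (F.map (Globe.face true hj) ≫ e₀)
          (F.map (Globe.face false hi))) inl (sq0.desc (k ≫ inl) inr hcond) := by
        refine IsPushout.of_left (h₁₁ := F.map (Globe.face true hj) ≫ e₀)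
          (v₁₁ := F.map (Globe.face false hi)) (h₂₁ := pushout.inr _ _) ?_ ?_ sq0
        · rw [IsPushout.inr_desc]
          exact sq'
        · rw [IsPushout.inl_desc]
      exact MorphismProperty.of_isPushout sq2.flip h2
    · rw [IsPushout.inr_desc]

/-- Closure under anodyne maps. -/
theorem Extendable.an {m : ℕ} {X : 𝓜} {d : ℕ} {e : cob F d ⟶ X} (h : Extendable F m e)
    {X' : 𝓜} (g : X ⟶ X') (hg : AN F m g) : Extendable F m (e ≫ g) := by
  intro Y d' e' f hR Z g' hg'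
  obtain ⟨Y₀, e₀, f₀, k, h1, h2, -⟩ := hR.exists_an hg
  exact h e₀ f₀ h1 (k ≫ g') (MorphismProperty.comp_mem _ _ _ h2 hg')

/-- Closure under gluing a disc. -/
theorem Extendable.glue {m : ℕ} {X : 𝓜} {d : ℕ} {e : cob F d ⟶ X} (h : Extendable F m e)
    {j i : ℕ} (hj : j < d) (hi : j < i) {X' : 𝓜} (inl : X ⟶ X') (inr : cob F i ⟶ X')
    (sq : IsPushout (F.map (Globe.face true hj) ≫ e) (F.map (Globe.face false hi)) inl inr) :
    Extendable F m inr := by
  intro Y d' e' f hR Z g hg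
  exact h e' _ ((Reach.step Reach.refl hj hi inl inr sq).trans hR) g hg

lemma Contr.retract {X Z : 𝓜} (hZ : Contr F Z) (i : X ⟶ Z) (r : Z ⟶ X) (hir : i ≫ r = 𝟙 X) :
    Contr F X := by
  intro j β
  obtain ⟨w, hw⟩ := hZ j (β ≫ i)
  exact ⟨w ≫ r, by rw [← Category.assoc, hw, Category.assoc, hir, Category.comp_id]⟩

omit [HasInitial 𝓜] in
/-- Reaching from a pointed retract. -/
lemma Reach.exists_retract {X X' : 𝓜} {d : ℕ} {e : cob F d ⟶ X} {e' : cob F d ⟶ X'}
    (i : X ⟶ X') (r : X' ⟶ X) (hir : i ≫ r = 𝟙 X) (hi : e ≫ i = e')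
    (hr : e' ≫ r = e) {Y : 𝓜} {d' : ℕ} {ε : cob F d' ⟶ Y} {f : X ⟶ Y} (h : Reach F e ε f) :
    ∃ (Y' : 𝓜) (ε' : cob F d' ⟶ Y') (f' : X' ⟶ Y') (i' : Y ⟶ Y') (r' : Y' ⟶ Y),
      Reach F e' ε' f' ∧ i' ≫ r' = 𝟙 Y ∧ ε ≫ i' = ε' ∧ ε' ≫ r' = ε := by
  induction h with
  | refl => exact ⟨X', e', 𝟙 X', i, r, Reach.refl, hir, hi, hr⟩
  | @step Y d' ε f h j k hj hk Y₂ inl inr sq ih =>
    obtain ⟨Y', ε', f', i', r', h1, h2, h3, h4⟩ := ih
    have sq0 : IsPushout (F.map (Globe.face true hj) ≫ ε') (F.map (Globe.face false hk))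
        (pushout.inl _ _) (pushout.inr _ _) := IsPushout.of_hasPushout _ _
    have c1 : (F.map (Globe.face true hj) ≫ ε) ≫ (i' ≫ pushout.inl (F.map (Globe.face true hj) ≫ ε')
        (F.map (Globe.face false hk))) = F.map (Globe.face false hk) ≫ pushout.inr _ _ := by
      rw [← sq0.w, ← h3]
      simp only [Category.assoc]
    have c2 : (F.map (Globe.face true hj) ≫ ε') ≫ (r' ≫ inl) =
        F.map (Globe.face false hk) ≫ inr := by
      rw [← sq.w, ← h4]
      simp only [Category.assoc]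
    refine ⟨_, _, _, sq.desc _ _ c1, sq0.desc _ _ c2, Reach.step h1 hj hk _ _ sq0, ?_, ?_, ?_⟩
    · apply sq.hom_ext
      · rw [IsPushout.inl_desc_assoc, Category.assoc, IsPushout.inl_desc, ← Category.assoc, h2,
          Category.id_comp, Category.comp_id]
      · rw [IsPushout.inr_desc_assoc, IsPushout.inr_desc, Category.comp_id]
    · rw [IsPushout.inr_desc]
    · rw [IsPushout.inr_desc]

/-- Closure under pointed retracts. -/
theorem Extendable.retract {m : ℕ} {X X' : 𝓜} {d : ℕ} {e : cob F d ⟶ X} {e' : cob F d ⟶ X'}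
    (h : Extendable F m e') (i : X ⟶ X') (r : X' ⟶ X) (hir : i ≫ r = 𝟙 X) (hi : e ≫ i = e')
    (hr : e' ≫ r = e) : Extendable F m e := by
  intro Y d' ε f hR Z g hg
  obtain ⟨Y', ε', f', i', r', h1, h2, h3, h4⟩ := hR.exists_retract i r hir hi hr
  have sq : IsPushout i' g (pushout.inl i' g) (pushout.inr i' g) := IsPushout.of_hasPushout _ _
  have hZ := h ε' f' h1 (pushout.inl i' g) (MorphismProperty.of_isPushout sq hg)
  refine hZ.retract (pushout.inr i' g) (pushout.desc (r' ≫ g) (𝟙 Z) ?_) ?_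
  · rw [← Category.assoc, h2, Category.id_comp, Category.comp_id]
  · rw [pushout.inr_desc]

/-- Closure under changing the last disc without changing its target faces. -/
theorem Extendable.congr {m : ℕ} {X : 𝓜} {d d' : ℕ} {e : cob F d ⟶ X} {e' : cob F d' ⟶ X}
    (h : Extendable F m e) (hd : d' = d)
    (he : ∀ (j : ℕ) (hj : j < d) (hj' : j < d'),
      F.map (Globe.face true hj) ≫ e = F.map (Globe.face true hj') ≫ e') :
    Extendable F m e' := by
  subst hd
  have key : ∀ {Y : 𝓜} {d'' : ℕ} {e'' : cob F d'' ⟶ Y} {f : X ⟶ Y}, Reach F e' e'' f →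
      (∀ ⦃Z : 𝓜⦄ (g : Y ⟶ Z), AN F m g → Contr F Z) ∧
      (∀ {j i : ℕ} (hj : j < d'') (hi : j < i) {Y' : 𝓜} (inl : Y ⟶ Y') (inr : cob F i ⟶ Y'),
        IsPushout (F.map (Globe.face true hj) ≫ e'') (F.map (Globe.face false hi)) inl inr →
        Reach F e inr (f ≫ inl)) := by
    intro Y d'' e'' f hR
    induction hR with
    | refl =>
      refine ⟨fun Z g hg => h e (𝟙 X) Reach.refl g hg, ?_⟩
      intro j i hj hi Y' inl inr sq
      rw [← he j hj hj] at sq
      exact Reach.step Reach.refl hj hi inl inr sq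
    | @step Y d'' e'' f hR j i hj hi Y' inl inr sq ih =>
      have h1 := ih.2 hj hi inl inr sq
      refine ⟨fun Z g hg => h inr (f ≫ inl) h1 g hg, ?_⟩
      intro j' i' hj' hi' Y'' inl' inr' sq'
      exact Reach.step h1 hj' hi' inl' inr' sq'
  intro Y d'' e'' f hR Z g hg
  exact (key hR).1 g hg

omit [HasPushouts 𝓜] [HasInitial 𝓜] in
lemma Reach.isGSum {X Y : 𝓜} {d d' : ℕ} {e : cob F d ⟶ X} {e' : cob F d' ⟶ Y} {f : X ⟶ Y}
    (hR : Reach F e e' f) (h : IsGSum F X d e) : IsGSum F Y d' e' := by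
  induction hR with
  | refl => exact h
  | step _ hj hi inl inr sq ih => exact IsGSum.glue ih hj hi inl inr sq

/-- Globular sums are extendable. -/
theorem HypH.extendable {m : ℕ} (hH : HypH F m) {X : 𝓜} {d : ℕ} {e : cob F d ⟶ X}
    (h : IsGSum F X d e) : Extendable F m e := by
  intro Y d' e' f hR Z g hg
  exact hH e' (hR.isGSum h) g hg

omit [HasPushouts 𝓜] [HasInitial 𝓜] in
/-- Cells with the same target have the same lower target faces. -/
lemma face_true_congr {X : 𝓜} {n : ℕ} {u v : cob F (n + 1) ⟶ X} (h : tg F n ≫ u = tg F n ≫ v)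
    (j : ℕ) (hj : j < n + 1) : F.map (Globe.face true hj) ≫ u = F.map (Globe.face true hj) ≫ v := by
  rcases Nat.lt_or_ge j n with h1 | h1
  · have h2 : F.map (Globe.face true hj) = F.map (Globe.face true h1) ≫ tg F n := by
      rw [← F.map_comp]; rfl
    rw [h2, Category.assoc, Category.assoc, h]
  · have h2 : j = n := by omega
    subst h2
    exact h

/-- Claim 1 of the proof: gluing an `(n+1)`-cell at the source of an `(n+1)`-cell `z` which
ends at the last `n`-face. -/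
theorem Extendable.tree {n : ℕ} (hF : GContr F) {X : 𝓜} {d : ℕ} {e : cob F d ⟶ X}
    (h : Extendable F (n + 1) e) (hd : n < d) (z : cob F (n + 1) ⟶ X)
    (hz : tg F n ≫ z = F.map (Globe.face true hd) ≫ e)
    {X' : 𝓜} (inl : X ⟶ X') (w : cob F (n + 1) ⟶ X')
    (sq : IsPushout (sg F n ≫ z) (sg F n) inl w) : Extendable F (n + 1) w := by
  -- `X₁ = X ∪ g`
  have sq1 : IsPushout (F.map (Globe.face true hd) ≫ e) (F.map (Globe.face false (Nat.lt_succ_self n)))
      (pushout.inl _ _) (pushout.inr _ _) := IsPushout.of_hasPushout _ _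
  set X₁ := pushout (F.map (Globe.face true hd) ≫ e) (F.map (Globe.face false (Nat.lt_succ_self n)))
    with hX₁
  set inl₁ : X ⟶ X₁ := pushout.inl _ _ with hinl₁
  set g : cob F (n + 1) ⟶ X₁ := pushout.inr _ _ with hgdef
  have hw1 : (F.map (Globe.face true hd) ≫ e) ≫ inl₁ = sg F n ≫ g := sq1.w
  have hE1 : Extendable F (n + 1) g := h.glue hd (Nat.lt_succ_self n) inl₁ g sq1
  have hzg : tg F n ≫ (z ≫ inl₁) = sg F n ≫ g := by
    rw [← Category.assoc, hz, hw1]
  -- `X₂ = X₁ ∪ ε`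
  let c : cob F (n + 1) ⟶ X₁ := cmp hF (z ≫ inl₁) g hzg
  have sq2 : IsPushout c (sg F (n + 1)) (pushout.inl c (sg F (n + 1)))
      (pushout.inr c (sg F (n + 1))) := IsPushout.of_hasPushout _ _
  set X₂ := pushout c (sg F (n + 1)) with hX₂
  set inl₂ : X₁ ⟶ X₂ := pushout.inl _ _ with hinl₂
  set ε : cob F (n + 2) ⟶ X₂ := pushout.inr _ _ with hε
  have hw2 : c ≫ inl₂ = sg F (n + 1) ≫ ε := sq2.w
  have han : AN F (n + 1) inl₂ := MorphismProperty.of_isPushout sq2 (AN.sg F (le_refl (n + 1)))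
  have hE2 : Extendable F (n + 1) (g ≫ inl₂) := hE1.an inl₂ han
  have htar : tg F n ≫ (g ≫ inl₂) = tg F n ≫ (tg F (n + 1) ≫ ε) := by
    have t1 : tg F n ≫ (tg F (n + 1) ≫ ε) = tg F n ≫ (sg F (n + 1) ≫ ε) := by
      rw [← Category.assoc, ← Category.assoc, tg_sg]
    rw [t1, ← hw2, ← Category.assoc, ← Category.assoc]
    congr 1
    exact (tg_cmp hF _ _ hzg).symm
  have hE3 : Extendable F (n + 1) (tg F (n + 1) ≫ ε) :=
    hE2.congr rfl (fun j hj hj' => face_true_congr htar j hj)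
  -- the retraction
  have hdiv : sg F n ≫ (z ≫ inl) = sg F n ≫ w := by
    rw [← Category.assoc, sq.w]
  obtain ⟨g', hg', htg', ε', hε1, hε2⟩ := hF.exists_division (z ≫ inl) w hdiv
  have hr1c : (F.map (Globe.face true hd) ≫ e) ≫ inl = sg F n ≫ g' := by
    rw [← hz, Category.assoc, ← hg']
  let r₁ : X₁ ⟶ X' := sq1.desc inl g' hr1c
  have hr1a : inl₁ ≫ r₁ = inl := sq1.inl_desc _ _ _
  have hr1b : g ≫ r₁ = g' := sq1.inr_desc _ _ _
  have hcr : c ≫ r₁ = sg F (n + 1) ≫ ε' := by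
    rw [hε1]
    exact cmp_comp_eq hF _ _ hzg r₁ (by rw [Category.assoc, hr1a]) hr1b hg'
  let r : X₂ ⟶ X' := sq2.desc r₁ ε' hcr
  have hra : inl₂ ≫ r = r₁ := sq2.inl_desc _ _ _
  have hrb : ε ≫ r = ε' := sq2.inr_desc _ _ _
  -- the section
  have hic : (sg F n ≫ z) ≫ (inl₁ ≫ inl₂) = sg F n ≫ (tg F (n + 1) ≫ ε) := by
    have t1 : sg F n ≫ (tg F (n + 1) ≫ ε) = sg F n ≫ (sg F (n + 1) ≫ ε) := by
      rw [← Category.assoc, ← Category.assoc, sg_sg]
    have t2 : sg F n ≫ c = sg F n ≫ (z ≫ inl₁) := sg_cmp hF _ _ hzg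
    rw [t1, ← hw2, ← Category.assoc (sg F n) c, t2]
    simp only [Category.assoc]
  let i : X' ⟶ X₂ := sq.desc (inl₁ ≫ inl₂) (tg F (n + 1) ≫ ε) hic
  have hia : inl ≫ i = inl₁ ≫ inl₂ := sq.inl_desc _ _ _
  have hib : w ≫ i = tg F (n + 1) ≫ ε := sq.inr_desc _ _ _
  have hwr : (tg F (n + 1) ≫ ε) ≫ r = w := by
    rw [Category.assoc, hrb, hε2]
  refine hE3.retract i r ?_ hib hwr
  apply sq.hom_ext
  · rw [← Category.assoc, hia, Category.assoc, hra, hr1a, Category.comp_id]
  · rw [← Category.assoc, hib, hwr, Category.comp_id]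

end Vale.Agent.P259
end
end

section

section

open CategoryTheory Limits

namespace Vale.Agent.P259

universe v u

variable {𝓜 : Type u} [Category.{v} 𝓜]

/-- The identity, or an iterated face. -/
def Globe.leFace (b : Bool) {n m : ℕ} (h : n ≤ m) : Globe.D n ⟶ Globe.D m :=
  if h' : n < m then Globe.face b h' else eqToHom (by rw [Nat.le_antisymm h (not_lt.mp h')])

lemma Globe.leFace_refl (b : Bool) {n : ℕ} (h : n ≤ n) : Globe.leFace b h = 𝟙 _ := by
  simp [Globe.leFace]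

lemma Globe.leFace_lt (b : Bool) {n m : ℕ} (h : n ≤ m) (h' : n < m) :
    Globe.leFace b h = Globe.face b h' := by
  simp [Globe.leFace, h']

lemma Globe.leFace_face (b c : Bool) {n m k : ℕ} (h : n ≤ m) (h' : m < k) :
    Globe.leFace b h ≫ Globe.face c h' =
      if n = m then Globe.face c (h.trans_lt h') else Globe.face b (h.trans_lt h') := by
  rcases h.eq_or_lt with rfl | h1
  · rw [Globe.leFace_refl, if_pos rfl, Category.id_comp]
  · rw [Globe.leFace_lt _ _ h1, if_neg h1.ne]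
    rfl

lemma Globe.face_leFace (b c : Bool) {n m k : ℕ} (h : n < m) (h' : m ≤ k) :
    Globe.face b h ≫ Globe.leFace c h' = Globe.face b (h.trans_le h') := by
  rcases h'.eq_or_lt with rfl | h1
  · rw [Globe.leFace_refl, Category.comp_id]
  · rw [Globe.leFace_lt _ _ h1]
    rfl

/-- Lifting form of the anodyne maps. -/
lemma AN.of_lift {F : Globe ⥤ 𝓜} {m : ℕ} {A B : 𝓜} (g : A ⟶ B)
    (H : ∀ ⦃P Q : 𝓜⦄ (f : P ⟶ Q), Fib F m f → ∀ (u : A ⟶ P) (v : B ⟶ Q),
      u ≫ f = g ≫ v → ∃ l : B ⟶ P, g ≫ l = u ∧ l ≫ f = v) : AN F m g := by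
  intro P Q f hf
  refine ⟨fun {u v} sq => ?_⟩
  obtain ⟨l, h1, h2⟩ := H f hf u v sq.w
  exact ⟨⟨⟨l, h1, h2⟩⟩⟩

lemma Fib.exists_lift {F : Globe ⥤ 𝓜} {m : ℕ} {P Q : 𝓜} {f : P ⟶ Q} (hf : Fib F m f) {k : ℕ}
    (hk : m ≤ k) (u : cob F k ⟶ P) (v : cob F (k + 1) ⟶ Q) (h : u ≫ f = sg F k ≫ v) :
    ∃ w : cob F (k + 1) ⟶ P, sg F k ≫ w = u ∧ w ≫ f = v := by
  have h1 : HasLiftingProperty (sg F k) f :=
    hf _ (MorphismProperty.ofHoms.mk (f := fun k : {k : ℕ // m ≤ k} =>
      Vale.Agent.P259.sg F k.1) ⟨k, hk⟩)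
  have sq : CommSq u (sg F k) f v := ⟨h⟩
  exact ⟨sq.lift, sq.fac_left, sq.fac_right⟩

variable [HasPushouts 𝓜] [HasInitial 𝓜]

/-- The part of a cylinder which is given directly by the stages. -/
structure CylPre (F : Globe ⥤ 𝓜) (n : ℕ) where
  E : Globe ⥤ 𝓜
  im : F ⟶ E
  ip : F ⟶ E
  q : E ⟶ F
  im_q : im ≫ q = 𝟙 F
  ip_q : ip ≫ q = 𝟙 F
  low_eq : ∀ j, j < n → im.app (Globe.D j) = ip.app (Globe.D j)
  low_iso : ∀ j, j < n → IsIso (im.app (Globe.D j))
  sph_iso : IsIso (sphMap im n)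
  θ : cob F (n + 1) ⟶ cob E n
  iso : IsIso θ
  sg_θ : sg F n ≫ θ = im.app (Globe.D n)
  tg_θ : tg F n ≫ θ = ip.app (Globe.D n)
  corner : ∀ j, ∀ ⦃X Y : 𝓜⦄ (f : X ⟶ Y), Fib F n f → ∀ (β : sph E j ⟶ X)
    (w : cob F j ⟶ X) (c' : cob E j ⟶ Y), sphMap im j ≫ β = bd F j ≫ w →
    bd E j ≫ c' = β ≫ f → im.app _ ≫ c' = w ≫ f →
    ∃ c : cob E j ⟶ X, bd E j ≫ c = β ∧ im.app _ ≫ c = w ∧ c ≫ f = c'
  corner' : ∀ j, n < j → ∀ ⦃X Y : 𝓜⦄ (f : X ⟶ Y), Fib F (n + 1) f → ∀ (β : sph E j ⟶ X)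
    (w : cob F j ⟶ X) (c' : cob E j ⟶ Y), sphMap im j ≫ β = bd F j ≫ w →
    bd E j ≫ c' = β ≫ f → im.app _ ≫ c' = w ≫ f →
    ∃ c : cob E j ⟶ X, bd E j ≫ c = β ∧ im.app _ ≫ c = w ∧ c ≫ f = c'
  ext : ∀ j, n ≤ j → ∀ ⦃X Y : 𝓜⦄ (f : X ⟶ Y), TrivFib F f → ∀ (β : sph E j ⟶ X)
    (wm wp : cob F j ⟶ X) (c' : cob E j ⟶ Y), bd F j ≫ wm = sphMap im j ≫ β →
    bd F j ≫ wp = sphMap ip j ≫ β → bd E j ≫ c' = β ≫ f → im.app _ ≫ c' = wm ≫ f →
    ip.app _ ≫ c' = wp ≫ f →
    ∃ c : cob E j ⟶ X, bd E j ≫ c = β ∧ im.app _ ≫ c = wm ∧ ip.app _ ≫ c = wp ∧ c ≫ f = c'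
  thin : ∀ j, Epi (sg F j) → Epi (bd F j) → Epi (bd E j)

namespace CylPre

variable {F : Globe ⥤ 𝓜} {n : ℕ} (P : CylPre F n)

lemma im_sg (k : ℕ) : P.im.app (Globe.D k) ≫ sg P.E k = sg F k ≫ P.im.app (Globe.D (k + 1)) :=
  (P.im.naturality (Globe.σ k)).symm

lemma im_tg (k : ℕ) : P.im.app (Globe.D k) ≫ tg P.E k = tg F k ≫ P.im.app (Globe.D (k + 1)) :=
  (P.im.naturality (Globe.τ k)).symm

lemma ip_sg (k : ℕ) : P.ip.app (Globe.D k) ≫ sg P.E k = sg F k ≫ P.ip.app (Globe.D (k + 1)) :=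
  (P.ip.naturality (Globe.σ k)).symm

lemma ip_tg (k : ℕ) : P.ip.app (Globe.D k) ≫ tg P.E k = tg F k ≫ P.ip.app (Globe.D (k + 1)) :=
  (P.ip.naturality (Globe.τ k)).symm

/-- The source maps of the cylinders are anodyne. -/
lemma an_sg {k : ℕ} (hk : n < k) : AN F (n + 1) (sg P.E k) := by
  apply AN.of_lift
  intro X Y f hf u v huv
  obtain ⟨w, hw1, hw2⟩ := Fib.exists_lift hf (Nat.succ_le_of_lt hk) (P.im.app _ ≫ u)
    (P.im.app (Globe.D (k + 1)) ≫ v) (by
      rw [Category.assoc, huv, ← Category.assoc, P.im_sg, Category.assoc])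
  obtain ⟨u', hu1, hu2, hu3⟩ := P.corner' k hk f hf (bd P.E k ≫ u) (tg F k ≫ w)
    (tg P.E k ≫ v) (by
      rw [← Category.assoc, sphMap_bd, Category.assoc, ← hw1, ← Category.assoc, bd_sg,
        Category.assoc]) (by
      rw [← Category.assoc, ← bd_sg, Category.assoc, ← huv, Category.assoc]) (by
      rw [← Category.assoc, P.im_tg, Category.assoc, Category.assoc, hw2])
  obtain ⟨c, hc1, hc2, hc3⟩ := P.corner' (k + 1) (hk.trans (Nat.lt_succ_self k)) f hf
    (sphDesc P.E u u' hu1.symm) w v (by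
      apply sph_hom_ext
      · rw [hemS_sphMap_assoc, hemS_sphDesc, hemS_bd_assoc, hw1]
      · rw [hemT_sphMap_assoc, hemT_sphDesc, hemT_bd_assoc, hu2]) (by
      apply sph_hom_ext
      · rw [hemS_bd_assoc, hemS_sphDesc_assoc, huv]
      · rw [hemT_bd_assoc, hemT_sphDesc_assoc, hu3]) hw2.symm
  refine ⟨c, ?_, hc3⟩
  rw [← hemS_bd, Category.assoc, hc1, hemS_sphDesc]

lemma an_leFace {j i : ℕ} (hj : n < j) (h : j ≤ i) :
    AN F (n + 1) (P.E.map (Globe.leFace false h)) := by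
  induction i with
  | zero => omega
  | succ i ih =>
    rcases h.eq_or_lt with rfl | h1
    · rw [Globe.leFace_refl, P.E.map_id]
      exact MorphismProperty.id_mem _ _
    · have e : Globe.leFace false h =
          Globe.leFace false (Nat.le_of_lt_succ h1) ≫ Globe.σ i := by
        rw [Globe.leFace_face, Globe.leFace_lt _ _ h1]
        split_ifs <;> rfl
      rw [e, P.E.map_comp]
      exact MorphismProperty.comp_mem _ _ _ (ih (Nat.le_of_lt_succ h1))
        (P.an_sg (hj.trans_le (Nat.le_of_lt_succ h1)))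

lemma bd_E (x : 𝓜) (f g : cob P.E n ⟶ x)
    (h : bd F n ≫ P.im.app _ ≫ f = bd F n ≫ P.im.app _ ≫ g) :
    bd P.E n ≫ f = bd P.E n ≫ g := by
  have := P.sph_iso
  rw [← cancel_epi (sphMap P.im n), ← Category.assoc, ← Category.assoc, sphMap_bd,
    Category.assoc, Category.assoc, h]

/-- The step of the induction: gluing `E_{n+1}` along `E_n`. -/
lemma wstep (hF : GContr F) {X : 𝓜} {ζ : cob F (n + 1) ⟶ X} (h : Extendable F (n + 1) ζ)
    (p : cob P.E n ⟶ X) (hp : P.θ ≫ p = ζ) {X' : 𝓜} (inl : X ⟶ X')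
    (inr : cob P.E (n + 1) ⟶ X') (sq : IsPushout p (sg P.E n) inl inr) :
    Extendable F (n + 1) (P.θ ≫ tg P.E n ≫ inr) := by
  have hiso := P.iso
  have hp' : p = inv P.θ ≫ ζ := by rw [← hp, IsIso.inv_hom_id_assoc]
  -- the tree
  have sq1 := IsPushout.of_hasPushout (sg F n ≫ ζ) (sg F n)
  set X1 := pushout (sg F n ≫ ζ) (sg F n)
  set i1 : X ⟶ X1 := pushout.inl _ _
  set c : cob F (n + 1) ⟶ X1 := pushout.inr _ _
  have h1 : Extendable F (n + 1) c :=
    h.tree hF (Nat.lt_succ_self n) ζ rfl i1 c sq1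
  have sq2 := IsPushout.of_hasPushout (tg F n ≫ c) (sg F n)
  set X2 := pushout (tg F n ≫ c) (sg F n)
  set i2 : X1 ⟶ X2 := pushout.inl _ _
  set ζ' : cob F (n + 1) ⟶ X2 := pushout.inr _ _
  have h2 : Extendable F (n + 1) ζ' :=
    h1.glue (Nat.lt_succ_self n) (Nat.lt_succ_self n) i2 ζ' sq2
  have e1 : (sg F n ≫ ζ) ≫ inl = sg F n ≫ P.im.app (Globe.D (n + 1)) ≫ inr := by
    rw [← hp, ← Category.assoc (sg F n) P.θ, P.sg_θ, Category.assoc, sq.w, ← Category.assoc,
      P.im_sg, Category.assoc]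
  let g1 : X1 ⟶ X' := sq1.desc inl (P.im.app (Globe.D (n + 1)) ≫ inr) e1
  have g1l : i1 ≫ g1 = inl := sq1.inl_desc _ _ _
  have g1r : c ≫ g1 = P.im.app (Globe.D (n + 1)) ≫ inr := sq1.inr_desc _ _ _
  have e2 : (tg F n ≫ c) ≫ g1 = sg F n ≫ P.θ ≫ tg P.E n ≫ inr := by
    rw [Category.assoc, g1r, ← Category.assoc (sg F n) P.θ, P.sg_θ, ← Category.assoc,
      ← P.im_tg, Category.assoc]
  let g : X2 ⟶ X' := sq2.desc g1 (P.θ ≫ tg P.E n ≫ inr) e2
  have gl : i2 ≫ g = g1 := sq2.inl_desc _ _ _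
  have gr : ζ' ≫ g = P.θ ≫ tg P.E n ≫ inr := sq2.inr_desc _ _ _
  have hg : AN F (n + 1) g := by
    apply AN.of_lift
    intro A B f hf u v huv
    have e3 : bd P.E n ≫ (p ≫ i1 ≫ i2 ≫ u) = bd P.E n ≫ (inv P.θ ≫ ζ' ≫ u) := by
      apply P.bd_E
      rw [← P.sg_θ]
      have t1 : (sg F n ≫ P.θ) ≫ p ≫ i1 ≫ i2 ≫ u = sg F n ≫ c ≫ i2 ≫ u := by
        rw [Category.assoc, ← Category.assoc P.θ p, hp, ← Category.assoc (sg F n) ζ,
          ← Category.assoc _ i1, sq1.w, Category.assoc]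
      have t2 : (sg F n ≫ P.θ) ≫ inv P.θ ≫ ζ' ≫ u = tg F n ≫ c ≫ i2 ≫ u := by
        rw [Category.assoc, IsIso.hom_inv_id_assoc, ← Category.assoc (sg F n) ζ', ← sq2.w,
          Category.assoc, Category.assoc]
      rw [t1, t2, ← Category.assoc, bd_sg, Category.assoc]
    obtain ⟨a, ha1, ha2, ha3⟩ := P.corner' (n + 1) (Nat.lt_succ_self n) f hf
      (sphDesc P.E _ _ e3) (c ≫ i2 ≫ u) (inr ≫ v) (by
        apply sph_hom_ext
        · rw [hemS_sphMap_assoc, hemS_sphDesc, hemS_bd_assoc, ← P.sg_θ, Category.assoc,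
            ← Category.assoc P.θ p, hp, ← Category.assoc (sg F n) ζ,
            ← Category.assoc _ i1, sq1.w, Category.assoc]
        · rw [hemT_sphMap_assoc, hemT_sphDesc, hemT_bd_assoc, ← P.sg_θ, Category.assoc,
            IsIso.hom_inv_id_assoc, ← Category.assoc (sg F n) ζ', ← sq2.w,
            Category.assoc, Category.assoc]) (by
        apply sph_hom_ext
        · rw [hemS_bd_assoc, hemS_sphDesc_assoc, Category.assoc, Category.assoc,
            Category.assoc, huv, ← Category.assoc i2, gl, ← Category.assoc i1, g1l,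
            ← Category.assoc p, sq.w, Category.assoc]
        · rw [hemT_bd_assoc, hemT_sphDesc_assoc, Category.assoc, Category.assoc, huv,
            ← Category.assoc ζ', gr, Category.assoc, Category.assoc,
            IsIso.inv_hom_id_assoc]) (by
        rw [Category.assoc, Category.assoc, huv, ← Category.assoc i2, gl,
          ← Category.assoc c, g1r, Category.assoc])
    have hs : sg P.E n ≫ a = p ≫ i1 ≫ i2 ≫ u := by
      rw [← hemS_bd, Category.assoc, ha1, hemS_sphDesc]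
    have ht : tg P.E n ≫ a = inv P.θ ≫ ζ' ≫ u := by
      rw [← hemT_bd, Category.assoc, ha1, hemT_sphDesc]
    refine ⟨sq.desc (i1 ≫ i2 ≫ u) a hs.symm, ?_, ?_⟩
    · apply sq2.hom_ext
      · rw [← Category.assoc, gl]
        apply sq1.hom_ext
        · rw [← Category.assoc, g1l, sq.inl_desc]
        · rw [← Category.assoc, g1r, Category.assoc, sq.inr_desc, ha2]
      · rw [← Category.assoc, gr, Category.assoc, Category.assoc, sq.inr_desc, ht,
          IsIso.hom_inv_id_assoc]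
    · apply sq.hom_ext
      · rw [← Category.assoc, sq.inl_desc, Category.assoc, Category.assoc, huv,
          ← Category.assoc i2, gl, ← Category.assoc i1, g1l]
      · rw [← Category.assoc, sq.inr_desc, ha3]
  have := h2.an g hg
  rwa [gr] at this

/-- Gluing `E_i` along `E_n`, `n < i`. -/
lemma wstep' (hF : GContr F) {X : 𝓜} {ζ : cob F (n + 1) ⟶ X} (h : Extendable F (n + 1) ζ)
    (p : cob P.E n ⟶ X) (hp : P.θ ≫ p = ζ) {i : ℕ} (hi : n < i) {X' : 𝓜} (inl : X ⟶ X')
    (inr : cob P.E i ⟶ X') (sq : IsPushout p (P.E.map (Globe.face false hi)) inl inr) :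
    Extendable F (n + 1) (P.θ ≫ P.E.map (Globe.face true hi) ≫ inr) := by
  have sq1 := IsPushout.of_hasPushout p (sg P.E n)
  have h1 := P.wstep hF h p hp (pushout.inl p (sg P.E n)) (pushout.inr p (sg P.E n)) sq1
  have e : P.E.map (Globe.face false hi) =
      sg P.E n ≫ P.E.map (Globe.leFace false (Nat.succ_le_of_lt hi)) := by
    rw [← P.E.map_comp, Globe.face_leFace]
  have e' : P.E.map (Globe.face true hi) =
      tg P.E n ≫ P.E.map (Globe.leFace false (Nat.succ_le_of_lt hi)) := by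
    rw [← P.E.map_comp, Globe.face_leFace]
  rw [e] at sq
  let φ : pushout p (sg P.E n) ⟶ X' := sq1.desc inl
    (P.E.map (Globe.leFace false (Nat.succ_le_of_lt hi)) ≫ inr) (by
      rw [sq.w, Category.assoc])
  have hφ : pushout.inl p (sg P.E n) ≫ φ = inl := sq1.inl_desc _ _ _
  have hφ' : pushout.inr p (sg P.E n) ≫ φ =
    P.E.map (Globe.leFace false (Nat.succ_le_of_lt hi)) ≫ inr := sq1.inr_desc _ _ _
  have sq2 : IsPushout (pushout.inr p (sg P.E n))
      (P.E.map (Globe.leFace false (Nat.succ_le_of_lt hi))) φ inr := by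
    refine IsPushout.of_top (h₁₁ := p) (v₁₁ := sg P.E n) (v₁₂ := pushout.inl p (sg P.E n)) ?_
      hφ' sq1
    rw [hφ]
    exact sq
  have h3 := h1.an φ (MorphismProperty.of_isPushout sq2
    (P.an_leFace (Nat.lt_succ_self n) (Nat.succ_le_of_lt hi)))
  rw [Category.assoc, Category.assoc, hφ'] at h3
  rwa [e', Category.assoc]

end CylPre

end Vale.Agent.P259
end
end

section

section

open CategoryTheory Limits

namespace Vale.Agent.P259

universe v u

variable {𝓜 : Type u} [Category.{v} 𝓜] [HasPushouts 𝓜] [HasInitial 𝓜]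

namespace CylPre

variable {F : Globe ⥤ 𝓜} {n : ℕ} (P : CylPre F n)

/-- The inductive statement for globular sums of cylinders. -/
def Good {X : 𝓜} {d : ℕ} (e : cob P.E d ⟶ X) : Prop :=
  (d < n → Extendable F (n + 1) (P.im.app (Globe.D d) ≫ e)) ∧
  ∀ h : n ≤ d, Extendable F (n + 1) (P.θ ≫ P.E.map (Globe.leFace true h) ≫ e)

/-- The lower faces of the last disc. -/
lemma Good.lower {X : 𝓜} {d : ℕ} {e : cob P.E d ⟶ X} (h : P.Good e) {j : ℕ} (hj : j < d)
    (hjn : j < n) : ∃ (d' : ℕ) (e0 : cob F d' ⟶ X) (hj' : j < d'), Extendable F (n + 1) e0 ∧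
      F.map (Globe.face true hj') ≫ e0 =
        P.im.app (Globe.D j) ≫ P.E.map (Globe.face true hj) ≫ e := by
  rcases lt_or_ge d n with hd | hd
  · refine ⟨d, _, hj, h.1 hd, ?_⟩
    rw [← Category.assoc, P.im.naturality, Category.assoc]
  · refine ⟨n + 1, _, hjn.trans (Nat.lt_succ_self n), h.2 hd, ?_⟩
    have e1 : Globe.face true (hjn.trans (Nat.lt_succ_self n)) =
        Globe.face true hjn ≫ Globe.τ n := by rw [Globe.face_comp_face]
    have e2 : Globe.face true hj = Globe.face true hjn ≫ Globe.leFace true hd := by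
      rw [Globe.face_leFace]
    rw [e1, F.map_comp, Category.assoc, ← Category.assoc (F.map (Globe.τ n)), P.tg_θ,
      ← Category.assoc, P.ip.naturality, ← P.low_eq j hjn, e2, P.E.map_comp]
    simp only [Category.assoc]

/-- Gluing a disc `E_i`, `i ≤ n`, along `E_j`, `j < n`. -/
lemma glue_low {X : 𝓜} {d' : ℕ} {e0 : cob F d' ⟶ X} (h : Extendable F (n + 1) e0) {j : ℕ}
    (hjn : j < n) (hj' : j < d') (p : cob P.E j ⟶ X)
    (hp : F.map (Globe.face true hj') ≫ e0 = P.im.app (Globe.D j) ≫ p) {i i' : ℕ}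
    (hi : j < i) (hi' : j < i') (β : cob F i' ⟶ cob P.E i) [IsIso β]
    (hβ : F.map (Globe.face false hi') ≫ β =
      P.im.app (Globe.D j) ≫ P.E.map (Globe.face false hi)) {X' : 𝓜} (inl : X ⟶ X')
    (inr : cob P.E i ⟶ X') (sq : IsPushout p (P.E.map (Globe.face false hi)) inl inr) :
    Extendable F (n + 1) (β ≫ inr) := by
  have := P.low_iso j hjn
  refine h.glue hj' hi' inl (β ≫ inr) ?_
  refine sq.of_iso (asIso (P.im.app (Globe.D j))).symm (Iso.refl _) (asIso β).symm (Iso.refl _)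
    ?_ ?_ ?_ ?_
  · simp [hp]
  · simp only [Iso.symm_hom, asIso_inv, IsIso.comp_inv_eq, Category.assoc]
    rw [hβ, IsIso.inv_hom_id_assoc]
  · simp
  · simp

theorem good (hH : HypH F (n + 1)) {X : 𝓜} {d : ℕ} {e : cob P.E d ⟶ X}
    (h : IsGSum P.E X d e) : P.Good e := by
  have hF : GContr F := hH.gContr
  have hiso := P.iso
  induction h with
  | disc i X e he =>
    refine ⟨fun hi => ?_, fun hi => ?_⟩
    · have := P.low_iso i hi
      exact hH.extendable (IsGSum.disc i X _ inferInstance)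
    · rcases hi.eq_or_lt with rfl | hi'
      · rw [Globe.leFace_refl, P.E.map_id, Category.id_comp]
        exact hH.extendable (IsGSum.disc (n + 1) X _ inferInstance)
      · have h0 : Extendable F (n + 1) P.θ :=
          hH.extendable (IsGSum.disc (n + 1) _ _ inferInstance)
        rw [Globe.leFace_lt _ _ hi']
        refine P.wstep' hF h0 (𝟙 _) (Category.comp_id _) hi'
          (P.E.map (Globe.face false hi') ≫ e) e ?_
        exact IsPushout.of_horiz_isIso ⟨by simp⟩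
  | @glue X d e h j i hj hi X' inl inr sq ih =>
    have keyn : ∀ (hjn : j < n) {Y : 𝓜} (inl' : X ⟶ Y) (inr' : cob P.E n ⟶ Y),
        IsPushout (P.E.map (Globe.face true hj) ≫ e) (P.E.map (Globe.face false hjn)) inl' inr' →
        Extendable F (n + 1) (P.θ ≫ inr') := by
      intro hjn Y inl' inr' sq'
      obtain ⟨d', e0, hj', he0, he1⟩ := Good.lower P ih hj hjn
      refine P.glue_low he0 hjn hj' _ he1 hjn (hjn.trans (Nat.lt_succ_self n)) P.θ ?_ inl'
        inr' sq'
      have e1 : Globe.face false (hjn.trans (Nat.lt_succ_self n)) =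
        Globe.face false hjn ≫ Globe.σ n := by rw [Globe.face_comp_face]
      rw [e1, F.map_comp, Category.assoc, P.sg_θ, P.im.naturality]
    refine ⟨fun hin => ?_, fun hin => ?_⟩
    · -- `i < n`
      have hjn : j < n := hi.trans hin
      obtain ⟨d', e0, hj', he0, he1⟩ := Good.lower P ih hj hjn
      have := P.low_iso i hin
      exact P.glue_low he0 hjn hj' _ he1 hi hi (P.im.app (Globe.D i)) (P.im.naturality _) inl
        inr sq
    · rcases hin.eq_or_lt with rfl | hin'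
      · -- `i = n`
        rw [Globe.leFace_refl, P.E.map_id, Category.id_comp]
        exact keyn hi inl inr sq
      · rw [Globe.leFace_lt _ _ hin']
        rcases lt_trichotomy j n with hjn | rfl | hjn
        · -- `j < n < i`
          have sq1 := IsPushout.of_hasPushout (P.E.map (Globe.face true hj) ≫ e)
            (P.E.map (Globe.face false hjn))
          have h1 := keyn hjn _ _ sq1
          have ei : Globe.face false hi = Globe.face false hjn ≫ Globe.face false hin' := by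
            rw [Globe.face_comp_face]
          rw [ei, P.E.map_comp] at sq
          let φ := sq1.desc inl (P.E.map (Globe.face false hin') ≫ inr) (by
            rw [sq.w, Category.assoc])
          refine P.wstep' hF h1 _ rfl hin' φ inr ?_
          refine IsPushout.of_top (h₁₁ := P.E.map (Globe.face true hj) ≫ e)
            (v₁₁ := P.E.map (Globe.face false hjn)) (v₁₂ := pushout.inl _ _) ?_
            (sq1.inr_desc _ _ _) sq1
          rw [sq1.inl_desc]
          exact sq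
        · -- `j = n`
          have h1 := ih.2 hj.le
          rw [Globe.leFace_lt _ _ hj] at h1
          exact P.wstep' hF h1 _ rfl hin' inl inr sq
        · -- `n < j`
          have h1 := ih.2 (hjn.trans hj).le
          have h2 : AN F (n + 1) inl := by
            refine MorphismProperty.of_isPushout sq ?_
            have := P.an_leFace hjn hi.le
            rwa [Globe.leFace_lt _ _ hi] at this
          have h3 := h1.an inl h2
          have ei : Globe.face true hin' = Globe.face true hjn ≫ Globe.face false hi := by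
            rw [Globe.face_comp_face]
          have ed : Globe.face true (hjn.trans hj) =
            Globe.face true hjn ≫ Globe.face true hj := by rw [Globe.face_comp_face]
          have e5 : P.θ ≫ P.E.map (Globe.face true hin') ≫ inr =
              (P.θ ≫ P.E.map (Globe.leFace true (hjn.trans hj).le) ≫ e) ≫ inl := by
            rw [Globe.leFace_lt _ _ (hjn.trans hj), ei, ed, P.E.map_comp, P.E.map_comp]
            simp only [Category.assoc]
            rw [← sq.w]
            simp only [Category.assoc]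
          rw [e5]
          exact h3

/-- Globular sums of cylinders are hereditarily contractible. -/
theorem gsum_hered (hH : HypH F (n + 1)) {X : 𝓜} {d : ℕ} {e : cob P.E d ⟶ X}
    (h : IsGSum P.E X d e) : Hered F (n + 1) X := by
  have hg := P.good hH h
  rcases lt_or_ge d n with hd | hd
  · exact (hg.1 hd).hered
  · exact (hg.2 hd).hered

theorem gsum (hH : HypH F (n + 1)) ⦃X : 𝓜⦄ ⦃d : ℕ⦄ (e : cob P.E d ⟶ X)
    (h : IsGSum P.E X d e) : Contr F X :=
  P.gsum_hered hH h (𝟙 X) (MorphismProperty.id_mem _ _)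

theorem cob_hered (hH : HypH F (n + 1)) (k : ℕ) : Hered F (n + 1) (cob P.E k) :=
  P.gsum_hered hH (IsGSum.disc k _ (𝟙 _) inferInstance)

end CylPre

end Vale.Agent.P259
end
end

section

section

open CategoryTheory Limits

namespace Vale.Agent.P259

universe v u

variable {𝓜 : Type u} [Category.{v} 𝓜] [HasPushouts 𝓜] [HasInitial 𝓜]

lemma Contr.trivFib_from [HasTerminal 𝓜] {F : Globe ⥤ 𝓜} {X : 𝓜} (h : Contr F X) :
    TrivFib F (terminal.from X) := by
  intro A B i hi
  obtain ⟨j⟩ := hi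
  refine ⟨fun {u v} sq => ?_⟩
  obtain ⟨w, hw⟩ := h j u
  exact ⟨⟨⟨w, hw, Subsingleton.elim _ _⟩⟩⟩

lemma Hered.contr {F : Globe ⥤ 𝓜} {m : ℕ} {X : 𝓜} (h : Hered F m X) : Contr F X :=
  h (𝟙 X) (MorphismProperty.id_mem _ _)

namespace CylPre

variable {F : Globe ⥤ 𝓜} {n : ℕ} (P : CylPre F n)

/-- The extension property for the universal object. -/
lemma fib_contr [HasTerminal 𝓜] {k : ℕ} (hk : n ≤ k) {L : 𝓜} (hL : Contr F L)
    (a : cob P.E k ⟶ L) (em ep : cob F (k + 1) ⟶ L)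
    (hm : sg F k ≫ em = P.im.app (Globe.D k) ≫ a) (hp : sg F k ≫ ep = P.ip.app (Globe.D k) ≫ a) :
    ∃ c : cob P.E (k + 1) ⟶ L, sg P.E k ≫ c = a ∧ P.im.app (Globe.D (k + 1)) ≫ c = em ∧
      P.ip.app (Globe.D (k + 1)) ≫ c = ep := by
  have ht := hL.trivFib_from
  obtain ⟨a', h1, h2, h3, -⟩ := P.ext k hk _ ht (bd P.E k ≫ a) (tg F k ≫ em) (tg F k ≫ ep)
    (terminal.from _) (by
      rw [← Category.assoc, ← bd_sg, Category.assoc, hm, ← Category.assoc, ← Category.assoc,
        sphMap_bd]) (by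
      rw [← Category.assoc, ← bd_sg, Category.assoc, hp, ← Category.assoc, ← Category.assoc,
        sphMap_bd]) (Subsingleton.elim _ _) (Subsingleton.elim _ _) (Subsingleton.elim _ _)
  obtain ⟨c, c1, c2, c3, -⟩ := P.ext (k + 1) (hk.trans (Nat.le_succ k)) _ ht
    (sphDesc P.E a a' h1.symm) em ep (terminal.from _) (by
      apply sph_hom_ext
      · rw [hemS_bd_assoc, hemS_sphMap_assoc, hemS_sphDesc, hm]
      · rw [hemT_bd_assoc, hemT_sphMap_assoc, hemT_sphDesc, h2]) (by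
      apply sph_hom_ext
      · rw [hemS_bd_assoc, hemS_sphMap_assoc, hemS_sphDesc, hp]
      · rw [hemT_bd_assoc, hemT_sphMap_assoc, hemT_sphDesc, h3])
    (Subsingleton.elim _ _) (Subsingleton.elim _ _) (Subsingleton.elim _ _)
  refine ⟨c, ?_, c2, c3⟩
  rw [← hemS_bd, Category.assoc, c1, hemS_sphDesc]

lemma fib_of [HasTerminal 𝓜] {k : ℕ} (hk : n ≤ k) {L : 𝓜} (hL : Contr F L)
    (a0 : cob P.E k ⟶ L) (em0 ep0 : cob F (k + 1) ⟶ L)
    (hm0 : sg F k ≫ em0 = P.im.app (Globe.D k) ≫ a0)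
    (hp0 : sg F k ≫ ep0 = P.ip.app (Globe.D k) ≫ a0) {X : 𝓜} (φ : L ⟶ X)
    (a : cob P.E k ⟶ X) (em ep : cob F (k + 1) ⟶ X) (ha : a0 ≫ φ = a) (he : em0 ≫ φ = em)
    (he' : ep0 ≫ φ = ep) :
    ∃ c : cob P.E (k + 1) ⟶ X, sg P.E k ≫ c = a ∧ P.im.app (Globe.D (k + 1)) ≫ c = em ∧
      P.ip.app (Globe.D (k + 1)) ≫ c = ep := by
  obtain ⟨c, h1, h2, h3⟩ := P.fib_contr hk hL a0 em0 ep0 hm0 hp0
  refine ⟨c ≫ φ, ?_, ?_, ?_⟩
  · rw [← Category.assoc, h1, ha]
  · rw [← Category.assoc, h2, he]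
  · rw [← Category.assoc, h3, he']

theorem fib [HasTerminal 𝓜] (hH : HypH F (n + 1)) (k : ℕ) (hk : n ≤ k) ⦃X : 𝓜⦄
    (a : cob P.E k ⟶ X) (em ep : cob F (k + 1) ⟶ X)
    (hm : sg F k ≫ em = P.im.app (Globe.D k) ≫ a) (hp : sg F k ≫ ep = P.ip.app (Globe.D k) ≫ a) :
    ∃ c : cob P.E (k + 1) ⟶ X, sg P.E k ≫ c = a ∧ P.im.app (Globe.D (k + 1)) ≫ c = em ∧
      P.ip.app (Globe.D (k + 1)) ≫ c = ep := by
  have hF : GContr F := hH.gContr
  have hiso := P.iso
  rcases hk.eq_or_lt with rfl | hk'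
  · -- `k = n`
    have sq1 := IsPushout.of_hasPushout (tg F n) (sg F n)
    have hg : IsGSum F (pushout (tg F n) (sg F n)) (n + 1) (pushout.inr (tg F n) (sg F n)) := by
      refine (IsGSum.disc (n + 1) _ (𝟙 _) inferInstance).glue (Nat.lt_succ_self n)
        (Nat.lt_succ_self n) (pushout.inl _ _) _ ?_
      rw [Category.comp_id]
      exact sq1
    have h1 : Extendable F (n + 1) (pushout.inr (tg F n) (sg F n)) := hH.extendable hg
    let z : cob F (n + 1) ⟶ pushout (tg F n) (sg F n) :=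
      cmp hF (pushout.inl (tg F n) (sg F n)) (pushout.inr (tg F n) (sg F n)) pushout.condition
    have hz1 : sg F n ≫ z = sg F n ≫ pushout.inl (tg F n) (sg F n) := sg_cmp _ _ _ _
    have hz2 : tg F n ≫ z = tg F n ≫ pushout.inr (tg F n) (sg F n) := tg_cmp _ _ _ _
    have sq2 := IsPushout.of_hasPushout (sg F n ≫ z) (sg F n)
    have h2 : Extendable F (n + 1) (pushout.inr (sg F n ≫ z) (sg F n)) :=
      h1.tree hF (Nat.lt_succ_self n) z hz2 (pushout.inl _ _) _ sq2
    have e1 : (tg F n) ≫ P.θ ≫ a = sg F n ≫ ep := by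
      rw [hp, ← P.tg_θ, Category.assoc]
    let φ1 : pushout (tg F n) (sg F n) ⟶ X := sq1.desc (P.θ ≫ a) ep e1
    have e2 : (sg F n ≫ z) ≫ φ1 = sg F n ≫ em := by
      rw [hz1, Category.assoc, sq1.inl_desc, hm, ← P.sg_θ, Category.assoc]
    refine P.fib_of le_rfl h2.hered.contr
      (inv P.θ ≫ pushout.inl (tg F n) (sg F n) ≫ pushout.inl (sg F n ≫ z) (sg F n))
      (pushout.inr (sg F n ≫ z) (sg F n))
      (pushout.inr (tg F n) (sg F n) ≫ pushout.inl (sg F n ≫ z) (sg F n)) ?_ ?_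
      (sq2.desc φ1 em e2) a em ep ?_ ?_ ?_
    · have t : sg F n ≫ z = P.im.app (Globe.D n) ≫ inv P.θ ≫ pushout.inl (tg F n) (sg F n) := by
        rw [hz1, ← P.sg_θ, Category.assoc, IsIso.hom_inv_id_assoc]
      rw [← sq2.w]
      exact (congrArg (· ≫ pushout.inl (sg F n ≫ z) (sg F n)) t).trans
        (by simp only [Category.assoc])
    · rw [← P.tg_θ]
      simp only [Category.assoc, IsIso.hom_inv_id_assoc]
      rw [← Category.assoc, ← Category.assoc, ← sq1.w]
    · rw [Category.assoc, Category.assoc, sq2.inl_desc, sq1.inl_desc, IsIso.inv_hom_id_assoc]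
    · rw [sq2.inr_desc]
    · rw [Category.assoc, sq2.inl_desc, sq1.inr_desc]
  · -- `n < k`
    have h0 := P.cob_hered hH k
    have sq1 := IsPushout.of_hasPushout (P.im.app (Globe.D k)) (sg F k)
    have sq2 := IsPushout.of_hasPushout
      (P.ip.app (Globe.D k) ≫ pushout.inl (P.im.app (Globe.D k)) (sg F k)) (sg F k)
    have a1 : AN F (n + 1) (pushout.inl (P.im.app (Globe.D k)) (sg F k)) :=
      MorphismProperty.of_isPushout sq1 (AN.sg F hk')
    have a2 : AN F (n + 1) (pushout.inl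
        (P.ip.app (Globe.D k) ≫ pushout.inl (P.im.app (Globe.D k)) (sg F k)) (sg F k)) :=
      MorphismProperty.of_isPushout sq2 (AN.sg F hk')
    have hL := h0 _ (MorphismProperty.comp_mem _ _ _ a1 a2)
    let φ1 := sq1.desc a em hm.symm
    have e2 : (P.ip.app (Globe.D k) ≫ pushout.inl (P.im.app (Globe.D k)) (sg F k)) ≫ φ1 =
        sg F k ≫ ep := by
      rw [Category.assoc, sq1.inl_desc, hp]
    refine P.fib_of hk hL (pushout.inl (P.im.app (Globe.D k)) (sg F k) ≫ pushout.inl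
        (P.ip.app (Globe.D k) ≫ pushout.inl (P.im.app (Globe.D k)) (sg F k)) (sg F k))
      (pushout.inr (P.im.app (Globe.D k)) (sg F k) ≫ pushout.inl
        (P.ip.app (Globe.D k) ≫ pushout.inl (P.im.app (Globe.D k)) (sg F k)) (sg F k))
      (pushout.inr _ _) ?_ ?_ (sq2.desc φ1 ep e2) a em ep ?_ ?_ ?_
    · rw [← Category.assoc, ← sq1.w, Category.assoc]
    · rw [← sq2.w, Category.assoc]
    · rw [Category.assoc, sq2.inl_desc, sq1.inl_desc]
    · rw [Category.assoc, sq2.inl_desc, sq1.inr_desc]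
    · rw [sq2.inr_desc]

/-- The cylinder. -/
noncomputable def toCyl [HasTerminal 𝓜] (hH : HypH F (n + 1)) : Cyl F n where
  E := P.E
  im := P.im
  ip := P.ip
  q := P.q
  im_q := P.im_q
  ip_q := P.ip_q
  low_eq := P.low_eq
  low_iso := P.low_iso
  corner := P.corner
  ext := P.ext
  fib := P.fib hH
  thin := P.thin
  gsum := P.gsum hH

end CylPre

end Vale.Agent.P259
end
end

section

section

open CategoryTheory Limits

namespace Vale.Agent.P259

universe v u

variable {𝓜 : Type u} [Category.{v} 𝓜] [HasPushouts 𝓜] [HasInitial 𝓜]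

/-- The boundary part of stage `j` of the construction of a cylinder relative to dimensions
`< n`. -/
structure Pre (F : Globe ⥤ 𝓜) (n j : ℕ) where
  B : 𝓜
  dm : sph F j ⟶ B
  dp : sph F j ⟶ B
  dq : B ⟶ sph F j
  dm_dq : dm ≫ dq = 𝟙 _
  dp_dq : dp ≫ dq = 𝟙 _
  low : j ≤ n → IsIso dq
  hered : n < j → Hered F (n + 1) (pushout (bd F j) dm)

/-- Stage `j` of the construction of a cylinder relative to dimensions `< n`. -/
structure Stg (F : Globe ⥤ 𝓜) (n j : ℕ) extends Pre F n j where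
  E : 𝓜
  b : B ⟶ E
  im : cob F j ⟶ E
  ip : cob F j ⟶ E
  q : E ⟶ cob F j
  dm_b : dm ≫ b = bd F j ≫ im
  dp_b : dp ≫ b = bd F j ≫ ip
  b_q : b ≫ q = dq ≫ bd F j
  im_q : im ≫ q = 𝟙 _
  ip_q : ip ≫ q = 𝟙 _
  low_eq : j < n → im = ip ∧ IsIso im
  mid : j = n → ∃ θ : cob F (j + 1) ⟶ E, IsIso θ ∧ sg F j ≫ θ = im ∧ tg F j ≫ θ = ip
  corner : ∀ ⦃X Y : 𝓜⦄ (f : X ⟶ Y), Fib F n f → ∀ (β : B ⟶ X) (w : cob F j ⟶ X) (c' : E ⟶ Y),
    dm ≫ β = bd F j ≫ w → b ≫ c' = β ≫ f → im ≫ c' = w ≫ f →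
    ∃ c : E ⟶ X, b ≫ c = β ∧ im ≫ c = w ∧ c ≫ f = c'
  corner' : n < j → ∀ ⦃X Y : 𝓜⦄ (f : X ⟶ Y), Fib F (n + 1) f →
    ∀ (β : B ⟶ X) (w : cob F j ⟶ X) (c' : E ⟶ Y),
    dm ≫ β = bd F j ≫ w → b ≫ c' = β ≫ f → im ≫ c' = w ≫ f →
    ∃ c : E ⟶ X, b ≫ c = β ∧ im ≫ c = w ∧ c ≫ f = c'
  ext : n ≤ j → ∀ ⦃X Y : 𝓜⦄ (f : X ⟶ Y), TrivFib F f → ∀ (β : B ⟶ X)
    (wm wp : cob F j ⟶ X) (c' : E ⟶ Y), dm ≫ β = bd F j ≫ wm →
    dp ≫ β = bd F j ≫ wp → b ≫ c' = β ≫ f → im ≫ c' = wm ≫ f → ip ≫ c' = wp ≫ f →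
    ∃ c : E ⟶ X, b ≫ c = β ∧ im ≫ c = wm ∧ ip ≫ c = wp ∧ c ≫ f = c'
  thin : Epi (sg F j) → Epi (bd F j) → Epi b

/-- The link between two consecutive stages. -/
structure Link {F : Globe ⥤ 𝓜} {n j : ℕ} (S : Stg F n j) (P : Pre F n (j + 1)) where
  hS : S.E ⟶ P.B
  hT : S.E ⟶ P.B
  po : IsPushout S.b S.b hS hT
  dm_hS : hemS F j ≫ P.dm = S.im ≫ hS
  dm_hT : hemT F j ≫ P.dm = S.im ≫ hT
  dp_hS : hemS F j ≫ P.dp = S.ip ≫ hS
  dp_hT : hemT F j ≫ P.dp = S.ip ≫ hT
  hS_dq : hS ≫ P.dq = S.q ≫ hemS F j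
  hT_dq : hT ≫ P.dq = S.q ≫ hemT F j

/-- The initial boundary stage. -/
noncomputable def Pre.zero (F : Globe ⥤ 𝓜) (n : ℕ) : Pre F n 0 where
  B := sph F 0
  dm := 𝟙 _
  dp := 𝟙 _
  dq := 𝟙 _
  dm_dq := by simp
  dp_dq := by simp
  low _ := inferInstance
  hered h := absurd h (by omega)


omit [HasPushouts 𝓜] [HasInitial 𝓜] in
lemma stage_fib_lift {F : Globe ⥤ 𝓜} {n k : ℕ} (hk : n ≤ k) {X Y : 𝓜} {f : X ⟶ Y}
    (hf : Fib F n f) (u : cob F k ⟶ X) (v : cob F (k + 1) ⟶ Y) (h : u ≫ f = sg F k ≫ v) :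
    ∃ c : cob F (k + 1) ⟶ X, sg F k ≫ c = u ∧ c ≫ f = v := by
  have hl : HasLiftingProperty (sg F k) f :=
    hf _ (MorphismProperty.ofHoms.mk (f := fun k : {k : ℕ // n ≤ k} => sg F k.1) ⟨k, hk⟩)
  have sq : CommSq u (sg F k) f v := ⟨h⟩
  exact ⟨sq.lift, sq.fac_left, sq.fac_right⟩

lemma stage_triv_lift {F : Globe ⥤ 𝓜} {k : ℕ} {X Y : 𝓜} {f : X ⟶ Y}
    (hf : TrivFib F f) (u : sph F k ⟶ X) (v : cob F k ⟶ Y) (h : u ≫ f = bd F k ≫ v) :
    ∃ c : cob F k ⟶ X, bd F k ≫ c = u ∧ c ≫ f = v := by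
  have hl : HasLiftingProperty (bd F k) f :=
    hf _ (MorphismProperty.ofHoms.mk (f := fun k : ℕ => bd F k) k)
  have sq : CommSq u (bd F k) f v := ⟨h⟩
  exact ⟨sq.lift, sq.fac_left, sq.fac_right⟩

omit [HasPushouts 𝓜] [HasInitial 𝓜] in
lemma stage_an_of_lift {F : Globe ⥤ 𝓜} {n : ℕ} {A B : 𝓜} (g : A ⟶ B)
    (h : ∀ ⦃X Y : 𝓜⦄ (f : X ⟶ Y), Fib F n f → ∀ (u : A ⟶ X) (v : B ⟶ Y), u ≫ f = g ≫ v →
      ∃ l : B ⟶ X, g ≫ l = u ∧ l ≫ f = v) : AN F n g := by
  intro X Y f hf
  constructor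
  intro u v sq
  obtain ⟨l, h1, h2⟩ := h f hf u v sq.w
  exact ⟨⟨⟨l, h1, h2⟩⟩⟩

omit [HasPushouts 𝓜] [HasInitial 𝓜] in
lemma stage_fib_mono {F : Globe ⥤ 𝓜} {n m : ℕ} (h : n ≤ m) {X Y : 𝓜} {f : X ⟶ Y}
    (hf : Fib F n f) : Fib F m f := by
  intro A B g hg
  obtain ⟨k⟩ := hg
  exact hf _ (MorphismProperty.ofHoms.mk (f := fun k : {k : ℕ // n ≤ k} => sg F k.1)
    ⟨k.1, h.trans k.2⟩)

lemma Hered.stage_contr {F : Globe ⥤ 𝓜} {n : ℕ} {X : 𝓜} (h : Hered F n X) : Contr F X :=
  h (𝟙 X) (MorphismProperty.llp_of_isIso _ _)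

lemma Hered.stage_an {F : Globe ⥤ 𝓜} {n : ℕ} {X Y : 𝓜} (h : Hered F n X) (g : X ⟶ Y)
    (hg : AN F n g) : Hered F n Y := by
  intro Z k hk
  exact h (g ≫ k) (MorphismProperty.comp_mem _ _ _ hg hk)

lemma stage_disc_contr {F : Globe ⥤ 𝓜} {n : ℕ} (hF : HypH F n) (j : ℕ) :
    Contr F (cob F j) :=
  (hF (𝟙 _) (IsGSum.disc j _ (𝟙 _) inferInstance)).stage_contr

/-- A filler for two parallel cells. -/
lemma stage_filler {F : Globe ⥤ 𝓜} {X : 𝓜} (hX : Contr F X) {j : ℕ} (u v : cob F j ⟶ X)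
    (h : bd F j ≫ u = bd F j ≫ v) :
    ∃ w : cob F (j + 1) ⟶ X, sg F j ≫ w = u ∧ tg F j ≫ w = v := by
  obtain ⟨w, hw⟩ := hX (j + 1) (sphDesc F u v h)
  refine ⟨w, ?_, ?_⟩
  · rw [← hemS_bd, Category.assoc, hw, hemS_sphDesc]
  · rw [← hemT_bd, Category.assoc, hw, hemT_sphDesc]

/-- `dq` is inverse to `dm` when it is an isomorphism. -/
lemma Pre.dq_dm {F : Globe ⥤ 𝓜} {n j : ℕ} (P : Pre F n j) (h : j ≤ n) :
    P.dq ≫ P.dm = 𝟙 _ := by
  have := P.low h
  rw [← cancel_mono P.dq, Category.assoc, P.dm_dq, Category.comp_id, Category.id_comp]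

lemma Pre.dm_eq_dp {F : Globe ⥤ 𝓜} {n j : ℕ} (P : Pre F n j) (h : j ≤ n) :
    P.dm = P.dp := by
  have := P.low h
  rw [← cancel_mono P.dq, P.dm_dq, P.dp_dq]

/-- Stage `j < n`. -/
noncomputable def Pre.stgLow {F : Globe ⥤ 𝓜} {n j : ℕ} (P : Pre F n j) (h : j < n) :
    Stg F n j where
  toPre := P
  E := cob F j
  b := P.dq ≫ bd F j
  im := 𝟙 _
  ip := 𝟙 _
  q := 𝟙 _
  dm_b := by rw [← Category.assoc, P.dm_dq, Category.id_comp, Category.comp_id]
  dp_b := by rw [← Category.assoc, P.dp_dq, Category.id_comp, Category.comp_id]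
  b_q := Category.comp_id _
  im_q := Category.comp_id _
  ip_q := Category.comp_id _
  low_eq _ := ⟨rfl, inferInstance⟩
  mid h' := absurd h' (by omega)
  corner := by
    intro X Y f hf β w c' h1 h2 h3
    refine ⟨w, ?_, Category.id_comp _, ?_⟩
    · rw [Category.assoc, ← h1, ← Category.assoc, P.dq_dm h.le, Category.id_comp]
    · rw [← h3, Category.id_comp]
  corner' h' := absurd h' (by omega)
  ext h' := absurd h' (by omega)
  thin _ _ := by
    have := P.low h.le
    exact epi_comp _ _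

lemma exists_stg_mid {F : Globe ⥤ 𝓜} {n : ℕ} (hF : HypH F (n + 1)) (P : Pre F n n) :
    ∃ S : Stg F n n, S.toPre = P := by
  obtain ⟨κ, hκ1, hκ2⟩ := stage_filler (stage_disc_contr hF n) (𝟙 (cob F n)) (𝟙 (cob F n)) rfl
  have hdq := P.dq_dm le_rfl
  have hdmp := P.dm_eq_dp le_rfl
  refine ⟨{ toPre := P, E := cob F (n + 1), b := P.dq ≫ bd F n ≫ sg F n, im := sg F n,
            ip := tg F n, q := κ, dm_b := ?_, dp_b := ?_, b_q := ?_, im_q := hκ1, ip_q := hκ2,
            low_eq := fun h => absurd h (lt_irrefl _), mid := ?_, corner := ?_,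
            corner' := fun h => absurd h (lt_irrefl _), ext := ?_,
            thin := fun h1 h2 => by
              have := P.low le_rfl
              exact epi_comp _ _ }, rfl⟩
  · rw [← Category.assoc, P.dm_dq, Category.id_comp]
  · rw [← Category.assoc, P.dp_dq, Category.id_comp, bd_sg]
  · rw [Category.assoc, Category.assoc, hκ1, Category.comp_id]
  · intro _
    exact ⟨𝟙 _, inferInstance, Category.comp_id _, Category.comp_id _⟩
  · intro X Y f hf β w c' h1 h2 h3
    obtain ⟨c, hc1, hc2⟩ := stage_fib_lift le_rfl hf w c' h3.symm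
    refine ⟨c, ?_, hc1, hc2⟩
    rw [Category.assoc, Category.assoc, hc1, ← h1, ← Category.assoc, hdq, Category.id_comp]
  · intro _ X Y f hf β wm wp c' h1 h2 h3 h4 h5
    have hpar : bd F n ≫ wm = bd F n ≫ wp := by rw [← h1, ← h2, hdmp]
    obtain ⟨c, hc1, hc2⟩ := stage_triv_lift hf (sphDesc F wm wp hpar) c' (by
      apply sph_hom_ext
      · rw [hemS_sphDesc_assoc, hemS_bd_assoc, h4]
      · rw [hemT_sphDesc_assoc, hemT_bd_assoc, h5])
    have hs : sg F n ≫ c = wm := by rw [← hemS_bd, Category.assoc, hc1, hemS_sphDesc]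
    have ht : tg F n ≫ c = wp := by rw [← hemT_bd, Category.assoc, hc1, hemT_sphDesc]
    refine ⟨c, ?_, hs, ht, hc2⟩
    rw [Category.assoc, Category.assoc, hs, ← h1, ← Category.assoc, hdq, Category.id_comp]

lemma exists_stg_high {F : Globe ⥤ 𝓜} {n j : ℕ} (hF : HypH F (n + 1)) (hj : n < j)
    (P : Pre F n j) : ∃ S : Stg F n j, S.toPre = P := by
  have hG : Contr F (pushout (bd F j) P.dm) := (P.hered hj).stage_contr
  obtain ⟨T, hT⟩ := hG j (P.dp ≫ pushout.inr _ _)
  have hw : bd F j ≫ 𝟙 _ = P.dm ≫ P.dq ≫ bd F j := by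
    rw [← Category.assoc, P.dm_dq, Category.id_comp, Category.comp_id]
  obtain ⟨κ, hκ1, hκ2⟩ := stage_filler (stage_disc_contr hF j)
    (T ≫ pushout.desc (𝟙 _) (P.dq ≫ bd F j) hw) (𝟙 (cob F j)) (by
      rw [← Category.assoc, hT, Category.assoc, pushout.inr_desc, ← Category.assoc, P.dp_dq,
        Category.id_comp, Category.comp_id])
  have hcorner : ∀ ⦃X Y : 𝓜⦄ (f : X ⟶ Y), Fib F (n + 1) f →
      ∀ (β : P.B ⟶ X) (w : cob F j ⟶ X) (c' : pushout T (sg F j) ⟶ Y),
      P.dm ≫ β = bd F j ≫ w → (pushout.inr _ _ ≫ pushout.inl _ _) ≫ c' = β ≫ f →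
      (pushout.inl _ _ ≫ pushout.inl _ _) ≫ c' = w ≫ f →
      ∃ c : pushout T (sg F j) ⟶ X, (pushout.inr _ _ ≫ pushout.inl _ _) ≫ c = β ∧
        (pushout.inl _ _ ≫ pushout.inl _ _) ≫ c = w ∧ c ≫ f = c' := by
    intro X Y f hf β w c' h1 h2 h3
    have hd : pushout.inl _ _ ≫ c' = pushout.desc w β h1.symm ≫ f := by
      apply pushout.hom_ext
      · rw [pushout.inl_desc_assoc, ← h3, Category.assoc]
      · rw [pushout.inr_desc_assoc, ← h2, Category.assoc]
    obtain ⟨c0, hc1, hc2⟩ := stage_fib_lift (show n + 1 ≤ j by omega) hf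
      (T ≫ pushout.desc w β h1.symm) (pushout.inr _ _ ≫ c') (by
        rw [Category.assoc, ← hd, ← Category.assoc, pushout.condition, Category.assoc])
    refine ⟨pushout.desc (pushout.desc w β h1.symm) c0 hc1.symm, ?_, ?_, ?_⟩
    · rw [Category.assoc, pushout.inl_desc, pushout.inr_desc]
    · rw [Category.assoc, pushout.inl_desc, pushout.inl_desc]
    · apply pushout.hom_ext
      · rw [pushout.inl_desc_assoc, hd]
      · rw [pushout.inr_desc_assoc, hc2]
  refine ⟨{ toPre := P, E := pushout T (sg F j), b := pushout.inr _ _ ≫ pushout.inl _ _,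
            im := pushout.inl _ _ ≫ pushout.inl _ _, ip := tg F j ≫ pushout.inr _ _,
            q := pushout.desc (pushout.desc (𝟙 _) (P.dq ≫ bd F j) hw) κ hκ1.symm,
            dm_b := ?_, dp_b := ?_, b_q := ?_, im_q := ?_, ip_q := ?_,
            low_eq := fun h => absurd h (by omega), mid := fun h => absurd h (by omega),
            corner := ?_, corner' := fun _ => hcorner, ext := ?_,
            thin := fun h1 h2 => epi_comp _ _ }, rfl⟩
  · rw [← Category.assoc, ← pushout.condition, Category.assoc]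
  · rw [← Category.assoc, ← hT, Category.assoc, pushout.condition, ← Category.assoc, bd_sg,
      Category.assoc]
  · rw [Category.assoc, pushout.inl_desc, pushout.inr_desc]
  · rw [Category.assoc, pushout.inl_desc, pushout.inl_desc]
  · rw [Category.assoc, pushout.inr_desc, hκ2]
  · intro X Y f hf
    exact hcorner f (stage_fib_mono (Nat.le_succ n) hf)
  · intro _ X Y f hf β wm wp c' h1 h2 h3 h4 h5
    have hd : pushout.inl _ _ ≫ c' = pushout.desc wm β h1.symm ≫ f := by
      apply pushout.hom_ext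
      · rw [pushout.inl_desc_assoc, ← h4, Category.assoc]
      · rw [pushout.inr_desc_assoc, ← h3, Category.assoc]
    have hpar : bd F j ≫ T ≫ pushout.desc wm β h1.symm = bd F j ≫ wp := by
      rw [← Category.assoc, hT, Category.assoc, pushout.inr_desc, h2]
    obtain ⟨c0, hc1, hc2⟩ := stage_triv_lift hf (sphDesc F _ _ hpar) (pushout.inr _ _ ≫ c') (by
      apply sph_hom_ext
      · rw [hemS_sphDesc_assoc, hemS_bd_assoc, Category.assoc, ← hd, ← Category.assoc,
          pushout.condition, Category.assoc]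
      · rw [hemT_sphDesc_assoc, hemT_bd_assoc, ← h5, Category.assoc])
    have hs : sg F j ≫ c0 = T ≫ pushout.desc wm β h1.symm := by
      rw [← hemS_bd, Category.assoc, hc1, hemS_sphDesc]
    have ht : tg F j ≫ c0 = wp := by rw [← hemT_bd, Category.assoc, hc1, hemT_sphDesc]
    refine ⟨pushout.desc (pushout.desc wm β h1.symm) c0 hs.symm, ?_, ?_, ?_, ?_⟩
    · rw [Category.assoc, pushout.inl_desc, pushout.inr_desc]
    · rw [Category.assoc, pushout.inl_desc, pushout.inl_desc]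
    · rw [Category.assoc, pushout.inr_desc, ht]
    · apply pushout.hom_ext
      · rw [pushout.inl_desc_assoc, hd]
      · rw [pushout.inr_desc_assoc, hc2]

theorem exists_stg {F : Globe ⥤ 𝓜} {n j : ℕ} (hF : HypH F (n + 1)) (P : Pre F n j) :
    ∃ S : Stg F n j, S.toPre = P := by
  rcases lt_trichotomy j n with h | h | h
  · exact ⟨P.stgLow h, rfl⟩
  · subst h
    exact exists_stg_mid hF P
  · exact exists_stg_high hF h P


lemma Stg.b_eq {F : Globe ⥤ 𝓜} {n j : ℕ} (S : Stg F n j) (h : j ≤ n) :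
    S.b = S.dq ≫ bd F j ≫ S.im := by
  rw [← S.dm_b, ← Category.assoc, S.toPre.dq_dm h, Category.id_comp]

/-- The left boundary map of the next stage. -/
noncomputable def Stg.dm' {F : Globe ⥤ 𝓜} {n j : ℕ} (S : Stg F n j) :
    sph F (j + 1) ⟶ pushout S.b S.b :=
  sphDesc F (S.im ≫ pushout.inl _ _) (S.im ≫ pushout.inr _ _) (by
    rw [← Category.assoc, ← S.dm_b, Category.assoc, pushout.condition, ← Category.assoc, S.dm_b,
      Category.assoc])

/-- The right boundary map of the next stage. -/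
noncomputable def Stg.dp' {F : Globe ⥤ 𝓜} {n j : ℕ} (S : Stg F n j) :
    sph F (j + 1) ⟶ pushout S.b S.b :=
  sphDesc F (S.ip ≫ pushout.inl _ _) (S.ip ≫ pushout.inr _ _) (by
    rw [← Category.assoc, ← S.dp_b, Category.assoc, pushout.condition, ← Category.assoc, S.dp_b,
      Category.assoc])

/-- The projection of the next stage. -/
noncomputable def Stg.dq' {F : Globe ⥤ 𝓜} {n j : ℕ} (S : Stg F n j) :
    pushout S.b S.b ⟶ sph F (j + 1) :=
  pushout.desc (S.q ≫ hemS F j) (S.q ≫ hemT F j) (by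
    rw [← Category.assoc, ← Category.assoc, S.b_q, Category.assoc, Category.assoc,
      (isPushout_sph F j).w])

lemma Stg.hered_high {F : Globe ⥤ 𝓜} {n j : ℕ} (S : Stg F n j) (hj : n < j) :
    Hered F (n + 1) (pushout (bd F (j + 1)) S.dm') := by
  have h1 : Hered F (n + 1) (pushout (bd F j) S.dm) := S.hered hj
  have h2 : Hered F (n + 1) S.E := by
    apply h1.stage_an (pushout.desc S.im S.b S.dm_b.symm)
    apply stage_an_of_lift
    intro X Y f hf u v huv
    obtain ⟨c, hc1, hc2, hc3⟩ := S.corner' hj f hf (pushout.inr _ _ ≫ u) (pushout.inl _ _ ≫ u) v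
      (by rw [← Category.assoc, ← pushout.condition, Category.assoc])
      (by rw [Category.assoc, huv, pushout.inr_desc_assoc])
      (by rw [Category.assoc, huv, pushout.inl_desc_assoc])
    refine ⟨c, ?_, hc3⟩
    apply pushout.hom_ext
    · rw [pushout.inl_desc_assoc, hc2]
    · rw [pushout.inr_desc_assoc, hc1]
  apply h2.stage_an (pushout.inl S.b S.b ≫ pushout.inr _ _)
  apply stage_an_of_lift
  intro X Y f hf u v huv
  have hdm1 : hemS F j ≫ S.dm' = S.im ≫ pushout.inl _ _ := hemS_sphDesc _ _ _ _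
  have hdm2 : hemT F j ≫ S.dm' = S.im ≫ pushout.inr _ _ := hemT_sphDesc _ _ _ _
  obtain ⟨c1, hc1, hc1'⟩ := stage_fib_lift (show n + 1 ≤ j by omega) hf (S.im ≫ u)
    (pushout.inl _ _ ≫ v) (by
      rw [Category.assoc, huv, ← hemS_bd_assoc, pushout.condition_assoc, reassoc_of% hdm1,
        Category.assoc])
  obtain ⟨c2, hc2, hc3, hc4⟩ := S.corner' hj f hf (S.b ≫ u) (tg F j ≫ c1)
    (pushout.inr S.b S.b ≫ pushout.inr _ _ ≫ v)
    (by
      rw [← Category.assoc, S.dm_b, Category.assoc, ← hc1, ← Category.assoc, bd_sg,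
        Category.assoc])
    (by rw [← pushout.condition_assoc, Category.assoc, huv, Category.assoc])
    (by rw [← reassoc_of% hdm2, ← pushout.condition_assoc, hemT_bd_assoc, ← hc1',
          Category.assoc])
  have hcomp : bd F (j + 1) ≫ c1 = S.dm' ≫ pushout.desc u c2 hc2.symm := by
    apply sph_hom_ext
    · rw [hemS_bd_assoc, hc1, reassoc_of% hdm1, pushout.inl_desc]
    · rw [hemT_bd_assoc, reassoc_of% hdm2, pushout.inr_desc, hc3]
  refine ⟨pushout.desc c1 (pushout.desc u c2 hc2.symm) hcomp, ?_, ?_⟩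
  · rw [Category.assoc, pushout.inr_desc, pushout.inl_desc]
  · apply pushout.hom_ext
    · rw [pushout.inl_desc_assoc, hc1']
    · rw [pushout.inr_desc_assoc]
      apply pushout.hom_ext
      · rw [pushout.inl_desc_assoc, huv, Category.assoc]
      · rw [pushout.inr_desc_assoc, hc4]

lemma Stg.hered_mid {F : Globe ⥤ 𝓜} {n : ℕ} (hF : HypH F (n + 1)) (S : Stg F n n) :
    Hered F (n + 1) (pushout (bd F (n + 1)) S.dm') := by
  obtain ⟨θ, hθ, hθ1, hθ2⟩ := S.mid rfl
  have h0 : Extendable F (n + 1) (𝟙 (cob F (n + 1))) :=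
    hF.extendable (IsGSum.disc _ _ _ inferInstance)
  obtain ⟨X₁, i₁, w₁, sq₁⟩ : ∃ (X₁ : 𝓜) (i₁ : cob F (n + 1) ⟶ X₁) (w₁ : cob F (n + 1) ⟶ X₁),
      IsPushout (sg F n ≫ 𝟙 _) (sg F n) i₁ w₁ := ⟨_, _, _, IsPushout.of_hasPushout _ _⟩
  obtain ⟨X₂, i₂, w₂, sq₂⟩ : ∃ (X₂ : 𝓜) (i₂ : X₁ ⟶ X₂) (w₂ : cob F (n + 1) ⟶ X₂),
      IsPushout (tg F n ≫ w₁) (sg F n) i₂ w₂ := ⟨_, _, _, IsPushout.of_hasPushout _ _⟩
  have h1 : Extendable F (n + 1) w₁ :=
    h0.tree hF.gContr (Nat.lt_succ_self n) (𝟙 _) rfl _ _ sq₁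
  have h2 : Extendable F (n + 1) w₂ :=
    h1.glue (Nat.lt_succ_self n) (Nat.lt_succ_self n) _ _ sq₂
  have hdm1 : hemS F n ≫ S.dm' = S.im ≫ pushout.inl _ _ := hemS_sphDesc _ _ _ _
  have hdm2 : hemT F n ≫ S.dm' = S.im ≫ pushout.inr _ _ := hemT_sphDesc _ _ _ _
  have hb' : S.b = S.dq ≫ bd F n ≫ sg F n ≫ θ := by rw [S.b_eq le_rfl, ← hθ1]
  have hb : S.b ≫ inv θ = S.dq ≫ bd F n ≫ sg F n := by
    rw [hb']
    simp
  have hi : S.im ≫ inv θ = sg F n := by
    rw [← hθ1]
    simp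
  have r1 : sg F n ≫ i₁ ≫ i₂ = sg F n ≫ w₁ ≫ i₂ := by
    have := sq₁.w
    rw [Category.comp_id] at this
    rw [← Category.assoc, this, Category.assoc]
  have r2 : tg F n ≫ w₁ ≫ i₂ = sg F n ≫ w₂ := by
    rw [← sq₂.w, Category.assoc]
  have p1 : S.b ≫ inv θ ≫ i₁ ≫ i₂ = S.b ≫ inv θ ≫ w₂ := by
    rw [reassoc_of% hb, reassoc_of% hb, r1, ← r2, ← Category.assoc (bd F n), bd_sg,
      Category.assoc]
  have p2 : bd F (n + 1) ≫ w₁ ≫ i₂ =
      S.dm' ≫ pushout.desc (inv θ ≫ i₁ ≫ i₂) (inv θ ≫ w₂) p1 := by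
    apply sph_hom_ext
    · rw [hemS_bd_assoc, reassoc_of% hdm1, pushout.inl_desc, ← Category.assoc S.im, hi, r1]
    · rw [hemT_bd_assoc, reassoc_of% hdm2, pushout.inr_desc, ← Category.assoc S.im, hi, r2]
  -- the map from the tree
  have q1 : (sg F n ≫ 𝟙 _) ≫ θ ≫ pushout.inl S.b S.b ≫ pushout.inr (bd F (n + 1)) S.dm' =
      sg F n ≫ pushout.inl (bd F (n + 1)) S.dm' := by
    rw [Category.comp_id, ← Category.assoc, hθ1, ← reassoc_of% hdm1, ← pushout.condition,
      hemS_bd_assoc]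
  have q2 : (tg F n ≫ w₁) ≫ sq₁.desc _ _ q1 =
      sg F n ≫ θ ≫ pushout.inr S.b S.b ≫ pushout.inr (bd F (n + 1)) S.dm' := by
    rw [Category.assoc, sq₁.inr_desc, ← Category.assoc (sg F n), hθ1, ← reassoc_of% hdm2,
      ← pushout.condition, hemT_bd_assoc]
  apply h2.hered.stage_an (sq₂.desc _ _ q2)
  apply stage_an_of_lift
  intro X Y f _ u v huv
  refine ⟨pushout.desc (w₁ ≫ i₂) _ p2 ≫ u, ?_, ?_⟩
  · apply sq₂.hom_ext
    · rw [sq₂.inl_desc_assoc]
      apply sq₁.hom_ext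
      · simp only [sq₁.inl_desc_assoc, Category.assoc, pushout.inr_desc_assoc,
          pushout.inl_desc_assoc, IsIso.hom_inv_id_assoc]
      · simp only [sq₁.inr_desc_assoc, Category.assoc, pushout.inl_desc_assoc]
    · rw [sq₂.inr_desc_assoc]
      simp only [Category.assoc, pushout.inr_desc_assoc, IsIso.hom_inv_id_assoc]
  · rw [Category.assoc, huv]
    apply pushout.hom_ext
    · rw [pushout.inl_desc_assoc, Category.assoc, sq₂.inl_desc_assoc, sq₁.inr_desc_assoc]
    · rw [pushout.inr_desc_assoc]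
      apply pushout.hom_ext
      · simp only [pushout.inl_desc_assoc, Category.assoc, sq₂.inl_desc_assoc,
          sq₁.inl_desc_assoc, IsIso.inv_hom_id_assoc]
      · simp only [pushout.inr_desc_assoc, Category.assoc, sq₂.inr_desc_assoc,
          IsIso.inv_hom_id_assoc]

theorem exists_link {F : Globe ⥤ 𝓜} {n j : ℕ} (hF : HypH F (n + 1)) (S : Stg F n j) :
    Nonempty (Σ P : Pre F n (j + 1), Link S P) := by
  have hdm1 : hemS F j ≫ S.dm' = S.im ≫ pushout.inl _ _ := hemS_sphDesc _ _ _ _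
  have hdm2 : hemT F j ≫ S.dm' = S.im ≫ pushout.inr _ _ := hemT_sphDesc _ _ _ _
  have hdp1 : hemS F j ≫ S.dp' = S.ip ≫ pushout.inl _ _ := hemS_sphDesc _ _ _ _
  have hdp2 : hemT F j ≫ S.dp' = S.ip ≫ pushout.inr _ _ := hemT_sphDesc _ _ _ _
  have hdq1 : pushout.inl _ _ ≫ S.dq' = S.q ≫ hemS F j := pushout.inl_desc _ _ _
  have hdq2 : pushout.inr _ _ ≫ S.dq' = S.q ≫ hemT F j := pushout.inr_desc _ _ _
  have hdm : S.dm' ≫ S.dq' = 𝟙 _ := by
    apply sph_hom_ext
    · rw [reassoc_of% hdm1, hdq1, ← Category.assoc, S.im_q, Category.id_comp, Category.comp_id]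
    · rw [reassoc_of% hdm2, hdq2, ← Category.assoc, S.im_q, Category.id_comp, Category.comp_id]
  have hdp : S.dp' ≫ S.dq' = 𝟙 _ := by
    apply sph_hom_ext
    · rw [reassoc_of% hdp1, hdq1, ← Category.assoc, S.ip_q, Category.id_comp, Category.comp_id]
    · rw [reassoc_of% hdp2, hdq2, ← Category.assoc, S.ip_q, Category.id_comp, Category.comp_id]
  refine ⟨⟨{ B := pushout S.b S.b, dm := S.dm', dp := S.dp', dq := S.dq', dm_dq := hdm,
             dp_dq := hdp, low := ?_, hered := ?_ },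
    { hS := pushout.inl _ _, hT := pushout.inr _ _, po := IsPushout.of_hasPushout _ _,
      dm_hS := hdm1, dm_hT := hdm2, dp_hS := hdp1, dp_hT := hdp2, hS_dq := hdq1,
      hT_dq := hdq2 }⟩⟩
  · intro hj
    obtain ⟨-, h2⟩ := S.low_eq (by omega)
    have hq : S.q ≫ S.im = 𝟙 _ := by
      rw [← cancel_epi S.im, reassoc_of% S.im_q, Category.comp_id]
    refine ⟨⟨S.dm', ?_, hdm⟩⟩
    apply pushout.hom_ext
    · rw [reassoc_of% hdq1, hdm1, ← Category.assoc, hq, Category.id_comp, Category.comp_id]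
    · rw [reassoc_of% hdq2, hdm2, ← Category.assoc, hq, Category.id_comp, Category.comp_id]
  · intro hj
    rcases Nat.lt_or_ge n j with h | h
    · exact S.hered_high h
    · obtain rfl : n = j := by omega
      exact S.hered_mid hF

end Vale.Agent.P259
end
end

section

section

open CategoryTheory Limits

namespace Vale.Agent.P259

universe v u

variable {𝓜 : Type u} [Category.{v} 𝓜] [HasPushouts 𝓜] [HasInitial 𝓜]

/-- A full sequence of stages. -/
structure Tow (F : Globe ⥤ 𝓜) (n : ℕ) where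
  S : ∀ j, Stg F n j
  L : ∀ j, Link (S j) (S (j + 1)).toPre
  init : IsInitial (S 0).B

theorem exists_tow (F : Globe ⥤ 𝓜) (n : ℕ) (h : HypH F (n + 1)) : Nonempty (Tow F n) := by
  have h0 := exists_stg h (Pre.zero F n)
  have hl : ∀ j (S : Stg F n j), ∃ T : Stg F n (j + 1), Nonempty (Link S T.toPre) := by
    intro j S
    obtain ⟨P, L⟩ := (exists_link h S).some
    obtain ⟨T, rfl⟩ := exists_stg h P
    exact ⟨T, ⟨L⟩⟩
  choose nxt hn using hl
  let S : ∀ j, Stg F n j := fun j => Nat.rec h0.choose (fun j S => nxt j S) j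
  refine ⟨⟨S, fun j => (hn j (S j)).some, ?_⟩⟩
  have e : (S 0).toPre = Pre.zero F n := h0.choose_spec
  have e' : (S 0).toPre.B = sph F 0 := by rw [e]; rfl
  rw [e']
  exact isInitialSphZero F

namespace Tow

variable {F : Globe ⥤ 𝓜} {n : ℕ} (W : Tow F n)

/-- The coglobular object of the cylinders. -/
noncomputable def data : CoglobData 𝓜 where
  obj j := (W.S j).E
  s j := (W.L j).hS ≫ (W.S (j + 1)).b
  t j := (W.L j).hT ≫ (W.S (j + 1)).b
  ss j := by
    have := (W.L (j + 1)).po.w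
    simp only [Category.assoc]
    rw [← Category.assoc (W.S (j + 1)).b, this, Category.assoc]
  ts j := by
    have := (W.L (j + 1)).po.w
    simp only [Category.assoc]
    rw [← Category.assoc (W.S (j + 1)).b, this, Category.assoc]

/-- The functor of the cylinders. -/
noncomputable def E : Globe ⥤ 𝓜 := W.data.functor

/-- The inclusion of the boundary, with values in the functor. -/
noncomputable def bE (j : ℕ) : (W.S j).B ⟶ cob W.E j := (W.S j).b

noncomputable def imE (j : ℕ) : cob F j ⟶ cob W.E j := (W.S j).im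
noncomputable def ipE (j : ℕ) : cob F j ⟶ cob W.E j := (W.S j).ip
noncomputable def qE (j : ℕ) : cob W.E j ⟶ cob F j := (W.S j).q
noncomputable def hSE (j : ℕ) : cob W.E j ⟶ (W.S (j + 1)).B := (W.L j).hS
noncomputable def hTE (j : ℕ) : cob W.E j ⟶ (W.S (j + 1)).B := (W.L j).hT

lemma sg_E (j : ℕ) : sg W.E j = W.hSE j ≫ W.bE (j + 1) := W.data.functor_σ j
lemma tg_E (j : ℕ) : tg W.E j = W.hTE j ≫ W.bE (j + 1) := W.data.functor_τ j

lemma poE (j : ℕ) : IsPushout (W.bE j) (W.bE j) (W.hSE j) (W.hTE j) := (W.L j).po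

lemma dm_bE (j : ℕ) : (W.S j).dm ≫ W.bE j = bd F j ≫ W.imE j := (W.S j).dm_b
lemma dp_bE (j : ℕ) : (W.S j).dp ≫ W.bE j = bd F j ≫ W.ipE j := (W.S j).dp_b
lemma b_qE (j : ℕ) : W.bE j ≫ W.qE j = (W.S j).dq ≫ bd F j := (W.S j).b_q
lemma imE_qE (j : ℕ) : W.imE j ≫ W.qE j = 𝟙 _ := (W.S j).im_q
lemma ipE_qE (j : ℕ) : W.ipE j ≫ W.qE j = 𝟙 _ := (W.S j).ip_q
lemma dm_hS (j : ℕ) : hemS F j ≫ (W.S (j + 1)).dm = W.imE j ≫ W.hSE j := (W.L j).dm_hS
lemma dm_hT (j : ℕ) : hemT F j ≫ (W.S (j + 1)).dm = W.imE j ≫ W.hTE j := (W.L j).dm_hT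
lemma dp_hS (j : ℕ) : hemS F j ≫ (W.S (j + 1)).dp = W.ipE j ≫ W.hSE j := (W.L j).dp_hS
lemma dp_hT (j : ℕ) : hemT F j ≫ (W.S (j + 1)).dp = W.ipE j ≫ W.hTE j := (W.L j).dp_hT
lemma hS_dq (j : ℕ) : W.hSE j ≫ (W.S (j + 1)).dq = W.qE j ≫ hemS F j := (W.L j).hS_dq
lemma hT_dq (j : ℕ) : W.hTE j ≫ (W.S (j + 1)).dq = W.qE j ≫ hemT F j := (W.L j).hT_dq

/-- The comparison of the two boundaries. -/
noncomputable def θAux : ∀ j : ℕ,
    {θ : sph W.E j ⟶ (W.S j).B // IsIso θ ∧ θ ≫ W.bE j = bd W.E j}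
  | 0 => ⟨(isInitialSphZero W.E).to _,
      ⟨W.init.to _, (isInitialSphZero W.E).hom_ext _ _, W.init.hom_ext _ _⟩,
      (isInitialSphZero W.E).hom_ext _ _⟩
  | j + 1 => by
      have hw : bd W.E j ≫ W.hSE j = bd W.E j ≫ W.hTE j := by
        rw [← (θAux j).2.2, Category.assoc, Category.assoc, (W.poE j).w]
      refine ⟨sphDesc W.E (W.hSE j) (W.hTE j) hw, ?_, ?_⟩
      · have hiso : IsIso (θAux j).1 := (θAux j).2.1
        have sq : IsPushout (bd W.E j) (bd W.E j) (W.hSE j) (W.hTE j) := by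
          refine (W.poE j).of_iso (asIso (θAux j).1).symm (Iso.refl _) (Iso.refl _)
            (Iso.refl _) ?_ ?_ ?_ ?_
          · simp [← (θAux j).2.2]
          · simp [← (θAux j).2.2]
          · simp
          · simp
        have : sphDesc W.E (W.hSE j) (W.hTE j) hw =
            ((isPushout_sph W.E j).isoIsPushout _ _ sq).hom := by
          apply sph_hom_ext
          · rw [hemS_sphDesc, IsPushout.inl_isoIsPushout_hom]
          · rw [hemT_sphDesc, IsPushout.inr_isoIsPushout_hom]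
        rw [this]
        infer_instance
      · apply sph_hom_ext
        · rw [hemS_sphDesc_assoc, hemS_bd, sg_E]
        · rw [hemT_sphDesc_assoc, hemT_bd, tg_E]

/-- The comparison of the two boundaries. -/
noncomputable def θ (j : ℕ) : sph W.E j ⟶ (W.S j).B := (W.θAux j).1

instance (j : ℕ) : IsIso (W.θ j) := (W.θAux j).2.1

lemma θ_b (j : ℕ) : W.θ j ≫ W.bE j = bd W.E j := (W.θAux j).2.2

lemma hemS_θ (j : ℕ) : hemS W.E j ≫ W.θ (j + 1) = W.hSE j := hemS_sphDesc _ _ _ _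
lemma hemT_θ (j : ℕ) : hemT W.E j ≫ W.θ (j + 1) = W.hTE j := hemT_sphDesc _ _ _ _

/-- The inclusion of the lower face. -/
noncomputable def im : F ⟶ W.E := Globe.natTrans W.imE
  (fun j => by
    change sg F j ≫ W.imE (j + 1) = W.imE j ≫ sg W.E j
    rw [← hemS_bd, Category.assoc, ← dm_bE, ← Category.assoc, dm_hS, Category.assoc, sg_E])
  (fun j => by
    change tg F j ≫ W.imE (j + 1) = W.imE j ≫ tg W.E j
    rw [← hemT_bd, Category.assoc, ← dm_bE, ← Category.assoc, dm_hT, Category.assoc, tg_E])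

/-- The inclusion of the upper face. -/
noncomputable def ip : F ⟶ W.E := Globe.natTrans W.ipE
  (fun j => by
    change sg F j ≫ W.ipE (j + 1) = W.ipE j ≫ sg W.E j
    rw [← hemS_bd, Category.assoc, ← dp_bE, ← Category.assoc, dp_hS, Category.assoc, sg_E])
  (fun j => by
    change tg F j ≫ W.ipE (j + 1) = W.ipE j ≫ tg W.E j
    rw [← hemT_bd, Category.assoc, ← dp_bE, ← Category.assoc, dp_hT, Category.assoc, tg_E])

/-- The projection. -/
noncomputable def q : W.E ⟶ F := Globe.natTrans W.qE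
  (fun j => by
    change sg W.E j ≫ W.qE (j + 1) = W.qE j ≫ sg F j
    rw [sg_E, Category.assoc, b_qE, ← Category.assoc, hS_dq, Category.assoc, hemS_bd])
  (fun j => by
    change tg W.E j ≫ W.qE (j + 1) = W.qE j ≫ tg F j
    rw [tg_E, Category.assoc, b_qE, ← Category.assoc, hT_dq, Category.assoc, hemT_bd])

lemma im_app (j : ℕ) : W.im.app (Globe.D j) = W.imE j := rfl
lemma ip_app (j : ℕ) : W.ip.app (Globe.D j) = W.ipE j := rfl
lemma q_app (j : ℕ) : W.q.app (Globe.D j) = W.qE j := rfl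

lemma sphMap_im_θ (j : ℕ) : sphMap W.im j ≫ W.θ j = (W.S j).dm := by
  cases j with
  | zero => exact sph_zero_hom_ext _ _ _
  | succ j =>
    apply sph_hom_ext
    · rw [hemS_sphMap_assoc, hemS_θ, dm_hS, im_app]
    · rw [hemT_sphMap_assoc, hemT_θ, dm_hT, im_app]

lemma sphMap_ip_θ (j : ℕ) : sphMap W.ip j ≫ W.θ j = (W.S j).dp := by
  cases j with
  | zero => exact sph_zero_hom_ext _ _ _
  | succ j =>
    apply sph_hom_ext
    · rw [hemS_sphMap_assoc, hemS_θ, dp_hS, ip_app]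
    · rw [hemT_sphMap_assoc, hemT_θ, dp_hT, ip_app]

lemma sphMap_im_iso {j : ℕ} (hj : j ≤ n) : IsIso (sphMap W.im j) := by
  have h1 : IsIso (W.S j).dq := (W.S j).low hj
  have h2 : IsIso (W.S j).dm := by
    have h3 : IsIso ((W.S j).dm ≫ (W.S j).dq) := by rw [(W.S j).dm_dq]; infer_instance
    exact IsIso.of_isIso_comp_right _ (W.S j).dq
  have h3 : IsIso (sphMap W.im j ≫ W.θ j) := by rw [sphMap_im_θ]; exact h2
  exact IsIso.of_isIso_comp_right _ (W.θ j)

lemma cornerE (j : ℕ) ⦃X Y : 𝓜⦄ (f : X ⟶ Y) (hf : Fib F n f) (β : (W.S j).B ⟶ X)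
    (w : cob F j ⟶ X) (c' : cob W.E j ⟶ Y) (h1 : (W.S j).dm ≫ β = bd F j ≫ w)
    (h2 : W.bE j ≫ c' = β ≫ f) (h3 : W.imE j ≫ c' = w ≫ f) :
    ∃ c : cob W.E j ⟶ X, W.bE j ≫ c = β ∧ W.imE j ≫ c = w ∧ c ≫ f = c' :=
  (W.S j).corner f hf β w c' h1 h2 h3

lemma cornerE' (j : ℕ) (hj : n < j) ⦃X Y : 𝓜⦄ (f : X ⟶ Y) (hf : Fib F (n + 1) f)
    (β : (W.S j).B ⟶ X)
    (w : cob F j ⟶ X) (c' : cob W.E j ⟶ Y) (h1 : (W.S j).dm ≫ β = bd F j ≫ w)
    (h2 : W.bE j ≫ c' = β ≫ f) (h3 : W.imE j ≫ c' = w ≫ f) :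
    ∃ c : cob W.E j ⟶ X, W.bE j ≫ c = β ∧ W.imE j ≫ c = w ∧ c ≫ f = c' :=
  (W.S j).corner' hj f hf β w c' h1 h2 h3

lemma extE (j : ℕ) (hj : n ≤ j) ⦃X Y : 𝓜⦄ (f : X ⟶ Y) (hf : TrivFib F f)
    (β : (W.S j).B ⟶ X) (wm wp : cob F j ⟶ X) (c' : cob W.E j ⟶ Y)
    (h1 : (W.S j).dm ≫ β = bd F j ≫ wm) (h2 : (W.S j).dp ≫ β = bd F j ≫ wp)
    (h3 : W.bE j ≫ c' = β ≫ f) (h4 : W.imE j ≫ c' = wm ≫ f) (h5 : W.ipE j ≫ c' = wp ≫ f) :
    ∃ c : cob W.E j ⟶ X, W.bE j ≫ c = β ∧ W.imE j ≫ c = wm ∧ W.ipE j ≫ c = wp ∧ c ≫ f = c' :=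
  (W.S j).ext hj f hf β wm wp c' h1 h2 h3 h4 h5

lemma thinE (j : ℕ) (h1 : Epi (sg F j)) (h2 : Epi (bd F j)) : Epi (W.bE j) :=
  (W.S j).thin h1 h2

/-- The intermediate structure. -/
noncomputable def toCylPre : CylPre F n where
  E := W.E
  im := W.im
  ip := W.ip
  q := W.q
  im_q := by
    ext ⟨j⟩
    exact W.imE_qE j
  ip_q := by
    ext ⟨j⟩
    exact W.ipE_qE j
  low_eq j hj := ((W.S j).low_eq hj).1
  low_iso j hj := ((W.S j).low_eq hj).2
  sph_iso := W.sphMap_im_iso le_rfl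
  θ := ((W.S n).mid rfl).choose
  iso := ((W.S n).mid rfl).choose_spec.1
  sg_θ := ((W.S n).mid rfl).choose_spec.2.1
  tg_θ := ((W.S n).mid rfl).choose_spec.2.2
  corner j X Y f hf β w c' h1 h2 h3 := by
    obtain ⟨c, hc1, hc2, hc3⟩ := W.cornerE j f hf (inv (W.θ j) ≫ β) w c' (by
      rw [← sphMap_im_θ, Category.assoc, IsIso.hom_inv_id_assoc, h1]) (by
      rw [Category.assoc, IsIso.eq_inv_comp, ← h2, ← Category.assoc, W.θ_b]) h3
    refine ⟨c, ?_, hc2, hc3⟩
    rw [← θ_b, Category.assoc, hc1, IsIso.hom_inv_id_assoc]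
  corner' j hj X Y f hf β w c' h1 h2 h3 := by
    obtain ⟨c, hc1, hc2, hc3⟩ := W.cornerE' j hj f hf (inv (W.θ j) ≫ β) w c' (by
      rw [← sphMap_im_θ, Category.assoc, IsIso.hom_inv_id_assoc, h1]) (by
      rw [Category.assoc, IsIso.eq_inv_comp, ← h2, ← Category.assoc, W.θ_b]) h3
    refine ⟨c, ?_, hc2, hc3⟩
    rw [← θ_b, Category.assoc, hc1, IsIso.hom_inv_id_assoc]
  ext j hj X Y f hf β wm wp c' h1 h2 h3 h4 h5 := by
    obtain ⟨c, hc1, hc2, hc3, hc4⟩ := W.extE j hj f hf (inv (W.θ j) ≫ β) wm wp c' (by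
      rw [← sphMap_im_θ, Category.assoc, IsIso.hom_inv_id_assoc, h1]) (by
      rw [← sphMap_ip_θ, Category.assoc, IsIso.hom_inv_id_assoc, h2]) (by
      rw [Category.assoc, IsIso.eq_inv_comp, ← h3, ← Category.assoc, W.θ_b]) h4 h5
    refine ⟨c, ?_, hc2, hc3, hc4⟩
    rw [← θ_b, Category.assoc, hc1, IsIso.hom_inv_id_assoc]
  thin j h1 h2 := by
    have := W.thinE j h1 h2
    rw [← θ_b]
    exact epi_comp _ _

end Tow

end Vale.Agent.P259
end
end

section

section

open CategoryTheory Limits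

namespace Vale.Agent.P259

universe v u

variable {𝓜 : Type u} [Category.{v} 𝓜] [HasPushouts 𝓜] [HasInitial 𝓜] [HasTerminal 𝓜]

theorem exists_cyl (F : Globe ⥤ 𝓜) (n : ℕ) (h : HypH F (n + 1)) : Nonempty (Cyl F n) :=
  ⟨(exists_tow F n h).some.toCylPre.toCyl h⟩

end Vale.Agent.P259
end
end

section

section

open CategoryTheory Limits Opposite

namespace Vale.Agent.P259

namespace Theta0

/-- Induction on globular sums. -/
theorem induction' {motive : Theta0 → Prop} (disc : ∀ i, motive (disc i))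
    (glue : ∀ {l : ℕ} (t : Tab l) (j i : ℕ) (hl : j < l) (hi : j < i), motive ⟨t⟩ →
      motive (glue t j i hl hi)) (S : Theta0) : motive S := by
  obtain ⟨t⟩ := S
  induction t with
  | disc i => exact disc i
  | glue t j i hl hi ih => exact glue t j i hl hi ih

/-- The gluing square commutes in `Θ₀`. -/
lemma w {l : ℕ} (t : Tab l) (j i : ℕ) (hl : j < l) (hi : j < i) :
    face true hl ≫ lastIncl t ≫ inl t j i hl hi = face false hi ≫ inr t j i hl hi := by
  rw [← Category.assoc]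
  exact (Theta0.isPushout t j i hl hi).w

/-- A map `D_k ⟶ D_i` of `Θ₀` comes from the globe category. -/
lemma exists_discMap {k i : ℕ} (ψ : disc k ⟶ disc i) : ∃ f : Globe.D k ⟶ Globe.D i,
    discMap f = ψ := by
  obtain ⟨f, hf⟩ := (yoneda (C := Globe)).map_surjective (X := Globe.D k) (Y := Globe.D i) ψ
  exact ⟨f, hf⟩

/-- A map from a disc to a glued globular sum factors through one of the two pieces. -/
lemma exists_factor {l : ℕ} (t : Tab l) (j i : ℕ) (hl : j < l) (hi : j < i) {k : ℕ}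
    (ψ : disc k ⟶ glue t j i hl hi) :
    (∃ ψ' : disc k ⟶ ⟨t⟩, ψ' ≫ inl t j i hl hi = ψ) ∨
      ∃ ψ' : disc k ⟶ disc i, ψ' ≫ inr t j i hl hi = ψ := by
  have h := (isPushout t j i hl hi).map ((evaluation Globeᵒᵖ Type).obj (op (Globe.D k)))
  let ψ₀ : yoneda.obj (Globe.D k) ⟶ toG.obj (glue t j i hl hi) := ψ
  rcases Types.eq_or_eq_of_isPushout h (yonedaEquiv ψ₀) with ⟨x, hx⟩ | ⟨x, hx⟩
  · left
    let ψ' : yoneda.obj (Globe.D k) ⟶ toG.obj (⟨t⟩ : Theta0) := yonedaEquiv.symm x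
    refine ⟨ψ', ?_⟩
    apply yonedaEquiv.injective
    change yonedaEquiv (ψ' ≫ toG.map (inl t j i hl hi)) = yonedaEquiv ψ₀
    rw [yonedaEquiv_comp, ← hx]
    change (toG.map (inl t j i hl hi)).app _ (yonedaEquiv (yonedaEquiv.symm x)) = _
    rw [Equiv.apply_symm_apply]
    rfl
  · right
    let ψ' : yoneda.obj (Globe.D k) ⟶ toG.obj (disc i) := yonedaEquiv.symm x
    refine ⟨ψ', ?_⟩
    apply yonedaEquiv.injective
    change yonedaEquiv (ψ' ≫ toG.map (inr t j i hl hi)) = yonedaEquiv ψ₀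
    rw [yonedaEquiv_comp, ← hx]
    change (toG.map (inr t j i hl hi)).app _ (yonedaEquiv (yonedaEquiv.symm x)) = _
    rw [Equiv.apply_symm_apply]
    rfl

end Theta0

end Vale.Agent.P259
end
end

section

section

open CategoryTheory Limits Opposite

namespace Vale.Agent.P259

open Theta0

/-- Extension of coglobular objects to `Θ₀`. -/
structure Ext0 {𝓜 : Type 1} [Category.{0} 𝓜] (F : Globe ⥤ 𝓜) where
  L : Theta0 ⥤ 𝓜
  i : ∀ j, cob F j ≅ L.obj (disc j)
  nat : ∀ {a b : ℕ} (f : Globe.D a ⟶ Globe.D b), F.map f ≫ (i b).hom = (i a).hom ≫ L.map (discMap f)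
  push : ∀ {l : ℕ} (t : Tab l) (j k : ℕ) (hl : j < l) (hk : j < k),
    IsPushout (L.map (face true hl ≫ lastIncl t)) (L.map (face false hk))
      (L.map (inl t j k hl hk)) (L.map (inr t j k hl hk))

theorem exists_ext0 {𝓜 : Type 1} [Category.{0} 𝓜] [HasColimits 𝓜] (F : Globe ⥤ 𝓜) :
    Nonempty (Ext0 F) := by
  let L₀ : GSet ⥤ 𝓜 := (uliftYoneda.{0} (C := Globe)).leftKanExtension F
  let α : F ⟶ uliftYoneda.{0} (C := Globe) ⋙ L₀ :=
    (uliftYoneda.{0} (C := Globe)).leftKanExtensionUnit F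
  have hα : IsIso α := inferInstanceAs (IsIso
    ((uliftYoneda.{0} (C := Globe)).leftKanExtensionUnit F))
  have hL₀ : PreservesColimitsOfSize.{0, 0} L₀ := inferInstanceAs (PreservesColimitsOfSize.{0, 0}
    ((uliftYoneda.{0} (C := Globe)).leftKanExtension F))
  let e : F ≅ yoneda ⋙ L₀ := asIso α ≪≫ Functor.isoWhiskerRight uliftYonedaIsoYoneda L₀
  refine ⟨⟨toG ⋙ L₀, fun j => e.app (Globe.D j), fun f => ?_, fun t j k hl hk => ?_⟩⟩
  · exact e.hom.naturality f
  · exact (Theta0.isPushout t j k hl hk).map L₀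

namespace Ext0

variable {𝓜 : Type 1} [Category.{0} 𝓜] {F G : Globe ⥤ 𝓜}

/-- Maps out of `L S` are determined by their restrictions to the discs. -/
theorem hom_ext (A : Ext0 F) {S : Theta0} {X : 𝓜} {u v : A.L.obj S ⟶ X}
    (h : ∀ (j : ℕ) (ψ : disc j ⟶ S), (A.i j).hom ≫ A.L.map ψ ≫ u = (A.i j).hom ≫ A.L.map ψ ≫ v) :
    u = v := by
  induction S using Theta0.induction' with
  | disc i =>
    have h1 := h i (𝟙 _)
    rw [A.L.map_id, Category.id_comp, Category.id_comp] at h1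
    exact (cancel_epi (A.i i).hom).1 h1
  | glue t j i hl hi ih =>
    apply (A.push t j i hl hi).hom_ext
    · apply ih
      intro k ψ
      rw [← A.L.map_comp_assoc, ← A.L.map_comp_assoc]
      exact h k _
    · have h1 := h i (inr t j i hl hi)
      exact (cancel_epi (A.i i).hom).1 h1

/-- Maps out of `L S` can be constructed on the discs. -/
theorem exists_desc (A : Ext0 F) (S : Theta0) (X : 𝓜)
    (φ : ∀ j : ℕ, (disc j ⟶ S) → (cob F j ⟶ X))
    (hφ : ∀ {a b : ℕ} (f : Globe.D a ⟶ Globe.D b) (ψ : disc b ⟶ S),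
      F.map f ≫ φ b ψ = φ a (discMap f ≫ ψ)) :
    ∃ u : A.L.obj S ⟶ X, ∀ (j : ℕ) (ψ : disc j ⟶ S), (A.i j).hom ≫ A.L.map ψ ≫ u = φ j ψ := by
  induction S using Theta0.induction' with
  | disc i =>
    refine ⟨(A.i i).inv ≫ φ i (𝟙 (disc i)), fun j ψ => ?_⟩
    obtain ⟨f, rfl⟩ := exists_discMap ψ
    have h2 := hφ f (𝟙 (disc i))
    rw [Category.comp_id] at h2
    rw [← h2, ← Category.assoc, ← A.nat f, Category.assoc, Iso.hom_inv_id_assoc]
  | glue t j i hl hi ih =>
    obtain ⟨u₁, hu₁⟩ := ih (fun k ψ => φ k (ψ ≫ inl t j i hl hi)) (fun f ψ => by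
      rw [hφ, Category.assoc])
    let u₂ : A.L.obj (disc i) ⟶ X := (A.i i).inv ≫ φ i (inr t j i hl hi)
    have hu₂ : ∀ (k : ℕ) (ψ : disc k ⟶ disc i),
        (A.i k).hom ≫ A.L.map ψ ≫ u₂ = φ k (ψ ≫ inr t j i hl hi) := by
      intro k ψ
      obtain ⟨f, rfl⟩ := exists_discMap ψ
      rw [← hφ f, ← Category.assoc, ← A.nat f, Category.assoc, Iso.hom_inv_id_assoc]
    have hw : A.L.map (face true hl ≫ lastIncl t) ≫ u₁ = A.L.map (face false hi) ≫ u₂ := by
      apply A.hom_ext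
      intro k ψ
      rw [← A.L.map_comp_assoc, ← A.L.map_comp_assoc, hu₁, hu₂]
      congr 1
      rw [Category.assoc, Category.assoc]
      exact congrArg (fun θ => ψ ≫ θ) (Theta0.w t j i hl hi)
    refine ⟨(A.push t j i hl hi).desc u₁ u₂ hw, fun k ψ => ?_⟩
    rcases exists_factor t j i hl hi ψ with ⟨ψ', rfl⟩ | ⟨ψ', rfl⟩
    · rw [A.L.map_comp_assoc, (A.push t j i hl hi).inl_desc, hu₁]
    · rw [A.L.map_comp_assoc, (A.push t j i hl hi).inr_desc, hu₂]

/-- Maps of coglobular objects extend uniquely. -/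
theorem exists_map (A : Ext0 F)
    (B : Ext0 G) (α : F ⟶ G) : ∃! β : A.L ⟶ B.L, ∀ j, (A.i j).hom ≫ β.app (disc j) =
      α.app (Globe.D j) ≫ (B.i j).hom := by
  have key : ∀ S : Theta0, ∃ u : A.L.obj S ⟶ B.L.obj S, ∀ (j : ℕ) (ψ : disc j ⟶ S),
      (A.i j).hom ≫ A.L.map ψ ≫ u = α.app (Globe.D j) ≫ (B.i j).hom ≫ B.L.map ψ := by
    intro S
    refine A.exists_desc S _ (fun j ψ => α.app (Globe.D j) ≫ (B.i j).hom ≫ B.L.map ψ) ?_
    intro a b f ψ
    rw [← Category.assoc, α.naturality, Category.assoc, ← Category.assoc (G.map f), B.nat,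
      Category.assoc, ← B.L.map_comp]
  choose u hu using key
  refine ⟨{ app := u, naturality := ?_ }, ?_, ?_⟩
  · intro S T θ
    apply A.hom_ext
    intro j ψ
    rw [← A.L.map_comp_assoc, hu, ← Category.assoc (A.L.map ψ), ← Category.assoc (A.i j).hom, hu,
      B.L.map_comp]
    simp only [Category.assoc]
  · intro j
    have h := hu (disc j) j (𝟙 _)
    rw [A.L.map_id, B.L.map_id, Category.comp_id, Category.id_comp] at h
    exact h
  · intro β hβ
    ext S
    apply A.hom_ext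
    intro j ψ
    change _ = (A.i j).hom ≫ A.L.map ψ ≫ u S
    rw [hu, β.naturality, ← Category.assoc, hβ, Category.assoc]

/-- The objects `L(S)` are globular sums. -/
theorem isGSum (A : Ext0 F) {l : ℕ}
    (t : Tab l) : IsGSum F (A.L.obj ⟨t⟩) l ((A.i l).hom ≫ A.L.map (lastIncl t)) := by
  induction t with
  | disc i =>
    refine IsGSum.disc i _ _ ?_
    have h : A.L.map (𝟙 (disc i)) = 𝟙 _ := A.L.map_id _
    have : IsIso (A.L.map (lastIncl (Tab.disc i))) := by
      change IsIso (A.L.map (𝟙 (disc i)))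
      exact h ▸ inferInstance
    infer_instance
  | glue t j i hl hi ih =>
    refine IsGSum.glue ih hl hi (A.L.map (inl t j i hl hi)) _ ?_
    have h := A.push t j i hl hi
    refine IsPushout.of_iso h (A.i j).symm (Iso.refl _) (A.i i).symm (Iso.refl _) ?_ ?_ ?_ ?_
    · rw [Iso.refl_hom, Category.comp_id, Iso.symm_hom, ← Category.assoc (F.map _), A.nat,
        A.L.map_comp, Category.assoc, Iso.inv_hom_id_assoc]
      rfl
    · rw [Iso.symm_hom, Iso.symm_hom, Iso.comp_inv_eq, Category.assoc, A.nat, Iso.inv_hom_id_assoc]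
      rfl
    · rw [Iso.refl_hom, Iso.refl_hom, Category.comp_id, Category.id_comp]
    · rw [Iso.refl_hom, Category.comp_id, Iso.symm_hom]
      exact (Iso.inv_hom_id_assoc (A.i i) _).symm

end Ext0

end Vale.Agent.P259
end
end

section

section

open CategoryTheory Limits

namespace Vale.Agent.P259

universe v u

variable {𝓜 : Type u} [Category.{v} 𝓜] [HasPushouts 𝓜] [HasInitial 𝓜]

lemma sphMap_comp {F G H : Globe ⥤ 𝓜} (α : F ⟶ G) (β : G ⟶ H) (j : ℕ) :
    sphMap (α ≫ β) j = sphMap α j ≫ sphMap β j := by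
  induction j with
  | zero => exact (isInitialSphZero F).hom_ext _ _
  | succ j ih =>
    apply sph_hom_ext
    · rw [hemS_sphMap, hemS_sphMap_assoc, hemS_sphMap, NatTrans.comp_app, Category.assoc]
    · rw [hemT_sphMap, hemT_sphMap_assoc, hemT_sphMap, NatTrans.comp_app, Category.assoc]

lemma sphMap_id (F : Globe ⥤ 𝓜) (j : ℕ) : sphMap (𝟙 F) j = 𝟙 _ := by
  induction j with
  | zero => exact (isInitialSphZero F).hom_ext _ _
  | succ j ih =>
    apply sph_hom_ext
    · rw [hemS_sphMap, NatTrans.id_app, Category.id_comp, Category.comp_id]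
    · rw [hemT_sphMap, NatTrans.id_app, Category.id_comp, Category.comp_id]

/-- The isomorphism of spheres induced by an isomorphism of coglobular objects. -/
lemma sphMap_hom_inv {F G : Globe ⥤ 𝓜} (e : F ≅ G) (j : ℕ) :
    sphMap e.hom j ≫ sphMap e.inv j = 𝟙 _ := by
  rw [← sphMap_comp, e.hom_inv_id, sphMap_id]

lemma sphMap_inv_hom {F G : Globe ⥤ 𝓜} (e : F ≅ G) (j : ℕ) :
    sphMap e.inv j ≫ sphMap e.hom j = 𝟙 _ := by
  rw [← sphMap_comp, e.inv_hom_id, sphMap_id]

section transport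

variable {F : Globe ⥤ 𝓜} {n : ℕ} (K : Cyl F n) {E : Globe ⥤ 𝓜} (e : K.E ≅ E)

lemma Cyl.corner_iso (j : ℕ) ⦃X Y : 𝓜⦄ (f : X ⟶ Y) (hf : Fib F n f) (β : sph E j ⟶ X)
    (w : cob F j ⟶ X) (c' : cob E j ⟶ Y)
    (h₁ : sphMap (K.im ≫ e.hom) j ≫ β = bd F j ≫ w)
    (h₂ : bd E j ≫ c' = β ≫ f) (h₃ : (K.im ≫ e.hom).app _ ≫ c' = w ≫ f) :
    ∃ c : cob E j ⟶ X, bd E j ≫ c = β ∧ (K.im ≫ e.hom).app _ ≫ c = w ∧ c ≫ f = c' := by
  obtain ⟨c, hc₁, hc₂, hc₃⟩ := K.corner j f hf (sphMap e.hom j ≫ β) w (e.hom.app _ ≫ c')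
    (by rw [← Category.assoc, ← sphMap_comp, h₁])
    (by rw [← Category.assoc, ← sphMap_bd, Category.assoc, h₂, Category.assoc])
    (by rw [← Category.assoc, ← NatTrans.comp_app, h₃])
  refine ⟨e.inv.app _ ≫ c, ?_, ?_, ?_⟩
  · rw [← Category.assoc, ← sphMap_bd, Category.assoc, hc₁, ← Category.assoc, sphMap_inv_hom,
      Category.id_comp]
  · rw [NatTrans.comp_app, Category.assoc, Iso.hom_inv_id_app_assoc, hc₂]
  · rw [Category.assoc, hc₃, Iso.inv_hom_id_app_assoc]

lemma Cyl.ext_iso (j : ℕ) (hj : n ≤ j) ⦃X Y : 𝓜⦄ (f : X ⟶ Y) (hf : TrivFib F f)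
    (β : sph E j ⟶ X) (wm wp : cob F j ⟶ X) (c' : cob E j ⟶ Y)
    (h₁ : bd F j ≫ wm = sphMap (K.im ≫ e.hom) j ≫ β)
    (h₂ : bd F j ≫ wp = sphMap (K.ip ≫ e.hom) j ≫ β)
    (h₃ : bd E j ≫ c' = β ≫ f) (h₄ : (K.im ≫ e.hom).app _ ≫ c' = wm ≫ f)
    (h₅ : (K.ip ≫ e.hom).app _ ≫ c' = wp ≫ f) :
    ∃ c : cob E j ⟶ X, bd E j ≫ c = β ∧ (K.im ≫ e.hom).app _ ≫ c = wm ∧
      (K.ip ≫ e.hom).app _ ≫ c = wp ∧ c ≫ f = c' := by
  obtain ⟨c, hc₁, hc₂, hc₃, hc₄⟩ := K.ext j hj f hf (sphMap e.hom j ≫ β) wm wp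
    (e.hom.app _ ≫ c')
    (by rw [← Category.assoc, ← sphMap_comp, h₁])
    (by rw [← Category.assoc, ← sphMap_comp, h₂])
    (by rw [← Category.assoc, ← sphMap_bd, Category.assoc, h₃, Category.assoc])
    (by rw [← Category.assoc, ← NatTrans.comp_app, h₄])
    (by rw [← Category.assoc, ← NatTrans.comp_app, h₅])
  refine ⟨e.inv.app _ ≫ c, ?_, ?_, ?_, ?_⟩
  · rw [← Category.assoc, ← sphMap_bd, Category.assoc, hc₁, ← Category.assoc, sphMap_inv_hom,
      Category.id_comp]
  · rw [NatTrans.comp_app, Category.assoc, Iso.hom_inv_id_app_assoc, hc₂]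
  · rw [NatTrans.comp_app, Category.assoc, Iso.hom_inv_id_app_assoc, hc₃]
  · rw [Category.assoc, hc₄, Iso.inv_hom_id_app_assoc]

lemma Cyl.fib_iso (k : ℕ) (hk : n ≤ k) ⦃X : 𝓜⦄ (a : cob E k ⟶ X)
    (em ep : cob F (k + 1) ⟶ X)
    (h₁ : sg F k ≫ em = (K.im ≫ e.hom).app _ ≫ a)
    (h₂ : sg F k ≫ ep = (K.ip ≫ e.hom).app _ ≫ a) :
    ∃ c : cob E (k + 1) ⟶ X, sg E k ≫ c = a ∧ (K.im ≫ e.hom).app _ ≫ c = em ∧
      (K.ip ≫ e.hom).app _ ≫ c = ep := by
  obtain ⟨c, hc₁, hc₂, hc₃⟩ := K.fib k hk (e.hom.app _ ≫ a) em ep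
    (by rw [← Category.assoc, ← NatTrans.comp_app, h₁])
    (by rw [← Category.assoc, ← NatTrans.comp_app, h₂])
  refine ⟨e.inv.app _ ≫ c, ?_, ?_, ?_⟩
  · rw [← Category.assoc, e.inv.naturality, Category.assoc, hc₁, Iso.inv_hom_id_app_assoc]
  · rw [NatTrans.comp_app, Category.assoc, Iso.hom_inv_id_app_assoc, hc₂]
  · rw [NatTrans.comp_app, Category.assoc, Iso.hom_inv_id_app_assoc, hc₃]

include e in
lemma Cyl.thin_iso (k : ℕ) (h : Epi (bd K.E (k + 1))) ⦃X : 𝓜⦄ (a b : cob E (k + 1) ⟶ X)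
    (h₁ : sg E k ≫ a = sg E k ≫ b) (h₂ : tg E k ≫ a = tg E k ≫ b) : a = b := by
  have h₃ : e.hom.app (Globe.D (k + 1)) ≫ a = e.hom.app (Globe.D (k + 1)) ≫ b := by
    rw [← cancel_epi (bd K.E (k + 1)), bd_comp_eq_iff]
    constructor
    · rw [← Category.assoc, ← Category.assoc, e.hom.naturality, Category.assoc, Category.assoc,
        h₁]
    · rw [← Category.assoc, ← Category.assoc, e.hom.naturality, Category.assoc, Category.assoc,
        h₂]
  rw [← cancel_epi (e.hom.app (Globe.D (k + 1))), h₃]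

end transport

end Vale.Agent.P259
end
end

section

section

open CategoryTheory Limits

namespace Vale.Agent.P259

open Theta0

section

variable {𝓜 : Type 1} [Category.{0} 𝓜] [HasPushouts 𝓜] [HasInitial 𝓜]
variable {F : Globe ⥤ 𝓜} {n : ℕ} (K : Cyl F n) (A : Ext0 F) (B : Ext0 K.E)

/-- The extension of the inclusion `im`. -/
noncomputable def extIm : A.L ⟶ B.L := (A.exists_map B K.im).choose

/-- The extension of the inclusion `ip`. -/
noncomputable def extIp : A.L ⟶ B.L := (A.exists_map B K.ip).choose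

/-- The extension of the projection `q`. -/
noncomputable def extQ : B.L ⟶ A.L := (B.exists_map A K.q).choose

lemma extIm_disc (j : ℕ) :
    (A.i j).hom ≫ (extIm K A B).app (disc j) = K.im.app (Globe.D j) ≫ (B.i j).hom :=
  (A.exists_map B K.im).choose_spec.1 j

lemma extIp_disc (j : ℕ) :
    (A.i j).hom ≫ (extIp K A B).app (disc j) = K.ip.app (Globe.D j) ≫ (B.i j).hom :=
  (A.exists_map B K.ip).choose_spec.1 j

lemma extQ_disc (j : ℕ) :
    (B.i j).hom ≫ (extQ K A B).app (disc j) = K.q.app (Globe.D j) ≫ (A.i j).hom :=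
  (B.exists_map A K.q).choose_spec.1 j

lemma extIm_extQ : extIm K A B ≫ extQ K A B = 𝟙 _ := by
  obtain ⟨β, -, hβ⟩ := A.exists_map A (𝟙 F)
  refine (hβ _ ?_).trans (hβ _ ?_).symm
  · intro j
    rw [NatTrans.comp_app, ← Category.assoc, extIm_disc, Category.assoc, extQ_disc,
      ← Category.assoc, ← NatTrans.comp_app, K.im_q]
  · intro j
    rw [NatTrans.id_app, NatTrans.id_app, Category.id_comp, Category.comp_id]

lemma extIp_extQ : extIp K A B ≫ extQ K A B = 𝟙 _ := by
  obtain ⟨β, -, hβ⟩ := A.exists_map A (𝟙 F)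
  refine (hβ _ ?_).trans (hβ _ ?_).symm
  · intro j
    rw [NatTrans.comp_app, ← Category.assoc, extIp_disc, Category.assoc, extQ_disc,
      ← Category.assoc, ← NatTrans.comp_app, K.ip_q]
  · intro j
    rw [NatTrans.id_app, NatTrans.id_app, Category.id_comp, Category.comp_id]

/-- In low dimensions the two inclusions are isomorphisms. -/
lemma ext_low (S : Theta0) (hS : S.dim < n) :
    IsIso ((extIm K A B).app S) ∧ (extIm K A B).app S = (extIp K A B).app S := by
  have hd : ∀ j, j < n → IsIso ((extIm K A B).app (disc j)) ∧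
      (extIm K A B).app (disc j) = (extIp K A B).app (disc j) := by
    intro j hj
    have h1 := extIm_disc K A B j
    have h2 := extIp_disc K A B j
    have h3 : IsIso (K.im.app (Globe.D j)) := K.low_iso j hj
    constructor
    · have h4 : IsIso ((A.i j).hom ≫ (extIm K A B).app (disc j)) := by
        rw [h1]; infer_instance
      exact IsIso.of_isIso_comp_left (A.i j).hom _
    · rw [← cancel_epi (A.i j).hom, h1, h2, K.low_eq j hj]
  induction S using Theta0.induction' with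
  | disc i => exact hd i hS
  | glue t j i hl hi ih =>
    have hS' : max t.dim i < n := hS
    have hti : t.dim < n := (le_max_left _ _).trans_lt hS'
    have hin : i < n := (le_max_right _ _).trans_lt hS'
    obtain ⟨it, et⟩ := ih hti
    obtain ⟨ii, ei⟩ := hd i hin
    obtain ⟨ij, ej⟩ := hd j (hi.trans hin)
    have nat : ∀ {X Y : Theta0} (f : X ⟶ Y) [IsIso ((extIm K A B).app X)]
        [IsIso ((extIm K A B).app Y)], B.L.map f ≫ inv ((extIm K A B).app Y) =
        inv ((extIm K A B).app X) ≫ A.L.map f := by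
      intro X Y f _ _
      rw [IsIso.comp_inv_eq, Category.assoc, IsIso.eq_inv_comp, (extIm K A B).naturality]
    constructor
    · refine ⟨(B.push t j i hl hi).desc (inv ((extIm K A B).app ⟨t⟩) ≫ A.L.map (inl t j i hl hi))
        (inv ((extIm K A B).app (disc i)) ≫ A.L.map (inr t j i hl hi)) ?_, ?_, ?_⟩
      · rw [← Category.assoc, ← Category.assoc, nat, nat, Category.assoc, Category.assoc,
          (A.push t j i hl hi).w]
      · apply (A.push t j i hl hi).hom_ext
        · rw [← Category.assoc, (extIm K A B).naturality, Category.assoc,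
            (B.push t j i hl hi).inl_desc, IsIso.hom_inv_id_assoc, Category.comp_id]
        · rw [← Category.assoc, (extIm K A B).naturality, Category.assoc,
            (B.push t j i hl hi).inr_desc, IsIso.hom_inv_id_assoc, Category.comp_id]
      · apply (B.push t j i hl hi).hom_ext
        · rw [← Category.assoc, (B.push t j i hl hi).inl_desc, Category.assoc,
            (extIm K A B).naturality, IsIso.inv_hom_id_assoc, Category.comp_id]
        · rw [← Category.assoc, (B.push t j i hl hi).inr_desc, Category.assoc,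
            (extIm K A B).naturality, IsIso.inv_hom_id_assoc, Category.comp_id]
    · apply (A.push t j i hl hi).hom_ext
      · rw [(extIm K A B).naturality, (extIp K A B).naturality, et]
      · rw [(extIm K A B).naturality, (extIp K A B).naturality, ei]

/-- Maps from a contractible object to the terminal object are trivial fibrations. -/
lemma Contr.trivFib_terminal [HasTerminal 𝓜] {X : 𝓜} (hX : Contr F X) :
    TrivFib F (terminal.from X) := by
  rintro _ _ _ ⟨j⟩
  refine ⟨fun {u v} sq => ?_⟩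
  obtain ⟨w, hw⟩ := hX j u
  exact ⟨⟨{ l := w, fac_left := hw, fac_right := terminal.hom_ext _ _ }⟩⟩

lemma sg_hom (k : ℕ) : sg K.E k ≫ (B.i (k + 1)).hom = (B.i k).hom ≫ B.L.map (σ k) :=
  B.nat (Globe.σ k)

lemma tg_hom (k : ℕ) : tg K.E k ≫ (B.i (k + 1)).hom = (B.i k).hom ≫ B.L.map (τ k) :=
  B.nat (Globe.τ k)

/-- The lifting step of the construction of cylinder functors. -/
theorem cyl_lift [HasTerminal 𝓜] (k : ℕ) (S : Theta0) (hS : S.dim ≤ k + 1)
    (w : A.L.obj (disc (k + 1)) ⟶ A.L.obj S) (u v : B.L.obj (disc k) ⟶ B.L.obj S)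
    (hpar : ∀ k', (hk : k = k' + 1) →
      B.L.map (σ k' : disc k' ⟶ disc (k' + 1)) ≫ (eqToHom (by rw [hk]) ≫ u) =
        B.L.map (σ k' : disc k' ⟶ disc (k' + 1)) ≫ (eqToHom (by rw [hk]) ≫ v) ∧
      B.L.map (τ k' : disc k' ⟶ disc (k' + 1)) ≫ (eqToHom (by rw [hk]) ≫ u) =
        B.L.map (τ k' : disc k' ⟶ disc (k' + 1)) ≫ (eqToHom (by rw [hk]) ≫ v))
    (hum : (extIm K A B).app (disc k) ≫ u = A.L.map (σ k) ≫ w ≫ (extIm K A B).app S)
    (hvm : (extIm K A B).app (disc k) ≫ v = A.L.map (τ k) ≫ w ≫ (extIm K A B).app S)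
    (hup : (extIp K A B).app (disc k) ≫ u = A.L.map (σ k) ≫ w ≫ (extIp K A B).app S)
    (hvp : (extIp K A B).app (disc k) ≫ v = A.L.map (τ k) ≫ w ≫ (extIp K A B).app S) :
    ∃ H : B.L.obj (disc (k + 1)) ⟶ B.L.obj S, B.L.map (σ k) ≫ H = u ∧ B.L.map (τ k) ≫ H = v ∧
      (extIm K A B).app (disc (k + 1)) ≫ H = w ≫ (extIm K A B).app S ∧
      (extIp K A B).app (disc (k + 1)) ≫ H = w ≫ (extIp K A B).app S := by
  by_cases hn : n ≤ k + 1
  · have hcontr : Contr F (B.L.obj S) := K.gsum _ (B.isGSum S.tab)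
    have hbd : bd K.E k ≫ (B.i k).hom ≫ u = bd K.E k ≫ (B.i k).hom ≫ v := by
      cases k with
      | zero => exact sph_zero_hom_ext _ _ _
      | succ k =>
        obtain ⟨h1, h2⟩ := hpar k rfl
        rw [eqToHom_refl, Category.id_comp, Category.id_comp] at h1 h2
        rw [bd_comp_eq_iff]
        constructor
        · rw [← Category.assoc, ← Category.assoc, sg_hom, Category.assoc, Category.assoc, h1]
        · rw [← Category.assoc, ← Category.assoc, tg_hom, Category.assoc, Category.assoc, h2]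
    have hsF : sg F k ≫ (A.i (k + 1)).hom = (A.i k).hom ≫ A.L.map (σ k) := A.nat (Globe.σ k)
    have htF : tg F k ≫ (A.i (k + 1)).hom = (A.i k).hom ≫ A.L.map (τ k) := A.nat (Globe.τ k)
    obtain ⟨c, hc1, hc2, hc3, -⟩ := K.ext (k + 1) hn (terminal.from (B.L.obj S))
      hcontr.trivFib_terminal (sphDesc K.E _ _ hbd) ((A.i (k + 1)).hom ≫ w ≫ (extIm K A B).app S)
      ((A.i (k + 1)).hom ≫ w ≫ (extIp K A B).app S) (terminal.from _)
      (by
        apply sph_hom_ext
        · rw [hemS_bd_assoc, hemS_sphMap_assoc, hemS_sphDesc, ← Category.assoc, hsF,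
            Category.assoc, ← hum, ← Category.assoc, extIm_disc, Category.assoc]
        · rw [hemT_bd_assoc, hemT_sphMap_assoc, hemT_sphDesc, ← Category.assoc, htF,
            Category.assoc, ← hvm, ← Category.assoc, extIm_disc, Category.assoc])
      (by
        apply sph_hom_ext
        · rw [hemS_bd_assoc, hemS_sphMap_assoc, hemS_sphDesc, ← Category.assoc, hsF,
            Category.assoc, ← hup, ← Category.assoc, extIp_disc, Category.assoc]
        · rw [hemT_bd_assoc, hemT_sphMap_assoc, hemT_sphDesc, ← Category.assoc, htF,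
            Category.assoc, ← hvp, ← Category.assoc, extIp_disc, Category.assoc])
      (terminal.hom_ext _ _) (terminal.hom_ext _ _) (terminal.hom_ext _ _)
    refine ⟨(B.i (k + 1)).inv ≫ c, ?_, ?_, ?_, ?_⟩
    · rw [← cancel_epi (B.i k).hom, ← Category.assoc, ← sg_hom, Category.assoc,
        Iso.hom_inv_id_assoc, ← hemS_bd, Category.assoc, hc1, hemS_sphDesc]
    · rw [← cancel_epi (B.i k).hom, ← Category.assoc, ← tg_hom, Category.assoc,
        Iso.hom_inv_id_assoc, ← hemT_bd, Category.assoc, hc1, hemT_sphDesc]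
    · rw [← cancel_epi (A.i (k + 1)).hom, ← Category.assoc, extIm_disc, Category.assoc,
        Iso.hom_inv_id_assoc, hc2]
    · rw [← cancel_epi (A.i (k + 1)).hom, ← Category.assoc, extIp_disc, Category.assoc,
        Iso.hom_inv_id_assoc, hc3]
  · obtain ⟨iS, eS⟩ := ext_low K A B S (by omega)
    obtain ⟨ik, ek⟩ := ext_low K A B (disc k) (by change k < n; omega)
    obtain ⟨ik1, ek1⟩ := ext_low K A B (disc (k + 1)) (by change k + 1 < n; omega)
    refine ⟨inv ((extIm K A B).app (disc (k + 1))) ≫ w ≫ (extIm K A B).app S, ?_, ?_, ?_, ?_⟩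
    · rw [← cancel_epi ((extIm K A B).app (disc k)), hum, ← Category.assoc,
        ← (extIm K A B).naturality, Category.assoc, IsIso.hom_inv_id_assoc]
    · rw [← cancel_epi ((extIm K A B).app (disc k)), hvm, ← Category.assoc,
        ← (extIm K A B).naturality, Category.assoc, IsIso.hom_inv_id_assoc]
    · rw [IsIso.hom_inv_id_assoc]
    · rw [← ek1, ← eS, IsIso.hom_inv_id_assoc]

end

end Vale.Agent.P259
end
end

section

section

open CategoryTheory Limits Opposite

namespace Vale.Agent.P259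

open Theta0

namespace GlobExt

variable (C : GlobExt)

/-- A cylinder functor on `C`, relative to dimensions `< n`, with values in `Md C m`. -/
structure CylFun (m : ℕ∞) (n : ℕ) where
  Cy : C.Obj ⥤ C.Md m
  im : C.y m ⟶ Cy
  ip : C.y m ⟶ Cy
  q : ∀ S, Cy.obj S ⟶ (C.y m).obj S
  im_q : ∀ S, im.app S ≫ q S = 𝟙 _
  ip_q : ∀ S, ip.app S ≫ q S = 𝟙 _
  contr : ∀ S, Contr (C.F m) (Cy.obj S)
  push : ∀ {l : ℕ} (t : Tab l) (j i : ℕ) (hl : j < l) (hi : j < i),
    IsPushout (Cy.map (C.J.map (face true hl ≫ lastIncl t))) (Cy.map (C.J.map (face false hi)))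
      (Cy.map (C.J.map (inl t j i hl hi))) (Cy.map (C.J.map (inr t j i hl hi)))
  corner : ∀ j, ∀ ⦃X Y : C.Md m⦄ (f : X ⟶ Y), Fib (C.F m) n f →
    ∀ (β : sph (C.discF ⋙ Cy) j ⟶ X) (w : cob (C.F m) j ⟶ X)
      (c' : cob (C.discF ⋙ Cy) j ⟶ Y),
    sphMap (Functor.whiskerLeft C.discF im : C.F m ⟶ C.discF ⋙ Cy) j ≫ β =
      bd (C.F m) j ≫ w →
    bd (C.discF ⋙ Cy) j ≫ c' = β ≫ f → im.app _ ≫ c' = w ≫ f →
    ∃ c : cob (C.discF ⋙ Cy) j ⟶ X, bd (C.discF ⋙ Cy) j ≫ c = β ∧
      im.app _ ≫ c = w ∧ c ≫ f = c'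
  ext : ∀ j, n ≤ j → ∀ ⦃X Y : C.Md m⦄ (f : X ⟶ Y), TrivFib (C.F m) f →
    ∀ (β : sph (C.discF ⋙ Cy) j ⟶ X) (wm wp : cob (C.F m) j ⟶ X)
      (c' : cob (C.discF ⋙ Cy) j ⟶ Y),
    bd (C.F m) j ≫ wm =
      sphMap (Functor.whiskerLeft C.discF im : C.F m ⟶ C.discF ⋙ Cy) j ≫ β →
    bd (C.F m) j ≫ wp =
      sphMap (Functor.whiskerLeft C.discF ip : C.F m ⟶ C.discF ⋙ Cy) j ≫ β →
    bd (C.discF ⋙ Cy) j ≫ c' = β ≫ f → im.app _ ≫ c' = wm ≫ f → ip.app _ ≫ c' = wp ≫ f →
    ∃ c : cob (C.discF ⋙ Cy) j ⟶ X, bd (C.discF ⋙ Cy) j ≫ c = β ∧ im.app _ ≫ c = wm ∧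
      ip.app _ ≫ c = wp ∧ c ≫ f = c'
  fib : ∀ k, n ≤ k → ∀ ⦃X : C.Md m⦄ (a : cob (C.discF ⋙ Cy) k ⟶ X)
    (em ep : cob (C.F m) (k + 1) ⟶ X),
    sg (C.F m) k ≫ em = im.app _ ≫ a → sg (C.F m) k ≫ ep = ip.app _ ≫ a →
    ∃ c : cob (C.discF ⋙ Cy) (k + 1) ⟶ X, sg (C.discF ⋙ Cy) k ≫ c = a ∧
      im.app _ ≫ c = em ∧ ip.app _ ≫ c = ep
  /-- thinness in dimension `> m` -/
  thin : ∀ k : ℕ, m ≤ k → ∀ ⦃X : C.Md m⦄ (a b : cob (C.discF ⋙ Cy) (k + 1) ⟶ X),
    sg (C.discF ⋙ Cy) k ≫ a = sg (C.discF ⋙ Cy) k ≫ b →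
    tg (C.discF ⋙ Cy) k ≫ a = tg (C.discF ⋙ Cy) k ≫ b → a = b

variable {C}

section construction

variable {m : ℕ∞} {n : ℕ} (K : Cyl (C.F m) n)

/-- The extension of the discs to `Θ₀`. -/
noncomputable def extF (C : GlobExt) (m : ℕ∞) : Ext0 (C.F m) where
  L := C.J ⋙ C.y m
  i j := Iso.refl _
  nat f := by
    rw [Iso.refl_hom, Iso.refl_hom]
    exact (Category.comp_id _).trans (Category.id_comp _).symm
  push t j k hl hk := C.y_isPushout m t j k hl hk

variable (B : Ext0 K.E)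

/-- The inclusion at the source end of a cylinder. -/
noncomputable def iM (S : Theta0) : (C.y m).obj (.of S) ⟶ B.L.obj S :=
  (extIm K (C.extF m) B).app S

/-- The inclusion at the target end of a cylinder. -/
noncomputable def iP (S : Theta0) : (C.y m).obj (.of S) ⟶ B.L.obj S :=
  (extIp K (C.extF m) B).app S

/-- The image in `C` of a map of `Θ₀`, with the expected source and target. -/
noncomputable def jm {C : GlobExt} {S T : Theta0} (f : S ⟶ T) : (Obj.of S : C.Obj) ⟶ .of T :=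
  C.J.map f

lemma iM_nat {S T : Theta0} (f : S ⟶ T) :
    iM K B S ≫ B.L.map f = (C.y m).map (jm f) ≫ iM K B T :=
  ((extIm K (C.extF m) B).naturality f).symm

lemma iP_nat {S T : Theta0} (f : S ⟶ T) :
    iP K B S ≫ B.L.map f = (C.y m).map (jm f) ≫ iP K B T :=
  ((extIp K (C.extF m) B).naturality f).symm

/-- The morphisms of the globular extension of cylinders. -/
structure CHom (S T : Theta0) : Type where
  φ : (Obj.of S : C.Obj) ⟶ .of T
  Φ : B.L.obj S ⟶ B.L.obj T
  im : iM K B S ≫ Φ = (C.y m).map φ ≫ iM K B T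
  ip : iP K B S ≫ Φ = (C.y m).map φ ≫ iP K B T

variable {K B} in
lemma CHom.ext' {S T : Theta0} {f g : CHom K B S T} (h₁ : f.φ = g.φ) (h₂ : f.Φ = g.Φ) :
    f = g := by
  cases f
  cases g
  cases h₁
  cases h₂
  rfl

/-- The globular extension of cylinders. -/
noncomputable def cylExt : GlobExt where
  Hom S T := CHom K B S T
  id S := ⟨𝟙 _, 𝟙 _, by rw [(C.y m).map_id, Category.comp_id, Category.id_comp], by
      rw [(C.y m).map_id, Category.comp_id, Category.id_comp]⟩
  comp f g := ⟨f.φ ≫ g.φ, f.Φ ≫ g.Φ, by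
      rw [(C.y m).map_comp, Category.assoc, ← g.im, ← Category.assoc, f.im, Category.assoc], by
      rw [(C.y m).map_comp, Category.assoc, ← g.ip, ← Category.assoc, f.ip, Category.assoc]⟩
  id_comp f := CHom.ext' (Category.id_comp _) (Category.id_comp _)
  comp_id f := CHom.ext' (Category.comp_id _) (Category.comp_id _)
  assoc f g h := CHom.ext' (Category.assoc _ _ _) (Category.assoc _ _ _)
  incl {S T} f := ⟨jm f, B.L.map f, iM_nat K B f, iP_nat K B f⟩
  incl_id S := CHom.ext' (C.J.map_id _) (B.L.map_id _)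
  incl_comp f g := CHom.ext' (C.J.map_comp _ _) (B.L.map_comp _ _)
  glue {l} t j i hl hi U a b h := by
    have h₁ : jm (face true hl ≫ lastIncl t) ≫ a.φ = jm (face false hi) ≫ b.φ :=
      congrArg CHom.φ h
    have h₂ : B.L.map (face true hl ≫ lastIncl t) ≫ a.Φ = B.L.map (face false hi) ≫ b.Φ :=
      congrArg CHom.Φ h
    have p₁ : IsPushout (jm (C := C) (face true hl ≫ lastIncl t)) (jm (face false hi))
      (jm (inl t j i hl hi)) (jm (inr t j i hl hi)) := C.isPushout t j i hl hi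
    have p₂ := B.push t j i hl hi
    have p₃ : IsPushout ((C.y m).map (jm (face true hl ≫ lastIncl t)))
      ((C.y m).map (jm (face false hi))) ((C.y m).map (jm (inl t j i hl hi)))
      ((C.y m).map (jm (inr t j i hl hi))) := C.y_isPushout m t j i hl hi
    refine ⟨⟨p₁.desc a.φ b.φ h₁, p₂.desc a.Φ b.Φ h₂, ?_, ?_⟩, ⟨?_, ?_⟩, ?_⟩
    · apply p₃.hom_ext
      · have e₁ := iM_nat K B (inl t j i hl hi)
        rw [← Category.assoc, ← e₁, Category.assoc, p₂.inl_desc, a.im, ← Category.assoc,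
          ← (C.y m).map_comp, p₁.inl_desc]
      · have e₁ := iM_nat K B (inr t j i hl hi)
        rw [← Category.assoc, ← e₁, Category.assoc, p₂.inr_desc, b.im, ← Category.assoc,
          ← (C.y m).map_comp, p₁.inr_desc]
    · apply p₃.hom_ext
      · have e₁ := iP_nat K B (inl t j i hl hi)
        rw [← Category.assoc, ← e₁, Category.assoc, p₂.inl_desc, a.ip, ← Category.assoc,
          ← (C.y m).map_comp, p₁.inl_desc]
      · have e₁ := iP_nat K B (inr t j i hl hi)
        rw [← Category.assoc, ← e₁, Category.assoc, p₂.inr_desc, b.ip, ← Category.assoc,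
          ← (C.y m).map_comp, p₁.inr_desc]
    · exact CHom.ext' (p₁.inl_desc _ _ _) (p₂.inl_desc _ _ _)
    · exact CHom.ext' (p₁.inr_desc _ _ _) (p₂.inr_desc _ _ _)
    · rintro c ⟨hc₁, hc₂⟩
      have a₁ : jm (inl t j i hl hi) ≫ c.φ = a.φ := congrArg CHom.φ hc₁
      have a₂ : B.L.map (inl t j i hl hi) ≫ c.Φ = a.Φ := congrArg CHom.Φ hc₁
      have b₁ : jm (inr t j i hl hi) ≫ c.φ = b.φ := congrArg CHom.φ hc₂
      have b₂ : B.L.map (inr t j i hl hi) ≫ c.Φ = b.Φ := congrArg CHom.Φ hc₂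
      refine CHom.ext' (p₁.hom_ext ?_ ?_) (p₂.hom_ext ?_ ?_)
      · rw [a₁]; exact (p₁.inl_desc _ _ _).symm
      · rw [b₁]; exact (p₁.inr_desc _ _ _).symm
      · rw [a₂]; exact (p₂.inl_desc _ _ _).symm
      · rw [b₂]; exact (p₂.inr_desc _ _ _).symm

/-- The projection of the extension of cylinders. -/
noncomputable def cylProj : Map (cylExt K B) C where
  map f := f.φ
  map_id _ := rfl
  map_comp _ _ := rfl
  map_incl _ := rfl

theorem liftsAlong_cylProj : LiftsAlong (cylProj K B) := by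
  intro k S hS u v hpar w hw
  have hu : jm (σ k) ≫ w = u.φ := hw.1
  have hv : jm (τ k) ≫ w = v.φ := hw.2
  have eu := u.im
  have ev := v.im
  have eu' := u.ip
  have ev' := v.ip
  rw [← hu, (C.y m).map_comp, Category.assoc] at eu eu'
  rw [← hv, (C.y m).map_comp, Category.assoc] at ev ev'
  have hp : ∀ k', (hk : k = k' + 1) →
      B.L.map (σ k' : disc k' ⟶ disc (k' + 1)) ≫ (eqToHom (by rw [hk]) ≫ u.Φ) =
        B.L.map (σ k' : disc k' ⟶ disc (k' + 1)) ≫ (eqToHom (by rw [hk]) ≫ v.Φ) ∧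
      B.L.map (τ k' : disc k' ⟶ disc (k' + 1)) ≫ (eqToHom (by rw [hk]) ≫ u.Φ) =
        B.L.map (τ k' : disc k' ⟶ disc (k' + 1)) ≫ (eqToHom (by rw [hk]) ≫ v.Φ) := by
    rintro k' rfl
    rw [eqToHom_refl, Category.id_comp, Category.id_comp]
    exact ⟨congrArg CHom.Φ hpar.1, congrArg CHom.Φ hpar.2⟩
  obtain ⟨H, h₁, h₂, h₃, h₄⟩ :=
    cyl_lift K (C.extF m) B k S hS ((C.y m).map w) u.Φ v.Φ hp eu ev eu' ev'
  exact ⟨⟨w, H, h₃, h₄⟩, ⟨CHom.ext' hu h₁, CHom.ext' hv h₂⟩, rfl⟩

end construction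

section final

variable {m : ℕ∞} {n : ℕ} (K : Cyl (C.F m) n) (B : Ext0 K.E) (s : Map C (cylExt K B))
  (hs : s.comp (cylProj K B) = Map.id C)

/-- The cylinder functor attached to a section. -/
noncomputable def cylCy : C.Obj ⥤ C.Md m where
  obj S := B.L.obj S.sum
  map {S T} φ := (s.map φ : CHom K B S.sum T.sum).Φ
  map_id S := congrArg CHom.Φ (s.map_id S.sum)
  map_comp f g := congrArg CHom.Φ (s.map_comp f g)

include hs in
lemma cylCy_φ {S T : Theta0} (f : C.Hom S T) : (s.map f : CHom K B S T).φ = f :=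
  congrArg (fun G : Map C C => G.map f) hs

lemma cylCy_map {S T : Theta0} (f : S ⟶ T) :
    (cylCy K B s).map (C.J.map f) = B.L.map f := congrArg CHom.Φ (s.map_incl f)

/-- The inclusion at the source end. -/
noncomputable def cylIm : C.y m ⟶ cylCy K B s where
  app S := iM K B S.sum
  naturality S T φ := by
    have h := (s.map φ : CHom K B S.sum T.sum).im
    rw [cylCy_φ K B s hs] at h
    exact h.symm

/-- The inclusion at the target end. -/
noncomputable def cylIp : C.y m ⟶ cylCy K B s where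
  app S := iP K B S.sum
  naturality S T φ := by
    have h := (s.map φ : CHom K B S.sum T.sum).ip
    rw [cylCy_φ K B s hs] at h
    exact h.symm

/-- The discs of the cylinder functor. -/
noncomputable def cylIso : K.E ≅ C.discF ⋙ cylCy K B s :=
  NatIso.ofComponents (fun X => B.i X.dim) (fun {a b} f => by
    have h := cylCy_map K B s (discMap f)
    exact (B.nat f).trans (congrArg (fun x => (B.i a.dim).hom ≫ x) h.symm))

lemma cylIso_im : K.im ≫ (cylIso K B s).hom =
    (Functor.whiskerLeft C.discF (cylIm K B s hs) : C.F m ⟶ C.discF ⋙ cylCy K B s) := by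
  apply NatTrans.ext
  funext j
  have h := extIm_disc K (C.extF m) B j.dim
  exact (h.symm.trans (Category.id_comp _))

lemma cylIso_ip : K.ip ≫ (cylIso K B s).hom =
    (Functor.whiskerLeft C.discF (cylIp K B s hs) : C.F m ⟶ C.discF ⋙ cylCy K B s) := by
  apply NatTrans.ext
  funext j
  have h := extIp_disc K (C.extF m) B j.dim
  exact (h.symm.trans (Category.id_comp _))

/-- The cylinder functor attached to a section. -/
noncomputable def cylFunOf (hC : C.IsCoherator) : C.CylFun m n where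
  Cy := cylCy K B s
  im := cylIm K B s hs
  ip := cylIp K B s hs
  q S := (extQ K (C.extF m) B).app S.sum
  im_q S := congrArg (fun α => α.app S.sum) (extIm_extQ K (C.extF m) B)
  ip_q S := congrArg (fun α => α.app S.sum) (extIp_extQ K (C.extF m) B)
  contr S := K.gsum _ (B.isGSum S.sum.tab)
  push t j i hl hi := by
    rw [cylCy_map, cylCy_map, cylCy_map, cylCy_map]
    exact B.push t j i hl hi
  corner j X Y f hf β w c' h₁ h₂ h₃ := by
    have e := cylIso_im K B s hs
    obtain ⟨c, hc₁, hc₂, hc₃⟩ := K.corner_iso (cylIso K B s) j f hf β w c'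
      (by rw [e]; exact h₁) h₂ (by rw [e]; exact h₃)
    rw [e] at hc₂
    exact ⟨c, hc₁, hc₂, hc₃⟩
  ext j hj X Y f hf β wm wp c' h₁ h₂ h₃ h₄ h₅ := by
    have e := cylIso_im K B s hs
    have e' := cylIso_ip K B s hs
    obtain ⟨c, hc₁, hc₂, hc₃, hc₄⟩ := K.ext_iso (cylIso K B s) j hj f hf β wm wp c'
      (by rw [e]; exact h₁) (by rw [e']; exact h₂) h₃ (by rw [e]; exact h₄)
      (by rw [e']; exact h₅)
    rw [e] at hc₂
    rw [e'] at hc₃
    exact ⟨c, hc₁, hc₂, hc₃, hc₄⟩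
  fib k hk X a em ep h₁ h₂ := by
    have e := cylIso_im K B s hs
    have e' := cylIso_ip K B s hs
    obtain ⟨c, hc₁, hc₂, hc₃⟩ := K.fib_iso (cylIso K B s) k hk a em ep
      (by rw [e]; exact h₁) (by rw [e']; exact h₂)
    rw [e] at hc₂
    rw [e'] at hc₃
    exact ⟨c, hc₁, hc₂, hc₃⟩
  thin k hk X a b h₁ h₂ := by
    have hk' : m + 1 ≤ ((k + 1 : ℕ) : ℕ∞) := by
      rw [Nat.cast_add, Nat.cast_one]
      exact add_le_add_left hk 1
    have hiso : IsIso (sg (C.F m) (k + 1)) := C.isIso_sg m hC (k + 1) hk'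
    have hepi : Epi (bd (C.F m) (k + 1)) := C.epi_bd m (k + 1) hk'
    exact Cyl.thin_iso K (cylIso K B s) k (K.thin (k + 1) inferInstance hepi) a b h₁ h₂

end final

/-- The section principle for cylinders. -/
theorem exists_cylFun (hC : C.IsCoherator) {m : ℕ∞} {n : ℕ} (K : Cyl (C.F m) n) :
    Nonempty (C.CylFun m n) := by
  obtain ⟨B⟩ := exists_ext0 K.E
  obtain ⟨T⟩ := hC.tower
  obtain ⟨s, hs⟩ := T.exists_section (cylProj K B) (liftsAlong_cylProj K B)
  exact ⟨cylFunOf K B s hs hC⟩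

end GlobExt

end Vale.Agent.P259
end
end

section

section

open CategoryTheory Limits Opposite

namespace Vale.Agent.P259

open Theta0

namespace GlobExt

variable {C : GlobExt} {m : ℕ∞} {n : ℕ} (K : C.CylFun m n)

/-- The path object `P X`, `(P X)(S) = Hom(S ⊗ I, X)`. -/
noncomputable def CylFun.P : C.Md m ⥤ C.Md m where
  obj X := ⟨K.Cy.op ⋙ yoneda.obj X, by
    constructor
    · intro l t j i hl hi
      exact (K.push t j i hl hi).op.flip.map (yoneda.obj X)
    · intro k hk x y h1 h2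
      exact K.thin k hk x y h1 h2⟩
  map f := ⟨Functor.whiskerLeft K.Cy.op (yoneda.map f)⟩
  map_id X := by
    ext
    simp
  map_comp f g := by
    ext
    simp

/-- Maps `y S ⟶ P X` are maps `S ⊗ I ⟶ X`. -/
noncomputable def CylFun.PEquiv (S : C.Obj) (X : C.Md m) :
    ((C.y m).obj S ⟶ K.P.obj X) ≃ (K.Cy.obj S ⟶ X) :=
  yEquiv S (K.P.obj X)

lemma CylFun.PEquiv_naturality_left {S T : C.Obj} (φ : S ⟶ T) {X : C.Md m}
    (f : (C.y m).obj T ⟶ K.P.obj X) :
    K.PEquiv S X ((C.y m).map φ ≫ f) = K.Cy.map φ ≫ K.PEquiv T X f :=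
  yEquiv_naturality_left φ f

lemma CylFun.PEquiv_naturality_right {S : C.Obj} {X Y : C.Md m}
    (f : (C.y m).obj S ⟶ K.P.obj X) (g : X ⟶ Y) :
    K.PEquiv S Y (f ≫ K.P.map g) = K.PEquiv S X f ≫ g :=
  yEquiv_naturality_right f (K.P.map g)

lemma CylFun.exists_proj (i : C.y m ⟶ K.Cy) : ∃ p : K.P ⟶ 𝟭 _, ∀ (S : C.Obj) (X : C.Md m)
    (f : (C.y m).obj S ⟶ K.P.obj X), f ≫ p.app X = i.app S ≫ K.PEquiv S X f := by
  have h : ∀ X : C.Md m, ∃ f : K.P.obj X ⟶ X, ∀ (S : C.Obj) (x : (C.y m).obj S ⟶ K.P.obj X),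
      x ≫ f = i.app S ≫ K.PEquiv S X x := by
    intro X
    apply Md.exists_hom
    intro S T u x
    rw [K.PEquiv_naturality_left, ← i.naturality_assoc]
  choose p hp using h
  refine ⟨{ app := p, naturality := ?_ }, ?_⟩
  · intro X Y g
    apply Md.hom_ext
    intro S x
    simp only [Functor.id_map]
    rw [← Category.assoc, hp Y, K.PEquiv_naturality_right, ← Category.assoc, ← hp X,
      Category.assoc]
  · intro S X f
    exact hp X S f

/-- The two projections of the path object exist. -/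
theorem CylFun.exists_pm : ∃ p : K.P ⟶ 𝟭 _, ∀ (S : C.Obj) (X : C.Md m)
    (f : (C.y m).obj S ⟶ K.P.obj X), f ≫ p.app X = K.im.app S ≫ K.PEquiv S X f :=
  K.exists_proj K.im

theorem CylFun.exists_pp : ∃ p : K.P ⟶ 𝟭 _, ∀ (S : C.Obj) (X : C.Md m)
    (f : (C.y m).obj S ⟶ K.P.obj X), f ≫ p.app X = K.ip.app S ≫ K.PEquiv S X f :=
  K.exists_proj K.ip

/-- The source projection. -/
noncomputable def CylFun.pm : K.P ⟶ 𝟭 (C.Md m) := K.exists_pm.choose

/-- The target projection. -/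
noncomputable def CylFun.pp : K.P ⟶ 𝟭 (C.Md m) := K.exists_pp.choose

lemma CylFun.comp_pm {S : C.Obj} {X : C.Md m} (f : (C.y m).obj S ⟶ K.P.obj X) :
    f ≫ K.pm.app X = K.im.app S ≫ K.PEquiv S X f :=
  K.exists_pm.choose_spec S X f

lemma CylFun.comp_pp {S : C.Obj} {X : C.Md m} (f : (C.y m).obj S ⟶ K.P.obj X) :
    f ≫ K.pp.app X = K.ip.app S ≫ K.PEquiv S X f :=
  K.exists_pp.choose_spec S X f

/-- The coglobular object of the cylinders of the discs. -/
noncomputable abbrev CylFun.E : Globe ⥤ C.Md m := C.discF ⋙ K.Cy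

/-- The inclusion of the discs in their cylinders (source side). -/
noncomputable abbrev CylFun.dim : C.F m ⟶ K.E := Functor.whiskerLeft C.discF K.im

/-- The inclusion of the discs in their cylinders (target side). -/
noncomputable abbrev CylFun.dip : C.F m ⟶ K.E := Functor.whiskerLeft C.discF K.ip

/-- Maps from discs to the path object. -/
noncomputable def CylFun.DEquiv (j : ℕ) (X : C.Md m) :
    (cob (C.F m) j ⟶ K.P.obj X) ≃ (cob K.E j ⟶ X) :=
  K.PEquiv (C.discF.obj (Globe.D j)) X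

lemma CylFun.DEquiv_naturality {i j : ℕ} (φ : Globe.D i ⟶ Globe.D j) {X : C.Md m}
    (f : cob (C.F m) j ⟶ K.P.obj X) :
    K.DEquiv i X ((C.F m).map φ ≫ f) = K.E.map φ ≫ K.DEquiv j X f :=
  K.PEquiv_naturality_left (C.discF.map φ) f

lemma CylFun.disc_pm {j : ℕ} {X : C.Md m} (f : cob (C.F m) j ⟶ K.P.obj X) :
    f ≫ K.pm.app X = K.dim.app (Globe.D j) ≫ K.DEquiv j X f :=
  K.comp_pm f

lemma CylFun.disc_pp {j : ℕ} {X : C.Md m} (f : cob (C.F m) j ⟶ K.P.obj X) :
    f ≫ K.pp.app X = K.dip.app (Globe.D j) ≫ K.DEquiv j X f :=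
  K.comp_pp f

/-- Transposition of spheres. -/
lemma CylFun.exists_sph (X : C.Md m) : ∀ (j : ℕ) (f : sph (C.F m) j ⟶ K.P.obj X),
    ∃ β : sph K.E j ⟶ X, sphMap K.dim j ≫ β = f ≫ K.pm.app X ∧
      sphMap K.dip j ≫ β = f ≫ K.pp.app X ∧
      ∀ w : cob (C.F m) j ⟶ K.P.obj X, bd (C.F m) j ≫ w = f ↔ bd K.E j ≫ K.DEquiv j X w = β := by
  intro j
  induction j with
  | zero =>
    intro f
    refine ⟨(isInitialSphZero _).to _, sph_zero_hom_ext _ _ _, sph_zero_hom_ext _ _ _,
      fun w => ⟨fun _ => sph_zero_hom_ext _ _ _, fun _ => sph_zero_hom_ext _ _ _⟩⟩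
  | succ j ih =>
    intro f
    have hb : bd K.E j ≫ K.DEquiv j X (hemS (C.F m) j ≫ f) =
        bd K.E j ≫ K.DEquiv j X (hemT (C.F m) j ≫ f) := by
      obtain ⟨β, -, -, h⟩ := ih (bd (C.F m) j ≫ hemS (C.F m) j ≫ f)
      rw [(h _).1 rfl, (h _).1]
      rw [← Category.assoc, ← Category.assoc, (isPushout_sph (C.F m) j).w]
    refine ⟨sphDesc K.E (K.DEquiv j X (hemS (C.F m) j ≫ f)) (K.DEquiv j X (hemT (C.F m) j ≫ f)) hb,
      ?_, ?_, ?_⟩
    · apply sph_hom_ext
      · rw [hemS_sphMap_assoc, hemS_sphDesc, ← Category.assoc, K.disc_pm]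
      · rw [hemT_sphMap_assoc, hemT_sphDesc, ← Category.assoc, K.disc_pm]
    · apply sph_hom_ext
      · rw [hemS_sphMap_assoc, hemS_sphDesc, ← Category.assoc, K.disc_pp]
      · rw [hemT_sphMap_assoc, hemT_sphDesc, ← Category.assoc, K.disc_pp]
    · intro w
      constructor
      · rintro rfl
        apply sph_hom_ext
        · rw [hemS_bd_assoc, hemS_sphDesc, hemS_bd_assoc]
          exact (K.DEquiv_naturality _ _).symm
        · rw [hemT_bd_assoc, hemT_sphDesc, hemT_bd_assoc]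
          exact (K.DEquiv_naturality _ _).symm
      · intro h
        apply sph_hom_ext
        · apply (K.DEquiv j X).injective
          rw [hemS_bd_assoc, K.DEquiv_naturality]
          have := congrArg (fun z => hemS K.E j ≫ z) h
          rw [hemS_sphDesc, hemS_bd_assoc] at this
          exact this
        · apply (K.DEquiv j X).injective
          rw [hemT_bd_assoc, K.DEquiv_naturality]
          have := congrArg (fun z => hemT K.E j ≫ z) h
          rw [hemT_sphDesc, hemT_bd_assoc] at this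
          exact this

/-- The cosource maps of the discs are split monomorphisms. -/
lemma exists_retraction (hC : C.IsCoherator) (m : ℕ∞) (k : ℕ) :
    ∃ κ : cob (C.F m) (k + 1) ⟶ cob (C.F m) k, sg (C.F m) k ≫ κ = 𝟙 _ := by
  have hp : C.Parallel (C.id (disc k)) (C.id (disc k)) := by
    cases k with
    | zero => trivial
    | succ k => exact ⟨rfl, rfl⟩
  obtain ⟨h, h1, -⟩ := hC.lifts (C.id (disc k)) (C.id (disc k)) hp
  refine ⟨(C.y m).map (X := .of (disc (k + 1))) (Y := .of (disc k)) h, ?_⟩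
  have e : C.discF.map (Globe.σ k) ≫ (h : (C.discF.obj (Globe.D (k + 1))) ⟶
      C.discF.obj (Globe.D k)) = 𝟙 _ := h1
  exact ((C.y m).map_comp (C.discF.map (Globe.σ k)) h).symm.trans
    ((congrArg (C.y m).map e).trans ((C.y m).map_id _))

/-- All objects are fibrant. -/
lemma fib_terminal (hC : C.IsCoherator) {m : ℕ∞} (n : ℕ) {X Y : C.Md m} (hY : IsTerminal Y)
    (f : X ⟶ Y) : Fib (C.F m) n f := by
  rintro _ _ _ ⟨k⟩
  constructor
  intro a b sq
  obtain ⟨κ, hκ⟩ := exists_retraction hC m k.1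
  exact ⟨⟨{ l := κ ≫ a, fac_left := by rw [← Category.assoc, hκ, Category.id_comp],
            fac_right := hY.hom_ext _ _ }⟩⟩

theorem CylFun.pm_trivFib (hC : C.IsCoherator) (Z : C.Md m) :
    TrivFib (C.F m) (K.pm.app Z) := by
  rintro _ _ _ ⟨j⟩
  constructor
  intro f g sq
  obtain ⟨β, hm, -, hw⟩ := K.exists_sph Z j f
  obtain ⟨c, h1, h2, -⟩ := K.corner j (terminal.from Z)
    (fib_terminal hC n terminalIsTerminal _) β g (terminal.from _)
    (hm.trans sq.w) (terminalIsTerminal.hom_ext _ _) (terminalIsTerminal.hom_ext _ _)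
  refine ⟨⟨{ l := (K.DEquiv j Z).symm c, fac_left := ?_, fac_right := ?_ }⟩⟩
  · rw [hw, Equiv.apply_symm_apply]
    exact h1
  · have := K.disc_pm ((K.DEquiv j Z).symm c)
    rw [Equiv.apply_symm_apply] at this
    exact this.trans h2

/-- `(p_-, p_+)` is a fibration of type `≥ n`. -/
theorem CylFun.fib_pmpp (Z : C.Md m) :
    Fib (C.F m) n (prod.lift (K.pm.app Z) (K.pp.app Z)) := by
  rintro _ _ _ ⟨k⟩
  constructor
  intro a e sq
  have e1 : sg (C.F m) k.1 ≫ e ≫ prod.fst = a ≫ K.pm.app Z := by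
    rw [← Category.assoc, ← sq.w, Category.assoc]
    exact congrArg (fun z => a ≫ z) (prod.lift_fst _ _)
  have e2 : sg (C.F m) k.1 ≫ e ≫ prod.snd = a ≫ K.pp.app Z := by
    rw [← Category.assoc, ← sq.w, Category.assoc]
    exact congrArg (fun z => a ≫ z) (prod.lift_snd _ _)
  obtain ⟨c, h1, h2, h3⟩ := K.fib k.1 k.2 (K.DEquiv k.1 Z a) (e ≫ prod.fst) (e ≫ prod.snd)
    (e1.trans (K.disc_pm a)) (e2.trans (K.disc_pp a))
  refine ⟨⟨{ l := (K.DEquiv (k.1 + 1) Z).symm c, fac_left := ?_, fac_right := ?_ }⟩⟩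
  · apply (K.DEquiv k.1 Z).injective
    rw [K.DEquiv_naturality, Equiv.apply_symm_apply]
    exact h1
  · apply Limits.prod.hom_ext
    · rw [Category.assoc, prod.lift_fst]
      have := K.disc_pm ((K.DEquiv (k.1 + 1) Z).symm c)
      rw [Equiv.apply_symm_apply] at this
      exact this.trans h2
    · rw [Category.assoc, prod.lift_snd]
      have := K.disc_pp ((K.DEquiv (k.1 + 1) Z).symm c)
      rw [Equiv.apply_symm_apply] at this
      exact this.trans h3

/-- The lifting property of `(p_-, p_+)` against anodyne maps of type `≥ n`. -/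
theorem CylFun.lift_an {A B X : C.Md m} (i : A ⟶ B) (hi : AN (C.F m) n i)
    (h : A ⟶ K.P.obj X) (a b : B ⟶ X) (ha : i ≫ a = h ≫ K.pm.app X)
    (hb : i ≫ b = h ≫ K.pp.app X) :
    ∃ H : B ⟶ K.P.obj X, i ≫ H = h ∧ H ≫ K.pm.app X = a ∧ H ≫ K.pp.app X = b := by
  have := hi _ (K.fib_pmpp X)
  have sq : CommSq h i (prod.lift (K.pm.app X) (K.pp.app X)) (prod.lift a b) := ⟨by
    apply Limits.prod.hom_ext
    · rw [Category.assoc, prod.lift_fst, Category.assoc, prod.lift_fst, ha]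
    · rw [Category.assoc, prod.lift_snd, Category.assoc, prod.lift_snd, hb]⟩
  refine ⟨sq.lift, sq.fac_left, ?_, ?_⟩
  · have h1 := congrArg (fun z => z ≫ prod.fst) sq.fac_right
    simpa only [Category.assoc, prod.lift_fst] using h1
  · have h1 := congrArg (fun z => z ≫ prod.snd) sq.fac_right
    simpa only [Category.assoc, prod.lift_snd] using h1

/-- The inductive step. -/
theorem hypH_step (hC : C.IsCoherator) (h : HypH (C.F m) (n + 1)) : HypH (C.F m) n := by
  obtain ⟨K0⟩ := exists_cyl (C.F m) n h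
  obtain ⟨K⟩ := exists_cylFun hC K0
  intro X d e he Y f hf j β
  have hX : Contr (C.F m) X := h.gContr e he
  obtain ⟨t, α, hα, -⟩ := (isGSum_iff C m e).1 he
  -- the retraction
  obtain ⟨r, hr⟩ : ∃ r : Y ⟶ X, f ≫ r = 𝟙 X := by
    have := hf _ (fib_terminal hC n terminalIsTerminal (terminal.from X))
    have sq : CommSq (𝟙 X) f (terminal.from X) (terminal.from Y) :=
      ⟨terminalIsTerminal.hom_ext _ _⟩
    exact ⟨sq.lift, sq.fac_left⟩
  -- the constant homotopy
  obtain ⟨H0, h1, h2⟩ : ∃ H0 : X ⟶ K.P.obj Y, H0 ≫ K.pm.app Y = f ∧ H0 ≫ K.pp.app Y = f := by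
    refine ⟨inv α ≫ (K.PEquiv (.of ⟨t⟩) Y).symm (K.q _ ≫ α ≫ f), ?_, ?_⟩
    · rw [Category.assoc, K.comp_pm, Equiv.apply_symm_apply, ← Category.assoc (K.im.app _),
        K.im_q, Category.id_comp, IsIso.inv_hom_id_assoc]
    · rw [Category.assoc, K.comp_pp, Equiv.apply_symm_apply, ← Category.assoc (K.ip.app _),
        K.ip_q, Category.id_comp, IsIso.inv_hom_id_assoc]
  obtain ⟨H, -, hm, hp⟩ := K.lift_an f hf H0 (r ≫ f) (𝟙 Y)
    (by rw [← Category.assoc, hr, Category.id_comp, h1]) (by rw [Category.comp_id, h2])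
  obtain ⟨w, hw⟩ := hX j (β ≫ r)
  have := K.pm_trivFib hC Y _ (MorphismProperty.ofHoms.mk (f := fun j : ℕ => bd (C.F m) j) j)
  have sq : CommSq (β ≫ H) (bd (C.F m) j) (K.pm.app Y) (w ≫ f) := ⟨by
    rw [Category.assoc, hm, ← Category.assoc, ← hw, Category.assoc]⟩
  refine ⟨sq.lift ≫ K.pp.app Y, ?_⟩
  rw [← Category.assoc, sq.fac_left, Category.assoc, hp]
  exact Category.comp_id _

theorem hypH_zero (hC : C.IsCoherator) (m : ℕ) : HypH (C.F m) 0 := by
  have h : ∀ k ≤ m + 1, HypH (C.F m) (m + 1 - k) := by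
    intro k
    induction k with
    | zero => intro _; exact hypH_base C hC m (gContr hC m)
    | succ k ih =>
      intro hk
      apply hypH_step hC
      have := ih (by omega)
      rwa [show m + 1 - (k + 1) + 1 = m + 1 - k by omega]
  have := h (m + 1) le_rfl
  rwa [Nat.sub_self] at this

/-- The key lemma: every anodyne extension of a globular sum is contractible. -/
theorem hypH_gpd (hC : C.IsCoherator) : HypH (C.F ⊤) 0 :=
  hypH_top hC (hypH_zero hC)

end GlobExt

end Vale.Agent.P259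
end
end

section

section

open CategoryTheory Limits

namespace Vale.Agent.P259

universe v u

/-- The abstract data from which the homotopy theory of `∞`-groupoids is developed: a
coglobular object of discs with contractible globular sums, together with a path object functor
and functorial-free factorizations. -/
structure PathCtx (𝓜 : Type u) [Category.{v} 𝓜] [HasLimits 𝓜] [HasColimits 𝓜] where
  F : Globe ⥤ 𝓜
  gc : GContr F
  P : 𝓜 ⥤ 𝓜
  pm : P ⟶ 𝟭 𝓜
  pp : P ⟶ 𝟭 𝓜
  pm_triv : ∀ X, TrivFib F (pm.app X)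
  pp_triv : ∀ X, TrivFib F (pp.app X)
  fib : ∀ X, Fib F 0 (prod.lift (pm.app X) (pp.app X))
  contr : ∀ X, Contr F X → TrivFib F (prod.lift (pm.app X) (pp.app X))
  corner : ∀ {X Y : 𝓜} (f : X ⟶ Y), Fib F 0 f →
    TrivFib F (pullback.lift (pm.app X) (P.map f) (by simp) : P.obj X ⟶ pullback f (pm.app Y))
  fact_an : ∀ {X Y : 𝓜} (f : X ⟶ Y), ∃ (Z : 𝓜) (i : X ⟶ Z) (p : Z ⟶ Y),
    AN F 0 i ∧ Fib F 0 p ∧ i ≫ p = f
  fact_cof : ∀ {X Y : 𝓜} (f : X ⟶ Y), ∃ (Z : 𝓜) (i : X ⟶ Z) (p : Z ⟶ Y),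
    Cof F i ∧ TrivFib F p ∧ i ≫ p = f

namespace PathCtx

variable {𝓜 : Type u} [Category.{v} 𝓜] [HasLimits 𝓜] [HasColimits 𝓜] (K : PathCtx 𝓜)

/-- Cofibrant objects. -/
def IsCof (X : 𝓜) : Prop := Cof K.F (initial.to X)

/-- A choice of the degeneracy (identity) operation `D_{k+1} ⟶ D_k`. -/
lemma exists_kap (k : ℕ) : ∃ κ : cob K.F (k + 1) ⟶ cob K.F k,
    sg K.F k ≫ κ = 𝟙 _ ∧ tg K.F k ≫ κ = 𝟙 _ :=
  K.gc.exists_kappa k

/-- The chosen identity operations. -/
noncomputable def kap (k : ℕ) : cob K.F (k + 1) ⟶ cob K.F k := (K.exists_kap k).choose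

/-- The iterated identity operation `D_k ⟶ D_0`. -/
noncomputable def idc : ∀ k : ℕ, cob K.F k ⟶ cob K.F 0
  | 0 => 𝟙 _
  | k + 1 => K.kap k ≫ idc k

/-- `π_0`. -/
def PiZero (X : 𝓜) : Type v := Quot (fun x y : cob K.F 0 ⟶ X => Hty K.F x y)

/-- The map induced on `π_0`. -/
def PiZero.map {X Y : 𝓜} (f : X ⟶ Y) : K.PiZero X → K.PiZero Y :=
  Quot.map (fun x => x ≫ f) (fun _ _ h => h.comp f)

/-- `π_n(X, x)` for `n = k + 1`: the `n`-cells `1^{n-1}_x → 1^{n-1}_x` modulo the relation: there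
is an `(n+1)`-cell between them. -/
def Pi (X : 𝓜) (x : cob K.F 0 ⟶ X) (k : ℕ) : Type v :=
  Quot (fun u v : {w : cob K.F (k + 1) ⟶ X //
    sg K.F k ≫ w = K.idc k ≫ x ∧ tg K.F k ≫ w = K.idc k ≫ x} => Hty K.F u.1 v.1)

/-- The map induced on `π_n`. -/
def Pi.map {X Y : 𝓜} (f : X ⟶ Y) (x : cob K.F 0 ⟶ X) (k : ℕ) :
    K.Pi X x k → K.Pi Y (x ≫ f) k :=
  Quot.map (fun w => ⟨w.1 ≫ f, by rw [← Category.assoc, w.2.1, Category.assoc],
    by rw [← Category.assoc, w.2.2, Category.assoc]⟩) (fun _ _ h => h.comp f)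

/-- Weak equivalences. -/
def W : MorphismProperty 𝓜 := fun X Y f =>
  Function.Bijective (PiZero.map K f) ∧
    ∀ (x : cob K.F 0 ⟶ X) (k : ℕ), Function.Bijective (Pi.map K f x k)

/-- Fillers of a sphere modulo cells between them. -/
def Fill {X : 𝓜} {j : ℕ} (β : sph K.F j ⟶ X) : Type v :=
  Quot (fun u v : {w : cob K.F j ⟶ X // bd K.F j ≫ w = β} => Hty K.F u.1 v.1)

/-- The map induced on fillers. -/
def Fill.map {X Y : 𝓜} (f : X ⟶ Y) {j : ℕ} (β : sph K.F j ⟶ X) :
    K.Fill β → K.Fill (β ≫ f) :=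
  Quot.map (fun w => ⟨w.1 ≫ f, by rw [← Category.assoc, w.2]⟩) (fun _ _ h => h.comp f)

/-! ### Identity operations -/

@[reassoc]
lemma sg_kap (k : ℕ) : sg K.F k ≫ K.kap k = 𝟙 _ := (K.exists_kap k).choose_spec.1

@[reassoc]
lemma tg_kap (k : ℕ) : tg K.F k ≫ K.kap k = 𝟙 _ := (K.exists_kap k).choose_spec.2

@[reassoc]
lemma sg_idc (k : ℕ) : sg K.F k ≫ K.idc (k + 1) = K.idc k := by
  rw [idc, sg_kap_assoc]

@[reassoc]
lemma tg_idc (k : ℕ) : tg K.F k ≫ K.idc (k + 1) = K.idc k := by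
  rw [idc, tg_kap_assoc]

/-! ### Cofibrations -/

lemma cof_bd (j : ℕ) : Cof K.F (bd K.F j) :=
  MorphismProperty.le_llp_rlp _ _ (MorphismProperty.ofHoms.mk (f := fun j : ℕ => bd K.F j) j)

lemma cof_hemS (j : ℕ) : Cof K.F (hemS K.F j) :=
  MorphismProperty.of_isPushout (isPushout_sph K.F j) (K.cof_bd j)

lemma cof_sg (k : ℕ) : Cof K.F (sg K.F k) := by
  rw [← hemS_bd]
  exact MorphismProperty.comp_mem _ _ _ (K.cof_hemS k) (K.cof_bd (k + 1))

theorem trivFib_le_fib : TrivFib K.F ≤ Fib K.F 0 := by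
  intro X Y p hp A B i hi
  obtain ⟨k⟩ := hi
  exact K.cof_sg k.1 p hp

theorem AN_le_Cof : AN K.F 0 ≤ Cof K.F :=
  MorphismProperty.antitone_llp K.trivFib_le_fib

lemma isCof_sph_cob (j : ℕ) : K.IsCof (sph K.F j) ∧ K.IsCof (cob K.F j) := by
  have h : ∀ j, K.IsCof (sph K.F j) → K.IsCof (cob K.F j) := by
    intro j hj
    have h1 : initial.to (cob K.F j) = initial.to (sph K.F j) ≫ bd K.F j := by
      apply initial.hom_ext
    rw [IsCof, h1]
    exact MorphismProperty.comp_mem _ _ _ hj (K.cof_bd j)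
  have h2 : ∀ j, K.IsCof (sph K.F j) := by
    intro j
    induction j with
    | zero =>
      have : IsIso (initial.to (sph K.F 0)) :=
        ⟨(isInitialSphZero K.F).to _, initial.hom_ext _ _, (isInitialSphZero K.F).hom_ext _ _⟩
      exact MorphismProperty.of_isIso (Cof K.F) (initial.to (sph K.F 0))
    | succ j ih =>
      have h1 : initial.to (sph K.F (j + 1)) = initial.to (cob K.F j) ≫ hemS K.F j := by
        apply initial.hom_ext
      rw [IsCof, h1]
      exact MorphismProperty.comp_mem _ _ _ (h j ih) (K.cof_hemS j)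
  exact ⟨h2 j, h j (h2 j)⟩

/-- Lifting of a map from a cofibrant object through a trivial fibration. -/
lemma IsCof.exists_lift {K : PathCtx 𝓜} {A X Y : 𝓜} (hA : K.IsCof A) {p : X ⟶ Y}
    (hp : TrivFib K.F p) (f : A ⟶ Y) : ∃ g : A ⟶ X, g ≫ p = f := by
  have := hA p hp
  have sq : CommSq (initial.to X) (initial.to A) p f := ⟨by apply initial.hom_ext⟩
  exact ⟨sq.lift, sq.fac_right⟩

lemma exists_lift_bd {X Y : 𝓜} {p : X ⟶ Y} (hp : TrivFib K.F p) {j : ℕ} (β : sph K.F j ⟶ X)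
    (w : cob K.F j ⟶ Y) (h : bd K.F j ≫ w = β ≫ p) :
    ∃ u : cob K.F j ⟶ X, bd K.F j ≫ u = β ∧ u ≫ p = w := by
  have := K.cof_bd j p hp
  have sq : CommSq β (bd K.F j) p w := ⟨h.symm⟩
  exact ⟨sq.lift, sq.fac_left, sq.fac_right⟩

/-! ### Fillers -/

/-- Surjectivity on fillers. -/
def Sur {X Y : 𝓜} (f : X ⟶ Y) {j : ℕ} (β : sph K.F j ⟶ X) : Prop :=
  ∀ w : cob K.F j ⟶ Y, bd K.F j ≫ w = β ≫ f → ∃ w' : cob K.F j ⟶ X, bd K.F j ≫ w' = β ∧
    Hty K.F (w' ≫ f) w

/-- Injectivity on fillers. -/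
def Inj {X Y : 𝓜} (f : X ⟶ Y) {j : ℕ} (β : sph K.F j ⟶ X) : Prop :=
  ∀ u v : cob K.F j ⟶ X, bd K.F j ≫ u = β → bd K.F j ≫ v = β → Hty K.F (u ≫ f) (v ≫ f) →
    Hty K.F u v

/-- Bijectivity on fillers. -/
def Bij {X Y : 𝓜} (f : X ⟶ Y) {j : ℕ} (β : sph K.F j ⟶ X) : Prop := K.Sur f β ∧ K.Inj f β

/-- Homotopy of cells is an equivalence relation. -/
lemma equivalence_hty (X : 𝓜) (k : ℕ) : Equivalence (Hty K.F (X := X) (k := k)) :=
  ⟨fun u => K.gc.hty_refl u, fun h => K.gc.hty_symm h, fun h h' => K.gc.hty_trans h h'⟩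

lemma quot_mk_eq_iff {X : 𝓜} {k : ℕ} {p : (cob K.F k ⟶ X) → Prop} (u v : {w // p w}) :
    Quot.mk (fun u v : {w : cob K.F k ⟶ X // p w} => Hty K.F u.1 v.1) u = Quot.mk _ v ↔
      Hty K.F u.1 v.1 := by
  have h : Equivalence (fun u v : {w : cob K.F k ⟶ X // p w} => Hty K.F u.1 v.1) :=
    ⟨fun u => K.gc.hty_refl _, fun h => K.gc.hty_symm h, fun h h' => K.gc.hty_trans h h'⟩
  exact h.quot_mk_eq_iff _ _

/-- Bijectivity of a map between quotients of sets of cells, in explicit terms. -/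
lemma bijective_quot_iff {X Y : 𝓜} {k : ℕ} (f : X ⟶ Y) {p : (cob K.F k ⟶ X) → Prop}
    {q : (cob K.F k ⟶ Y) → Prop} (h : ∀ w, p w → q (w ≫ f)) :
    Function.Bijective (Quot.map (ra := fun u v : {w : cob K.F k ⟶ X // p w} => Hty K.F u.1 v.1)
      (rb := fun u v : {w : cob K.F k ⟶ Y // q w} => Hty K.F u.1 v.1)
      (fun w => ⟨w.1 ≫ f, h w.1 w.2⟩) (fun _ _ h => h.comp f)) ↔
    (∀ w, q w → ∃ w', p w' ∧ Hty K.F (w' ≫ f) w) ∧
      (∀ u v, p u → p v → Hty K.F (u ≫ f) (v ≫ f) → Hty K.F u v) := by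
  constructor
  · rintro ⟨hi, hs⟩
    constructor
    · intro w hw
      obtain ⟨a, ha⟩ := hs (Quot.mk _ ⟨w, hw⟩)
      obtain ⟨w', rfl⟩ := Quot.exists_rep a
      exact ⟨w'.1, w'.2, (K.quot_mk_eq_iff _ _).1 ha⟩
    · intro u v hu hv huv
      have := hi (a₁ := Quot.mk _ ⟨u, hu⟩) (a₂ := Quot.mk _ ⟨v, hv⟩)
        ((K.quot_mk_eq_iff _ _).2 huv)
      exact (K.quot_mk_eq_iff _ _).1 this
  · rintro ⟨hs, hi⟩
    constructor
    · intro a b
      obtain ⟨u, rfl⟩ := Quot.exists_rep a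
      obtain ⟨v, rfl⟩ := Quot.exists_rep b
      intro hab
      exact (K.quot_mk_eq_iff _ _).2 (hi _ _ u.2 v.2 ((K.quot_mk_eq_iff _ _).1 hab))
    · intro a
      obtain ⟨w, rfl⟩ := Quot.exists_rep a
      obtain ⟨w', h1, h2⟩ := hs w.1 w.2
      exact ⟨Quot.mk _ ⟨w', h1⟩, (K.quot_mk_eq_iff _ _).2 h2⟩

lemma fill_bijective_iff {X Y : 𝓜} (f : X ⟶ Y) {j : ℕ} (β : sph K.F j ⟶ X) :
    Function.Bijective (Fill.map K f β) ↔ K.Bij f β := by
  refine (K.bijective_quot_iff (p := fun w => bd K.F j ≫ w = β)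
    (q := fun w => bd K.F j ≫ w = β ≫ f) f
    (fun w hw => by rw [← Category.assoc, hw])).trans Iff.rfl

lemma pi_bijective_iff {X Y : 𝓜} (f : X ⟶ Y) (x : cob K.F 0 ⟶ X) (k : ℕ) :
    Function.Bijective (Pi.map K f x k) ↔ K.Bij f (bd K.F (k + 1) ≫ K.idc (k + 1) ≫ x) := by
  have key : ∀ {Z : 𝓜} (z : cob K.F 0 ⟶ Z) (w : cob K.F (k + 1) ⟶ Z),
      (sg K.F k ≫ w = K.idc k ≫ z ∧ tg K.F k ≫ w = K.idc k ≫ z) ↔
        bd K.F (k + 1) ≫ w = bd K.F (k + 1) ≫ K.idc (k + 1) ≫ z := by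
    intro Z z w
    rw [bd_comp_eq_iff, sg_idc_assoc, tg_idc_assoc]
  refine (K.bijective_quot_iff
    (p := fun w => sg K.F k ≫ w = K.idc k ≫ x ∧ tg K.F k ≫ w = K.idc k ≫ x)
    (q := fun w => sg K.F k ≫ w = K.idc k ≫ x ≫ f ∧ tg K.F k ≫ w = K.idc k ≫ x ≫ f) f
    (fun w hw => ⟨by rw [← Category.assoc, hw.1, Category.assoc],
      by rw [← Category.assoc, hw.2, Category.assoc]⟩)).trans ?_
  simp only [key]
  unfold Bij Sur Inj
  simp only [Category.assoc]

lemma piZero_bijective_iff {X Y : 𝓜} (f : X ⟶ Y) (β : sph K.F 0 ⟶ X) :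
    Function.Bijective (PiZero.map K f) ↔ K.Bij f β := by
  have hX : ∀ w : cob K.F 0 ⟶ X, bd K.F 0 ≫ w = β := fun w => sph_zero_hom_ext _ _ _
  have hY : ∀ w : cob K.F 0 ⟶ Y, bd K.F 0 ≫ w = β ≫ f := fun w => sph_zero_hom_ext _ _ _
  have hmk : ∀ {Z : 𝓜} (u v : cob K.F 0 ⟶ Z),
      (Quot.mk (fun x y : cob K.F 0 ⟶ Z => Hty K.F x y) u = Quot.mk _ v) ↔ Hty K.F u v :=
    fun u v => (K.equivalence_hty _ 0).quot_mk_eq_iff _ _
  constructor
  · rintro ⟨hi, hs⟩
    refine ⟨fun w _ => ?_, fun u v _ _ huv => ?_⟩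
    · obtain ⟨a, ha⟩ := hs (Quot.mk _ w)
      obtain ⟨w', rfl⟩ := Quot.exists_rep a
      exact ⟨w', hX w', (hmk _ _).1 ha⟩
    · exact (hmk _ _).1 (hi (a₁ := Quot.mk _ u) (a₂ := Quot.mk _ v) ((hmk _ _).2 huv))
  · rintro ⟨hs, hi⟩
    constructor
    · intro a b
      obtain ⟨u, rfl⟩ := Quot.exists_rep a
      obtain ⟨v, rfl⟩ := Quot.exists_rep b
      intro hab
      exact (hmk _ _).2 (hi _ _ (hX u) (hX v) ((hmk _ _).1 hab))
    · intro a
      obtain ⟨w, rfl⟩ := Quot.exists_rep a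
      obtain ⟨w', -, h2⟩ := hs w (hY w)
      exact ⟨Quot.mk _ w', (hmk _ _).2 h2⟩

variable {K}

lemma Sur.comp {X Y Z : 𝓜} {f : X ⟶ Y} {g : Y ⟶ Z} {j : ℕ} {β : sph K.F j ⟶ X}
    (hf : K.Sur f β) (hg : K.Sur g (β ≫ f)) : K.Sur (f ≫ g) β := by
  intro w hw
  obtain ⟨w', h1, h2⟩ := hg w (by rw [hw, Category.assoc])
  obtain ⟨w'', h3, h4⟩ := hf w' h1
  refine ⟨w'', h3, ?_⟩
  have := h4.comp g
  rw [Category.assoc] at this
  exact K.gc.hty_trans this h2

lemma Inj.comp {X Y Z : 𝓜} {f : X ⟶ Y} {g : Y ⟶ Z} {j : ℕ} {β : sph K.F j ⟶ X}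
    (hf : K.Inj f β) (hg : K.Inj g (β ≫ f)) : K.Inj (f ≫ g) β := by
  intro u v hu hv huv
  apply hf u v hu hv
  apply hg _ _ (by rw [← Category.assoc, hu]) (by rw [← Category.assoc, hv])
  simpa only [Category.assoc] using huv

lemma Bij.comp {X Y Z : 𝓜} {f : X ⟶ Y} {g : Y ⟶ Z} {j : ℕ} {β : sph K.F j ⟶ X}
    (hf : K.Bij f β) (hg : K.Bij g (β ≫ f)) : K.Bij (f ≫ g) β :=
  ⟨hf.1.comp hg.1, hf.2.comp hg.2⟩

lemma Sur.of_comp {X Y Z : 𝓜} {f : X ⟶ Y} {g : Y ⟶ Z} {j : ℕ} {β : sph K.F j ⟶ X}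
    (h : K.Sur (f ≫ g) β) : K.Sur g (β ≫ f) := by
  intro w hw
  obtain ⟨w', h1, h2⟩ := h w (by rw [hw, Category.assoc])
  refine ⟨w' ≫ f, by rw [← Category.assoc, h1], by rwa [Category.assoc]⟩

lemma Inj.of_comp {X Y Z : 𝓜} {f : X ⟶ Y} {g : Y ⟶ Z} {j : ℕ} {β : sph K.F j ⟶ X}
    (h : K.Inj (f ≫ g) β) : K.Inj f β := by
  intro u v hu hv huv
  apply h u v hu hv
  have := huv.comp g
  simpa only [Category.assoc] using this

lemma Inj.of_comp_sur {X Y Z : 𝓜} {f : X ⟶ Y} {g : Y ⟶ Z} {j : ℕ} {β : sph K.F j ⟶ X}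
    (h : K.Inj (f ≫ g) β) (hf : K.Sur f β) : K.Inj g (β ≫ f) := by
  intro u v hu hv huv
  obtain ⟨u', h1, h2⟩ := hf u hu
  obtain ⟨v', h3, h4⟩ := hf v hv
  have h5 : Hty K.F u' v' := by
    apply h u' v' h1 h3
    have e1 := h2.comp g
    have e2 := h4.comp g
    rw [Category.assoc] at e1 e2
    exact K.gc.hty_trans (K.gc.hty_trans e1 huv) (K.gc.hty_symm e2)
  exact K.gc.hty_trans (K.gc.hty_trans (K.gc.hty_symm h2) (h5.comp f)) h4

lemma Sur.of_comp_inj {X Y Z : 𝓜} {f : X ⟶ Y} {g : Y ⟶ Z} {j : ℕ} {β : sph K.F j ⟶ X}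
    (h : K.Sur (f ≫ g) β) (hg : K.Inj g (β ≫ f)) : K.Sur f β := by
  intro w hw
  obtain ⟨w', h1, h2⟩ := h (w ≫ g) (by rw [← Category.assoc, hw, Category.assoc])
  refine ⟨w', h1, hg _ _ (by rw [← Category.assoc, h1]) hw ?_⟩
  rwa [Category.assoc]

lemma Bij.of_comp_left {X Y Z : 𝓜} {f : X ⟶ Y} {g : Y ⟶ Z} {j : ℕ} {β : sph K.F j ⟶ X}
    (h : K.Bij (f ≫ g) β) (hg : K.Bij g (β ≫ f)) : K.Bij f β :=
  ⟨h.1.of_comp_inj hg.2, h.2.of_comp⟩

lemma Bij.of_comp_right {X Y Z : 𝓜} {f : X ⟶ Y} {g : Y ⟶ Z} {j : ℕ} {β : sph K.F j ⟶ X}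
    (h : K.Bij (f ≫ g) β) (hf : K.Bij f β) : K.Bij g (β ≫ f) :=
  ⟨h.1.of_comp, h.2.of_comp_sur hf.1⟩

variable (K)

lemma bij_of_trivFib {X Y : 𝓜} {p : X ⟶ Y} (hp : TrivFib K.F p) {j : ℕ} (β : sph K.F j ⟶ X) :
    K.Bij p β := by
  constructor
  · intro w hw
    obtain ⟨u, h1, h2⟩ := K.exists_lift_bd hp β w hw
    exact ⟨u, h1, by rw [h2]; exact K.gc.hty_refl w⟩
  · rintro u v hu hv ⟨h, h1, h2⟩
    obtain ⟨w, h3, -⟩ := K.exists_lift_bd hp (sphDesc K.F u v (hu.trans hv.symm)) h (by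
      apply sph_hom_ext
      · rw [hemS_bd_assoc, hemS_sphDesc_assoc, h1]
      · rw [hemT_bd_assoc, hemT_sphDesc_assoc, h2])
    refine ⟨w, ?_, ?_⟩
    · rw [← hemS_bd, Category.assoc, h3, hemS_sphDesc]
    · rw [← hemT_bd, Category.assoc, h3, hemT_sphDesc]

/-- Transport of fillers along a homotopy of spheres. -/
lemma bij_iff_of_path {X Y : 𝓜} (f : X ⟶ Y) {j : ℕ} (H : sph K.F j ⟶ K.P.obj X) :
    K.Bij f (H ≫ K.pm.app X) ↔ K.Bij f (H ≫ K.pp.app X) := by
  have key : ∀ (π : K.P ⟶ 𝟭 𝓜) (_ : ∀ X, TrivFib K.F (π.app X)),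
      K.Bij f (H ≫ π.app X) ↔ K.Bij (K.P.map f) H := by
    intro π hπ
    have h1 : K.Bij (π.app X) H := K.bij_of_trivFib (hπ X) H
    have h2 : K.Bij (π.app Y) (H ≫ K.P.map f) := K.bij_of_trivFib (hπ Y) _
    have h3 : π.app X ≫ f = K.P.map f ≫ π.app Y := (π.naturality f).symm
    constructor
    · intro h
      have h4 : K.Bij (π.app X ≫ f) H := Bij.comp h1 h
      rw [h3] at h4
      exact h4.of_comp_left h2
    · intro h
      have h4 : K.Bij (K.P.map f ≫ π.app Y) H := Bij.comp h h2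
      rw [← h3] at h4
      exact h4.of_comp_right h1
  rw [key K.pm K.pm_triv, key K.pp K.pp_triv]

/-- Two maps from a cofibrant object to a contractible object are homotopic. -/
lemma exists_path {A X : 𝓜} (hA : K.IsCof A) (hX : Contr K.F X) (a b : A ⟶ X) :
    ∃ H : A ⟶ K.P.obj X, H ≫ K.pm.app X = a ∧ H ≫ K.pp.app X = b := by
  obtain ⟨H, hH⟩ := hA.exists_lift (K.contr X hX) (prod.lift a b)
  refine ⟨H, ?_, ?_⟩
  · have e := congrArg (fun t => t ≫ prod.fst) hH
    simp only [Category.assoc] at e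
    erw [prod.lift_fst, prod.lift_fst] at e
    exact e
  · have e := congrArg (fun t => t ≫ prod.snd) hH
    simp only [Category.assoc] at e
    erw [prod.lift_snd, prod.lift_snd] at e
    exact e

/-- Every cell is homotopic to a constant cell, hence so is its boundary. -/
lemma bij_iff_const {X Y : 𝓜} (f : X ⟶ Y) {j : ℕ} (w : cob K.F j ⟶ X) :
    ∃ x : cob K.F 0 ⟶ X, K.Bij f (bd K.F j ≫ w) ↔ K.Bij f (bd K.F j ≫ K.idc j ≫ x) := by
  obtain ⟨s⟩ : Nonempty (cob K.F 0 ⟶ cob K.F j) := by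
    rcases Nat.eq_zero_or_pos j with h | h
    · subst h
      exact ⟨𝟙 _⟩
    · exact ⟨K.F.map (Globe.face false h)⟩
  obtain ⟨H, h1, h2⟩ := K.exists_path (K.isCof_sph_cob j).2 (K.gc.disc j) (𝟙 _) (K.idc j ≫ s)
  refine ⟨s ≫ w, ?_⟩
  have h3 := K.bij_iff_of_path f (bd K.F j ≫ H ≫ K.P.map w)
  have e1 : (bd K.F j ≫ H ≫ K.P.map w) ≫ K.pm.app X = bd K.F j ≫ w := by
    rw [Category.assoc, Category.assoc, K.pm.naturality, ← Category.assoc H, h1]
    simp
  have e2 : (bd K.F j ≫ H ≫ K.P.map w) ≫ K.pp.app X = bd K.F j ≫ K.idc j ≫ s ≫ w := by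
    rw [Category.assoc, Category.assoc, K.pp.naturality, ← Category.assoc H, h2]
    simp
  rw [e1, e2] at h3
  exact h3

lemma W_iff_bij {X Y : 𝓜} (f : X ⟶ Y) :
    K.W f ↔ ∀ (j : ℕ) (β : sph K.F j ⟶ X), K.Bij f β := by
  constructor
  · rintro ⟨h0, h⟩ j
    have hconst : ∀ (j : ℕ) (x : cob K.F 0 ⟶ X), K.Bij f (bd K.F j ≫ K.idc j ≫ x) := by
      intro j x
      cases j with
      | zero => exact (K.piZero_bijective_iff f _).1 h0
      | succ k => exact (K.pi_bijective_iff f x k).1 (h x k)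
    have hcell : ∀ (j : ℕ) (w : cob K.F j ⟶ X), K.Bij f (bd K.F j ≫ w) := by
      intro j w
      obtain ⟨x, hx⟩ := K.bij_iff_const f w
      exact hx.2 (hconst j x)
    induction j with
    | zero => exact fun β => (K.piZero_bijective_iff f β).1 h0
    | succ j ih =>
      intro β
      constructor
      · intro v hv
        have hpar : bd K.F j ≫ (hemS K.F j ≫ β) = bd K.F j ≫ (hemT K.F j ≫ β) := by
          rw [← Category.assoc, ← Category.assoc, (isPushout_sph K.F j).w]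
        have hh : Hty K.F (hemS K.F j ≫ β) (hemT K.F j ≫ β) := by
          apply (ih (bd K.F j ≫ (hemS K.F j ≫ β))).2 _ _ rfl hpar.symm
          refine ⟨v, ?_, ?_⟩
          · rw [← hemS_bd, Category.assoc, hv, Category.assoc]
          · rw [← hemT_bd, Category.assoc, hv, Category.assoc]
        obtain ⟨w, hw1, hw2⟩ := hh
        have hw : bd K.F (j + 1) ≫ w = β := by
          apply sph_hom_ext
          · rw [hemS_bd_assoc, hw1]
          · rw [hemT_bd_assoc, hw2]
        have := (hcell (j + 1) w).1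
        rw [hw] at this
        exact this v hv
      · intro u v hu hv huv
        have := (hcell (j + 1) u).2
        rw [hu] at this
        exact this u v hu hv huv
  · intro h
    exact ⟨(K.piZero_bijective_iff f ((isInitialSphZero K.F).to X)).2 (h 0 _),
      fun x k => (K.pi_bijective_iff f x k).2 (h (k + 1) _)⟩

/-- `f` is a weak equivalence iff it is bijective on fillers of all spheres. -/
theorem W_iff_fill {X Y : 𝓜} (f : X ⟶ Y) :
    K.W f ↔ ∀ (j : ℕ) (β : sph K.F j ⟶ X), Function.Bijective (Fill.map K f β) := by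
  rw [W_iff_bij]
  simp only [fill_bijective_iff]

/-- Useful form: surjectivity and injectivity on fillers. -/
theorem W_iff_exists {X Y : 𝓜} (f : X ⟶ Y) :
    K.W f ↔ ∀ (j : ℕ) (β : sph K.F j ⟶ X) (w : cob K.F j ⟶ Y), bd K.F j ≫ w = β ≫ f →
      ∃ w' : cob K.F j ⟶ X, bd K.F j ≫ w' = β ∧ Hty K.F (w' ≫ f) w := by
  rw [W_iff_bij]
  constructor
  · intro h j β
    exact (h j β).1
  · intro h j β
    refine ⟨h j β, ?_⟩
    rintro u v hu hv ⟨a, ha1, ha2⟩
    obtain ⟨w, h3, -⟩ := h (j + 1) (sphDesc K.F u v (hu.trans hv.symm)) a (by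
      apply sph_hom_ext
      · rw [hemS_bd_assoc, hemS_sphDesc_assoc, ha1]
      · rw [hemT_bd_assoc, hemT_sphDesc_assoc, ha2])
    refine ⟨w, ?_, ?_⟩
    · rw [← hemS_bd, Category.assoc, h3, hemS_sphDesc]
    · rw [← hemT_bd, Category.assoc, h3, hemT_sphDesc]

theorem trivFib_le_W : TrivFib K.F ≤ K.W := by
  intro X Y p hp
  rw [W_iff_bij]
  exact fun j β => K.bij_of_trivFib hp β

lemma W_comp {X Y Z : 𝓜} {f : X ⟶ Y} {g : Y ⟶ Z} (hf : K.W f) (hg : K.W g) : K.W (f ≫ g) := by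
  rw [W_iff_bij] at *
  exact fun j β => (hf j β).comp (hg j _)

lemma W_of_postcomp {X Y Z : 𝓜} {f : X ⟶ Y} {g : Y ⟶ Z} (hg : K.W g) (hfg : K.W (f ≫ g)) :
    K.W f := by
  rw [W_iff_bij] at *
  exact fun j β => (hfg j β).of_comp_left (hg j _)

/-- A map is a weak equivalence if it is bijective on fillers of the spheres of the form
`β ≫ f`, and every point of its source is connected to a point in the image of `f`. -/
lemma W_of_bij_comp {X Y Z : 𝓜} (f : X ⟶ Y) (g : Y ⟶ Z)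
    (h : ∀ (j : ℕ) (β : sph K.F j ⟶ X), K.Bij g (β ≫ f))
    (h0 : ∀ y : cob K.F 0 ⟶ Y, ∃ x : cob K.F 0 ⟶ X, Hty K.F (x ≫ f) y) : K.W g := by
  refine ⟨?_, fun y k => ?_⟩
  · rw [K.piZero_bijective_iff g ((isInitialSphZero K.F).to X ≫ f)]
    exact h 0 _
  · rw [pi_bijective_iff]
    obtain ⟨x, a, ha1, ha2⟩ := h0 y
    obtain ⟨H, h1, h2⟩ := K.exists_path (K.isCof_sph_cob (k + 1)).1 (K.gc.disc 1)
      (bd K.F (k + 1) ≫ K.idc (k + 1) ≫ sg K.F 0) (bd K.F (k + 1) ≫ K.idc (k + 1) ≫ tg K.F 0)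
    have h3 := K.bij_iff_of_path g (H ≫ K.P.map a)
    have e1 : (H ≫ K.P.map a) ≫ K.pm.app Y = (bd K.F (k + 1) ≫ K.idc (k + 1) ≫ x) ≫ f := by
      rw [Category.assoc, K.pm.naturality, ← Category.assoc H, h1]
      simp only [Functor.id_map, Category.assoc, ha1]
    have e2 : (H ≫ K.P.map a) ≫ K.pp.app Y = bd K.F (k + 1) ≫ K.idc (k + 1) ≫ y := by
      rw [Category.assoc, K.pp.naturality, ← Category.assoc H, h2]
      simp only [Functor.id_map, Category.assoc, ha2]
    rw [e1, e2] at h3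
    exact h3.1 (h (k + 1) _)

lemma W_of_precomp {X Y Z : 𝓜} {f : X ⟶ Y} {g : Y ⟶ Z} (hf : K.W f) (hfg : K.W (f ≫ g)) :
    K.W g := by
  rw [W_iff_bij] at hf hfg
  apply K.W_of_bij_comp f g (fun j β => (hfg j β).of_comp_right (hf j β))
  intro y
  obtain ⟨x, -, hx⟩ := (hf 0 ((isInitialSphZero K.F).to X)).1 y (sph_zero_hom_ext _ _ _)
  exact ⟨x, hx⟩

instance : K.W.IsMultiplicative where
  id_mem X := K.trivFib_le_W _ (MorphismProperty.id_mem _ X)
  comp_mem _ _ hf hg := K.W_comp hf hg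

instance : K.W.HasTwoOutOfThreeProperty where
  of_postcomp _ _ hg hfg := K.W_of_postcomp hg hfg
  of_precomp _ _ hf hfg := K.W_of_precomp hf hfg

instance : K.W.RespectsIso :=
  MorphismProperty.respectsIso_of_isStableUnderComposition (fun _ _ f (_ : IsIso f) =>
    K.trivFib_le_W _ (MorphismProperty.of_isIso _ f))

instance : K.W.IsStableUnderRetracts where
  of_retract {X Y Z T f g} r hg := by
    rw [W_iff_exists] at *
    intro j β w hw
    obtain ⟨w', h1, h2⟩ := hg j (β ≫ r.i.left) (w ≫ r.i.right) (by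
      rw [← Category.assoc, hw, Category.assoc, Category.assoc]
      congr 1
      exact r.i.w.symm)
    refine ⟨w' ≫ r.r.left, ?_, ?_⟩
    · rw [← Category.assoc, h1, Category.assoc]
      simp
    · have h3 := h2.comp r.r.right
      rw [Category.assoc, Category.assoc] at h3
      have e1 : r.i.right ≫ r.r.right = 𝟙 Y := by simp
      have e2 : g ≫ r.r.right = r.r.left ≫ f := r.r.w.symm
      rw [e1, e2] at h3
      erw [Category.comp_id] at h3
      rw [← Category.assoc] at h3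
      exact h3

/-- The two-out-of-six property. -/
theorem two_of_six {X Y Z T : 𝓜} (f : X ⟶ Y) (g : Y ⟶ Z) (h : Z ⟶ T) (h1 : K.W (f ≫ g))
    (h2 : K.W (g ≫ h)) : K.W f ∧ K.W g ∧ K.W h := by
  have hg : K.W g := by
    have h1' := (K.W_iff_bij _).1 h1
    have h2' := (K.W_iff_bij _).1 h2
    have key : ∀ (j : ℕ) (β : sph K.F j ⟶ X), K.Bij g (β ≫ f) :=
      fun j β => ⟨(h1' j β).1.of_comp, (h2' j (β ≫ f)).2.of_comp⟩
    apply K.W_of_bij_comp f g key
    intro y
    obtain ⟨x, -, hx⟩ := (h1' 0 ((isInitialSphZero K.F).to X)).1 (y ≫ g) (sph_zero_hom_ext _ _ _)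
    refine ⟨x, ?_⟩
    apply (h2' 0 ((isInitialSphZero K.F).to Y)).2.of_comp _ _ (sph_zero_hom_ext _ _ _)
      (sph_zero_hom_ext _ _ _)
    rwa [Category.assoc]
  exact ⟨K.W_of_postcomp hg h1, hg, K.W_of_precomp hg h2⟩

/-- Homotopic maps: one is a weak equivalence iff the other is. -/
theorem W_iff_of_homotopy {X Y : 𝓜} (H : X ⟶ K.P.obj Y) :
    K.W (H ≫ K.pm.app Y) ↔ K.W (H ≫ K.pp.app Y) := by
  have h1 : K.W (K.pm.app Y) := K.trivFib_le_W _ (K.pm_triv Y)
  have h2 : K.W (K.pp.app Y) := K.trivFib_le_W _ (K.pp_triv Y)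
  constructor
  · intro h
    exact K.W_comp (K.W_of_postcomp h1 h) h2
  · intro h
    exact K.W_comp (K.W_of_postcomp h2 h) h1

/-- All objects are fibrant. -/
theorem fib_terminal (X : 𝓜) : Fib K.F 0 (terminal.from X) := by
  intro A B i hi
  obtain ⟨k⟩ := hi
  constructor
  intro u v sq
  exact ⟨⟨⟨K.kap k.1 ≫ u, by rw [sg_kap_assoc], by apply terminal.hom_ext⟩⟩⟩

theorem contr_iff_trivFib (X : 𝓜) : Contr K.F X ↔ TrivFib K.F (terminal.from X) := by
  constructor
  · intro hX A B i hi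
    obtain ⟨j⟩ := hi
    constructor
    intro u v sq
    obtain ⟨w, hw⟩ := hX j u
    exact ⟨⟨⟨w, hw, by apply terminal.hom_ext⟩⟩⟩
  · intro h j β
    obtain ⟨u, h1, -⟩ := K.exists_lift_bd h β (terminal.from _) (by apply terminal.hom_ext)
    exact ⟨u, h1⟩

end PathCtx

end Vale.Agent.P259
end
end

section

section

open CategoryTheory Limits Opposite

namespace Vale.Agent.P259

open Theta0

namespace GCtx

universe v u

variable {𝓜 : Type u} [Category.{v} 𝓜]

lemma lift_of_llp {P : MorphismProperty 𝓜} {A B X Y : 𝓜} {i : A ⟶ B} {p : X ⟶ Y}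
    (hi : P.llp i) (hp : P p) (a : A ⟶ X) (b : B ⟶ Y) (h : a ≫ p = i ≫ b) :
    ∃ l : B ⟶ X, i ≫ l = a ∧ l ≫ p = b := by
  have := hi p hp
  have sq : CommSq a i p b := ⟨h⟩
  exact ⟨sq.lift, sq.fac_left, sq.fac_right⟩

lemma fib_lift {F : Globe ⥤ 𝓜} {n : ℕ} {X Y : 𝓜} {f : X ⟶ Y} (hf : Fib F n f) {k : ℕ}
    (hk : n ≤ k) (a : cob F k ⟶ X) (b : cob F (k + 1) ⟶ Y) (h : a ≫ f = sg F k ≫ b) :
    ∃ l : cob F (k + 1) ⟶ X, sg F k ≫ l = a ∧ l ≫ f = b :=
  lift_of_llp (AN.sg F hk) hf a b h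

lemma fib_of_lift {F : Globe ⥤ 𝓜} {n : ℕ} {X Y : 𝓜} {f : X ⟶ Y}
    (h : ∀ (k : ℕ), n ≤ k → ∀ (a : cob F k ⟶ X) (b : cob F (k + 1) ⟶ Y), a ≫ f = sg F k ≫ b →
      ∃ l : cob F (k + 1) ⟶ X, sg F k ≫ l = a ∧ l ≫ f = b) : Fib F n f := by
  intro A B i hi
  obtain ⟨⟨k, hk⟩⟩ := hi
  refine ⟨fun {a b} sq => ?_⟩
  obtain ⟨l, h1, h2⟩ := h k hk a b sq.w
  exact ⟨⟨{ l := l, fac_left := h1, fac_right := h2 }⟩⟩

/-- A retract argument. -/
lemma llp_of_retract {P : MorphismProperty 𝓜} {A B Z : 𝓜} {i : A ⟶ B} {i' : A ⟶ Z} {p : Z ⟶ B}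
    {s : B ⟶ Z} (hi' : P.llp i') (h1 : i' ≫ p = i) (h2 : i ≫ s = i') (h3 : s ≫ p = 𝟙 B) :
    P.llp i := by
  intro X Y f hf
  refine ⟨fun {a b} sq => ?_⟩
  obtain ⟨l, hl1, hl2⟩ := lift_of_llp hi' hf a (p ≫ b) (by
    rw [sq.w, ← Category.assoc, h1])
  exact ⟨⟨{ l := s ≫ l
            fac_left := by rw [← Category.assoc, h2, hl1]
            fac_right := by rw [Category.assoc, hl2, ← Category.assoc, h3, Category.id_comp] }⟩⟩

section

variable [HasPushouts 𝓜] [HasInitial 𝓜]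

/-- All objects are fibrant. -/
lemma fib_terminal {F : Globe ⥤ 𝓜} (hF : GContr F) {X T : 𝓜} (hT : IsTerminal T) (f : X ⟶ T) :
    Fib F 0 f :=
  fib_of_lift fun k _ a _ _ => by
    obtain ⟨κ, hκ, -⟩ := hF.exists_kappa k
    exact ⟨κ ≫ a, by rw [← Category.assoc, hκ, Category.id_comp], hT.hom_ext _ _⟩

lemma cof_bd (F : Globe ⥤ 𝓜) (j : ℕ) : Cof F (bd F j) :=
  MorphismProperty.le_llp_rlp _ _ (MorphismProperty.ofHoms.mk (f := fun j : ℕ => bd F j) j)

lemma trivFib_lift {F : Globe ⥤ 𝓜} {X Y : 𝓜} {f : X ⟶ Y} (hf : TrivFib F f) (j : ℕ)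
    (a : sph F j ⟶ X) (b : cob F j ⟶ Y) (h : a ≫ f = bd F j ≫ b) :
    ∃ l : cob F j ⟶ X, bd F j ≫ l = a ∧ l ≫ f = b :=
  lift_of_llp (cof_bd F j) hf a b h

lemma trivFib_of_lift {F : Globe ⥤ 𝓜} {X Y : 𝓜} {f : X ⟶ Y}
    (h : ∀ (j : ℕ) (a : sph F j ⟶ X) (b : cob F j ⟶ Y), a ≫ f = bd F j ≫ b →
      ∃ l : cob F j ⟶ X, bd F j ≫ l = a ∧ l ≫ f = b) : TrivFib F f := by
  intro A B i hi
  obtain ⟨j⟩ := hi
  refine ⟨fun {a b} sq => ?_⟩
  obtain ⟨l, h1, h2⟩ := h j a b sq.w
  exact ⟨⟨{ l := l, fac_left := h1, fac_right := h2 }⟩⟩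

/-- The map from a contractible object to a terminal object is a trivial fibration. -/
lemma trivFib_terminal {F : Globe ⥤ 𝓜} {X T : 𝓜} (hX : Contr F X) (hT : IsTerminal T)
    (f : X ⟶ T) : TrivFib F f :=
  trivFib_of_lift fun j a b _ => by
    obtain ⟨l, hl⟩ := hX j a
    exact ⟨l, hl, hT.hom_ext _ _⟩

/-- A fibration between contractible objects is a trivial fibration. -/
lemma trivFib_of_contr {F : Globe ⥤ 𝓜} {X Y : 𝓜} (f : X ⟶ Y) (hX : Contr F X)
    (hY : Contr F Y) (hf : Fib F 0 f) : TrivFib F f := by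
  refine trivFib_of_lift fun j a b hab => ?_
  obtain ⟨w', hw'⟩ := hX j a
  obtain ⟨e, he1, he2⟩ := hY.hty (w' ≫ f) b (by rw [← Category.assoc, hw', hab])
  obtain ⟨l, hl1, hl2⟩ := fib_lift hf (Nat.zero_le j) w' e he1.symm
  refine ⟨tg F j ≫ l, ?_, ?_⟩
  · rw [← Category.assoc, ← bd_sg, Category.assoc, hl1, hw']
  · rw [Category.assoc, hl2, he2]

lemma cof_hemS (F : Globe ⥤ 𝓜) (j : ℕ) : Cof F (hemS F j) :=
  MorphismProperty.of_isPushout (isPushout_sph F j) (cof_bd F j)

/-- The cosource maps are cofibrations. -/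
lemma cof_sg (F : Globe ⥤ 𝓜) (j : ℕ) : Cof F (sg F j) := by
  rw [← hemS_bd]
  exact MorphismProperty.comp_mem _ _ _ (cof_hemS F j) (cof_bd F (j + 1))

lemma an_le_cof (F : Globe ⥤ 𝓜) : AN F 0 ≤ Cof F := by
  intro A B i hi X Y f hf
  refine hi f ?_
  refine fib_of_lift fun k _ a b hab => lift_of_llp (cof_sg F k) hf a b hab

/-- Spheres are cofibrant. -/
lemma cof_sph (F : Globe ⥤ 𝓜) : ∀ j : ℕ, Cof F (initial.to (sph F j))
  | 0 => by
    have : IsIso (initial.to (sph F 0)) :=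
      ⟨(isInitialSphZero F).to _, initialIsInitial.hom_ext _ _, (isInitialSphZero F).hom_ext _ _⟩
    exact MorphismProperty.of_isIso _ _
  | j + 1 => by
    have h : initial.to (sph F (j + 1)) =
        initial.to (sph F j) ≫ bd F j ≫ hemS F j := initialIsInitial.hom_ext _ _
    rw [h]
    exact MorphismProperty.comp_mem _ _ _ (cof_sph F j)
      (MorphismProperty.comp_mem _ _ _ (cof_bd F j) (cof_hemS F j))

lemma cof_disc (F : Globe ⥤ 𝓜) (j : ℕ) : Cof F (initial.to (cob F j)) := by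
  have h : initial.to (cob F j) = initial.to (sph F j) ≫ bd F j := initialIsInitial.hom_ext _ _
  rw [h]
  exact MorphismProperty.comp_mem _ _ _ (cof_sph F j) (cof_bd F j)

end

end GCtx

namespace GlobExt

variable {C : GlobExt} {m : ℕ∞}

/-- The inclusion of the discs at the source end of the cylinders. -/
noncomputable def CylFun.imD (K : C.CylFun m 0) : C.F m ⟶ C.discF ⋙ K.Cy :=
  Functor.whiskerLeft C.discF K.im

/-- The inclusion of the discs at the target end of the cylinders. -/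
noncomputable def CylFun.ipD (K : C.CylFun m 0) : C.F m ⟶ C.discF ⋙ K.Cy :=
  Functor.whiskerLeft C.discF K.ip

/-- Cells of the path object. -/
noncomputable def CylFun.pq (K : C.CylFun m 0) (X : C.Md m) (j : ℕ) :
    (cob (C.F m) j ⟶ K.P.obj X) ≃ (cob (C.discF ⋙ K.Cy) j ⟶ X) :=
  K.PEquiv (C.discF.obj (Globe.D j)) X

/-- The source projection of the path object. -/
noncomputable def CylFun.pmX (K : C.CylFun m 0) (X : C.Md m) : K.P.obj X ⟶ X := K.pm.app X

/-- The target projection of the path object. -/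
noncomputable def CylFun.ppX (K : C.CylFun m 0) (X : C.Md m) : K.P.obj X ⟶ X := K.pp.app X

lemma CylFun.pq_sg (K : C.CylFun m 0) (X : C.Md m) (j : ℕ)
    (c : cob (C.F m) (j + 1) ⟶ K.P.obj X) :
    K.pq X j (sg (C.F m) j ≫ c) = sg (C.discF ⋙ K.Cy) j ≫ K.pq X (j + 1) c :=
  K.PEquiv_naturality_left (C.discF.map (Globe.σ j)) c

lemma CylFun.pq_tg (K : C.CylFun m 0) (X : C.Md m) (j : ℕ)
    (c : cob (C.F m) (j + 1) ⟶ K.P.obj X) :
    K.pq X j (tg (C.F m) j ≫ c) = tg (C.discF ⋙ K.Cy) j ≫ K.pq X (j + 1) c :=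
  K.PEquiv_naturality_left (C.discF.map (Globe.τ j)) c

lemma CylFun.comp_pmX (K : C.CylFun m 0) (X : C.Md m) (j : ℕ)
    (c : cob (C.F m) j ⟶ K.P.obj X) :
    c ≫ K.pmX X = K.imD.app (Globe.D j) ≫ K.pq X j c :=
  K.exists_pm.choose_spec _ _ _

lemma CylFun.comp_ppX (K : C.CylFun m 0) (X : C.Md m) (j : ℕ)
    (c : cob (C.F m) j ⟶ K.P.obj X) :
    c ≫ K.ppX X = K.ipD.app (Globe.D j) ≫ K.pq X j c :=
  K.exists_pp.choose_spec _ _ _

lemma CylFun.pmX_naturality (K : C.CylFun m 0) {X Y : C.Md m} (f : X ⟶ Y) :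
    K.P.map f ≫ K.pmX Y = K.pmX X ≫ f :=
  K.pm.naturality f

lemma CylFun.ppX_naturality (K : C.CylFun m 0) {X Y : C.Md m} (f : X ⟶ Y) :
    K.P.map f ≫ K.ppX Y = K.ppX X ≫ f :=
  K.pp.naturality f

lemma CylFun.pq_natural (K : C.CylFun m 0) {X Y : C.Md m} (f : X ⟶ Y) (j : ℕ)
    (c : cob (C.F m) j ⟶ K.P.obj X) :
    K.pq Y j (c ≫ K.P.map f) = K.pq X j c ≫ f :=
  K.PEquiv_naturality_right c f

/-- Transposition of spheres in the path object, with its naturality in the object. -/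
theorem CylFun.exists_sphT' (K : C.CylFun m 0) (X : C.Md m) : ∀ (j : ℕ)
    (u : sph (C.F m) j ⟶ K.P.obj X),
    ∃ β : sph (C.discF ⋙ K.Cy) j ⟶ X,
      (∀ (Y : C.Md m) (f : X ⟶ Y) (c : cob (C.F m) j ⟶ K.P.obj Y),
        bd (C.F m) j ≫ c = u ≫ K.P.map f ↔
          bd (C.discF ⋙ K.Cy) j ≫ K.pq Y j c = β ≫ f) ∧
      sphMap K.imD j ≫ β = u ≫ K.pmX X ∧ sphMap K.ipD j ≫ β = u ≫ K.ppX X
  | 0, u => by
    refine ⟨(isInitialSphZero _).to X, fun Y f c => ⟨fun _ => ?_, fun _ => ?_⟩, ?_, ?_⟩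
    all_goals exact sph_zero_hom_ext _ _ _
  | j + 1, u => by
    obtain ⟨β', hβ', -, -⟩ := K.exists_sphT' X j (bd (C.F m) j ≫ hemS (C.F m) j ≫ u)
    have hβ'' := hβ' X (𝟙 X)
    simp only [K.P.map_id, Category.comp_id] at hβ''
    have e1 := (hβ'' (hemS (C.F m) j ≫ u)).1 rfl
    have e2 := (hβ'' (hemT (C.F m) j ≫ u)).1 (by
      rw [← Category.assoc, ← Category.assoc, (isPushout_sph (C.F m) j).w])
    refine ⟨sphDesc _ _ _ (e1.trans e2.symm), fun Y f c => ?_, ?_, ?_⟩
    · constructor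
      · intro h
        apply sph_hom_ext
        · rw [hemS_bd_assoc, hemS_sphDesc_assoc, ← K.pq_natural, Category.assoc, ← h,
            hemS_bd_assoc, K.pq_sg]
        · rw [hemT_bd_assoc, hemT_sphDesc_assoc, ← K.pq_natural, Category.assoc, ← h,
            hemT_bd_assoc, K.pq_tg]
      · intro h
        apply sph_hom_ext
        · rw [hemS_bd_assoc]
          apply (K.pq Y j).injective
          rw [K.pq_sg, ← hemS_bd, Category.assoc, h, hemS_sphDesc_assoc, ← K.pq_natural,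
            Category.assoc]
        · rw [hemT_bd_assoc]
          apply (K.pq Y j).injective
          rw [K.pq_tg, ← hemT_bd, Category.assoc, h, hemT_sphDesc_assoc, ← K.pq_natural,
            Category.assoc]
    · apply sph_hom_ext
      · rw [hemS_sphMap_assoc, hemS_sphDesc, ← Category.assoc (hemS _ _), K.comp_pmX]
      · rw [hemT_sphMap_assoc, hemT_sphDesc, ← Category.assoc (hemT _ _), K.comp_pmX]
    · apply sph_hom_ext
      · rw [hemS_sphMap_assoc, hemS_sphDesc, ← Category.assoc (hemS _ _), K.comp_ppX]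
      · rw [hemT_sphMap_assoc, hemT_sphDesc, ← Category.assoc (hemT _ _), K.comp_ppX]

/-- Transposition of spheres in the path object. -/
theorem CylFun.exists_sphT (K : C.CylFun m 0) (X : C.Md m) (j : ℕ)
    (u : sph (C.F m) j ⟶ K.P.obj X) :
    ∃ β : sph (C.discF ⋙ K.Cy) j ⟶ X,
      (∀ c : cob (C.F m) j ⟶ K.P.obj X, bd (C.F m) j ≫ c = u ↔
        bd (C.discF ⋙ K.Cy) j ≫ K.pq X j c = β) ∧
      sphMap K.imD j ≫ β = u ≫ K.pmX X ∧ sphMap K.ipD j ≫ β = u ≫ K.ppX X := by
  obtain ⟨β, h, h1, h2⟩ := K.exists_sphT' X j u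
  have h' := h X (𝟙 X)
  simp only [K.P.map_id, Category.comp_id] at h'
  exact ⟨β, h', h1, h2⟩

/-- For a fibration `f : X ⟶ Y`, the corner map `P X ⟶ X ×_Y P Y` is a trivial fibration. -/
theorem CylFun.corner_trivFib (K : C.CylFun m 0) {X Y : C.Md m} (f : X ⟶ Y)
    (hf : Fib (C.F m) 0 f) (w : K.pmX X ≫ f = K.P.map f ≫ K.pmX Y) :
    TrivFib (C.F m) (pullback.lift (K.pmX X) (K.P.map f) w :
      K.P.obj X ⟶ pullback f (K.pmX Y)) := by
  refine GCtx.trivFib_of_lift fun j u b h => ?_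
  have h1 : u ≫ K.pmX X = bd (C.F m) j ≫ b ≫ pullback.fst f (K.pmX Y) := by
    rw [← Category.assoc, ← h, Category.assoc, pullback.lift_fst]
  have h2 : u ≫ K.P.map f = bd (C.F m) j ≫ b ≫ pullback.snd f (K.pmX Y) := by
    rw [← Category.assoc, ← h, Category.assoc, pullback.lift_snd]
  obtain ⟨β, hβ, hβ1, -⟩ := K.exists_sphT' X j u
  obtain ⟨c, hc1, hc2, hc3⟩ := K.corner j f hf β (b ≫ pullback.fst f (K.pmX Y))
    (K.pq Y j (b ≫ pullback.snd f (K.pmX Y))) (hβ1.trans h1) ((hβ Y f _).1 h2.symm) (by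
      change K.imD.app _ ≫ K.pq Y j (b ≫ pullback.snd f (K.pmX Y)) = _
      rw [← K.comp_pmX, Category.assoc, Category.assoc, pullback.condition])
  have hH : ((K.pq X j).symm c) ≫ K.P.map f = b ≫ pullback.snd f (K.pmX Y) := by
    apply (K.pq Y j).injective
    rw [K.pq_natural, Equiv.apply_symm_apply, hc3]
  refine ⟨(K.pq X j).symm c, ?_, ?_⟩
  · have := hβ X (𝟙 X)
    simp only [K.P.map_id, Category.comp_id] at this
    rw [this, Equiv.apply_symm_apply, hc1]
  · apply pullback.hom_ext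
    · rw [Category.assoc, pullback.lift_fst, K.comp_pmX, Equiv.apply_symm_apply]
      exact hc2
    · rw [Category.assoc, pullback.lift_snd, hH]

/-- The extension property of the cylinders, in terms of `imD` and `ipD`. -/
theorem CylFun.extD (K : C.CylFun m 0) (j : ℕ) ⦃X Y : C.Md m⦄ (f : X ⟶ Y)
    (hf : TrivFib (C.F m) f) (β : sph (C.discF ⋙ K.Cy) j ⟶ X) (wm wp : cob (C.F m) j ⟶ X)
    (c' : cob (C.discF ⋙ K.Cy) j ⟶ Y)
    (h1 : bd (C.F m) j ≫ wm = sphMap K.imD j ≫ β)
    (h2 : bd (C.F m) j ≫ wp = sphMap K.ipD j ≫ β)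
    (h3 : bd (C.discF ⋙ K.Cy) j ≫ c' = β ≫ f)
    (h4 : K.imD.app _ ≫ c' = wm ≫ f) (h5 : K.ipD.app _ ≫ c' = wp ≫ f) :
    ∃ c : cob (C.discF ⋙ K.Cy) j ⟶ X, bd (C.discF ⋙ K.Cy) j ≫ c = β ∧
      K.imD.app _ ≫ c = wm ∧ K.ipD.app _ ≫ c = wp ∧ c ≫ f = c' :=
  K.ext j (Nat.zero_le j) f hf β wm wp c' h1 h2 h3 h4 h5

/-- For a contractible object `X`, the map `P X ⟶ X × X` is a trivial fibration (in lifting
form, for a cylinder with `n = 0`): lifting against the boundary inclusions. -/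
theorem CylFun.lift_bd (K : C.CylFun m 0) {X : C.Md m} (hX : Contr (C.F m) X) (j : ℕ)
    (u : sph (C.F m) j ⟶ K.P.obj X) (a b : cob (C.F m) j ⟶ X)
    (ha : bd (C.F m) j ≫ a = u ≫ K.pmX X) (hb : bd (C.F m) j ≫ b = u ≫ K.ppX X) :
    ∃ H : cob (C.F m) j ⟶ K.P.obj X, bd (C.F m) j ≫ H = u ∧ H ≫ K.pmX X = a ∧
      H ≫ K.ppX X = b := by
  obtain ⟨β, hβ, h1, h2⟩ := K.exists_sphT X j u
  obtain ⟨c, hc1, hc2, hc3, -⟩ := K.extD j (terminal.from X)
    (GCtx.trivFib_terminal hX terminalIsTerminal _) β a b (terminal.from _)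
    (ha.trans h1.symm) (hb.trans h2.symm) (terminal.hom_ext _ _) (terminal.hom_ext _ _)
    (terminal.hom_ext _ _)
  refine ⟨(K.pq X j).symm c, ?_, ?_, ?_⟩
  · rw [hβ, Equiv.apply_symm_apply, hc1]
  · rw [K.comp_pmX, Equiv.apply_symm_apply, hc2]
  · rw [K.comp_ppX, Equiv.apply_symm_apply, hc3]

/-- For a contractible object `X`, the map `P X ⟶ X × X` is a trivial fibration. -/
theorem CylFun.trivFib_prod (K : C.CylFun m 0) {X : C.Md m} (hX : Contr (C.F m) X) :
    TrivFib (C.F m) (prod.lift (K.pmX X) (K.ppX X)) := by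
  refine GCtx.trivFib_of_lift fun j u b h => ?_
  obtain ⟨H, h1, h2, h3⟩ := K.lift_bd hX j u (b ≫ prod.fst) (b ≫ prod.snd)
    (by rw [← Category.assoc, ← h, Category.assoc, prod.lift_fst])
    (by rw [← Category.assoc, ← h, Category.assoc, prod.lift_snd])
  refine ⟨H, h1, ?_⟩
  apply Limits.prod.hom_ext
  · rw [Category.assoc, prod.lift_fst, h2]
  · rw [Category.assoc, prod.lift_snd, h3]

/-- For a contractible object `X`, the map `P X ⟶ X × X` is a trivial fibration (in lifting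
form, for a cylinder with `n = 0`). -/
theorem CylFun.lift_cof (K : C.CylFun m 0) {A B X : C.Md m} (hX : Contr (C.F m) X) (i : A ⟶ B)
    (hi : Cof (C.F m) i) (h : A ⟶ K.P.obj X) (a b : B ⟶ X) (ha : i ≫ a = h ≫ K.pm.app X)
    (hb : i ≫ b = h ≫ K.pp.app X) :
    ∃ H : B ⟶ K.P.obj X, i ≫ H = h ∧ H ≫ K.pm.app X = a ∧ H ≫ K.pp.app X = b := by
  change i ≫ a = h ≫ K.pmX X at ha
  change i ≫ b = h ≫ K.ppX X at hb
  obtain ⟨H, h1, h2⟩ := GCtx.lift_of_llp hi (K.trivFib_prod hX) h (prod.lift a b) (by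
    apply Limits.prod.hom_ext
    · rw [Category.assoc, prod.lift_fst, Category.assoc, prod.lift_fst, ha]
    · rw [Category.assoc, prod.lift_snd, Category.assoc, prod.lift_snd, hb])
  refine ⟨H, h1, ?_, ?_⟩
  · change H ≫ K.pmX X = a
    have := congrArg (· ≫ prod.fst) h2
    simpa only [Category.assoc, prod.lift_fst] using this
  · change H ≫ K.ppX X = b
    have := congrArg (· ≫ prod.snd) h2
    simpa only [Category.assoc, prod.lift_snd] using this

/-- The map `P X ⟶ X × X` is a fibration. -/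
theorem CylFun.fib_prod (K : C.CylFun m 0) (X : C.Md m) :
    Fib (C.F m) 0 (prod.lift (K.pmX X) (K.ppX X)) := by
  refine GCtx.fib_of_lift fun k hk u b h => ?_
  obtain ⟨H, h1, h2, h3⟩ := K.lift_an (sg (C.F m) k) (AN.sg _ hk) u (b ≫ prod.fst)
    (b ≫ prod.snd)
    (by
      change _ = u ≫ K.pmX X
      rw [← Category.assoc, ← h, Category.assoc, prod.lift_fst])
    (by
      change _ = u ≫ K.ppX X
      rw [← Category.assoc, ← h, Category.assoc, prod.lift_snd])
  refine ⟨H, h1, ?_⟩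
  apply Limits.prod.hom_ext
  · rw [Category.assoc, prod.lift_fst]
    exact h2
  · rw [Category.assoc, prod.lift_snd]
    exact h3

/-- A fibration between contractible objects is a trivial fibration. -/
theorem trivFib_of_contr {X Y : C.Md m} (f : X ⟶ Y) (hX : Contr (C.F m) X)
    (hY : Contr (C.F m) Y) (hf : Fib (C.F m) 0 f) : TrivFib (C.F m) f :=
  GCtx.trivFib_of_contr f hX hY hf

/-- Anodyne extensions of contractible cofibrant objects are contractible. -/
theorem CylFun.contr_of_an (hC : C.IsCoherator) (K : C.CylFun m 0) {A B : C.Md m} (i : A ⟶ B)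
    (hA : Contr (C.F m) A) (hA' : Cof (C.F m) (initial.to A)) (hi : AN (C.F m) 0 i) :
    Contr (C.F m) B := by
  obtain ⟨r, hr, -⟩ := GCtx.lift_of_llp hi
    (GCtx.fib_terminal (gContr hC m) terminalIsTerminal (terminal.from A)) (𝟙 A)
    (terminal.from B) (terminal.hom_ext _ _)
  obtain ⟨H, -, hH1, hH2⟩ := K.lift_cof hA (initial.to A) hA' (initial.to _) (𝟙 A) (𝟙 A)
    (initial.hom_ext _ _) (initial.hom_ext _ _)
  change H ≫ K.pmX A = 𝟙 A at hH1
  change H ≫ K.ppX A = 𝟙 A at hH2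
  have n1 : (H ≫ K.P.map i) ≫ K.pmX B = i := by
    rw [Category.assoc, K.pmX_naturality i, ← Category.assoc, hH1, Category.id_comp]
  have n2 : (H ≫ K.P.map i) ≫ K.ppX B = i := by
    rw [Category.assoc, K.ppX_naturality i, ← Category.assoc, hH2, Category.id_comp]
  obtain ⟨H', hH'0, hH'1, hH'2⟩ := K.lift_an i hi (H ≫ K.P.map i) (r ≫ i) (𝟙 B) (by
    change _ = (H ≫ K.P.map i) ≫ K.pmX B
    rw [n1, ← Category.assoc, hr, Category.id_comp]) (by
    change _ = (H ≫ K.P.map i) ≫ K.ppX B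
    rw [n2, Category.comp_id])
  change H' ≫ K.pmX B = r ≫ i at hH'1
  change H' ≫ K.ppX B = 𝟙 B at hH'2
  intro j β
  obtain ⟨w, hw⟩ := hA j (β ≫ r)
  obtain ⟨c, hc1, hc2⟩ := GCtx.trivFib_lift (K.pm_trivFib hC B) j (β ≫ H') (w ≫ i) (by
    change (β ≫ H') ≫ K.pmX B = _
    rw [Category.assoc, hH'1, ← Category.assoc, ← hw, Category.assoc])
  refine ⟨c ≫ K.ppX B, ?_⟩
  rw [← Category.assoc, hc1, Category.assoc, hH'2, Category.comp_id]

/-- Cofibrations between contractible cofibrant objects are anodyne. -/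
theorem CylFun.an_of_contr (hC : C.IsCoherator) (K : C.CylFun m 0) {A B : C.Md m} (i : A ⟶ B)
    (hA : Contr (C.F m) A) (hA' : Cof (C.F m) (initial.to A)) (hi : Cof (C.F m) i)
    (hB : Contr (C.F m) B) : AN (C.F m) 0 i := by
  obtain ⟨Z, i', p, hi', hp, rfl⟩ := exists_fact_an (C := C) (m := m) i
  have hZ := K.contr_of_an hC i' hA hA' hi'
  obtain ⟨s, hs1, hs2⟩ := GCtx.lift_of_llp hi (GCtx.trivFib_of_contr p hZ hB hp) i' (𝟙 B)
    (by rw [Category.comp_id])
  exact GCtx.llp_of_retract hi' rfl hs1 hs2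

/-- The corner maps at the target end of the cylinders lift against fibrations. -/
theorem CylFun.corner_ip (hC : C.IsCoherator) (K : C.CylFun m 0) {j : ℕ}
    (hj : AN (C.F m) 0 (sphMap K.ipD j)) {X Y : C.Md m} (f : X ⟶ Y) (hf : Fib (C.F m) 0 f)
    (β : sph (C.discF ⋙ K.Cy) j ⟶ X) (w : cob (C.F m) j ⟶ X)
    (c' : cob (C.discF ⋙ K.Cy) j ⟶ Y) (h1 : sphMap K.ipD j ≫ β = bd (C.F m) j ≫ w)
    (h2 : bd (C.discF ⋙ K.Cy) j ≫ c' = β ≫ f) (h3 : K.ipD.app _ ≫ c' = w ≫ f) :
    ∃ c : cob (C.discF ⋙ K.Cy) j ⟶ X, bd (C.discF ⋙ K.Cy) j ≫ c = β ∧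
      K.ipD.app _ ≫ c = w ∧ c ≫ f = c' := by
  let g : pushout (bd (C.F m) j) (sphMap K.ipD j) ⟶ cob (C.discF ⋙ K.Cy) j :=
    pushout.desc (K.ipD.app _) (bd (C.discF ⋙ K.Cy) j) (sphMap_bd K.ipD j).symm
  have hg1 : pushout.inl (bd (C.F m) j) (sphMap K.ipD j) ≫ g = K.ipD.app _ :=
    pushout.inl_desc _ _ _
  have hg2 : pushout.inr (bd (C.F m) j) (sphMap K.ipD j) ≫ g = bd (C.discF ⋙ K.Cy) j :=
    pushout.inr_desc _ _ _
  have hinl : AN (C.F m) 0 (pushout.inl (bd (C.F m) j) (sphMap K.ipD j)) :=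
    MorphismProperty.of_isPushout (IsPushout.of_hasPushout (bd (C.F m) j)
      (sphMap K.ipD j)) hj
  have hG : Contr (C.F m) (pushout (bd (C.F m) j) (sphMap K.ipD j)) :=
    K.contr_of_an hC _ ((gContr hC m).disc j) (GCtx.cof_disc _ j) hinl
  have hG' : Cof (C.F m) (initial.to (pushout (bd (C.F m) j) (sphMap K.ipD j))) := by
    have e : initial.to (pushout (bd (C.F m) j) (sphMap K.ipD j)) =
      initial.to (cob (C.F m) j) ≫ pushout.inl (bd (C.F m) j) (sphMap K.ipD j) :=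
      initialIsInitial.hom_ext _ _
    rw [e]
    exact MorphismProperty.comp_mem _ _ _ (GCtx.cof_disc _ j) (GCtx.an_le_cof _ _ hinl)
  have hgc : Cof (C.F m) g := by
    intro U V p hp
    refine ⟨fun {a b} sq => ?_⟩
    obtain ⟨wm, hwm1, hwm2⟩ := GCtx.trivFib_lift hp j
      (sphMap K.imD j ≫ pushout.inr (bd (C.F m) j) (sphMap K.ipD j) ≫ a) (K.imD.app _ ≫ b) (by
        rw [Category.assoc, Category.assoc, sq.w, ← Category.assoc (pushout.inr _ _), hg2,
          sphMap_bd_assoc])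
    obtain ⟨c, hc1, -, hc3, hc4⟩ := K.extD j p hp
      (pushout.inr (bd (C.F m) j) (sphMap K.ipD j) ≫ a) wm
      (pushout.inl (bd (C.F m) j) (sphMap K.ipD j) ≫ a) b hwm1
      (by rw [← Category.assoc, pushout.condition, Category.assoc])
      (by rw [Category.assoc, sq.w, ← Category.assoc, hg2])
      hwm2.symm
      (by rw [Category.assoc, sq.w, ← Category.assoc, hg1])
    refine ⟨⟨{ l := c, fac_left := ?_, fac_right := hc4 }⟩⟩
    apply pushout.hom_ext
    · rw [← Category.assoc, hg1, hc3]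
    · rw [← Category.assoc, hg2, hc1]
  have hgan : AN (C.F m) 0 g := K.an_of_contr hC g hG hG' hgc (K.contr _)
  obtain ⟨c, hc1, hc2⟩ := GCtx.lift_of_llp hgan hf (pushout.desc w β h1.symm) c' (by
    apply pushout.hom_ext
    · rw [← Category.assoc, pushout.inl_desc, ← Category.assoc, hg1, h3]
    · rw [← Category.assoc, pushout.inr_desc, ← Category.assoc, hg2, h2])
  refine ⟨c, ?_, ?_, hc2⟩
  · rw [← hg2, Category.assoc, hc1, pushout.inr_desc]
  · rw [← hg1, Category.assoc, hc1, pushout.inl_desc]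

/-- The inclusion of the boundaries at the target end of the cylinders is anodyne. -/
theorem CylFun.an_sphMap_ip (hC : C.IsCoherator) (K : C.CylFun m 0) : ∀ (j : ℕ),
    AN (C.F m) 0 (sphMap K.ipD j)
  | 0 => by
    have : IsIso (sphMap K.ipD 0) := by
      refine ⟨(isInitialSphZero _).to _, (isInitialSphZero _).hom_ext _ _,
        (isInitialSphZero _).hom_ext _ _⟩
    exact MorphismProperty.of_isIso _ _
  | j + 1 => by
    have ih := K.an_sphMap_ip hC j
    intro X Y f hf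
    refine ⟨fun {a b} sq => ?_⟩
    have hw := (isPushout_sph (C.F m) j).w
    have hw' := (isPushout_sph (C.discF ⋙ K.Cy) j).w
    obtain ⟨l0, hl0, hl0'⟩ := GCtx.lift_of_llp ih hf (bd (C.F m) j ≫ hemS (C.F m) j ≫ a)
      (bd (C.discF ⋙ K.Cy) j ≫ hemS (C.discF ⋙ K.Cy) j ≫ b) (by
        rw [Category.assoc, Category.assoc, sq.w, hemS_sphMap_assoc, sphMap_bd_assoc])
    obtain ⟨l1, hl1, hl1', hl1''⟩ := K.corner_ip hC ih f hf l0 (hemS (C.F m) j ≫ a)
      (hemS (C.discF ⋙ K.Cy) j ≫ b) hl0 hl0'.symm (by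
        rw [Category.assoc, sq.w, hemS_sphMap_assoc])
    obtain ⟨l2, hl2, hl2', hl2''⟩ := K.corner_ip hC ih f hf l0 (hemT (C.F m) j ≫ a)
      (hemT (C.discF ⋙ K.Cy) j ≫ b) (by
        rw [hl0, ← Category.assoc, hw, Category.assoc]) (by
        rw [hl0', ← Category.assoc, ← hw', Category.assoc]) (by
        rw [Category.assoc, sq.w, hemT_sphMap_assoc])
    refine ⟨⟨{ l := sphDesc _ l1 l2 (hl1.trans hl2.symm), fac_left := ?_, fac_right := ?_ }⟩⟩
    · apply sph_hom_ext
      · rw [hemS_sphMap_assoc, hemS_sphDesc, hl1']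
      · rw [hemT_sphMap_assoc, hemT_sphDesc, hl2']
    · apply sph_hom_ext
      · rw [hemS_sphDesc_assoc, hl1'']
      · rw [hemT_sphDesc_assoc, hl2'']

theorem CylFun.pp_trivFib (hC : C.IsCoherator) (K : C.CylFun m 0) (X : C.Md m) :
    TrivFib (C.F m) (K.pp.app X) := by
  refine GCtx.trivFib_of_lift fun j u w h => ?_
  change u ≫ K.ppX X = bd (C.F m) j ≫ w at h
  change cob (C.F m) j ⟶ X at w
  obtain ⟨β, hβ, -, h2⟩ := K.exists_sphT X j u
  obtain ⟨c, hc1, hc2, -⟩ := K.corner_ip hC (K.an_sphMap_ip hC j) (terminal.from X)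
    (GCtx.fib_terminal (gContr hC m) terminalIsTerminal _) β w (terminal.from _)
    (h2.trans h) (terminal.hom_ext _ _) (terminal.hom_ext _ _)
  refine ⟨(K.pq X j).symm c, ?_, ?_⟩
  · rw [hβ, Equiv.apply_symm_apply, hc1]
  · change (K.pq X j).symm c ≫ K.ppX X = w
    rw [K.comp_ppX, Equiv.apply_symm_apply, hc2]

/-- Cylinders for the category of `C`-`∞`-groupoids exist. -/
theorem exists_cylFun_zero (hC : C.IsCoherator) : Nonempty (C.CylFun ⊤ 0) := by
  have h1 : HypH (C.F ⊤) (0 + 1) := fun X d e he Y f hf =>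
    hypH_gpd hC e he f (AN.mono _ (Nat.zero_le 1) _ hf)
  obtain ⟨K₀⟩ := exists_cyl (C.F ⊤) 0 h1
  exact exists_cylFun hC K₀

/-- The path context given by a cylinder functor. -/
noncomputable def CylFun.pathCtx (hC : C.IsCoherator) (K : C.CylFun ⊤ 0) : PathCtx C.Gpd where
  F := C.F ⊤
  gc := gContr hC ⊤
  P := K.P
  pm := K.pm
  pp := K.pp
  pm_triv := K.pm_trivFib hC
  pp_triv := K.pp_trivFib hC
  fib := K.fib_prod
  contr := fun _ hX => K.trivFib_prod hX
  corner := fun f hf => K.corner_trivFib f hf _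
  fact_an := exists_fact_an C ⊤
  fact_cof := exists_fact_cof C ⊤

/-- The path context of the category of `C`-`∞`-groupoids. -/
theorem exists_pathCtx (hC : C.IsCoherator) : ∃ K : PathCtx C.Gpd, K.F = C.F ⊤ := by
  obtain ⟨K⟩ := exists_cylFun_zero hC
  exact ⟨K.pathCtx hC, rfl⟩

end GlobExt

end Vale.Agent.P259
end
end

section

section

open CategoryTheory Limits Opposite

namespace Vale.Agent.P259

universe v u

variable {𝓜 : Type u} [Category.{v} 𝓜]

/-- The underlying globular set of an object, as a functor. -/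
def under (F : Globe ⥤ 𝓜) : 𝓜 ⥤ (Globeᵒᵖ ⥤ Type v) where
  obj X := F.op ⋙ yoneda.obj X
  map f := Functor.whiskerLeft F.op (yoneda.map f)

/-- The action of a globular map on cells. -/
def GM.app {F : Globe ⥤ 𝓜} {X Y : 𝓜} (φ : (under F).obj X ⟶ (under F).obj Y) {j : ℕ}
    (u : cob F j ⟶ X) : cob F j ⟶ Y :=
  φ.app (op (Globe.D j)) u

lemma GM.app_map {F : Globe ⥤ 𝓜} {X Y : 𝓜} (f : X ⟶ Y) {j : ℕ} (u : cob F j ⟶ X) :
    GM.app ((under F).map f) u = u ≫ f := rfl

lemma GM.app_comp {F : Globe ⥤ 𝓜} {X Y Z : 𝓜} (φ : (under F).obj X ⟶ (under F).obj Y)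
    (ψ : (under F).obj Y ⟶ (under F).obj Z) {j : ℕ} (u : cob F j ⟶ X) :
    GM.app (φ ≫ ψ) u = GM.app ψ (GM.app φ u) := rfl

lemma GM.app_id {F : Globe ⥤ 𝓜} {X : 𝓜} {j : ℕ} (u : cob F j ⟶ X) :
    GM.app (𝟙 ((under F).obj X)) u = u := rfl

lemma GM.app_comp_map {F : Globe ⥤ 𝓜} {X Y Z : 𝓜} (φ : (under F).obj X ⟶ (under F).obj Y)
    (f : Y ⟶ Z) {j : ℕ} (u : cob F j ⟶ X) :
    GM.app (φ ≫ (under F).map f) u = GM.app φ u ≫ f := rfl

lemma GM.app_map_comp {F : Globe ⥤ 𝓜} {X Y Z : 𝓜} (f : X ⟶ Y)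
    (φ : (under F).obj Y ⟶ (under F).obj Z) {j : ℕ} (u : cob F j ⟶ X) :
    GM.app ((under F).map f ≫ φ) u = GM.app φ (u ≫ f) := rfl

/-- Globular maps commute with the operations of the globe category. -/
lemma GM.app_precomp {F : Globe ⥤ 𝓜} {X Y : 𝓜} (φ : (under F).obj X ⟶ (under F).obj Y) {j k : ℕ}
    (a : Globe.D j ⟶ Globe.D k) (u : cob F k ⟶ X) :
    GM.app φ (F.map a ≫ u) = F.map a ≫ GM.app φ u :=
  ConcreteCategory.congr_hom (φ.naturality a.op) u

lemma GM.app_sg {F : Globe ⥤ 𝓜} {X Y : 𝓜} (φ : (under F).obj X ⟶ (under F).obj Y) {j : ℕ}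
    (u : cob F (j + 1) ⟶ X) : GM.app φ (sg F j ≫ u) = sg F j ≫ GM.app φ u :=
  GM.app_precomp φ _ u

lemma GM.app_tg {F : Globe ⥤ 𝓜} {X Y : 𝓜} (φ : (under F).obj X ⟶ (under F).obj Y) {j : ℕ}
    (u : cob F (j + 1) ⟶ X) : GM.app φ (tg F j ≫ u) = tg F j ≫ GM.app φ u :=
  GM.app_precomp φ _ u

lemma GM.ext {F : Globe ⥤ 𝓜} {X Y : 𝓜} {φ ψ : (under F).obj X ⟶ (under F).obj Y}
    (h : ∀ (j : ℕ) (u : cob F j ⟶ X), GM.app φ u = GM.app ψ u) : φ = ψ := by
  ext ⟨⟨j⟩⟩ u
  exact h j u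

lemma GM.hty {F : Globe ⥤ 𝓜} {X Y : 𝓜} (φ : (under F).obj X ⟶ (under F).obj Y) {j : ℕ}
    {u v : cob F j ⟶ X} (h : Hty F u v) : Hty F (GM.app φ u) (GM.app φ v) := by
  obtain ⟨w, h1, h2⟩ := h
  exact ⟨GM.app φ w, by rw [← GM.app_sg, h1], by rw [← GM.app_tg, h2]⟩

variable [HasPushouts 𝓜] [HasInitial 𝓜]

lemma GM.parallel {F : Globe ⥤ 𝓜} {X Y : 𝓜} (φ : (under F).obj X ⟶ (under F).obj Y) {j : ℕ}
    {u v : cob F j ⟶ X} (h : bd F j ≫ u = bd F j ≫ v) :
    bd F j ≫ GM.app φ u = bd F j ≫ GM.app φ v := by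
  cases j with
  | zero => exact sph_zero_hom_ext _ _ _
  | succ j =>
    rw [bd_comp_eq_iff] at h ⊢
    rw [← GM.app_sg, ← GM.app_sg, ← GM.app_tg, ← GM.app_tg, h.1, h.2]
    exact ⟨rfl, rfl⟩

/-- Weak equivalences of globular sets underlying `∞`-groupoids. -/
def WG {F : Globe ⥤ 𝓜} {X Y : 𝓜} (φ : (under F).obj X ⟶ (under F).obj Y) : Prop :=
  (∀ y : cob F 0 ⟶ Y, ∃ x : cob F 0 ⟶ X, Hty F (GM.app φ x) y) ∧
  ∀ (j : ℕ) (u v : cob F j ⟶ X), bd F j ≫ u = bd F j ≫ v → ∀ w : cob F (j + 1) ⟶ Y,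
    sg F j ≫ w = GM.app φ u → tg F j ≫ w = GM.app φ v →
    ∃ w' : cob F (j + 1) ⟶ X, sg F j ≫ w' = u ∧ tg F j ≫ w' = v ∧ Hty F (GM.app φ w') w

lemma exists_lift_of_trivFib {F : Globe ⥤ 𝓜} {X Y : 𝓜} {p : X ⟶ Y} (hp : TrivFib F p) {j : ℕ}
    (β : sph F j ⟶ X) (w : cob F j ⟶ Y) (h : bd F j ≫ w = β ≫ p) :
    ∃ u : cob F j ⟶ X, bd F j ≫ u = β ∧ u ≫ p = w := by
  have h1 : HasLiftingProperty (bd F j) p :=
    hp _ (MorphismProperty.ofHoms.mk (f := fun j : ℕ => bd F j) j)
  have sq : CommSq β (bd F j) p w := ⟨h.symm⟩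
  exact ⟨sq.lift, sq.fac_left, sq.fac_right⟩

/-- Trivial fibrations reflect homotopies between parallel cells. -/
lemma hty_of_trivFib {F : Globe ⥤ 𝓜} {X Y : 𝓜} {p : X ⟶ Y} (hp : TrivFib F p) {j : ℕ}
    {u v : cob F j ⟶ X} (h : bd F j ≫ u = bd F j ≫ v) (h' : Hty F (u ≫ p) (v ≫ p)) :
    Hty F u v := by
  obtain ⟨w, h1, h2⟩ := h'
  obtain ⟨a, ha, -⟩ := exists_lift_of_trivFib hp (sphDesc F u v h) w (by
    apply sph_hom_ext
    · rw [hemS_bd_assoc, hemS_sphDesc_assoc, h1]
    · rw [hemT_bd_assoc, hemT_sphDesc_assoc, h2])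
  refine ⟨a, ?_, ?_⟩
  · rw [← hemS_bd, Category.assoc, ha, hemS_sphDesc]
  · rw [← hemT_bd, Category.assoc, ha, hemT_sphDesc]

/-- Lifting of a cell between two given cells along a trivial fibration. -/
lemma exists_cell_of_trivFib {F : Globe ⥤ 𝓜} {X Y : 𝓜} {p : X ⟶ Y} (hp : TrivFib F p) {j : ℕ}
    {u v : cob F j ⟶ X} (h : bd F j ≫ u = bd F j ≫ v) (w : cob F (j + 1) ⟶ Y)
    (h1 : sg F j ≫ w = u ≫ p) (h2 : tg F j ≫ w = v ≫ p) :
    ∃ a : cob F (j + 1) ⟶ X, sg F j ≫ a = u ∧ tg F j ≫ a = v ∧ a ≫ p = w := by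
  obtain ⟨a, ha, ha'⟩ := exists_lift_of_trivFib hp (sphDesc F u v h) w (by
    apply sph_hom_ext
    · rw [hemS_bd_assoc, hemS_sphDesc_assoc, h1]
    · rw [hemT_bd_assoc, hemT_sphDesc_assoc, h2])
  refine ⟨a, ?_, ?_, ha'⟩
  · rw [← hemS_bd, Category.assoc, ha, hemS_sphDesc]
  · rw [← hemT_bd, Category.assoc, ha, hemT_sphDesc]

/-- A globular map followed by a trivial fibration. -/
theorem WG_comp_trivFib {F : Globe ⥤ 𝓜} {X Y Z : 𝓜} (h : (under F).obj X ⟶ (under F).obj Y)
    {p : Y ⟶ Z} (hp : TrivFib F p) : WG (h ≫ (under F).map p) ↔ WG h := by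
  constructor
  · rintro ⟨h0, h1⟩
    refine ⟨fun y => ?_, fun j u v huv w hw1 hw2 => ?_⟩
    · obtain ⟨x, hx⟩ := h0 (y ≫ p)
      rw [GM.app_comp_map] at hx
      exact ⟨x, hty_of_trivFib hp (sph_zero_hom_ext _ _ _) hx⟩
    · obtain ⟨w', h2, h3, h4⟩ := h1 j u v huv (w ≫ p)
        (by rw [← Category.assoc, hw1, GM.app_comp_map])
        (by rw [← Category.assoc, hw2, GM.app_comp_map])
      rw [GM.app_comp_map] at h4
      refine ⟨w', h2, h3, hty_of_trivFib hp ?_ h4⟩
      rw [bd_comp_eq_iff, ← GM.app_sg, ← GM.app_tg, h2, h3, hw1, hw2]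
      exact ⟨rfl, rfl⟩
  · rintro ⟨h0, h1⟩
    refine ⟨fun z => ?_, fun j u v huv w hw1 hw2 => ?_⟩
    · obtain ⟨y, -, hy⟩ := exists_lift_of_trivFib hp ((isInitialSphZero F).to Y) z
        (sph_zero_hom_ext _ _ _)
      obtain ⟨x, hx⟩ := h0 y
      refine ⟨x, ?_⟩
      rw [GM.app_comp_map, ← hy]
      exact hx.comp p
    · rw [GM.app_comp_map] at hw1 hw2
      obtain ⟨a, ha1, ha2, ha3⟩ := exists_cell_of_trivFib hp (GM.parallel h huv) w hw1 hw2
      obtain ⟨w', h2, h3, h4⟩ := h1 j u v huv a ha1 ha2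
      refine ⟨w', h2, h3, ?_⟩
      rw [GM.app_comp_map, ← ha3]
      exact h4.comp p

lemma WG.comp {F : Globe ⥤ 𝓜} (hF : GContr F) {X Y Z : 𝓜}
    {φ : (under F).obj X ⟶ (under F).obj Y} {ψ : (under F).obj Y ⟶ (under F).obj Z}
    (h : WG φ) (h' : WG ψ) : WG (φ ≫ ψ) := by
  refine ⟨fun z => ?_, fun j u v huv w hw1 hw2 => ?_⟩
  · obtain ⟨y, hy⟩ := h'.1 z
    obtain ⟨x, hx⟩ := h.1 y
    exact ⟨x, hF.hty_trans (GM.hty ψ hx) hy⟩
  · obtain ⟨a, ha1, ha2, ha3⟩ := h'.2 j _ _ (GM.parallel φ huv) w hw1 hw2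
    obtain ⟨w', h2, h3, h4⟩ := h.2 j u v huv a ha1 ha2
    exact ⟨w', h2, h3, hF.hty_trans (GM.hty ψ h4) ha3⟩

/-- `WG` reflects homotopies between parallel cells. -/
lemma WG.hty_of {F : Globe ⥤ 𝓜} {X Y : 𝓜} {φ : (under F).obj X ⟶ (under F).obj Y} (h : WG φ)
    {j : ℕ} {u v : cob F j ⟶ X} (huv : bd F j ≫ u = bd F j ≫ v)
    (h' : Hty F (GM.app φ u) (GM.app φ v)) : Hty F u v := by
  obtain ⟨w, h1, h2⟩ := h'
  obtain ⟨w', h3, h4, -⟩ := h.2 j u v huv w h1 h2
  exact ⟨w', h3, h4⟩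

lemma WG.of_postcomp {F : Globe ⥤ 𝓜} {X Y Z : 𝓜}
    {φ : (under F).obj X ⟶ (under F).obj Y} {ψ : (under F).obj Y ⟶ (under F).obj Z}
    (h : WG ψ) (h' : WG (φ ≫ ψ)) : WG φ := by
  refine ⟨fun y => ?_, fun j u v huv w hw1 hw2 => ?_⟩
  · obtain ⟨x, hx⟩ := h'.1 (GM.app ψ y)
    exact ⟨x, h.hty_of (sph_zero_hom_ext _ _ _) hx⟩
  · obtain ⟨w', h2, h3, h4⟩ := h'.2 j u v huv (GM.app ψ w)
      (by rw [← GM.app_sg, hw1]; rfl) (by rw [← GM.app_tg, hw2]; rfl)
    refine ⟨w', h2, h3, h.hty_of ?_ h4⟩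
    rw [bd_comp_eq_iff, ← GM.app_sg, ← GM.app_tg, h2, h3, hw1, hw2]
    exact ⟨rfl, rfl⟩

lemma WG.id {F : Globe ⥤ 𝓜} (hF : GContr F) (X : 𝓜) : WG (𝟙 ((under F).obj X)) :=
  ⟨fun y => ⟨y, hF.hty_refl y⟩, fun _ _ _ _ w h1 h2 => ⟨w, h1, h2, hF.hty_refl w⟩⟩

/-- The weak equivalences of a path context are the morphisms whose underlying globular map is a
weak equivalence. -/
theorem PathCtx.W_iff_WG {𝓜 : Type u} [Category.{v} 𝓜] [HasLimits 𝓜] [HasColimits 𝓜]
    (K : PathCtx 𝓜) {X Y : 𝓜} (f : X ⟶ Y) : K.W f ↔ WG ((under K.F).map f) := by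
  rw [K.W_iff_exists]
  constructor
  · intro h
    refine ⟨fun y => ?_, fun j u v huv w hw1 hw2 => ?_⟩
    · obtain ⟨x, -, hx⟩ := h 0 ((isInitialSphZero K.F).to X) y (sph_zero_hom_ext _ _ _)
      exact ⟨x, hx⟩
    · rw [GM.app_map] at hw1 hw2
      obtain ⟨w', h1, h2⟩ := h (j + 1) (sphDesc K.F u v huv) w (by
        apply sph_hom_ext
        · rw [hemS_bd_assoc, hemS_sphDesc_assoc, hw1]
        · rw [hemT_bd_assoc, hemT_sphDesc_assoc, hw2])
      refine ⟨w', ?_, ?_, h2⟩
      · rw [← hemS_bd, Category.assoc, h1, hemS_sphDesc]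
      · rw [← hemT_bd, Category.assoc, h1, hemT_sphDesc]
  · rintro ⟨h0, h1⟩ j β w hw
    cases j with
    | zero =>
      obtain ⟨x, hx⟩ := h0 w
      exact ⟨x, sph_zero_hom_ext _ _ _, hx⟩
    | succ j =>
      have hpar : bd K.F j ≫ (hemS K.F j ≫ β) = bd K.F j ≫ (hemT K.F j ≫ β) := by
        rw [← Category.assoc, ← Category.assoc, (isPushout_sph K.F j).w]
      obtain ⟨w', h2, h3, h4⟩ := h1 j _ _ hpar w
        (by rw [GM.app_map, ← hemS_bd, Category.assoc, hw, Category.assoc])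
        (by rw [GM.app_map, ← hemT_bd, Category.assoc, hw, Category.assoc])
      refine ⟨w', ?_, h4⟩
      apply sph_hom_ext
      · rw [hemS_bd_assoc, h2]
      · rw [hemT_bd_assoc, h3]

theorem PathCtx.WG_pm_iff {𝓜 : Type u} [Category.{v} 𝓜] [HasLimits 𝓜] [HasColimits 𝓜]
    (K : PathCtx 𝓜) {X Y : 𝓜} (h : (under K.F).obj X ⟶ (under K.F).obj (K.P.obj Y)) :
    WG (h ≫ (under K.F).map (K.pm.app Y)) ↔ WG h :=
  WG_comp_trivFib h (K.pm_triv Y)

theorem PathCtx.WG_pp_iff {𝓜 : Type u} [Category.{v} 𝓜] [HasLimits 𝓜] [HasColimits 𝓜]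
    (K : PathCtx 𝓜) {X Y : 𝓜} (h : (under K.F).obj X ⟶ (under K.F).obj (K.P.obj Y)) :
    WG (h ≫ (under K.F).map (K.pp.app Y)) ↔ WG h :=
  WG_comp_trivFib h (K.pp_triv Y)

/-- Homotopic globular maps: one is a weak equivalence iff the other is. -/
theorem PathCtx.WG_iff_of_homotopy {𝓜 : Type u} [Category.{v} 𝓜] [HasLimits 𝓜]
    [HasColimits 𝓜] (K : PathCtx 𝓜) {X Y : 𝓜}
    (h : (under K.F).obj X ⟶ (under K.F).obj (K.P.obj Y)) :
    WG (h ≫ (under K.F).map (K.pm.app Y)) ↔ WG (h ≫ (under K.F).map (K.pp.app Y)) := by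
  rw [K.WG_pm_iff, K.WG_pp_iff]

end Vale.Agent.P259
end
end

section

section

open CategoryTheory Limits

namespace Vale.Agent.P259

open Theta0

universe u

variable {𝓜 : Type u} [Category.{0} 𝓜]

/-- A functor on `Θ₀` preserves globular sums if it sends the squares `D_j, S, D_i, S ⨿_{D_j} D_i`
to pushout squares. -/
def PreservesGlue (R : Theta0 ⥤ 𝓜) : Prop :=
  ∀ {l : ℕ} (t : Tab l) (j i : ℕ) (hl : j < l) (hi : j < i),
    IsPushout (R.map (face true hl ≫ lastIncl t)) (R.map (face false hi))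
      (R.map (inl t j i hl hi)) (R.map (inr t j i hl hi))

namespace GlobExt

/-- The globular extension of pairs of maps, one in `C` and one in `𝓜`. -/
noncomputable def prodExt (C : GlobExt) (R : Theta0 ⥤ 𝓜) (hR : PreservesGlue R) : GlobExt where
  Hom S T := C.Hom S T × (R.obj S ⟶ R.obj T)
  id S := (C.id S, 𝟙 _)
  comp f g := (C.comp f.1 g.1, f.2 ≫ g.2)
  id_comp f := by
    ext
    · exact C.id_comp _
    · exact Category.id_comp _
  comp_id f := by
    ext
    · exact C.comp_id _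
    · exact Category.comp_id _
  assoc f g h := by
    ext
    · exact C.assoc _ _ _
    · exact Category.assoc _ _ _
  incl f := (C.incl f, R.map f)
  incl_id S := by
    ext
    · exact C.incl_id _
    · exact R.map_id _
  incl_comp f g := by
    ext
    · exact C.incl_comp _ _
    · exact R.map_comp _ _
  glue {l} t j i hl hi U a b h := by
    have h1 : C.comp (C.incl (face true hl ≫ lastIncl t)) a.1 =
        C.comp (C.incl (face false hi)) b.1 := congrArg Prod.fst h
    have h2 : R.map (face true hl ≫ lastIncl t) ≫ a.2 = R.map (face false hi) ≫ b.2 :=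
      congrArg Prod.snd h
    obtain ⟨c, ⟨hc1, hc2⟩, hc3⟩ := C.glue t j i hl hi U a.1 b.1 h1
    have po := hR t j i hl hi
    refine ⟨(c, po.desc a.2 b.2 h2), ⟨?_, ?_⟩, ?_⟩
    · ext
      · exact hc1
      · exact po.inl_desc _ _ _
    · ext
      · exact hc2
      · exact po.inr_desc _ _ _
    · rintro ⟨d1, d2⟩ ⟨hd1, hd2⟩
      have e1 : C.comp (C.incl (inl t j i hl hi)) d1 = a.1 := congrArg Prod.fst hd1
      have e2 : R.map (inl t j i hl hi) ≫ d2 = a.2 := congrArg Prod.snd hd1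
      have e3 : C.comp (C.incl (inr t j i hl hi)) d1 = b.1 := congrArg Prod.fst hd2
      have e4 : R.map (inr t j i hl hi) ≫ d2 = b.2 := congrArg Prod.snd hd2
      ext
      · exact hc3 d1 ⟨e1, e3⟩
      · apply po.hom_ext
        · rw [po.inl_desc]; exact e2
        · rw [po.inr_desc]; exact e4

/-- The projection of `prodExt` to `C`. -/
noncomputable def prodExtFst (C : GlobExt) (R : Theta0 ⥤ 𝓜) (hR : PreservesGlue R) :
    Map (prodExt C R hR) C where
  map f := f.1
  map_id _ := rfl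
  map_comp _ _ := rfl
  map_incl _ := rfl

/-- The functor to `𝓜` attached to a section of `prodExtFst`. -/
noncomputable def functorOfSection {C : GlobExt} {R : Theta0 ⥤ 𝓜} {hR : PreservesGlue R}
    (s : Map C (prodExt C R hR)) : C.Obj ⥤ 𝓜 where
  obj S := R.obj S.sum
  map f := (s.map f).2
  map_id S := congrArg Prod.snd (s.map_id S.sum)
  map_comp f g := congrArg Prod.snd (s.map_comp f g)

/-- Two maps `D_n ⟶ S` in `𝓜` are parallel. -/
def ParallelIn (R : Theta0 ⥤ 𝓜) {S : Theta0} : {n : ℕ} → (u v : R.obj (disc n) ⟶ R.obj S) → Prop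
  | 0, _, _ => True
  | n + 1, u, v => R.map (σ n) ≫ u = R.map (σ n) ≫ v ∧ R.map (τ n) ≫ u = R.map (τ n) ≫ v

/-- The universal property of a coherator: a functor on `Θ₀` which preserves globular sums and
in which parallel pairs `D_n ⇉ S`, `dim S ≤ n + 1`, can be filled extends to the coherator. -/
theorem Tower.exists_functor {C : GlobExt} (T : Tower C) (R : Theta0 ⥤ 𝓜)
    (hR : PreservesGlue R)
    (hfill : ∀ {n : ℕ} {S : Theta0}, S.dim ≤ n + 1 → ∀ (u v : R.obj (disc n) ⟶ R.obj S),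
      ParallelIn R u v → ∃ w : R.obj (disc (n + 1)) ⟶ R.obj S,
        R.map (σ n) ≫ w = u ∧ R.map (τ n) ≫ w = v) :
    ∃ D : C.Obj ⥤ 𝓜, C.J ⋙ D = R := by
  obtain ⟨s, hs⟩ := T.exists_section (prodExtFst C R hR) (by
    intro n S hS u v huv w hw
    have hp : ParallelIn R u.2 v.2 := by
      cases n with
      | zero => trivial
      | succ n => exact ⟨congrArg Prod.snd huv.1, congrArg Prod.snd huv.2⟩
    obtain ⟨g, hg1, hg2⟩ := hfill hS u.2 v.2 hp
    refine ⟨(w, g), ⟨?_, ?_⟩, rfl⟩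
    · exact Prod.ext hw.1 hg1
    · exact Prod.ext hw.2 hg2)
  refine ⟨functorOfSection s, ?_⟩
  refine Functor.hext (fun S => rfl) (fun S T f => heq_of_eq ?_)
  exact congrArg Prod.snd (s.map_incl f)

end GlobExt

end Vale.Agent.P259
end
end

section

section

open CategoryTheory Limits

open scoped unitInterval

namespace Vale.Agent.P259

/-- `g : A ⟶ B` is the inclusion of a strong deformation retract. -/
def IsSDR {A B : TopCat} (g : A ⟶ B) : Prop :=
  ∃ (r : B ⟶ A) (K : C(I × B, B)), g ≫ r = 𝟙 A ∧ (∀ b, K (0, b) = b) ∧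
    (∀ b, K (1, b) = g (r b)) ∧ ∀ s a, K (s, g a) = g a

lemma IsSDR.of_iso {A B A' B' : TopCat} {g : A ⟶ B} {g' : A' ⟶ B'} (eA : A ≅ A') (eB : B ≅ B')
    (w : g ≫ eB.hom = eA.hom ≫ g') (h : IsSDR g') : IsSDR g := by
  obtain ⟨r, K, h1, h2, h3, h4⟩ := h
  have hw : ∀ a : A, eB.hom (g a) = g' (eA.hom a) := fun a => by
    rw [← ConcreteCategory.comp_apply, w, ConcreteCategory.comp_apply]
  have hw' : ∀ a : A', eB.inv (g' a) = g (eA.inv a) := fun a => by
    have := hw (eA.inv a)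
    rw [← ConcreteCategory.comp_apply eA.inv eA.hom, Iso.inv_hom_id] at this
    have h5 : eB.inv (eB.hom (g (eA.inv a))) = eB.inv (g' a) := congrArg _ this
    rw [← ConcreteCategory.comp_apply eB.hom eB.inv, Iso.hom_inv_id] at h5
    exact h5.symm
  have hB : ∀ b : B, eB.inv (eB.hom b) = b := fun b => by
    rw [← ConcreteCategory.comp_apply, Iso.hom_inv_id]; rfl
  refine ⟨eB.hom ≫ r ≫ eA.inv, ⟨fun p => eB.inv (K (p.1, eB.hom p.2)), ?_⟩, ?_, ?_, ?_, ?_⟩
  · exact eB.inv.hom.continuous.comp (K.continuous.comp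
      (continuous_fst.prodMk (eB.hom.hom.continuous.comp continuous_snd)))
  · rw [← Category.assoc, w, Category.assoc, ← Category.assoc g', h1]
    simp
  · intro b
    change eB.inv (K (0, eB.hom b)) = b
    rw [h2, hB]
  · intro b
    change eB.inv (K (1, eB.hom b)) = g (eA.inv (r (eB.hom b)))
    rw [h3, hw']
  · intro s a
    change eB.inv (K (s, eB.hom (g a))) = g a
    rw [hw, h4, ← hw, hB]

/-- Gluing along a strong deformation retract preserves contractibility. -/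
theorem contractible_pushout {A X B P : TopCat} {f : A ⟶ X} {g : A ⟶ B} {inl : X ⟶ P}
    {inr : B ⟶ P} (sq : IsPushout f g inl inr) (hg : IsSDR g) [ContractibleSpace X] :
    ContractibleSpace P := by
  obtain ⟨r, K, h1, h2, h3, h4⟩ := hg
  let ρ : P ⟶ X := sq.desc (𝟙 X) (r ≫ f) (by rw [Category.comp_id, ← Category.assoc, h1,
    Category.id_comp])
  have hρ1 : inl ≫ ρ = 𝟙 X := sq.inl_desc _ _ _
  have hρ2 : inr ≫ ρ = r ≫ f := sq.inr_desc _ _ _
  let cX : C(X, C(I, P)) := ContinuousMap.curry ⟨fun p : X × I => inl p.1,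
    inl.hom.continuous.comp continuous_fst⟩
  let cB : C(B, C(I, P)) := ContinuousMap.curry ⟨fun p : B × I => inr (K (p.2, p.1)),
    inr.hom.continuous.comp (K.continuous.comp (continuous_snd.prodMk continuous_fst))⟩
  let H : P ⟶ TopCat.of C(I, P) := sq.desc (TopCat.ofHom cX) (TopCat.ofHom cB) (by
    apply TopCat.hom_ext
    apply ContinuousMap.ext
    intro a
    apply ContinuousMap.ext
    intro s
    change inl (f a) = inr (K (s, g a))
    rw [h4, ← ConcreteCategory.comp_apply, ← ConcreteCategory.comp_apply, sq.w])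
  have hH1 : inl ≫ H = TopCat.ofHom cX := sq.inl_desc _ _ _
  have hH2 : inr ≫ H = TopCat.ofHom cB := sq.inr_desc _ _ _
  have hsurj : ∀ (φ ψ : P ⟶ P), inl ≫ φ = inl ≫ ψ → inr ≫ φ = inr ≫ ψ → φ = ψ := fun φ ψ a b =>
    sq.hom_ext a b
  let ev : I → (TopCat.of C(I, P) ⟶ P) := fun s => TopCat.ofHom ⟨fun c => c s,
    continuous_eval_const s⟩
  have e0 : H ≫ ev 0 = 𝟙 P := by
    apply hsurj
    · rw [← Category.assoc, hH1]
      rfl
    · rw [← Category.assoc, hH2]
      apply TopCat.hom_ext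
      apply ContinuousMap.ext
      intro b
      change inr (K (0, b)) = inr b
      rw [h2]
  have e1 : H ≫ ev 1 = ρ ≫ inl := by
    apply hsurj
    · rw [← Category.assoc, hH1, ← Category.assoc, hρ1]
      rfl
    · rw [← Category.assoc, hH2, ← Category.assoc, hρ2]
      apply TopCat.hom_ext
      apply ContinuousMap.ext
      intro b
      change inr (K (1, b)) = inl (f (r b))
      rw [h3, ← ConcreteCategory.comp_apply, ← sq.w]
      rfl
  let E : ContinuousMap.HomotopyEquiv P X :=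
    { toFun := ρ.hom
      invFun := inl.hom
      left_inv := by
        refine ContinuousMap.Homotopic.symm ⟨⟨⟨fun p => (H p.2 : C(I, P)) p.1, ?_⟩, ?_, ?_⟩⟩
        · exact continuous_eval.comp ((H.hom.continuous.comp continuous_snd).prodMk continuous_fst)
        · intro x
          exact congrArg (fun φ : P ⟶ P => φ x) e0
        · intro x
          exact congrArg (fun φ : P ⟶ P => φ x) e1
      right_inv := by
        have : ρ.hom.comp inl.hom = ContinuousMap.id X := by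
          ext x
          exact congrArg (fun φ : X ⟶ X => φ x) hρ1
        rw [this] }
  exact E.contractibleSpace

/-- The projection as a morphism. -/
noncomputable def ballPr (i : ℕ) : ballData.obj (i + 1) ⟶ ballData.obj i := TopCat.ofHom (projB i)

lemma ballData_s_pr (i : ℕ) : ballData.s i ≫ ballPr i = 𝟙 _ := by
  apply TopCat.hom_ext
  apply ContinuousMap.ext
  intro x
  exact projB_hemi false x

/-- The retraction of a ball onto a smaller ball. -/
lemma exists_ball_retraction {j i : ℕ} (h : j < i) :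
    ∃ r : ballData.obj i ⟶ ballData.obj j, ballData.face false h ≫ r = 𝟙 (ballData.obj j) := by
  induction i with
  | zero => omega
  | succ i ih =>
    rcases Nat.lt_succ_iff_lt_or_eq.mp h with h' | rfl
    · obtain ⟨r, hr⟩ := ih h'
      refine ⟨ballPr i ≫ r, ?_⟩
      rw [← ballData.face_sMap false h' (Nat.le_succ i), ballData.sMap_succ, Category.assoc,
        ← Category.assoc (ballData.s i), ballData_s_pr, Category.id_comp, hr]
    · refine ⟨ballPr j, ?_⟩
      rw [ballData.face_succ]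
      exact ballData_s_pr j

/-- A continuous map into a ball which has a retraction is the inclusion of a strong
deformation retract. -/
lemma isSDR_of_retraction {A : TopCat} {i : ℕ} (g : A ⟶ TopCat.of (Ball i))
    (r : TopCat.of (Ball i) ⟶ A) (h : g ≫ r = 𝟙 A) : IsSDR g := by
  have hr : ∀ a, r (g a) = a := fun a => congrArg (fun φ : A ⟶ A => φ a) h
  refine ⟨r, ⟨fun p => ⟨(1 - (p.1 : ℝ)) • (p.2 : EuclideanSpace ℝ (Fin i)) +
    (p.1 : ℝ) • ((g (r p.2) : Ball i) : EuclideanSpace ℝ (Fin i)), ?_⟩, ?_⟩, h, ?_, ?_, ?_⟩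
  · exact (convex_closedBall (0 : EuclideanSpace ℝ (Fin i)) 1) p.2.2 (g (r p.2) : Ball i).2
      (by have := p.1.2.2; linarith) p.1.2.1 (by ring)
  · refine Continuous.subtype_mk ?_ _
    refine Continuous.add (Continuous.smul
      (continuous_const.sub (continuous_subtype_val.comp continuous_fst))
      (continuous_subtype_val.comp continuous_snd))
      (Continuous.smul (continuous_subtype_val.comp continuous_fst) ?_)
    exact continuous_subtype_val.comp (g.hom.continuous.comp (r.hom.continuous.comp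
      continuous_snd))
  · intro b
    apply Subtype.ext
    change (1 - ((0 : I) : ℝ)) • (b : EuclideanSpace ℝ (Fin i)) + ((0 : I) : ℝ) • _ = _
    simp
  · intro b
    apply Subtype.ext
    change (1 - ((1 : I) : ℝ)) • (b : EuclideanSpace ℝ (Fin i)) + ((1 : I) : ℝ) • _ = _
    simp
  · intro s a
    apply Subtype.ext
    change (1 - (s : ℝ)) • ((g a : Ball i) : EuclideanSpace ℝ (Fin i)) +
      (s : ℝ) • ((g (r (g a)) : Ball i) : EuclideanSpace ℝ (Fin i)) = _
    rw [hr, ← add_smul]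
    simp

/-- The realization of globular sets with Euclidean balls. -/
noncomputable def realG : GSet ⥤ TopCat :=
  (uliftYoneda.{0} : Globe ⥤ Globeᵒᵖ ⥤ Type).leftKanExtension ballF

noncomputable instance : PreservesColimitsOfSize.{0, 0} realG :=
  inferInstanceAs (PreservesColimitsOfSize.{0, 0}
    ((uliftYoneda.{0} : Globe ⥤ Globeᵒᵖ ⥤ Type).leftKanExtension ballF))

/-- The realization of the representable globular sets. -/
noncomputable def realGIso : yoneda ⋙ realG ≅ ballF :=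
  Functor.isoWhiskerRight uliftYonedaIsoYoneda.{0}.symm realG ≪≫
    (asIso ((uliftYoneda.{0} : Globe ⥤ Globeᵒᵖ ⥤ Type).leftKanExtensionUnit ballF)).symm

/-- The realization of globular sums. -/
noncomputable def realT : Theta0 ⥤ TopCat := Theta0.toG ⋙ realG

lemma realT_preservesGlue : PreservesGlue realT := fun t j i hl hi =>
  (Theta0.isPushout t j i hl hi).map realG

/-- The realization of the disc `D_n` is the ball. -/
noncomputable def realTDisc (n : ℕ) : realT.obj (Theta0.disc n) ≅ ballData.obj n :=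
  realGIso.app (Globe.D n)

lemma realT_discMap {n m : ℕ} (f : Globe.D n ⟶ Globe.D m) :
    realT.map (Theta0.discMap f) ≫ (realTDisc m).hom =
      (realTDisc n).hom ≫ (ballData.mapHom f : ballData.obj n ⟶ ballData.obj m) :=
  realGIso.hom.naturality f

lemma realT_face (b : Bool) {n m : ℕ} (h : n < m) :
    realT.map (Theta0.face b h) ≫ (realTDisc m).hom =
      (realTDisc n).hom ≫ ballData.face b h :=
  realT_discMap (Globe.face b h)

lemma realT_face_inv (b : Bool) {n m : ℕ} (h : n < m) :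
    (realTDisc n).inv ≫ realT.map (Theta0.face b h) =
      ballData.face b h ≫ (realTDisc m).inv := by
  rw [Iso.inv_comp_eq, ← Category.assoc, Iso.eq_comp_inv]
  exact realT_face b h

theorem contractible_realT : ∀ {l : ℕ} (t : Tab l), ContractibleSpace (realT.obj ⟨t⟩)
  | _, .disc i => by
    have : ContractibleSpace (ballData.obj i) :=
      (convex_closedBall (0 : EuclideanSpace ℝ (Fin i)) 1).contractibleSpace
        ⟨0, by simp⟩
    exact (TopCat.homeoOfIso (realTDisc i)).contractibleSpace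
  | _, .glue t j i hl hi => by
    have := contractible_realT t
    obtain ⟨r, hr⟩ := exists_ball_retraction hi
    exact contractible_pushout (realT_preservesGlue t j i hl hi)
      (IsSDR.of_iso (realTDisc j) (realTDisc i) (realT_face false hi)
        (isSDR_of_retraction _ r hr))

/-- Two maps out of a ball which agree on the two hemispheres agree on the boundary. -/
lemma eq_of_norm_sq_eq_one {Z : TopCat} {n : ℕ} (u v : ballData.obj (n + 1) ⟶ Z)
    (hs : ballData.s n ≫ u = ballData.s n ≫ v) (ht : ballData.t n ≫ u = ballData.t n ≫ v)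
    (x : Ball (n + 1)) (hx : ‖x.1‖ ^ 2 = 1) : u.hom x = v.hom x := by
  obtain ⟨b, hb⟩ := exists_hemi_eq x hx
  rw [← hb]
  cases b
  · exact congrArg (fun φ : ballData.obj n ⟶ Z => φ.hom (projB n x)) hs
  · exact congrArg (fun φ : ballData.obj n ⟶ Z => φ.hom (projB n x)) ht

/-- Two maps out of the ball `D_n` which agree on the boundary are the restrictions of a map out
of `D_{n+1}`, if the target is contractible. -/
lemma exists_ball_filler {Z : TopCat} [ContractibleSpace Z] {n : ℕ} (u v : ballData.obj n ⟶ Z)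
    (h : ∀ x : Ball n, ‖x.1‖ ^ 2 = 1 → u.hom x = v.hom x) :
    ∃ w : ballData.obj (n + 1) ⟶ Z, ballData.s n ≫ w = u ∧ ballData.t n ≫ w = v := by
  obtain ⟨g, hg1, hg2⟩ := exists_filler u.hom v.hom h
  refine ⟨TopCat.ofHom g, ?_, ?_⟩
  · apply TopCat.hom_ext
    apply ContinuousMap.ext
    exact hg1
  · apply TopCat.hom_ext
    apply ContinuousMap.ext
    exact hg2

/-- Filling of parallel pairs of maps from discs to the realization of a globular sum. -/
lemma exists_fill_realT {n : ℕ} {S : Theta0}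
    (u v : realT.obj (Theta0.disc n) ⟶ realT.obj S) (h : GlobExt.ParallelIn realT u v) :
    ∃ w : realT.obj (Theta0.disc (n + 1)) ⟶ realT.obj S,
      realT.map (Theta0.σ n) ≫ w = u ∧ realT.map (Theta0.τ n) ≫ w = v := by
  have : ContractibleSpace (realT.obj S) := contractible_realT S.tab
  have key : ∀ x : Ball n, ‖x.1‖ ^ 2 = 1 →
      ((realTDisc n).inv ≫ u).hom x = ((realTDisc n).inv ≫ v).hom x := by
    cases n with
    | zero =>
      intro x hx
      exfalso
      have h0 : x.1 = 0 := Subsingleton.elim _ _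
      rw [h0, norm_zero] at hx
      norm_num at hx
    | succ n =>
      apply eq_of_norm_sq_eq_one
      · have e := realT_face_inv false (Nat.lt_succ_self n)
        rw [ballData.face_succ] at e
        change ballData.st false n ≫ _ = ballData.st false n ≫ _
        rw [← Category.assoc, ← Category.assoc, ← e, Category.assoc, Category.assoc]
        exact congrArg _ h.1
      · have e := realT_face_inv true (Nat.lt_succ_self n)
        rw [ballData.face_succ] at e
        change ballData.st true n ≫ _ = ballData.st true n ≫ _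
        rw [← Category.assoc, ← Category.assoc, ← e, Category.assoc, Category.assoc]
        exact congrArg _ h.2
  obtain ⟨w, hw1, hw2⟩ := exists_ball_filler _ _ key
  refine ⟨(realTDisc (n + 1)).hom ≫ w, ?_, ?_⟩
  · have e := realT_face false (Nat.lt_succ_self n)
    rw [ballData.face_succ] at e
    rw [← Category.assoc]
    refine (congrArg (· ≫ w) e).trans ?_
    rw [Category.assoc]
    refine (congrArg ((realTDisc n).hom ≫ ·) hw1).trans ?_
    exact (realTDisc n).hom_inv_id_assoc u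
  · have e := realT_face true (Nat.lt_succ_self n)
    rw [ballData.face_succ] at e
    rw [← Category.assoc]
    refine (congrArg (· ≫ w) e).trans ?_
    rw [Category.assoc]
    refine (congrArg ((realTDisc n).hom ≫ ·) hw2).trans ?_
    exact (realTDisc n).hom_inv_id_assoc v

/-- A disc functor for a globular extension `C`: a functor from `C` to topological spaces which
preserves globular sums and sends the coglobular object of discs to the closed Euclidean balls,
with the two boundary hemispheres. -/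
structure DiscFunctor (C : GlobExt) where
  D : C.Obj ⥤ TopCat.{0}
  glue : PreservesGlue (C.J ⋙ D)
  disc : C.discF ⋙ D ≅ ballF

/-- Every coherator has a disc functor. -/
theorem exists_discFunctor {C : GlobExt} (T : GlobExt.Tower C) : Nonempty (DiscFunctor C) := by
  obtain ⟨D, hD⟩ := T.exists_functor realT realT_preservesGlue
    (fun _ u v h => exists_fill_realT u v h)
  refine ⟨⟨D, ?_, ?_⟩⟩
  · rw [hD]
    exact realT_preservesGlue
  · refine NatIso.ofComponents
      (fun X => (eqToIso hD).app (Theta0.disc X.dim) ≪≫ realTDisc X.dim) ?_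
    intro X Y f
    have h1 := (eqToIso hD).hom.naturality (Theta0.discMap f)
    have h2 := realT_discMap f
    change D.map (C.J.map (Theta0.discMap f)) ≫ ((eqToIso hD).hom.app (Theta0.disc Y.dim) ≫
      (realTDisc Y.dim).hom) = ((eqToIso hD).hom.app (Theta0.disc X.dim) ≫
      (realTDisc X.dim).hom) ≫ (ballData.mapHom f : ballData.obj X.dim ⟶ ballData.obj Y.dim)
    rw [← Category.assoc]
    refine (congrArg (· ≫ (realTDisc Y.dim).hom) h1).trans ?_
    rw [Category.assoc, Category.assoc]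
    exact congrArg _ h2

end Vale.Agent.P259
end
end

section

section

open CategoryTheory Limits Opposite

namespace Vale.Agent.P259

open Theta0

namespace GlobExt

variable {C : GlobExt}

/-- The presheaf of maps from a globular-sum-preserving functor is an `∞`-groupoid. -/
theorem isSegal_of_glue {𝓜 : Type 1} [Category.{0} 𝓜] (D : C.Obj ⥤ 𝓜)
    (hD : PreservesGlue (C.J ⋙ D)) (Y : 𝓜) : C.IsSegal (D.op ⋙ yoneda.obj Y) := by
  intro l t j i hl hi
  have h := (hD t j i hl hi).op.map (yoneda.obj Y)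
  exact h.flip

lemma isThin_top (X : C.Objᵒᵖ ⥤ Type) : C.IsThin ⊤ X := by
  intro k hk
  exact absurd hk (by simp)

end GlobExt

open GlobExt

/-- The fundamental `∞`-groupoid functor of a disc functor: `Π(Y) = Hom(D(-), Y)`. -/
noncomputable def DiscFunctor.Pi {C : GlobExt} (Δ : DiscFunctor C) : TopCat.{0} ⥤ C.Gpd where
  obj Y := ⟨Δ.D.op ⋙ yoneda.obj Y, isSegal_of_glue Δ.D Δ.glue Y, isThin_top _⟩
  map f := ⟨Functor.whiskerLeft Δ.D.op (yoneda.map f)⟩
  map_id X := by
    apply ObjectProperty.hom_ext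
    exact (congrArg (Functor.whiskerLeft Δ.D.op) (yoneda.map_id X)).trans (by rfl)
  map_comp f g := by
    apply ObjectProperty.hom_ext
    exact (congrArg (Functor.whiskerLeft Δ.D.op) (yoneda.map_comp f g)).trans (by rfl)

end Vale.Agent.P259
end
end

section

section

open CategoryTheory Limits Opposite

namespace Vale.Agent.P259

open Theta0 GlobExt

variable {C : GlobExt}

/-- Construction of a map of coglobular objects by recursion on the dimension, with control of
the restrictions to spheres (`P`) and of the components (`Q`). -/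
theorem exists_natTrans_rec {𝓜 : Type*} [Category* 𝓜] [HasPushouts 𝓜] [HasInitial 𝓜]
    {F G : Globe ⥤ 𝓜} (P : ∀ j, (sph F j ⟶ sph G j) → Prop)
    (Q : ∀ j, (cob F j ⟶ cob G j) → Prop) (h0 : ∀ β, P 0 β)
    (h1 : ∀ j β, P j β → ∃ w : cob F j ⟶ cob G j, bd F j ≫ w = β ≫ bd G j ∧ Q j w)
    (h2 : ∀ j w β', Q j w → hemS F j ≫ β' = w ≫ hemS G j → hemT F j ≫ β' = w ≫ hemT G j →
      P (j + 1) β') : ∃ α : F ⟶ G, ∀ j, Q j (α.app (Globe.D j)) := by
  classical
  -- the type of compatible pairs in dimension `j`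
  let S : ℕ → Type _ := fun j => {p : (sph F j ⟶ sph G j) × (cob F j ⟶ cob G j) //
    bd F j ≫ p.2 = p.1 ≫ bd G j ∧ Q j p.2}
  have step : ∀ j (p : S j), ∃ q : S (j + 1), hemS F j ≫ q.1.1 = p.1.2 ≫ hemS G j ∧
      hemT F j ≫ q.1.1 = p.1.2 ≫ hemT G j := by
    intro j p
    have hb : bd F j ≫ p.1.2 ≫ hemS G j = bd F j ≫ p.1.2 ≫ hemT G j := by
      rw [← Category.assoc, ← Category.assoc, p.2.1, Category.assoc, Category.assoc,
        (isPushout_sph G j).w]
    have e1 := hemS_sphDesc F (p.1.2 ≫ hemS G j) (p.1.2 ≫ hemT G j) hb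
    have e2 := hemT_sphDesc F (p.1.2 ≫ hemS G j) (p.1.2 ≫ hemT G j) hb
    obtain ⟨w, hw, hw'⟩ := h1 (j + 1) _ (h2 j p.1.2 _ p.2.2 e1 e2)
    exact ⟨⟨(_, w), hw, hw'⟩, e1, e2⟩
  obtain ⟨w0, hw0, hw0'⟩ := h1 0 ((isInitialSphZero F).to _) (h0 _)
  let s0 : S 0 := ⟨(_, w0), hw0, hw0'⟩
  let s : ∀ j, S j := fun j => Nat.rec s0 (fun j p => (step j p).choose) j
  have hs : ∀ j, hemS F j ≫ (s (j + 1)).1.1 = (s j).1.2 ≫ hemS G j ∧
      hemT F j ≫ (s (j + 1)).1.1 = (s j).1.2 ≫ hemT G j := fun j => (step j (s j)).choose_spec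
  refine ⟨Globe.natTrans (fun j => (s j).1.2) ?_ ?_, fun j => (s j).2.2⟩
  · intro j
    change sg F j ≫ _ = _ ≫ sg G j
    rw [← hemS_bd, Category.assoc, (s (j + 1)).2.1, ← Category.assoc, (hs j).1, Category.assoc,
      hemS_bd]
  · intro j
    change tg F j ≫ _ = _ ≫ tg G j
    rw [← hemT_bd, Category.assoc, (s (j + 1)).2.1, ← Category.assoc, (hs j).2, Category.assoc,
      hemT_bd]

/-- Cosource and cotarget maps are strictly natural: a map of coglobular objects out of the discs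
into a coglobular object with contractible values exists. -/
theorem exists_theta_disc (m : ℕ∞) (G : Globe ⥤ C.Md m)
    (hG : ∀ j, Contr (C.F m) (G.obj (Globe.D j))) : Nonempty (C.F m ⟶ G) := by
  obtain ⟨α, -⟩ := exists_natTrans_rec (F := C.F m) (G := G) (fun _ _ => True)
    (fun _ _ => True) (fun _ => trivial)
    (fun j β _ => by
      obtain ⟨w, hw⟩ := hG j j (β ≫ bd G j)
      exact ⟨w, hw, trivial⟩)
    (fun _ _ _ _ _ _ => trivial)
  exact ⟨α⟩

/-- Maps out of the coglobular cylinder with prescribed ends. -/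
theorem exists_zeta_disc {m : ℕ∞} (K : C.CylFun m 0) (G : Globe ⥤ C.Md m)
    (hG : ∀ j, Contr (C.F m) (G.obj (Globe.D j))) (a b : C.F m ⟶ G) :
    ∃ ζ : C.discF ⋙ K.Cy ⟶ G,
      (Functor.whiskerLeft C.discF K.im : C.F m ⟶ C.discF ⋙ K.Cy) ≫ ζ = a ∧
      (Functor.whiskerLeft C.discF K.ip : C.F m ⟶ C.discF ⋙ K.Cy) ≫ ζ = b := by
  obtain ⟨ζ, hζ⟩ := exists_natTrans_rec (F := C.discF ⋙ K.Cy) (G := G)
    (fun j β => sphMap K.imD j ≫ β = sphMap a j ∧ sphMap K.ipD j ≫ β = sphMap b j)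
    (fun j w => K.imD.app (Globe.D j) ≫ w = a.app (Globe.D j) ∧
      K.ipD.app (Globe.D j) ≫ w = b.app (Globe.D j))
    (fun β => ⟨sph_zero_hom_ext _ _ _, sph_zero_hom_ext _ _ _⟩)
    (fun j β hβ => by
      obtain ⟨c, hc1, hc2, hc3, -⟩ := K.extD j (terminal.from (G.obj (Globe.D j)))
        (GCtx.trivFib_terminal (hG j) terminalIsTerminal _) (β ≫ bd G j)
        (a.app (Globe.D j)) (b.app (Globe.D j)) (terminal.from _)
        (by rw [← Category.assoc, hβ.1, sphMap_bd])
        (by rw [← Category.assoc, hβ.2, sphMap_bd])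
        (terminal.hom_ext _ _) (terminal.hom_ext _ _) (terminal.hom_ext _ _)
      exact ⟨c, hc1, hc2, hc3⟩)
    (fun j w β' hw h1 h2 => by
      constructor
      · apply sph_hom_ext
        · rw [hemS_sphMap_assoc, h1, ← Category.assoc, hw.1, hemS_sphMap]
        · rw [hemT_sphMap_assoc, h2, ← Category.assoc, hw.1, hemT_sphMap]
      · apply sph_hom_ext
        · rw [hemS_sphMap_assoc, h1, ← Category.assoc, hw.2, hemS_sphMap]
        · rw [hemT_sphMap_assoc, h2, ← Category.assoc, hw.2, hemT_sphMap])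
  refine ⟨ζ, ?_, ?_⟩
  · apply NatTrans.ext
    funext X
    exact (hζ X.dim).1
  · apply NatTrans.ext
    funext X
    exact (hζ X.dim).2

/-- The functor `Globe ⥤ Θ₀`. -/
noncomputable def globeT : Globe ⥤ Theta0 where
  obj j := disc j.dim
  map f := discMap f
  map_id _ := Theta0.discMap_id _
  map_comp f g := (Theta0.discMap_comp f g).symm

/-- A functor on `Θ₀` which preserves globular sums is the extension of its restriction to the
discs. -/
noncomputable def extOfGlue {𝓜 : Type 1} [Category.{0} 𝓜] (L : Theta0 ⥤ 𝓜)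
    (hL : PreservesGlue L) : Ext0 (globeT ⋙ L) where
  L := L
  i _ := Iso.refl _
  nat _ := (Category.comp_id _).trans (Category.id_comp _).symm
  push t j k hl hk := hL t j k hl hk

/-- Uniqueness of the extension, on objects. -/
theorem hom_ext_of_glue {𝓜 : Type 1} [Category.{0} 𝓜] {L : Theta0 ⥤ 𝓜} (hL : PreservesGlue L)
    {S : Theta0} {X : 𝓜} {u v : L.obj S ⟶ X}
    (h : ∀ (j : ℕ) (ψ : disc j ⟶ S), L.map ψ ≫ u = L.map ψ ≫ v) : u = v := by
  refine (extOfGlue L hL).hom_ext (fun j ψ => ?_)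
  exact congrArg (fun x => 𝟙 (L.obj (disc j)) ≫ x) (h j ψ)

/-- A natural transformation defined on discs extends to all globular sums when the source
functor preserves globular sums. -/
theorem exists_extend {𝓜 : Type 1} [Category.{0} 𝓜] (L G : Theta0 ⥤ 𝓜) (hL : PreservesGlue L)
    (α : globeT ⋙ L ⟶ globeT ⋙ G) :
    ∃ β : L ⟶ G, Functor.whiskerLeft globeT β = α := by
  obtain ⟨αd, hα, αn⟩ : ∃ αd : ∀ j, L.obj (disc j) ⟶ G.obj (disc j),
      (∀ j, αd j = α.app (Globe.D j)) ∧ ∀ {a b : ℕ} (f : Globe.D a ⟶ Globe.D b),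
        L.map (discMap f) ≫ αd b = αd a ≫ G.map (discMap f) :=
    ⟨fun j => α.app (Globe.D j), fun _ => rfl, fun f => α.naturality f⟩
  have key : ∀ S : Theta0, ∃ u : L.obj S ⟶ G.obj S, ∀ (j : ℕ) (ψ : disc j ⟶ S),
      L.map ψ ≫ u = αd j ≫ G.map ψ := by
    intro S
    obtain ⟨u, hu⟩ := (extOfGlue L hL).exists_desc S (G.obj S)
      (fun j ψ => αd j ≫ G.map ψ) (fun {a b} f ψ =>
        (Category.assoc _ _ _).symm.trans ((congrArg (· ≫ G.map ψ) (αn f)).trans
          ((Category.assoc _ _ _).trans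
            (congrArg (αd a ≫ ·) (G.map_comp (discMap f) ψ).symm))))
    refine ⟨u, fun j ψ => ?_⟩
    exact (Category.id_comp _).symm.trans (hu j ψ)
  choose u hu using key
  refine ⟨{ app := u, naturality := ?_ }, ?_⟩
  · intro S T θ
    apply hom_ext_of_glue hL
    intro j ψ
    rw [← Category.assoc, ← L.map_comp, hu, ← Category.assoc, hu, Category.assoc, G.map_comp]
  · apply NatTrans.ext
    funext X
    have h := hu (disc X.dim) X.dim (𝟙 _)
    rw [L.map_id, G.map_id, Category.comp_id, Category.id_comp] at h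
    exact h.trans (hα X.dim)

/-- Uniqueness of the extension. -/
theorem ext_of_disc {𝓜 : Type 1} [Category.{0} 𝓜] {L G : Theta0 ⥤ 𝓜} (hL : PreservesGlue L)
    {β β' : L ⟶ G} (h : ∀ n, β.app (disc n) = β'.app (disc n)) : β = β' := by
  apply NatTrans.ext
  funext S
  apply hom_ext_of_glue hL
  intro j ψ
  rw [β.naturality, β'.naturality, h]

lemma cof_of_isPushout' {𝓜 : Type*} [Category* 𝓜] [HasPushouts 𝓜] [HasInitial 𝓜]
    {F : Globe ⥤ 𝓜} {A B D E : 𝓜} {f : A ⟶ B} {g : A ⟶ D} {p : B ⟶ E} {q : D ⟶ E}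
    (h : IsPushout f g p q) (hg : Cof F g) : Cof F p :=
  MorphismProperty.of_isPushout h hg

lemma cof_initial_of_comp {𝓜 : Type*} [Category* 𝓜] [HasPushouts 𝓜] [HasInitial 𝓜]
    {F : Globe ⥤ 𝓜} {A B : 𝓜} (f : A ⟶ B) (g : ⊥_ 𝓜 ⟶ B) (e : g = initial.to A ≫ f)
    (hA : Cof F (initial.to A)) (hf : Cof F f) : Cof F g := by
  rw [e]
  exact MorphismProperty.comp_mem _ _ _ hA hf

/-- The representable objects are cofibrant. -/
theorem GlobExt.isCof_y (m : ℕ∞) (S : C.Obj) : Cof (C.F m) (initial.to ((C.y m).obj S)) := by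
  obtain ⟨S⟩ := S
  induction S using Theta0.induction' with
  | disc i => exact GCtx.cof_disc (C.F m) i
  | glue t j i hl hi ih =>
    have hf : Cof (C.F m) ((C.F m).map (Globe.face false hi)) := by
      clear ih
      induction i with
      | zero => omega
      | succ i ihi =>
        rcases Nat.lt_succ_iff_lt_or_eq.mp hi with h' | rfl
        · have e : Globe.face false hi = Globe.face false h' ≫ Globe.σ i := by
            rw [Globe.face_comp_face]
          rw [e, (C.F m).map_comp]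
          exact MorphismProperty.comp_mem _ _ _ (ihi h') (GCtx.cof_sg _ _)
        · exact GCtx.cof_sg _ _
    have h1 : Cof (C.F m) ((C.y m).map (C.J.map (inl t j i hl hi))) :=
      cof_of_isPushout' (C.y_isPushout m t j i hl hi) hf
    exact cof_initial_of_comp _ _ (initial.hom_ext _ _) ih h1

/-- Both ends of a cylinder on a globular sum are anodyne. -/
theorem GlobExt.CylFun.im_an (hC : C.IsCoherator) (K : C.CylFun ⊤ 0) (S : C.Obj) :
    AN (C.F ⊤) 0 (K.im.app S) := by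
  intro X Y f hf
  refine ⟨fun {u v} sq => ?_⟩
  have w : K.pmX X ≫ f = K.P.map f ≫ K.pmX Y := (K.pmX_naturality f).symm
  have hcond : u ≫ f = ((K.PEquiv S Y).symm v) ≫ K.pmX Y := by
    rw [sq.w]
    exact ((K.comp_pm _).trans (by rw [Equiv.apply_symm_apply])).symm
  obtain ⟨l, -, hl⟩ := GCtx.lift_of_llp (GlobExt.isCof_y ⊤ S) (K.corner_trivFib f hf w)
    (initial.to _) (pullback.lift u ((K.PEquiv S Y).symm v) hcond) (initial.hom_ext _ _)
  have h1 : l ≫ K.pmX X = u := by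
    have := congrArg (fun z => z ≫ pullback.fst f (K.pmX Y)) hl
    simpa only [Category.assoc, pullback.lift_fst] using this
  have h2 : l ≫ K.P.map f = (K.PEquiv S Y).symm v := by
    have := congrArg (fun z => z ≫ pullback.snd f (K.pmX Y)) hl
    simpa only [Category.assoc, pullback.lift_snd] using this
  refine ⟨⟨{ l := K.PEquiv S X l, fac_left := ?_, fac_right := ?_ }⟩⟩
  · exact (K.comp_pm l).symm.trans h1
  · rw [← K.PEquiv_naturality_right, h2, Equiv.apply_symm_apply]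

/-- For a fibration `f : X ⟶ Y`, the corner map `P X ⟶ X ×_Y P Y` at the target end is a trivial
fibration. -/
theorem GlobExt.CylFun.corner_trivFib_ip (hC : C.IsCoherator) {m : ℕ∞} (K : C.CylFun m 0)
    {X Y : C.Md m} (f : X ⟶ Y) (hf : Fib (C.F m) 0 f)
    (w : K.ppX X ≫ f = K.P.map f ≫ K.ppX Y) :
    TrivFib (C.F m) (pullback.lift (K.ppX X) (K.P.map f) w :
      K.P.obj X ⟶ pullback f (K.ppX Y)) := by
  refine GCtx.trivFib_of_lift fun j u b h => ?_
  have h1 : u ≫ K.ppX X = bd (C.F m) j ≫ b ≫ pullback.fst f (K.ppX Y) := by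
    rw [← Category.assoc, ← h, Category.assoc, pullback.lift_fst]
  have h2 : u ≫ K.P.map f = bd (C.F m) j ≫ b ≫ pullback.snd f (K.ppX Y) := by
    rw [← Category.assoc, ← h, Category.assoc, pullback.lift_snd]
  obtain ⟨β, hβ, -, hβ1⟩ := K.exists_sphT' X j u
  obtain ⟨c, hc1, hc2, hc3⟩ := K.corner_ip hC (K.an_sphMap_ip hC j) f hf β
    (b ≫ pullback.fst f (K.ppX Y))
    (K.pq Y j (b ≫ pullback.snd f (K.ppX Y))) (hβ1.trans h1) ((hβ Y f _).1 h2.symm) (by
      rw [← K.comp_ppX, Category.assoc, Category.assoc, pullback.condition])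
  have hH : ((K.pq X j).symm c) ≫ K.P.map f = b ≫ pullback.snd f (K.ppX Y) := by
    apply (K.pq Y j).injective
    rw [K.pq_natural, Equiv.apply_symm_apply, hc3]
  refine ⟨(K.pq X j).symm c, ?_, ?_⟩
  · have := hβ X (𝟙 X)
    simp only [K.P.map_id, Category.comp_id] at this
    rw [this, Equiv.apply_symm_apply, hc1]
  · apply pullback.hom_ext
    · rw [Category.assoc, pullback.lift_fst, K.comp_ppX, Equiv.apply_symm_apply]
      exact hc2
    · rw [Category.assoc, pullback.lift_snd, hH]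

theorem GlobExt.CylFun.ip_an (hC : C.IsCoherator) (K : C.CylFun ⊤ 0) (S : C.Obj) :
    AN (C.F ⊤) 0 (K.ip.app S) := by
  intro X Y f hf
  refine ⟨fun {u v} sq => ?_⟩
  have w : K.ppX X ≫ f = K.P.map f ≫ K.ppX Y := (K.ppX_naturality f).symm
  have hcond : u ≫ f = ((K.PEquiv S Y).symm v) ≫ K.ppX Y := by
    rw [sq.w]
    exact ((K.comp_pp _).trans (by rw [Equiv.apply_symm_apply])).symm
  obtain ⟨l, -, hl⟩ := GCtx.lift_of_llp (GlobExt.isCof_y ⊤ S) (K.corner_trivFib_ip hC f hf w)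
    (initial.to _) (pullback.lift u ((K.PEquiv S Y).symm v) hcond) (initial.hom_ext _ _)
  have h1 : l ≫ K.ppX X = u := by
    have := congrArg (fun z => z ≫ pullback.fst f (K.ppX Y)) hl
    simpa only [Category.assoc, pullback.lift_fst] using this
  have h2 : l ≫ K.P.map f = (K.PEquiv S Y).symm v := by
    have := congrArg (fun z => z ≫ pullback.snd f (K.ppX Y)) hl
    simpa only [Category.assoc, pullback.lift_snd] using this
  refine ⟨⟨{ l := K.PEquiv S X l, fac_left := ?_, fac_right := ?_ }⟩⟩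
  · exact (K.comp_pp l).symm.trans h1
  · rw [← K.PEquiv_naturality_right, h2, Equiv.apply_symm_apply]

/-- Cells of `Π(Y)`. -/
noncomputable def DiscFunctor.piEquiv (Δ : DiscFunctor C) (S : C.Obj) (Y : TopCat.{0}) :
    ((C.y ⊤).obj S ⟶ Δ.Pi.obj Y) ≃ (Δ.D.obj S ⟶ Y) :=
  yEquiv S (Δ.Pi.obj Y)

lemma DiscFunctor.piEquiv_left (Δ : DiscFunctor C) {S T : C.Obj} (φ : S ⟶ T) {Y : TopCat.{0}}
    (f : (C.y ⊤).obj T ⟶ Δ.Pi.obj Y) :
    Δ.piEquiv S Y ((C.y ⊤).map φ ≫ f) = Δ.D.map φ ≫ Δ.piEquiv T Y f :=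
  yEquiv_naturality_left φ f

lemma DiscFunctor.piEquiv_right (Δ : DiscFunctor C) {S : C.Obj} {Y Z : TopCat.{0}}
    (f : (C.y ⊤).obj S ⟶ Δ.Pi.obj Y) (g : Y ⟶ Z) :
    Δ.piEquiv S Z (f ≫ Δ.Pi.map g) = Δ.piEquiv S Y f ≫ g :=
  yEquiv_naturality_right f (Δ.Pi.map g)

/-- The canonical map `y S ⟶ Π(D(S))`. -/
noncomputable def DiscFunctor.can (Δ : DiscFunctor C) : C.y ⊤ ⟶ Δ.D ⋙ Δ.Pi where
  app S := (yEquiv S (Δ.Pi.obj (Δ.D.obj S))).symm (𝟙 (Δ.D.obj S))
  naturality S T f := by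
    apply (Δ.piEquiv S (Δ.D.obj T)).injective
    have h1 : Δ.piEquiv S (Δ.D.obj T) ((C.y ⊤).map f ≫
        (Δ.piEquiv T (Δ.D.obj T)).symm (𝟙 (Δ.D.obj T))) = Δ.D.map f := by
      rw [Δ.piEquiv_left, Equiv.apply_symm_apply, Category.comp_id]
    have h2 : Δ.piEquiv S (Δ.D.obj T) ((Δ.piEquiv S (Δ.D.obj S)).symm (𝟙 (Δ.D.obj S)) ≫
        Δ.Pi.map (Δ.D.map f)) = Δ.D.map f := by
      rw [Δ.piEquiv_right, Equiv.apply_symm_apply, Category.id_comp]
    exact h1.trans h2.symm

/-- The realization of a disc. -/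
noncomputable def DiscFunctor.discIso (Δ : DiscFunctor C) (n : ℕ) :
    Δ.D.obj (C.discF.obj (Globe.D n)) ≅ ballData.obj n :=
  Δ.disc.app (Globe.D n)

lemma DiscFunctor.discIso_face (Δ : DiscFunctor C) (b : Bool) {n m : ℕ} (h : n < m) :
    Δ.D.map (C.discF.map (Globe.face b h)) ≫ (Δ.discIso m).hom =
      (Δ.discIso n).hom ≫ ballData.face b h :=
  Δ.disc.hom.naturality (Globe.face b h)

lemma DiscFunctor.discIso_face_inv (Δ : DiscFunctor C) (b : Bool) {n m : ℕ} (h : n < m) :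
    (Δ.discIso n).inv ≫ Δ.D.map (C.discF.map (Globe.face b h)) =
      ballData.face b h ≫ (Δ.discIso m).inv := by
  rw [Iso.inv_comp_eq, ← Category.assoc, Iso.eq_comp_inv]
  exact Δ.discIso_face b h

theorem DiscFunctor.contractible (Δ : DiscFunctor C) (S : C.Obj) :
    ContractibleSpace (Δ.D.obj S) := by
  obtain ⟨S⟩ := S
  induction S using Theta0.induction' with
  | disc i =>
    have : ContractibleSpace (ballData.obj i) :=
      (convex_closedBall (0 : EuclideanSpace ℝ (Fin i)) 1).contractibleSpace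
        ⟨0, by simp⟩
    exact (TopCat.homeoOfIso (Δ.discIso i)).contractibleSpace
  | glue t j i hl hi ih =>
    obtain ⟨r, hr⟩ := exists_ball_retraction hi
    have : ContractibleSpace ((C.J ⋙ Δ.D).obj ⟨t⟩) := ih
    exact contractible_pushout (Δ.glue t j i hl hi)
      (IsSDR.of_iso (Δ.discIso j) (Δ.discIso i) (Δ.discIso_face false hi)
        (isSDR_of_retraction _ r hr))

/-- Cells of `Π(Y)`. -/
noncomputable def DiscFunctor.dEquiv (Δ : DiscFunctor C) (n : ℕ) (Y : TopCat.{0}) :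
    (cob (C.F ⊤) n ⟶ Δ.Pi.obj Y) ≃ (Δ.D.obj (C.discF.obj (Globe.D n)) ⟶ Y) :=
  Δ.piEquiv (C.discF.obj (Globe.D n)) Y

lemma DiscFunctor.dEquiv_map (Δ : DiscFunctor C) {n m : ℕ} (φ : Globe.D n ⟶ Globe.D m)
    {Y : TopCat.{0}} (x : cob (C.F ⊤) m ⟶ Δ.Pi.obj Y) :
    Δ.dEquiv n Y ((C.F ⊤).map φ ≫ x) = Δ.D.map (C.discF.map φ) ≫ Δ.dEquiv m Y x :=
  Δ.piEquiv_left (C.discF.map φ) x

/-- Cells of `Π(Y)`, as maps from balls to `Y`. -/
noncomputable def DiscFunctor.cellEquiv (Δ : DiscFunctor C) (n : ℕ) (Y : TopCat.{0}) :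
    (cob (C.F ⊤) n ⟶ Δ.Pi.obj Y) ≃ (ballData.obj n ⟶ Y) :=
  (Δ.dEquiv n Y).trans ((Δ.discIso n).homFromEquiv)

lemma DiscFunctor.cellEquiv_apply (Δ : DiscFunctor C) {n : ℕ} {Y : TopCat.{0}}
    (x : cob (C.F ⊤) n ⟶ Δ.Pi.obj Y) :
    Δ.cellEquiv n Y x = (Δ.discIso n).inv ≫ Δ.dEquiv n Y x := rfl

lemma DiscFunctor.cellEquiv_face (Δ : DiscFunctor C) (b : Bool) {n m : ℕ} (h : n < m)
    {Y : TopCat.{0}} (x : cob (C.F ⊤) m ⟶ Δ.Pi.obj Y) :
    Δ.cellEquiv n Y ((C.F ⊤).map (Globe.face b h) ≫ x) =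
      ballData.face b h ≫ Δ.cellEquiv m Y x := by
  rw [Δ.cellEquiv_apply, Δ.cellEquiv_apply, Δ.dEquiv_map, ← Category.assoc, Δ.discIso_face_inv,
    Category.assoc]

lemma DiscFunctor.cellEquiv_sg (Δ : DiscFunctor C) {n : ℕ} {Y : TopCat.{0}}
    (x : cob (C.F ⊤) (n + 1) ⟶ Δ.Pi.obj Y) :
    Δ.cellEquiv n Y (sg (C.F ⊤) n ≫ x) = ballData.s n ≫ Δ.cellEquiv (n + 1) Y x := by
  have h := Δ.cellEquiv_face false (Nat.lt_succ_self n) x
  rwa [ballData.face_succ] at h

lemma DiscFunctor.cellEquiv_tg (Δ : DiscFunctor C) {n : ℕ} {Y : TopCat.{0}}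
    (x : cob (C.F ⊤) (n + 1) ⟶ Δ.Pi.obj Y) :
    Δ.cellEquiv n Y (tg (C.F ⊤) n ≫ x) = ballData.t n ≫ Δ.cellEquiv (n + 1) Y x := by
  have h := Δ.cellEquiv_face true (Nat.lt_succ_self n) x
  rwa [ballData.face_succ] at h

/-- Parallel cells of `Π(Y)` are maps of balls which agree on the boundary. -/
lemma DiscFunctor.eq_of_parallel (Δ : DiscFunctor C) {n : ℕ} {Y : TopCat.{0}}
    (u v : cob (C.F ⊤) n ⟶ Δ.Pi.obj Y) (h : bd (C.F ⊤) n ≫ u = bd (C.F ⊤) n ≫ v)
    (x : Ball n) (hx : ‖x.1‖ ^ 2 = 1) :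
    (Δ.cellEquiv n Y u).hom x = (Δ.cellEquiv n Y v).hom x := by
  cases n with
  | zero =>
    exfalso
    have h0 : x.1 = 0 := Subsingleton.elim _ _
    rw [h0, norm_zero] at hx
    norm_num at hx
  | succ n =>
    rw [bd_comp_eq_iff] at h
    refine eq_of_norm_sq_eq_one _ _ ?_ ?_ x hx
    · rw [← Δ.cellEquiv_sg, ← Δ.cellEquiv_sg, h.1]
    · rw [← Δ.cellEquiv_tg, ← Δ.cellEquiv_tg, h.2]

/-- The discs of a disc functor have contractible fundamental `∞`-groupoids. -/
theorem DiscFunctor.contr_Pi (Δ : DiscFunctor C) (Y : TopCat.{0}) [ContractibleSpace Y] :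
    Contr (C.F ⊤) (Δ.Pi.obj Y) := by
  intro j β
  cases j with
  | zero =>
    let y : Y := Classical.arbitrary Y
    exact ⟨(Δ.cellEquiv 0 Y).symm (TopCat.ofHom (ContinuousMap.const _ y)),
      sph_zero_hom_ext _ _ _⟩
  | succ j =>
    have hpar : bd (C.F ⊤) j ≫ hemS (C.F ⊤) j ≫ β = bd (C.F ⊤) j ≫ hemT (C.F ⊤) j ≫ β := by
      rw [← Category.assoc, (isPushout_sph (C.F ⊤) j).w, Category.assoc]
    obtain ⟨w, hw1, hw2⟩ := exists_ball_filler (Δ.cellEquiv j Y (hemS (C.F ⊤) j ≫ β))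
      (Δ.cellEquiv j Y (hemT (C.F ⊤) j ≫ β)) (fun x hx => Δ.eq_of_parallel _ _ hpar x hx)
    refine ⟨(Δ.cellEquiv (j + 1) Y).symm w, ?_⟩
    apply sph_hom_ext
    · apply (Δ.cellEquiv j Y).injective
      rw [hemS_bd_assoc, Δ.cellEquiv_sg, Equiv.apply_symm_apply, hw1]
    · apply (Δ.cellEquiv j Y).injective
      rw [hemT_bd_assoc, Δ.cellEquiv_tg, Equiv.apply_symm_apply, hw2]

end Vale.Agent.P259
end
end

section

section

open CategoryTheory Limits

namespace Vale.Agent.P259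

universe v u

/-- Solutions of lifting problems. -/
lemma exists_lift_of {𝓒 : Type u} [Category.{v} 𝓒] {A B X Y : 𝓒} {i : A ⟶ B} {p : X ⟶ Y}
    (h : HasLiftingProperty i p) (u : A ⟶ X) (w : B ⟶ Y) (sq : u ≫ p = i ≫ w) :
    ∃ l : B ⟶ X, i ≫ l = u ∧ l ≫ p = w := by
  have s : CommSq u i p w := ⟨sq⟩
  exact ⟨s.lift, s.fac_left, s.fac_right⟩

lemma hasLift_of_exists {𝓒 : Type u} [Category.{v} 𝓒] {A B X Y : 𝓒} {i : A ⟶ B} {p : X ⟶ Y}
    (h : ∀ (u : A ⟶ X) (w : B ⟶ Y), u ≫ p = i ≫ w → ∃ l : B ⟶ X, i ≫ l = u ∧ l ≫ p = w) :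
    HasLiftingProperty i p :=
  ⟨fun {u w} sq => by
    obtain ⟨l, h1, h2⟩ := h u w sq.w
    exact ⟨⟨⟨l, h1, h2⟩⟩⟩⟩

namespace PathCtx

variable {𝓜 : Type u} [Category.{v} 𝓜] [HasLimits 𝓜] [HasColimits 𝓜] (K : PathCtx 𝓜)

variable {K}

lemma an_lift {A B X Y : 𝓜} {i : A ⟶ B} {p : X ⟶ Y} (hi : AN K.F 0 i) (hp : Fib K.F 0 p)
    (u : A ⟶ X) (w : B ⟶ Y) (sq : u ≫ p = i ≫ w) : ∃ l : B ⟶ X, i ≫ l = u ∧ l ≫ p = w :=
  exists_lift_of (hi p hp) u w sq

lemma cof_lift {A B X Y : 𝓜} {i : A ⟶ B} {p : X ⟶ Y} (hi : Cof K.F i) (hp : TrivFib K.F p)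
    (u : A ⟶ X) (w : B ⟶ Y) (sq : u ≫ p = i ≫ w) : ∃ l : B ⟶ X, i ≫ l = u ∧ l ≫ p = w :=
  exists_lift_of (hi p hp) u w sq

/-- Extension of maps along anodyne maps. -/
lemma an_ext {A B X : 𝓜} {i : A ⟶ B} (hi : AN K.F 0 i) (u : A ⟶ X) :
    ∃ l : B ⟶ X, i ≫ l = u := by
  obtain ⟨l, h, -⟩ := an_lift hi (K.fib_terminal X) u (terminal.from B) (by
    apply terminal.hom_ext)
  exact ⟨l, h⟩

/-- Lifting maps from cofibrant objects along trivial fibrations. -/
lemma cof_obj_lift {B X Y : 𝓜} (hB : K.IsCof B) {p : X ⟶ Y} (hp : TrivFib K.F p) (w : B ⟶ Y) :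
    ∃ l : B ⟶ X, l ≫ p = w := by
  obtain ⟨l, -, h⟩ := cof_lift hB hp (initial.to X) w (by apply initial.hom_ext)
  exact ⟨l, h⟩

/-- Extension of homotopies along anodyne maps, with prescribed ends. -/
lemma an_path {A B Y : 𝓜} {i : A ⟶ B} (hi : AN K.F 0 i) (h : A ⟶ K.P.obj Y) (a b : B ⟶ Y)
    (h1 : h ≫ K.pm.app Y = i ≫ a) (h2 : h ≫ K.pp.app Y = i ≫ b) :
    ∃ H : B ⟶ K.P.obj Y, i ≫ H = h ∧ H ≫ K.pm.app Y = a ∧ H ≫ K.pp.app Y = b := by
  have e1 : prod.lift (K.pm.app Y) (K.pp.app Y) ≫ (prod.fst : Y ⨯ Y ⟶ Y) = K.pm.app Y :=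
    prod.lift_fst _ _
  have e2 : prod.lift (K.pm.app Y) (K.pp.app Y) ≫ (prod.snd : Y ⨯ Y ⟶ Y) = K.pp.app Y :=
    prod.lift_snd _ _
  obtain ⟨H, hH1, hH2⟩ := an_lift hi (K.fib Y) h (prod.lift a b) (by
    apply prod.hom_ext
    · erw [Category.assoc, e1, Category.assoc, prod.lift_fst, h1]
    · erw [Category.assoc, e2, Category.assoc, prod.lift_snd, h2])
  refine ⟨H, hH1, ?_, ?_⟩
  · rw [← e1, ← Category.assoc]
    erw [hH2]
    exact prod.lift_fst _ _
  · rw [← e2, ← Category.assoc]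
    erw [hH2]
    exact prod.lift_snd _ _

lemma Cof.comp {A B C : 𝓜} {f : A ⟶ B} {g : B ⟶ C} (hf : Cof K.F f) (hg : Cof K.F g) :
    Cof K.F (f ≫ g) :=
  MorphismProperty.comp_mem _ _ _ hf hg

lemma AN.comp {A B C : 𝓜} {f : A ⟶ B} {g : B ⟶ C} (hf : AN K.F 0 f) (hg : AN K.F 0 g) :
    AN K.F 0 (f ≫ g) :=
  MorphismProperty.comp_mem _ _ _ hf hg

lemma Cof.cobase {A B X Y : 𝓜} {i : A ⟶ B} {f : A ⟶ X} {g : B ⟶ Y} {j : X ⟶ Y}
    (sq : IsPushout i f g j) (hi : Cof K.F i) : Cof K.F j :=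
  MorphismProperty.of_isPushout (P := Cof K.F) sq.flip hi

lemma AN.cobase {A B X Y : 𝓜} {i : A ⟶ B} {f : A ⟶ X} {g : B ⟶ Y} {j : X ⟶ Y}
    (sq : IsPushout i f g j) (hi : AN K.F 0 i) : AN K.F 0 j :=
  MorphismProperty.of_isPushout (P := AN K.F 0) sq.flip hi

lemma isCof_of_cof {X Y : 𝓜} {f : X ⟶ Y} (hX : K.IsCof X) (hf : Cof K.F f) : K.IsCof Y := by
  unfold IsCof
  rw [show initial.to Y = initial.to X ≫ f from initial.hom_ext _ _]
  exact Cof.comp hX hf

lemma W.comp {A B C : 𝓜} {f : A ⟶ B} {g : B ⟶ C} (hf : K.W f) (hg : K.W g) : K.W (f ≫ g) :=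
  MorphismProperty.comp_mem _ _ _ hf hg

lemma W.id (A : 𝓜) : K.W (𝟙 A) := MorphismProperty.id_mem _ _

lemma W.of_comp {A B C : 𝓜} {f : A ⟶ B} {g : B ⟶ C} (hf : K.W f) (h : K.W (f ≫ g)) : K.W g :=
  MorphismProperty.of_precomp _ _ _ hf h

lemma W.of_comp' {A B C : 𝓜} {f : A ⟶ B} {g : B ⟶ C} (hg : K.W g) (h : K.W (f ≫ g)) : K.W f :=
  MorphismProperty.of_postcomp _ _ _ hg h

variable (K)

theorem trivFib_iff {X Y : 𝓜} (f : X ⟶ Y) : TrivFib K.F f ↔ Fib K.F 0 f ∧ K.W f := by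
  constructor
  · intro h
    exact ⟨K.trivFib_le_fib _ h, K.trivFib_le_W _ h⟩
  · rintro ⟨hf, hW⟩
    rw [W_iff_exists] at hW
    intro A B g hg
    obtain ⟨j⟩ := hg
    apply hasLift_of_exists
    intro β w sq
    obtain ⟨w', hw', ω, hω, hω'⟩ := hW j β w sq.symm
    obtain ⟨l, hl, hl'⟩ := an_lift (AN.sg K.F (Nat.zero_le j)) hf w' ω hω.symm
    refine ⟨tg K.F j ≫ l, ?_, ?_⟩
    · rw [← Category.assoc, ← bd_sg, Category.assoc, hl, hw']
    · rw [Category.assoc, hl', hω']

/-- Anodyne maps with cofibrant source are weak equivalences (the pushout lemma). -/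
theorem W_of_AN {X Y : 𝓜} (f : X ⟶ Y) (hX : K.IsCof X) (hf : AN K.F 0 f) : K.W f := by
  obtain ⟨r, hr⟩ := an_ext hf (𝟙 X)
  obtain ⟨h, hh⟩ := cof_obj_lift hX (K.pp_triv Y) f
  obtain ⟨H, -, e1, e2⟩ := an_path hf h (r ≫ h ≫ K.pm.app Y) (𝟙 Y)
    (by rw [← Category.assoc f, hr, Category.id_comp]) (by rw [hh, Category.comp_id])
  have w1 : K.W (r ≫ h ≫ K.pm.app Y) := by
    rw [← e1, K.W_iff_of_homotopy, e2]
    exact W.id _
  have w2 : K.W (r ≫ f) := by
    have := (K.W_iff_of_homotopy (r ≫ h)).1 (by rw [Category.assoc]; exact w1)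
    rw [Category.assoc, hh] at this
    exact this
  exact (K.two_of_six f r f (by rw [hr]; exact W.id _) w2).1

/-- Trivial cofibrations with cofibrant source are anodyne. -/
theorem AN_iff {X Y : 𝓜} (f : X ⟶ Y) (hX : K.IsCof X) : AN K.F 0 f ↔ Cof K.F f ∧ K.W f := by
  constructor
  · intro h
    exact ⟨K.AN_le_Cof _ h, K.W_of_AN f hX h⟩
  · rintro ⟨hc, hW⟩
    obtain ⟨Z, i, p, hi, hp, fac⟩ := K.fact_an f
    have hip : K.W p := by
      apply W.of_comp (K.W_of_AN i hX hi)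
      rw [fac]
      exact hW
    have hp' : TrivFib K.F p := (K.trivFib_iff p).2 ⟨hp, hip⟩
    have := hc p hp'
    exact MorphismProperty.of_retract (P := AN K.F 0)
      (RetractArrow.ofLeftLiftingProperty fac) hi

theorem W_terminal_iff (X : 𝓜) : K.W (terminal.from X) ↔ Contr K.F X := by
  rw [contr_iff_trivFib, trivFib_iff]
  exact ⟨fun h => ⟨K.fib_terminal X, h⟩, fun h => h.2⟩

theorem W_of_contr {X Y : 𝓜} (f : X ⟶ Y) (hX : Contr K.F X) (hY : Contr K.F Y) : K.W f := by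
  apply W.of_comp' ((K.W_terminal_iff Y).2 hY)
  rw [show f ≫ terminal.from Y = terminal.from X from terminal.hom_ext _ _]
  exact (K.W_terminal_iff X).2 hX

theorem contr_of_W {X Y : 𝓜} (f : X ⟶ Y) (hX : Contr K.F X) (hf : K.W f) : Contr K.F Y := by
  rw [← W_terminal_iff]
  apply W.of_comp hf
  rw [show f ≫ terminal.from Y = terminal.from X from terminal.hom_ext _ _]
  exact (K.W_terminal_iff X).2 hX

theorem contr_of_W' {X Y : 𝓜} (f : X ⟶ Y) (hY : Contr K.F Y) (hf : K.W f) : Contr K.F X := by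
  rw [← W_terminal_iff]
  rw [show terminal.from X = f ≫ terminal.from Y from terminal.hom_ext _ _]
  exact W.comp hf ((K.W_terminal_iff Y).2 hY)

variable {K}

/-- The relative Brown factorization. -/
lemma exists_brown {A B₁ B₂ : 𝓜} (i₁ : A ⟶ B₁) (i₂ : A ⟶ B₂) (w : B₁ ⟶ B₂)
    (hw : i₁ ≫ w = i₂) (h1 : Cof K.F i₁) (h2 : Cof K.F i₂) (hB : K.IsCof B₂) :
    ∃ (Z : 𝓜) (a : B₁ ⟶ Z) (s : B₂ ⟶ Z) (p : Z ⟶ B₂), Cof K.F a ∧ AN K.F 0 s ∧
      TrivFib K.F p ∧ a ≫ p = w ∧ s ≫ p = 𝟙 B₂ ∧ i₁ ≫ a = i₂ ≫ s := by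
  have sq := IsPushout.of_hasPushout i₁ i₂
  obtain ⟨Z, e, p, he, hp, fac⟩ := K.fact_cof (pushout.desc w (𝟙 B₂)
    (by rw [hw, Category.comp_id]) : pushout i₁ i₂ ⟶ B₂)
  have e1 : (pushout.inl i₁ i₂ ≫ e) ≫ p = w := by
    rw [Category.assoc, fac, pushout.inl_desc]
  have e2 : (pushout.inr i₁ i₂ ≫ e) ≫ p = 𝟙 B₂ := by
    rw [Category.assoc, fac, pushout.inr_desc]
  have c2 : Cof K.F (pushout.inr i₁ i₂ ≫ e) := Cof.comp (Cof.cobase sq h1) he
  refine ⟨Z, pushout.inl i₁ i₂ ≫ e, pushout.inr i₁ i₂ ≫ e, p,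
    Cof.comp (Cof.cobase sq.flip h2) he, (K.AN_iff _ hB).2 ⟨c2, ?_⟩, hp, e1, e2, ?_⟩
  · apply W.of_comp' (K.trivFib_le_W _ hp)
    rw [e2]
    exact W.id _
  · rw [← Category.assoc, sq.w, Category.assoc]

/-- Cylinders for a cofibration `j : Z ⟶ C`. -/
lemma exists_cyl_pair {Z C : 𝓜} (hZ : K.IsCof Z) {j : Z ⟶ C} (hj : Cof K.F j) :
    ∃ (CZ CC : 𝓜) (i₀ i₁ : Z ⟶ CZ) (r : CZ ⟶ Z) (J₀ J₁ : C ⟶ CC) (l : CZ ⟶ CC),
      Cof K.F (coprod.desc i₀ i₁) ∧ TrivFib K.F r ∧ i₀ ≫ r = 𝟙 Z ∧ i₁ ≫ r = 𝟙 Z ∧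
      AN K.F 0 i₀ ∧ AN K.F 0 i₁ ∧ K.W J₀ ∧ K.W J₁ ∧ j ≫ J₀ = i₀ ≫ l ∧ j ≫ J₁ = i₁ ≫ l ∧
      (∀ ⦃P : 𝓜⦄ (a : CZ ⟶ P) (b : C ⟶ P) (m : P ⟶ CC), IsPushout i₀ j a b → a ≫ m = l →
        b ≫ m = J₀ → AN K.F 0 m) ∧
      (∀ ⦃P : 𝓜⦄ (a : CZ ⟶ P) (b : C ⟶ P) (m : P ⟶ CC), IsPushout i₁ j a b → a ≫ m = l →
        b ≫ m = J₁ → AN K.F 0 m) := by
  have hC : K.IsCof C := isCof_of_cof hZ hj
  obtain ⟨CZ, c, r, hc, hr, fac⟩ := K.fact_cof (coprod.desc (𝟙 Z) (𝟙 Z))
  have sqZ := IsPushout.of_hasBinaryCoproduct' Z Z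
  have f0 : (coprod.inl ≫ c) ≫ r = 𝟙 Z := by rw [Category.assoc, fac, coprod.inl_desc]
  have f1 : (coprod.inr ≫ c) ≫ r = 𝟙 Z := by rw [Category.assoc, fac, coprod.inr_desc]
  have g0 : Cof K.F (coprod.inl ≫ c) := Cof.comp (Cof.cobase sqZ.flip hZ) hc
  have g1 : Cof K.F (coprod.inr ≫ c) := Cof.comp (Cof.cobase sqZ hZ) hc
  have hrW : K.W r := K.trivFib_le_W _ hr
  have a0 : AN K.F 0 (coprod.inl ≫ c) := (K.AN_iff _ hZ).2 ⟨g0, by
    apply W.of_comp' hrW; rw [f0]; exact W.id _⟩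
  have a1 : AN K.F 0 (coprod.inr ≫ c) := (K.AN_iff _ hZ).2 ⟨g1, by
    apply W.of_comp' hrW; rw [f1]; exact W.id _⟩
  -- the relative cylinder
  have sqQ := IsPushout.of_hasPushout c (coprod.map j j)
  set d : C ⨿ C ⟶ pushout c (coprod.map j j) := pushout.inr _ _
  set k : CZ ⟶ pushout c (coprod.map j j) := pushout.inl _ _
  obtain ⟨CC, e, ρ, he, hρ, facC⟩ := K.fact_cof (pushout.desc (r ≫ j) (coprod.desc (𝟙 C) (𝟙 C))
    (by rw [← Category.assoc, fac]; ext <;> simp) : pushout c (coprod.map j j) ⟶ C)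
  have hρW : K.W ρ := K.trivFib_le_W _ hρ
  have eq0 : j ≫ coprod.inl ≫ d ≫ e = (coprod.inl ≫ c) ≫ k ≫ e := by
    have : (coprod.inl : Z ⟶ Z ⨿ Z) ≫ coprod.map j j = j ≫ coprod.inl := coprod.inl_map _ _
    rw [← Category.assoc j, ← this, Category.assoc, ← Category.assoc (coprod.map j j), ← sqQ.w,
      Category.assoc, Category.assoc]
  have eq1 : j ≫ coprod.inr ≫ d ≫ e = (coprod.inr ≫ c) ≫ k ≫ e := by
    have : (coprod.inr : Z ⟶ Z ⨿ Z) ≫ coprod.map j j = j ≫ coprod.inr := coprod.inr_map _ _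
    rw [← Category.assoc j, ← this, Category.assoc, ← Category.assoc (coprod.map j j), ← sqQ.w,
      Category.assoc, Category.assoc]
  have J0ρ : (coprod.inl ≫ d ≫ e) ≫ ρ = 𝟙 C := by
    rw [Category.assoc, Category.assoc, facC, pushout.inr_desc, coprod.inl_desc]
  have J1ρ : (coprod.inr ≫ d ≫ e) ≫ ρ = 𝟙 C := by
    rw [Category.assoc, Category.assoc, facC, pushout.inr_desc, coprod.inr_desc]
  have WJ0 : K.W (coprod.inl ≫ d ≫ e) := by
    apply W.of_comp' hρW; rw [J0ρ]; exact W.id _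
  have WJ1 : K.W (coprod.inr ≫ d ≫ e) := by
    apply W.of_comp' hρW; rw [J1ρ]; exact W.id _
  refine ⟨CZ, CC, coprod.inl ≫ c, coprod.inr ≫ c, r, coprod.inl ≫ d ≫ e, coprod.inr ≫ d ≫ e,
    k ≫ e, ?_, hr, f0, f1, a0, a1, WJ0, WJ1, eq0, eq1, ?_, ?_⟩
  · rw [show coprod.desc (coprod.inl ≫ c) (coprod.inr ≫ c) = c from
      coprod.hom_ext (by rw [coprod.inl_desc]) (by rw [coprod.inr_desc])]
    exact hc
  · intro P a b m sq h1 h2
    have hP : AN K.F 0 b := AN.cobase sq a0
    have hPc : K.IsCof P := isCof_of_cof hC (K.AN_le_Cof _ hP)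
    refine (K.AN_iff _ hPc).2 ⟨?_, ?_⟩
    · intro E B π hπ
      apply hasLift_of_exists
      intro u w hw
      obtain ⟨t, ht1, ht2⟩ := cof_lift hj hπ ((coprod.inr ≫ c) ≫ a ≫ u)
        ((coprod.inr ≫ d ≫ e) ≫ w) (by
          rw [← Category.assoc j, eq1]
          simp only [Category.assoc]
          rw [hw, ← Category.assoc a, h1, Category.assoc])
      obtain ⟨l, hl1, hl2⟩ := cof_lift he hπ
        (sqQ.desc (a ≫ u) (coprod.desc (b ≫ u) t) (by
          apply coprod.hom_ext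
          · rw [coprod.inl_map_assoc, coprod.inl_desc, ← Category.assoc, ← Category.assoc, sq.w,
              Category.assoc]
          · rw [coprod.inr_map_assoc, coprod.inr_desc, ht1]
            simp only [Category.assoc])) w (by
          apply sqQ.hom_ext
          · rw [sqQ.inl_desc_assoc, Category.assoc, hw, ← Category.assoc, h1, Category.assoc]
          · rw [sqQ.inr_desc_assoc]
            apply coprod.hom_ext
            · rw [coprod.inl_desc_assoc, Category.assoc, hw, ← Category.assoc b, h2]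
              simp only [Category.assoc]
            · rw [coprod.inr_desc_assoc, ht2]
              simp only [Category.assoc])
      refine ⟨l, ?_, hl2⟩
      apply sq.hom_ext
      · rw [← Category.assoc, h1, Category.assoc, hl1, sqQ.inl_desc]
      · rw [← Category.assoc, h2]
        simp only [Category.assoc]
        rw [hl1]
        erw [sqQ.inr_desc]
        rw [coprod.inl_desc]
    · apply W.of_comp (K.W_of_AN _ hC hP)
      rw [h2]
      exact WJ0
  · intro P a b m sq h1 h2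
    have hP : AN K.F 0 b := AN.cobase sq a1
    have hPc : K.IsCof P := isCof_of_cof hC (K.AN_le_Cof _ hP)
    refine (K.AN_iff _ hPc).2 ⟨?_, ?_⟩
    · intro E B π hπ
      apply hasLift_of_exists
      intro u w hw
      obtain ⟨t, ht1, ht2⟩ := cof_lift hj hπ ((coprod.inl ≫ c) ≫ a ≫ u)
        ((coprod.inl ≫ d ≫ e) ≫ w) (by
          rw [← Category.assoc j, eq0]
          simp only [Category.assoc]
          rw [hw, ← Category.assoc a, h1, Category.assoc])
      obtain ⟨l, hl1, hl2⟩ := cof_lift he hπ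
        (sqQ.desc (a ≫ u) (coprod.desc t (b ≫ u)) (by
          apply coprod.hom_ext
          · rw [coprod.inl_map_assoc, coprod.inl_desc, ht1]
            simp only [Category.assoc]
          · rw [coprod.inr_map_assoc, coprod.inr_desc, ← Category.assoc, ← Category.assoc, sq.w,
              Category.assoc])) w (by
          apply sqQ.hom_ext
          · rw [sqQ.inl_desc_assoc, Category.assoc, hw, ← Category.assoc, h1, Category.assoc]
          · rw [sqQ.inr_desc_assoc]
            apply coprod.hom_ext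
            · rw [coprod.inl_desc_assoc, ht2]
              simp only [Category.assoc]
            · rw [coprod.inr_desc_assoc, Category.assoc, hw, ← Category.assoc b, h2]
              simp only [Category.assoc])
      refine ⟨l, ?_, hl2⟩
      apply sq.hom_ext
      · rw [← Category.assoc, h1, Category.assoc, hl1, sqQ.inl_desc]
      · rw [← Category.assoc, h2]
        simp only [Category.assoc]
        rw [hl1]
        erw [sqQ.inr_desc]
        rw [coprod.inr_desc]
    · apply W.of_comp (K.W_of_AN _ hC hP)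
      rw [h2]
      exact WJ1

lemma push_aux {Z C CZ CC V X₁ T P : 𝓜} {i : Z ⟶ CZ} {j : Z ⟶ C} {a : CZ ⟶ P} {b : C ⟶ P}
    (sqP : IsPushout i j a b) {l : CZ ⟶ CC} {J : C ⟶ CC} {m : P ⟶ CC} (h1 : a ≫ m = l)
    (h2 : b ≫ m = J) {h : CZ ⟶ V} {u : C ⟶ X₁} {w : V ⟶ X₁} (sqX : IsPushout j (i ≫ h) u w)
    {t : CC ⟶ T} {τ : V ⟶ T} (sqT : IsPushout l h t τ) (κ : X₁ ⟶ T) (hu : u ≫ κ = J ≫ t)
    (hw : w ≫ κ = τ) (hm : AN K.F 0 m) : AN K.F 0 κ := by
  let g : P ⟶ X₁ := sqP.desc (h ≫ w) u (by rw [← Category.assoc, sqX.w])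
  have ga : a ≫ g = h ≫ w := sqP.inl_desc _ _ _
  have gb : b ≫ g = u := sqP.inr_desc _ _ _
  have sq1 : IsPushout a h g w :=
    IsPushout.of_top (h₁₁ := j) (v₁₁ := i) (v₁₂ := b) (by rw [gb]; exact sqX) ga sqP.flip
  have sq2 : IsPushout m g t κ := by
    refine IsPushout.of_left (h₁₁ := a) (v₁₁ := h) (h₂₁ := w) (by rw [h1, hw]; exact sqT) ?_ sq1
    apply sqP.hom_ext
    · rw [← Category.assoc, h1, ← Category.assoc, ga, Category.assoc, hw, sqT.w]
    · rw [← Category.assoc, h2, ← Category.assoc, gb, hu]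
  exact AN.cobase sq2 hm

lemma W_pushout_retr {Z C X Y : 𝓜} {j : Z ⟶ C} {p : Z ⟶ X} {q : C ⟶ Y} {y : X ⟶ Y}
    (sq : IsPushout j p q y) (hZ : K.IsCof Z) (hX : K.IsCof X) (hj : Cof K.F j)
    (hp : TrivFib K.F p) (s : X ⟶ Z) (hs : AN K.F 0 s) (hsp : s ≫ p = 𝟙 X) : K.W q := by
  obtain ⟨CZ, CC, i₀, i₁, r, J₀, J₁, l, hc, hr, f0, f1, a0, a1, WJ0, WJ1, eq0, eq1, H0, H1⟩ :=
    exists_cyl_pair hZ hj
  have hC : K.IsCof C := isCof_of_cof hZ hj
  have hY : K.IsCof Y := isCof_of_cof hX (Cof.cobase sq hj)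
  obtain ⟨h, hh1, hh2⟩ := cof_lift hc hp (coprod.desc (𝟙 Z) (p ≫ s)) (r ≫ p) (by
    apply coprod.hom_ext
    · rw [coprod.inl_desc_assoc, coprod.inl_desc_assoc, ← Category.assoc, f0]
    · rw [coprod.inr_desc_assoc, coprod.inr_desc_assoc, Category.assoc, hsp, Category.comp_id,
        ← Category.assoc, f1, Category.id_comp])
  have h0 : i₀ ≫ h = 𝟙 Z := by
    have := congrArg (fun t => coprod.inl ≫ t) hh1
    simpa only [coprod.inl_desc_assoc, coprod.inl_desc] using this
  have h1 : i₁ ≫ h = p ≫ s := by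
    have := congrArg (fun t => coprod.inr ≫ t) hh1
    simpa only [coprod.inr_desc_assoc, coprod.inr_desc] using this
  have sqT := IsPushout.of_hasPushout l h
  have sqP0 := IsPushout.of_hasPushout i₀ j
  have sqP1 := IsPushout.of_hasPushout i₁ j
  have sqY := IsPushout.of_hasPushout y s
  have sqX1 : IsPushout j (p ≫ s) (q ≫ pushout.inl y s) (pushout.inr y s) := sq.paste_vert sqY
  have ant : AN K.F 0 (J₀ ≫ pushout.inl l h) := by
    refine push_aux sqP0 (m := sqP0.desc l J₀ eq0.symm) (sqP0.inl_desc _ _ _)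
      (sqP0.inr_desc _ _ _) (u := 𝟙 C) (w := j) (by rw [h0]; exact IsPushout.of_id_snd) sqT _
      (Category.id_comp _) ?_ (H0 _ _ _ sqP0 (sqP0.inl_desc _ _ _) (sqP0.inr_desc _ _ _))
    rw [← Category.assoc, eq0, Category.assoc, sqT.w, ← Category.assoc, h0, Category.id_comp]
  have w0 : K.W (J₀ ≫ pushout.inl l h) := K.W_of_AN _ hC ant
  have wt : K.W (pushout.inl l h) := W.of_comp WJ0 w0
  have w1 : K.W (J₁ ≫ pushout.inl l h) := W.comp WJ1 wt
  let κ : pushout y s ⟶ pushout l h := sqX1.desc (J₁ ≫ pushout.inl l h) (pushout.inr l h) (by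
    rw [← Category.assoc, eq1, Category.assoc, sqT.w, ← Category.assoc, h1])
  have hκ1 : (q ≫ pushout.inl y s) ≫ κ = J₁ ≫ pushout.inl l h := sqX1.inl_desc _ _ _
  have hκ2 : pushout.inr y s ≫ κ = pushout.inr l h := sqX1.inr_desc _ _ _
  have anκ : AN K.F 0 κ :=
    push_aux sqP1 (m := sqP1.desc l J₁ eq1.symm) (sqP1.inl_desc _ _ _) (sqP1.inr_desc _ _ _)
      (u := q ≫ pushout.inl y s) (w := pushout.inr y s) (by rw [h1]; exact sqX1) sqT κ hκ1 hκ2
      (H1 _ _ _ sqP1 (sqP1.inl_desc _ _ _) (sqP1.inr_desc _ _ _))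
  have anY : AN K.F 0 (pushout.inl y s) := AN.cobase sqY.flip hs
  have hX1 : K.IsCof (pushout y s) := isCof_of_cof hY (K.AN_le_Cof _ anY)
  have wκ : K.W κ := K.W_of_AN _ hX1 anκ
  apply W.of_comp' (K.W_of_AN _ hY anY)
  apply W.of_comp' wκ
  rw [hκ1]
  exact w1

variable (K)

/-- Left properness between cofibrant objects. -/
theorem W_pushout {A B X Y : 𝓜} (i : A ⟶ B) (f : A ⟶ X) (g : B ⟶ Y) (j : X ⟶ Y)
    (sq : IsPushout i f g j) (hA : K.IsCof A) (hX : K.IsCof X) (hi : Cof K.F i) (hf : K.W f) :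
    K.W g := by
  obtain ⟨Z, a, s, p, ha, hs, hp, e1, e2, -⟩ := exists_brown (initial.to A) (initial.to X) f
    (initial.hom_ext _ _) hA hX hX
  have hB : K.IsCof B := isCof_of_cof hA hi
  have hZ : K.IsCof Z := isCof_of_cof hA ha
  have ana : AN K.F 0 a := (K.AN_iff _ hA).2 ⟨ha, by
    apply W.of_comp' (K.trivFib_le_W _ hp); rw [e1]; exact hf⟩
  have sq1 := IsPushout.of_hasPushout i a
  have sq2 : IsPushout (pushout.inr i a) p (sq1.desc g (p ≫ j) (by
      rw [sq.w, ← e1, Category.assoc])) j :=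
    IsPushout.of_top (h₁₁ := i) (v₁₁ := a) (v₁₂ := pushout.inl i a)
      (by rw [sq1.inl_desc, e1]; exact sq) (sq1.inr_desc _ _ _) sq1
  have w2 := W_pushout_retr sq2 hZ hX (Cof.cobase sq1 hi) hp s hs e2
  have w1 : K.W (pushout.inl i a) := K.W_of_AN _ hB (AN.cobase sq1.flip ana)
  have := W.comp w1 w2
  rwa [sq1.inl_desc] at this

/-- Pushouts of a weak equivalence between cofibrations under `A`. -/
theorem W_pushout' {A B₁ B₂ X Y₁ Y₂ : 𝓜} (i₁ : A ⟶ B₁) (i₂ : A ⟶ B₂) (f : A ⟶ X)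
    (g₁ : B₁ ⟶ Y₁) (g₂ : B₂ ⟶ Y₂) (j₁ : X ⟶ Y₁) (j₂ : X ⟶ Y₂)
    (sq₁ : IsPushout i₁ f g₁ j₁) (sq₂ : IsPushout i₂ f g₂ j₂) (hA : K.IsCof A) (hX : K.IsCof X)
    (h₁ : Cof K.F i₁) (h₂ : Cof K.F i₂) (w : B₁ ⟶ B₂) (hw : i₁ ≫ w = i₂) (hW : K.W w)
    (y : Y₁ ⟶ Y₂) (hy1 : g₁ ≫ y = w ≫ g₂) (hy2 : j₁ ≫ y = j₂) : K.W y := by
  have hB₁ : K.IsCof B₁ := isCof_of_cof hA h₁
  have hB₂ : K.IsCof B₂ := isCof_of_cof hA h₂
  have hY₁ : K.IsCof Y₁ := isCof_of_cof hX (Cof.cobase sq₁ h₁)
  have hY₂ : K.IsCof Y₂ := isCof_of_cof hX (Cof.cobase sq₂ h₂)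
  obtain ⟨Z, a, s, p, ha, hs, hp, e1, e2, e3⟩ := exists_brown i₁ i₂ w hw h₁ h₂ hB₂
  have ana : AN K.F 0 a := (K.AN_iff _ hB₁).2 ⟨ha, by
    apply W.of_comp' (K.trivFib_le_W _ hp); rw [e1]; exact hW⟩
  -- push out along f
  have sqZ := IsPushout.of_hasPushout (i₁ ≫ a) f
  let u : Y₁ ⟶ pushout (i₁ ≫ a) f := sq₁.desc (a ≫ pushout.inl _ _) (pushout.inr _ _) (by
    rw [← Category.assoc, sqZ.w])
  let t : Y₂ ⟶ pushout (i₁ ≫ a) f := sq₂.desc (s ≫ pushout.inl _ _) (pushout.inr _ _) (by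
    rw [← Category.assoc, ← e3, sqZ.w])
  have hi2p : (i₁ ≫ a) ≫ p = i₂ := by rw [Category.assoc, e1, hw]
  let π : pushout (i₁ ≫ a) f ⟶ Y₂ := sqZ.desc (p ≫ g₂) j₂ (by
    rw [← Category.assoc, hi2p, sq₂.w])
  have squ : IsPushout a g₁ (pushout.inl (i₁ ≫ a) f) u :=
    IsPushout.of_left (h₁₁ := i₁) (v₁₁ := f) (h₂₁ := j₁)
      (by rw [show j₁ ≫ u = pushout.inr (i₁ ≫ a) f from sq₁.inr_desc _ _ _]; exact sqZ)
      (sq₁.inl_desc _ _ _).symm sq₁
  have sqt : IsPushout s g₂ (pushout.inl (i₁ ≫ a) f) t :=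
    IsPushout.of_left (h₁₁ := i₂) (v₁₁ := f) (h₂₁ := j₂)
      (by rw [show j₂ ≫ t = pushout.inr (i₁ ≫ a) f from sq₂.inr_desc _ _ _, ← e3]; exact sqZ)
      (sq₂.inl_desc _ _ _).symm sq₂
  have wu : K.W u := K.W_of_AN _ hY₁ (AN.cobase squ ana)
  have wt : K.W t := K.W_of_AN _ hY₂ (AN.cobase sqt hs)
  have tπ : t ≫ π = 𝟙 Y₂ := by
    apply sq₂.hom_ext
    · rw [sq₂.inl_desc_assoc, Category.assoc, sqZ.inl_desc, ← Category.assoc, e2,
        Category.id_comp, Category.comp_id]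
    · rw [sq₂.inr_desc_assoc, sqZ.inr_desc, Category.comp_id]
  have wπ : K.W π := by
    apply W.of_comp wt
    rw [tπ]
    exact W.id _
  have huπ : u ≫ π = y := by
    apply sq₁.hom_ext
    · rw [sq₁.inl_desc_assoc, Category.assoc, sqZ.inl_desc, ← Category.assoc, e1, hy1]
    · rw [sq₁.inr_desc_assoc, sqZ.inr_desc, hy2]
  rw [← huπ]
  exact W.comp wu wπ

/-- The gluing lemma. -/
theorem W_gluing {A B X A' B' X' Y Y' : 𝓜} (i : A ⟶ B) (f : A ⟶ X) (g : B ⟶ Y) (j : X ⟶ Y)
    (sq : IsPushout i f g j) (i' : A' ⟶ B') (f' : A' ⟶ X') (g' : B' ⟶ Y') (j' : X' ⟶ Y')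
    (sq' : IsPushout i' f' g' j') (hi : Cof K.F i) (hi' : Cof K.F i')
    (hA : K.IsCof A) (hX : K.IsCof X) (hA' : K.IsCof A') (hX' : K.IsCof X')
    (a : A ⟶ A') (b : B ⟶ B') (x : X ⟶ X') (y : Y ⟶ Y')
    (h1 : i ≫ b = a ≫ i') (h2 : f ≫ x = a ≫ f') (h3 : g ≫ y = b ≫ g') (h4 : j ≫ y = x ≫ j')
    (ha : K.W a) (hb : K.W b) (hx : K.W x) : K.W y := by
  -- `B'' = B ⨿_A A'`
  have sqB := IsPushout.of_hasPushout i a
  have wB : K.W (pushout.inl i a) := K.W_pushout _ _ _ _ sqB hA hA' hi ha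
  let b' : pushout i a ⟶ B' := sqB.desc b i' h1
  have wb' : K.W b' := by
    apply W.of_comp wB
    rw [sqB.inl_desc]
    exact hb
  -- `Y₁ = B ⨿_A X'`
  have sqY := IsPushout.of_hasPushout j x
  have hY : Cof K.F j := Cof.cobase sq hi
  have wY : K.W (pushout.inl j x) := K.W_pushout _ _ _ _ sqY hX hX' hY hx
  have sqYX : IsPushout i (f ≫ x) (g ≫ pushout.inl j x) (pushout.inr j x) := sq.paste_vert sqY
  -- `Y₁ = B'' ⨿_{A'} X'`
  have sq1 : IsPushout (pushout.inr i a) f'
      (sqB.desc (g ≫ pushout.inl j x) (f' ≫ pushout.inr j x) (by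
        rw [← Category.assoc, sq.w, Category.assoc, sqY.w, ← Category.assoc, h2,
          Category.assoc])) (pushout.inr j x) :=
    IsPushout.of_top (h₁₁ := i) (v₁₁ := a) (v₁₂ := pushout.inl i a)
      (by rw [sqB.inl_desc, ← h2]; exact sqYX) (sqB.inr_desc _ _ _) sqB
  let y' : pushout j x ⟶ Y' := sqY.desc y j' h4
  have wy' : K.W y' := by
    refine K.W_pushout' _ _ _ _ _ _ _ sq1 sq' hA' hX' (Cof.cobase sqB hi) hi' b'
      (sqB.inr_desc _ _ _) wb' y' ?_ (sqY.inr_desc _ _ _)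
    apply sqB.hom_ext
    · rw [sqB.inl_desc_assoc, Category.assoc, sqY.inl_desc, sqB.inl_desc_assoc, h3]
    · rw [sqB.inr_desc_assoc, Category.assoc, sqY.inr_desc, sqB.inr_desc_assoc, sq'.w]
  have := W.comp wY wy'
  rwa [sqY.inl_desc] at this

variable {K}

omit [HasLimits 𝓜] [HasColimits 𝓜] in
/-- Construction of maps out of a sequential colimit. -/
theorem seq_exists {Y : ℕ ⥤ 𝓜} {cY : Cocone Y} (hY : IsColimit cY) {U : 𝓜}
    (good : ∀ n, (Y.obj n ⟶ U) → Prop) (h0 : ∃ l, good 0 l)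
    (h1 : ∀ n l, good n l → ∃ l', good (n + 1) l' ∧ Y.map (homOfLE (Nat.le_succ n)) ≫ l' = l) :
    ∃ l : cY.pt ⟶ U, ∀ n, good n (cY.ι.app n ≫ l) := by
  let L : ∀ n, {l : Y.obj n ⟶ U // good n l} := fun n =>
    Nat.rec (motive := fun n => {l : Y.obj n ⟶ U // good n l}) ⟨h0.choose, h0.choose_spec⟩
      (fun n l => ⟨(h1 n l.1 l.2).choose, (h1 n l.1 l.2).choose_spec.1⟩) n
  have hL : ∀ n, Y.map (homOfLE (Nat.le_succ n)) ≫ (L (n + 1)).1 = (L n).1 := fun n =>
    (h1 n (L n).1 (L n).2).choose_spec.2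
  let τ : Y ⟶ (Functor.const ℕ).obj U := NatTrans.ofSequence (fun n => (L n).1) (fun n => by
    rw [hL n]
    exact (Category.comp_id _).symm)
  refine ⟨hY.desc ⟨U, τ⟩, fun n => ?_⟩
  rw [hY.fac]
  exact (L n).2

omit [HasLimits 𝓜] [HasColimits 𝓜] in
/-- A sequential composite in the Reedy sense: a natural transformation `α : X ⟶ Y` of sequences
such that `X₀ ⟶ Y₀` and all the maps `X_{n+1} ⨿_{X_n} Y_n ⟶ Y_{n+1}` lift against `p` induces a
map on colimits which lifts against `p`. -/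
theorem seq_lift {X Y : ℕ ⥤ 𝓜} (α : X ⟶ Y) {cX : Cocone X} (hX : IsColimit cX) {cY : Cocone Y}
    (hY : IsColimit cY) (f : cX.pt ⟶ cY.pt) (hf : ∀ n, cX.ι.app n ≫ f = α.app n ≫ cY.ι.app n)
    {U V : 𝓜} (p : U ⟶ V) (h0 : HasLiftingProperty (α.app 0) p)
    (h1 : ∀ (n : ℕ) (a : X.obj (n + 1) ⟶ U) (b : Y.obj n ⟶ U) (c : Y.obj (n + 1) ⟶ V),
      X.map (homOfLE (Nat.le_succ n)) ≫ a = α.app n ≫ b →
      a ≫ p = α.app (n + 1) ≫ c → b ≫ p = Y.map (homOfLE (Nat.le_succ n)) ≫ c →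
      ∃ l : Y.obj (n + 1) ⟶ U, α.app (n + 1) ≫ l = a ∧
        Y.map (homOfLE (Nat.le_succ n)) ≫ l = b ∧ l ≫ p = c) :
    HasLiftingProperty f p := by
  apply hasLift_of_exists
  intro u w sq
  obtain ⟨l, hl⟩ := seq_exists hY
    (fun n l => α.app n ≫ l = cX.ι.app n ≫ u ∧ l ≫ p = cY.ι.app n ≫ w)
    (exists_lift_of h0 _ _ (by
      rw [Category.assoc, sq, ← Category.assoc, hf, Category.assoc]))
    (fun n l hl => by
      obtain ⟨l', h1, h2, h3⟩ := h1 n (cX.ι.app (n + 1) ≫ u) l (cY.ι.app (n + 1) ≫ w)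
        (by rw [← Category.assoc, cX.w]; exact hl.1.symm)
        (by rw [Category.assoc, sq, ← Category.assoc, hf, Category.assoc])
        (by rw [← Category.assoc, cY.w]; exact hl.2)
      exact ⟨l', ⟨h1, h3⟩, h2⟩)
  refine ⟨l, ?_, ?_⟩
  · apply hX.hom_ext
    intro n
    rw [← Category.assoc, hf, Category.assoc, (hl n).1]
  · apply hY.hom_ext
    intro n
    rw [← Category.assoc, (hl n).2]

/-- The inclusion of the first term in the colimit of a sequence of cofibrations. -/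
theorem seq_cof {Y : ℕ ⥤ 𝓜} {cY : Cocone Y} (hY : IsColimit cY)
    (hYc : ∀ n : ℕ, Cof K.F (Y.map (homOfLE (Nat.le_succ n)))) :
    Cof K.F (cY.ι.app 0) := by
  intro U V p hp
  apply hasLift_of_exists
  intro u w sq
  obtain ⟨l, hl⟩ := seq_exists hY
    (fun n l => Y.map (homOfLE (Nat.zero_le n)) ≫ l = u ∧ l ≫ p = cY.ι.app n ≫ w)
    ⟨u, by rw [show homOfLE (Nat.zero_le 0) = 𝟙 0 from rfl, Y.map_id, Category.id_comp], sq⟩
    (fun n l hl => by
      obtain ⟨l', h1, h2⟩ := cof_lift (hYc n) hp l (cY.ι.app (n + 1) ≫ w)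
        (by rw [← Category.assoc, cY.w]; exact hl.2)
      refine ⟨l', ⟨?_, h2⟩, h1⟩
      rw [show homOfLE (Nat.zero_le (n + 1)) =
        homOfLE (Nat.zero_le n) ≫ homOfLE (Nat.le_succ n) from rfl, Y.map_comp, Category.assoc,
        h1]
      exact hl.1)
  refine ⟨l, ?_, ?_⟩
  · have := (hl 0).1
    rw [show homOfLE (Nat.zero_le 0) = 𝟙 0 from rfl, Y.map_id, Category.id_comp] at this
    exact this
  · apply hY.hom_ext
    intro n
    rw [← Category.assoc, (hl n).2]

/-- A stage of the factorization of a levelwise weak equivalence of sequences. -/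
structure SStage (K : PathCtx 𝓜) {X Y : ℕ ⥤ 𝓜} (α : X ⟶ Y) (n : ℕ) where
  Z : 𝓜
  a : X.obj n ⟶ Z
  s : Y.obj n ⟶ Z
  p : Z ⟶ Y.obj n
  ana : AN K.F 0 a
  ans : AN K.F 0 s
  tp : TrivFib K.F p
  ap : a ≫ p = α.app n
  sp : s ≫ p = 𝟙 _

/-- The link between two consecutive stages. -/
structure SLink {X Y : ℕ ⥤ 𝓜} {α : X ⟶ Y} {n : ℕ} (S : SStage K α n)
    (T : SStage K α (n + 1)) where
  z : S.Z ⟶ T.Z
  z_p : z ≫ T.p = S.p ≫ Y.map (homOfLE (Nat.le_succ n))
  x_a : X.map (homOfLE (Nat.le_succ n)) ≫ T.a = S.a ≫ z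
  y_s : Y.map (homOfLE (Nat.le_succ n)) ≫ T.s = S.s ≫ z
  liftX : ∀ ⦃U V : 𝓜⦄ (π : U ⟶ V), Fib K.F 0 π → ∀ (a : X.obj (n + 1) ⟶ U) (b : S.Z ⟶ U)
    (c : T.Z ⟶ V), X.map (homOfLE (Nat.le_succ n)) ≫ a = S.a ≫ b → a ≫ π = T.a ≫ c →
    b ≫ π = z ≫ c → ∃ l : T.Z ⟶ U, T.a ≫ l = a ∧ z ≫ l = b ∧ l ≫ π = c
  liftY : ∀ ⦃U V : 𝓜⦄ (π : U ⟶ V), Fib K.F 0 π → ∀ (a : Y.obj (n + 1) ⟶ U) (b : S.Z ⟶ U)
    (c : T.Z ⟶ V), Y.map (homOfLE (Nat.le_succ n)) ≫ a = S.s ≫ b → a ≫ π = T.s ≫ c →
    b ≫ π = z ≫ c → ∃ l : T.Z ⟶ U, T.s ≫ l = a ∧ z ≫ l = b ∧ l ≫ π = c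

lemma exists_sstage_zero {X Y : ℕ ⥤ 𝓜} (α : X ⟶ Y) (hX0 : K.IsCof (X.obj 0))
    (hY0 : K.IsCof (Y.obj 0)) (hα : K.W (α.app 0)) : Nonempty (SStage K α 0) := by
  obtain ⟨Z, a, s, p, ha, hs, hp, e1, e2, -⟩ := exists_brown (initial.to (X.obj 0))
    (initial.to (Y.obj 0)) (α.app 0) (initial.hom_ext _ _) hX0 hY0 hY0
  exact ⟨⟨Z, a, s, p, (K.AN_iff _ hX0).2 ⟨ha, by
    apply W.of_comp' (K.trivFib_le_W _ hp); rw [e1]; exact hα⟩, hs, hp, e1, e2⟩⟩

lemma exists_slink {X Y : ℕ ⥤ 𝓜} (α : X ⟶ Y) {n : ℕ} (hX : K.IsCof (X.obj n))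
    (hY : K.IsCof (Y.obj n)) (hXc : Cof K.F (X.map (homOfLE (Nat.le_succ n))))
    (hYc : Cof K.F (Y.map (homOfLE (Nat.le_succ n)))) (hα : K.W (α.app (n + 1)))
    (S : SStage K α n) : Nonempty (Σ T : SStage K α (n + 1), SLink S T) := by
  have hX' : K.IsCof (X.obj (n + 1)) := isCof_of_cof hX hXc
  have hY' : K.IsCof (Y.obj (n + 1)) := isCof_of_cof hY hYc
  have hSZ : K.IsCof S.Z := isCof_of_cof hX (K.AN_le_Cof _ S.ana)
  set x := X.map (homOfLE (Nat.le_succ n)) with hx
  set y := Y.map (homOfLE (Nat.le_succ n)) with hy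
  have nat : x ≫ α.app (n + 1) = α.app n ≫ y := α.naturality _
  -- `M1 = X_{n+1} ⨿_{X_n} Z_n`
  have sq1 := IsPushout.of_hasPushout x S.a
  have hM1 : K.IsCof (pushout x S.a) := isCof_of_cof hSZ (Cof.cobase sq1 hXc)
  have an1 : AN K.F 0 (pushout.inl x S.a) := AN.cobase sq1.flip S.ana
  -- `R = M1 ⨿_{Y_n} Y_{n+1}`
  have sqR := IsPushout.of_hasPushout (S.s ≫ pushout.inr x S.a) y
  set R := pushout (S.s ≫ pushout.inr x S.a) y
  let m1 : pushout x S.a ⟶ Y.obj (n + 1) := sq1.desc (α.app (n + 1)) (S.p ≫ y) (by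
    rw [nat, ← S.ap, Category.assoc])
  obtain ⟨Z, e, p, he, hp, fac⟩ := K.fact_cof (sqR.desc m1 (𝟙 _) (by
    rw [Category.assoc, sq1.inr_desc, ← Category.assoc, S.sp, Category.id_comp,
      Category.comp_id]) : R ⟶ Y.obj (n + 1))
  have hpW : K.W p := K.trivFib_le_W _ hp
  -- the maps
  let μ : pushout x S.a ⟶ Z := pushout.inl (S.s ≫ pushout.inr x S.a) y ≫ e
  let t : Y.obj (n + 1) ⟶ Z := pushout.inr (S.s ≫ pushout.inr x S.a) y ≫ e
  let z : S.Z ⟶ Z := pushout.inr x S.a ≫ μ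
  have hμp : μ ≫ p = m1 := by
    change (_ ≫ e) ≫ p = m1
    rw [Category.assoc, fac, sqR.inl_desc]
  have htp : t ≫ p = 𝟙 _ := by
    change (_ ≫ e) ≫ p = _
    rw [Category.assoc, fac, sqR.inr_desc]
  have hyt : y ≫ t = S.s ≫ z := by
    change y ≫ _ ≫ e = S.s ≫ _ ≫ _ ≫ e
    rw [← Category.assoc, ← sqR.w]
    simp only [Category.assoc]
  have cμ : Cof K.F μ := Cof.comp (Cof.cobase sqR.flip hYc) he
  have anμ : AN K.F 0 μ := (K.AN_iff _ hM1).2 ⟨cμ, by
    apply W.of_comp' hpW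
    rw [hμp]
    apply W.of_comp (K.W_of_AN _ hX' an1)
    rw [sq1.inl_desc]
    exact hα⟩
  -- the other side
  have sq2 := IsPushout.of_hasPushout y S.s
  have hM2 : K.IsCof (pushout y S.s) := isCof_of_cof hSZ (Cof.cobase sq2 hYc)
  have an2 : AN K.F 0 (pushout.inl y S.s) := AN.cobase sq2.flip S.ans
  let ν : pushout y S.s ⟶ Z := sq2.desc t z hyt
  have hν1 : pushout.inl y S.s ≫ ν = t := sq2.inl_desc _ _ _
  have hν2 : pushout.inr y S.s ≫ ν = z := sq2.inr_desc _ _ _
  have cν : Cof K.F ν := by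
    intro E B π hπ
    apply hasLift_of_exists
    intro u w hw
    have hw1 : (pushout.inl y S.s ≫ u) ≫ π = t ≫ w := by
      rw [Category.assoc, hw, ← Category.assoc, hν1]
    have hw2 : (pushout.inr y S.s ≫ u) ≫ π = z ≫ w := by
      rw [Category.assoc, hw, ← Category.assoc, hν2]
    obtain ⟨v, hv1, hv2⟩ := cof_lift hXc hπ (S.a ≫ pushout.inr y S.s ≫ u)
      (pushout.inl x S.a ≫ μ ≫ w) (by
        rw [Category.assoc, hw2, ← Category.assoc x, sq1.w]
        simp only [Category.assoc, z])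
    obtain ⟨l, hl1, hl2⟩ := cof_lift he hπ (sqR.desc (sq1.desc v (pushout.inr y S.s ≫ u) hv1)
      (pushout.inl y S.s ≫ u) (by
        rw [Category.assoc, sq1.inr_desc, ← Category.assoc, ← sq2.w, Category.assoc])) w (by
          apply sqR.hom_ext
          · rw [sqR.inl_desc_assoc]
            apply sq1.hom_ext
            · rw [sq1.inl_desc_assoc, hv2]
              simp only [μ, Category.assoc]
            · rw [sq1.inr_desc_assoc, hw2]
              simp only [z, μ, Category.assoc]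
          · rw [sqR.inr_desc_assoc, hw1]
            simp only [t, Category.assoc])
    refine ⟨l, ?_, hl2⟩
    apply sq2.hom_ext
    · rw [← Category.assoc, hν1]
      simp only [t, Category.assoc]
      rw [hl1, sqR.inr_desc]
    · rw [← Category.assoc, hν2]
      simp only [z, μ, Category.assoc]
      rw [hl1, sqR.inl_desc, sq1.inr_desc]
  have anν : AN K.F 0 ν := (K.AN_iff _ hM2).2 ⟨cν, by
    apply W.of_comp (K.W_of_AN _ hY' an2)
    rw [hν1]
    apply W.of_comp' hpW
    rw [htp]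
    exact W.id _⟩
  have fa : AN K.F 0 t := by
    rw [← hν1]
    exact AN.comp an2 anν
  have fb : (pushout.inl x S.a ≫ μ) ≫ p = α.app (n + 1) := by
    rw [Category.assoc, hμp, sq1.inl_desc]
  have fc : z ≫ p = S.p ≫ y := by
    change (_ ≫ μ) ≫ p = _
    rw [Category.assoc, hμp, sq1.inr_desc]
  have fd : x ≫ pushout.inl x S.a ≫ μ = S.a ≫ z := by
    rw [← Category.assoc, sq1.w, Category.assoc]
  have fe : ∀ ⦃U V : 𝓜⦄ (π : U ⟶ V), Fib K.F 0 π → ∀ (a : X.obj (n + 1) ⟶ U) (b : S.Z ⟶ U)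
      (c : Z ⟶ V), x ≫ a = S.a ≫ b → a ≫ π = (pushout.inl x S.a ≫ μ) ≫ c →
      b ≫ π = z ≫ c → ∃ l : Z ⟶ U, (pushout.inl x S.a ≫ μ) ≫ l = a ∧ z ≫ l = b ∧ l ≫ π = c := by
    intro U V π hπ a b c h1 h2 h3
    obtain ⟨l, hl1, hl2⟩ := an_lift anμ hπ (sq1.desc a b h1) c (by
      apply sq1.hom_ext
      · rw [sq1.inl_desc_assoc, h2, Category.assoc]
      · rw [sq1.inr_desc_assoc, h3, Category.assoc])
    exact ⟨l, by rw [Category.assoc, hl1, sq1.inl_desc],
      by rw [Category.assoc, hl1, sq1.inr_desc], hl2⟩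
  have ff : ∀ ⦃U V : 𝓜⦄ (π : U ⟶ V), Fib K.F 0 π → ∀ (a : Y.obj (n + 1) ⟶ U) (b : S.Z ⟶ U)
      (c : Z ⟶ V), y ≫ a = S.s ≫ b → a ≫ π = t ≫ c →
      b ≫ π = z ≫ c → ∃ l : Z ⟶ U, t ≫ l = a ∧ z ≫ l = b ∧ l ≫ π = c := by
    intro U V π hπ a b c h1 h2 h3
    obtain ⟨l, hl1, hl2⟩ := an_lift anν hπ (sq2.desc a b h1) c (by
      apply sq2.hom_ext
      · rw [sq2.inl_desc_assoc, h2, ← Category.assoc, hν1]
      · rw [sq2.inr_desc_assoc, h3, ← Category.assoc, hν2])
    exact ⟨l, by rw [← hν1, Category.assoc, hl1, sq2.inl_desc],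
      by rw [← hν2, Category.assoc, hl1, sq2.inr_desc], hl2⟩
  exact ⟨⟨⟨Z, pushout.inl x S.a ≫ μ, t, p, AN.comp an1 anμ, fa, hp, fb, htp⟩,
    ⟨z, fc, fd, hyt, fe, ff⟩⟩⟩

variable (K)

/-- A levelwise weak equivalence between sequences of cofibrations of cofibrant objects induces
a weak equivalence on colimits. -/
theorem W_seq_colim {X Y : ℕ ⥤ 𝓜} (α : X ⟶ Y) {cX : Cocone X} (hX : IsColimit cX)
    {cY : Cocone Y} (hY : IsColimit cY) (f : cX.pt ⟶ cY.pt)
    (hf : ∀ n, cX.ι.app n ≫ f = α.app n ≫ cY.ι.app n)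
    (hX0 : K.IsCof (X.obj 0)) (hY0 : K.IsCof (Y.obj 0))
    (hXc : ∀ n : ℕ, Cof K.F (X.map (homOfLE (Nat.le_succ n))))
    (hYc : ∀ n : ℕ, Cof K.F (Y.map (homOfLE (Nat.le_succ n))))
    (hα : ∀ n, K.W (α.app n)) : K.W f := by
  have hXn : ∀ n, K.IsCof (X.obj n) := fun n => by
    induction n with
    | zero => exact hX0
    | succ n ih => exact isCof_of_cof ih (hXc n)
  have hYn : ∀ n, K.IsCof (Y.obj n) := fun n => by
    induction n with
    | zero => exact hY0
    | succ n ih => exact isCof_of_cof ih (hYc n)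
  have hXp : K.IsCof cX.pt := isCof_of_cof hX0 (seq_cof hX hXc)
  have hYp : K.IsCof cY.pt := isCof_of_cof hY0 (seq_cof hY hYc)
  let S : ∀ n, SStage K α n := fun n =>
    Nat.rec (motive := fun n => SStage K α n) (exists_sstage_zero α hX0 hY0 (hα 0)).some
      (fun n S => (exists_slink α (hXn n) (hYn n) (hXc n) (hYc n) (hα (n + 1)) S).some.1) n
  have L : ∀ n, SLink (S n) (S (n + 1)) := fun n =>
    (exists_slink α (hXn n) (hYn n) (hXc n) (hYc n) (hα (n + 1)) (S n)).some.2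
  let Z : ℕ ⥤ 𝓜 := Functor.ofSequence (fun n => (L n).z)
  have hZ : ∀ n, Z.map (homOfLE (Nat.le_succ n)) = (L n).z := fun n =>
    Functor.ofSequence_map_homOfLE_succ _ n
  let a : X ⟶ Z := NatTrans.ofSequence (fun n => (S n).a) (fun n => by
    rw [hZ n]; exact (L n).x_a)
  let s : Y ⟶ Z := NatTrans.ofSequence (fun n => (S n).s) (fun n => by
    rw [hZ n]; exact (L n).y_s)
  let p : Z ⟶ Y := NatTrans.ofSequence (fun n => (S n).p) (fun n => by
    rw [hZ n]; exact (L n).z_p)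
  let cZ := colimit.cocone Z
  have hcZ : IsColimit cZ := colimit.isColimit Z
  let A : cX.pt ⟶ cZ.pt := hX.map cZ a
  let B : cY.pt ⟶ cZ.pt := hY.map cZ s
  let P : cZ.pt ⟶ cY.pt := hcZ.map cY p
  have hA : ∀ n, cX.ι.app n ≫ A = a.app n ≫ cZ.ι.app n := fun n => hX.ι_map cZ a n
  have hB : ∀ n, cY.ι.app n ≫ B = s.app n ≫ cZ.ι.app n := fun n => hY.ι_map cZ s n
  have hP : ∀ n, cZ.ι.app n ≫ P = p.app n ≫ cY.ι.app n := fun n => hcZ.ι_map cY p n
  have anA : AN K.F 0 A := by
    intro U V π hπ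
    refine seq_lift a hX hcZ A hA π ((S 0).ana π hπ) ?_
    intro n u v w h1 h2 h3
    rw [hZ n] at h3 ⊢
    exact (L n).liftX π hπ u v w h1 h2 h3
  have anB : AN K.F 0 B := by
    intro U V π hπ
    refine seq_lift s hY hcZ B hB π ((S 0).ans π hπ) ?_
    intro n u v w h1 h2 h3
    rw [hZ n] at h3 ⊢
    exact (L n).liftY π hπ u v w h1 h2 h3
  have hBP : B ≫ P = 𝟙 _ := by
    apply hY.hom_ext
    intro n
    rw [← Category.assoc, hB, Category.assoc, hP, ← Category.assoc, Category.comp_id]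
    change ((S n).s ≫ (S n).p) ≫ _ = _
    rw [(S n).sp, Category.id_comp]
  have hAP : A ≫ P = f := by
    apply hX.hom_ext
    intro n
    rw [← Category.assoc, hA, Category.assoc, hP, ← Category.assoc, hf]
    change ((S n).a ≫ (S n).p) ≫ _ = _
    rw [(S n).ap]
  have wP : K.W P := by
    apply W.of_comp (K.W_of_AN _ hYp anB)
    rw [hBP]
    exact W.id _
  rw [← hAP]
  exact W.comp (K.W_of_AN _ hXp anA) wP

/-- Coproducts of cofibrant objects are cofibrant. -/
theorem isCof_sigma {J : Type v} (X : J → 𝓜) (h : ∀ j, K.IsCof (X j)) : K.IsCof (∐ X) := by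
  intro U V π hπ
  apply hasLift_of_exists
  intro u w _
  choose l hl using fun j => cof_obj_lift (h j) hπ (Sigma.ι X j ≫ w)
  refine ⟨Sigma.desc l, initial.hom_ext _ _, ?_⟩
  apply Sigma.hom_ext
  intro j
  rw [Sigma.ι_desc_assoc, hl]

variable {K} in
/-- Coproducts of maps with a left lifting property. -/
theorem sigma_lift {J : Type v} {X Y : J → 𝓜} (f : ∀ j, X j ⟶ Y j) {U V : 𝓜} (π : U ⟶ V)
    (h : ∀ j, HasLiftingProperty (f j) π) : HasLiftingProperty (Limits.Sigma.map f) π := by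
  apply hasLift_of_exists
  intro u w sq
  choose l hl hl' using fun j => exists_lift_of (h j) (Sigma.ι X j ≫ u) (Sigma.ι Y j ≫ w) (by
    rw [Category.assoc, sq, ← Category.assoc, Limits.Sigma.ι_map, Category.assoc])
  refine ⟨Sigma.desc l, ?_, ?_⟩
  · apply Sigma.hom_ext
    intro j
    rw [← Category.assoc, Limits.Sigma.ι_map, Category.assoc, Sigma.ι_desc, hl]
  · apply Sigma.hom_ext
    intro j
    rw [Sigma.ι_desc_assoc, hl']

/-- Coproducts of weak equivalences between cofibrant objects. -/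
theorem W_sigma {J : Type v} {X Y : J → 𝓜} (f : ∀ j, X j ⟶ Y j) (hX : ∀ j, K.IsCof (X j))
    (hY : ∀ j, K.IsCof (Y j)) (hf : ∀ j, K.W (f j)) : K.W (Limits.Sigma.map f) := by
  choose Z a s p ha hs hp e1 e2 e3 using fun j => exists_brown (initial.to (X j))
    (initial.to (Y j)) (f j) (initial.hom_ext _ _) (hX j) (hY j) (hY j)
  have wa : K.W (Limits.Sigma.map a) := by
    refine K.W_of_AN _ (K.isCof_sigma X hX) (fun U V π hπ => sigma_lift a π (fun j => ?_))
    refine (K.AN_iff _ (hX j)).2 ⟨ha j, ?_⟩ π hπ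
    apply W.of_comp' (K.trivFib_le_W _ (hp j))
    rw [e1 j]
    exact hf j
  have ws : K.W (Limits.Sigma.map s) :=
    K.W_of_AN _ (K.isCof_sigma Y hY) (fun U V π hπ => sigma_lift s π (fun j => hs j π hπ))
  have wp : K.W (Limits.Sigma.map p) := by
    apply W.of_comp ws
    rw [show Limits.Sigma.map s ≫ Limits.Sigma.map p = 𝟙 _ by
      apply Sigma.hom_ext
      intro j
      rw [Limits.Sigma.ι_map_assoc, Limits.Sigma.ι_map, ← Category.assoc, e2 j,
        Category.id_comp, Category.comp_id]]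
    exact W.id _
  rw [show Limits.Sigma.map f = Limits.Sigma.map a ≫ Limits.Sigma.map p by
    apply Sigma.hom_ext
    intro j
    rw [Limits.Sigma.ι_map_assoc, Limits.Sigma.ι_map, Limits.Sigma.ι_map, ← Category.assoc,
      e1 j]]
  exact W.comp wa wp

end PathCtx

end Vale.Agent.P259
end
end

section

section

open CategoryTheory Limits Opposite

namespace Vale.Agent.P259

open scoped unitInterval

/-- The cube of dimension `n`, as an object of `TopCat`. -/
abbrev cubeT (n : ℕ) : TopCat.{0} := TopCat.of (Fin n → I)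

/-- The inclusion of a subspace. -/
abbrev subI {Y : Type} [TopologicalSpace Y] {U V : Set Y} (h : U ⊆ V) :
    TopCat.of U ⟶ TopCat.of V :=
  TopCat.ofHom ⟨Set.inclusion h, continuous_inclusion h⟩

/-- The inclusion of a subspace. -/
abbrev subV {Y : Type} [TopologicalSpace Y] (U : Set Y) : TopCat.of U ⟶ TopCat.of Y :=
  TopCat.ofHom ⟨Subtype.val, continuous_subtype_val⟩

/-- The properties of the singular `∞`-groupoid functor `Γ` used in the comparison with spaces:
`Γ` is built from maps of cubes into a space. -/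
structure GammaData {𝓜 : Type 1} [Category.{0} 𝓜] [HasLimits 𝓜] [HasColimits 𝓜]
    (K : PathCtx 𝓜) (Pi : TopCat.{0} ⥤ 𝓜) where
  Γ : TopCat.{0} ⥤ 𝓜
  u : Γ ⟶ Pi
  /-- lifting property against natural transformations which are trivial fibrations on cubes -/
  lift : ∀ (A B : TopCat.{0} ⥤ 𝓜) (p : A ⟶ B), (∀ n, TrivFib K.F (p.app (cubeT n))) →
    ∀ b : Γ ⟶ B, ∃ a : Γ ⟶ A, a ≫ p = b
  /-- injective maps are sent to cofibrations -/
  cof : ∀ {Y Y' : TopCat.{0}} (f : Y ⟶ Y'), Function.Injective f → Cof K.F (Γ.map f)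
  /-- the empty space -/
  empty : ∀ Y : TopCat.{0}, IsEmpty Y → Nonempty (IsInitial (Γ.obj Y))
  /-- contractible spaces -/
  contr : ∀ Y : TopCat.{0}, ContractibleSpace Y → Contr K.F (Γ.obj Y)
  /-- homotopic maps are homotopic -/
  homotopy : ∀ {Y Y' : TopCat.{0}} (f g : Y ⟶ Y'), f.hom.Homotopic g.hom →
    ∃ h : Γ.obj Y ⟶ K.P.obj (Γ.obj Y'), h ≫ K.pm.app _ = Γ.map f ∧ h ≫ K.pp.app _ = Γ.map g
  /-- excision for an open cover by two open sets -/
  excision : ∀ (Y : Type) [TopologicalSpace Y] (U V : Set Y), IsOpen U → IsOpen V →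
    U ∪ V = Set.univ → AN K.F 0
      (pushout.desc (Γ.map (subV U)) (Γ.map (subV V)) (by
        rw [← Γ.map_comp, ← Γ.map_comp]; rfl) :
        pushout (Γ.map (subI (Set.inter_subset_left (s := U) (t := V))))
          (Γ.map (subI (Set.inter_subset_right (s := U) (t := V)))) ⟶ Γ.obj (TopCat.of Y))
  /-- coproducts -/
  coprod : ∀ {J : Type} (Y : J → TopCat.{0}) (c : Cofan Y), Nonempty (IsColimit c) →
    Nonempty (IsColimit (Γ.mapCocone c))
  /-- sequential colimits which are compatible with maps from cubes -/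
  seq : ∀ (G : ℕ ⥤ TopCat.{0}) (c : Cocone G), Nonempty (IsColimit c) →
    (∀ n, Function.Injective (c.ι.app n)) →
    (∀ (k : ℕ) (f : cubeT k ⟶ c.pt), ∃ (n : ℕ) (g : cubeT k ⟶ G.obj n), g ≫ c.ι.app n = f) →
    Nonempty (IsColimit (Γ.mapCocone c))

end Vale.Agent.P259
end
end

section

section

open CategoryTheory Limits Opposite

namespace Vale.Agent.P259

open Theta0

namespace GlobExt

variable {C : GlobExt} (K0 : C.CylFun ⊤ 0) (G : C.Obj ⥤ C.Gpd)
  (θ : ∀ S : Theta0, (C.y ⊤).obj (.of S) ⟶ G.obj (.of S))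
  (hθ : ∀ {S T : Theta0} (f : S ⟶ T), (C.y ⊤).map (jm f) ≫ θ T = θ S ≫ G.map (jm f))

/-- The mapping cylinder of `θ`. -/
noncomputable def SgOb (S : Theta0) : C.Gpd := pushout (K0.im.app (.of S)) (θ S)

/-- The inclusion of the cylinder. -/
noncomputable def sgE (S : Theta0) : K0.Cy.obj (.of S) ⟶ SgOb K0 G θ S := pushout.inl _ _

/-- The inclusion of `G S`. -/
noncomputable def sgI (S : Theta0) : G.obj (.of S) ⟶ SgOb K0 G θ S := pushout.inr _ _

lemma sg_push (S : Theta0) : IsPushout (K0.im.app (.of S)) (θ S) (sgE K0 G θ S) (sgI K0 G θ S) :=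
  IsPushout.of_hasPushout _ _

/-- The morphisms of the globular extension used in the construction of `Σ`. -/
structure SHom (S T : Theta0) : Type where
  a : (Obj.of S : C.Obj) ⟶ .of T
  b : K0.Cy.obj (.of S) ⟶ SgOb K0 G θ T
  im : K0.im.app (.of S) ≫ b = θ S ≫ G.map a ≫ sgI K0 G θ T
  ip : K0.ip.app (.of S) ≫ b = (C.y ⊤).map a ≫ K0.ip.app (.of T) ≫ sgE K0 G θ T

variable {K0 G θ}

lemma SHom.ext' {S T : Theta0} {f g : SHom K0 G θ S T} (h₁ : f.a = g.a) (h₂ : f.b = g.b) :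
    f = g := by
  cases f
  cases g
  cases h₁
  cases h₂
  rfl

/-- The map induced on mapping cylinders. -/
noncomputable def SHom.sig {S T : Theta0} (f : SHom K0 G θ S T) :
    SgOb K0 G θ S ⟶ SgOb K0 G θ T :=
  (sg_push K0 G θ S).desc f.b (G.map f.a ≫ sgI K0 G θ T) f.im

lemma SHom.sgE_sig {S T : Theta0} (f : SHom K0 G θ S T) : sgE K0 G θ S ≫ f.sig = f.b :=
  (sg_push K0 G θ S).inl_desc _ _ _

lemma SHom.sgI_sig {S T : Theta0} (f : SHom K0 G θ S T) :
    sgI K0 G θ S ≫ f.sig = G.map f.a ≫ sgI K0 G θ T :=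
  (sg_push K0 G θ S).inr_desc _ _ _

variable (K0 G θ) in
/-- The identity. -/
noncomputable def SHom.id (S : Theta0) : SHom K0 G θ S S where
  a := 𝟙 _
  b := sgE K0 G θ S
  im := by
    rw [G.map_id, Category.id_comp]
    exact (sg_push K0 G θ S).w
  ip := by rw [(C.y ⊤).map_id, Category.id_comp]

lemma SHom.sig_id (S : Theta0) : (SHom.id K0 G θ S).sig = 𝟙 _ := by
  apply (sg_push K0 G θ S).hom_ext
  · rw [sgE_sig, Category.comp_id]
    rfl
  · rw [sgI_sig, Category.comp_id]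
    change G.map (𝟙 _) ≫ _ = _
    rw [G.map_id, Category.id_comp]

/-- Composition. -/
noncomputable def SHom.comp {S T U : Theta0} (f : SHom K0 G θ S T) (g : SHom K0 G θ T U) :
    SHom K0 G θ S U where
  a := f.a ≫ g.a
  b := f.b ≫ g.sig
  im := by
    rw [← Category.assoc, f.im, Category.assoc, Category.assoc, SHom.sgI_sig, G.map_comp,
      Category.assoc]
  ip := by
    rw [← Category.assoc, f.ip, Category.assoc, Category.assoc, SHom.sgE_sig, g.ip,
      (C.y ⊤).map_comp, Category.assoc]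

lemma SHom.sig_comp {S T U : Theta0} (f : SHom K0 G θ S T) (g : SHom K0 G θ T U) :
    (f.comp g).sig = f.sig ≫ g.sig := by
  apply (sg_push K0 G θ S).hom_ext
  · rw [sgE_sig, ← Category.assoc, sgE_sig]
    rfl
  · rw [sgI_sig, ← Category.assoc, sgI_sig, Category.assoc, sgI_sig]
    change G.map (f.a ≫ g.a) ≫ _ = _
    rw [G.map_comp, Category.assoc]

/-- The pushout squares of `y`, with the expected objects. -/
lemma jm_push_y {l : ℕ} (t : Tab l) (j i : ℕ) (hl : j < l) (hi : j < i) :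
    IsPushout ((C.y ⊤).map (jm (face true hl ≫ lastIncl t))) ((C.y ⊤).map (jm (face false hi)))
      ((C.y ⊤).map (jm (inl t j i hl hi))) ((C.y ⊤).map (jm (inr t j i hl hi))) :=
  C.y_isPushout ⊤ t j i hl hi

lemma jm_push {l : ℕ} (t : Tab l) (j i : ℕ) (hl : j < l) (hi : j < i) :
    IsPushout (jm (C := C) (face true hl ≫ lastIncl t)) (jm (face false hi))
      (jm (inl t j i hl hi)) (jm (inr t j i hl hi)) := C.isPushout t j i hl hi

lemma jm_push_cy (K0 : C.CylFun ⊤ 0) {l : ℕ} (t : Tab l) (j i : ℕ) (hl : j < l) (hi : j < i) :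
    IsPushout (K0.Cy.map (jm (face true hl ≫ lastIncl t))) (K0.Cy.map (jm (face false hi)))
      (K0.Cy.map (jm (inl t j i hl hi))) (K0.Cy.map (jm (inr t j i hl hi))) :=
  K0.push t j i hl hi

/-- The image of a map of `Θ₀`. -/
noncomputable def SHom.incl {S T : Theta0} (f : S ⟶ T) : SHom K0 G θ S T where
  a := jm f
  b := K0.Cy.map (jm f) ≫ sgE K0 G θ T
  im := by
    rw [← Category.assoc, ← K0.im.naturality, Category.assoc, (sg_push K0 G θ T).w,
      ← Category.assoc, hθ, Category.assoc]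
  ip := by
    rw [← Category.assoc, ← K0.ip.naturality, Category.assoc]

lemma jm_id (S : Theta0) : jm (C := C) (𝟙 S) = 𝟙 _ := C.J.map_id S

lemma jm_comp {S T U : Theta0} (f : S ⟶ T) (g : T ⟶ U) :
    jm (C := C) (f ≫ g) = jm f ≫ jm g := C.J.map_comp f g

variable (K0 G θ) in
/-- The globular extension used in the construction of `Σ`. -/
noncomputable def sgExt : GlobExt where
  Hom S T := SHom K0 G θ S T
  id S := SHom.id K0 G θ S
  comp f g := f.comp g
  id_comp f := SHom.ext' (Category.id_comp _) f.sgE_sig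
  comp_id f := SHom.ext' (Category.comp_id _) (by
    change f.b ≫ (SHom.id K0 G θ _).sig = f.b
    rw [SHom.sig_id, Category.comp_id])
  assoc f g h := SHom.ext' (Category.assoc _ _ _) (by
    change (f.b ≫ g.sig) ≫ h.sig = f.b ≫ (g.comp h).sig
    rw [SHom.sig_comp, Category.assoc])
  incl f := SHom.incl hθ f
  incl_id S := SHom.ext' (jm_id S) (by
    change K0.Cy.map (jm (𝟙 S)) ≫ sgE K0 G θ S = sgE K0 G θ S
    rw [jm_id, K0.Cy.map_id, Category.id_comp])
  incl_comp f g := SHom.ext' (jm_comp f g) (by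
    change K0.Cy.map (jm (f ≫ g)) ≫ sgE K0 G θ _ =
      (K0.Cy.map (jm f) ≫ sgE K0 G θ _) ≫ (SHom.incl hθ g).sig
    rw [Category.assoc, SHom.sgE_sig, jm_comp, K0.Cy.map_comp, Category.assoc]
    rfl)
  glue {l} t j i hl hi U a b h := by
    have h₁ : jm (face true hl ≫ lastIncl t) ≫ a.a = jm (face false hi) ≫ b.a :=
      congrArg SHom.a h
    have h₂ : K0.Cy.map (jm (face true hl ≫ lastIncl t)) ≫ a.b =
        K0.Cy.map (jm (face false hi)) ≫ b.b := by
      have h₂' : (K0.Cy.map (jm (face true hl ≫ lastIncl t)) ≫ sgE K0 G θ _) ≫ a.sig =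
          (K0.Cy.map (jm (face false hi)) ≫ sgE K0 G θ _) ≫ b.sig := congrArg SHom.b h
      rw [Category.assoc, Category.assoc, SHom.sgE_sig, SHom.sgE_sig] at h₂'
      exact h₂'
    have p₁ := jm_push (C := C) t j i hl hi
    have p₂ := jm_push_cy K0 t j i hl hi
    have p₃ := jm_push_y (C := C) t j i hl hi
    refine ⟨⟨p₁.desc a.a b.a h₁, p₂.desc a.b b.b h₂, ?_, ?_⟩, ⟨?_, ?_⟩, ?_⟩
    · apply p₃.hom_ext
      · have e₁ := K0.im.naturality (jm (C := C) (inl t j i hl hi))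
        rw [← Category.assoc, e₁, Category.assoc, p₂.inl_desc, a.im,
          ← Category.assoc ((C.y ⊤).map _), hθ, Category.assoc, ← Category.assoc (G.map _),
          ← G.map_comp, p₁.inl_desc]
      · have e₁ := K0.im.naturality (jm (C := C) (inr t j i hl hi))
        rw [← Category.assoc, e₁, Category.assoc, p₂.inr_desc, b.im,
          ← Category.assoc ((C.y ⊤).map _), hθ, Category.assoc, ← Category.assoc (G.map _),
          ← G.map_comp, p₁.inr_desc]
    · apply p₃.hom_ext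
      · have e₁ := K0.ip.naturality (jm (C := C) (inl t j i hl hi))
        rw [← Category.assoc, e₁, Category.assoc, p₂.inl_desc, a.ip, ← Category.assoc,
          ← Category.assoc, ← (C.y ⊤).map_comp, p₁.inl_desc, Category.assoc]
      · have e₁ := K0.ip.naturality (jm (C := C) (inr t j i hl hi))
        rw [← Category.assoc, e₁, Category.assoc, p₂.inr_desc, b.ip, ← Category.assoc,
          ← Category.assoc, ← (C.y ⊤).map_comp, p₁.inr_desc, Category.assoc]
    · refine SHom.ext' (p₁.inl_desc _ _ _) ?_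
      change (K0.Cy.map (jm (inl t j i hl hi)) ≫ sgE K0 G θ _) ≫ SHom.sig _ = a.b
      rw [Category.assoc, SHom.sgE_sig]
      exact p₂.inl_desc _ _ _
    · refine SHom.ext' (p₁.inr_desc _ _ _) ?_
      change (K0.Cy.map (jm (inr t j i hl hi)) ≫ sgE K0 G θ _) ≫ SHom.sig _ = b.b
      rw [Category.assoc, SHom.sgE_sig]
      exact p₂.inr_desc _ _ _
    · rintro c ⟨hc₁, hc₂⟩
      have a₁ : jm (inl t j i hl hi) ≫ c.a = a.a := congrArg SHom.a hc₁
      have b₁ : jm (inr t j i hl hi) ≫ c.a = b.a := congrArg SHom.a hc₂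
      have a₂ : K0.Cy.map (jm (inl t j i hl hi)) ≫ c.b = a.b := by
        have := congrArg SHom.b hc₁
        change (K0.Cy.map (jm (inl t j i hl hi)) ≫ sgE K0 G θ _) ≫ c.sig = a.b at this
        rw [Category.assoc, SHom.sgE_sig] at this
        exact this
      have b₂ : K0.Cy.map (jm (inr t j i hl hi)) ≫ c.b = b.b := by
        have := congrArg SHom.b hc₂
        change (K0.Cy.map (jm (inr t j i hl hi)) ≫ sgE K0 G θ _) ≫ c.sig = b.b at this
        rw [Category.assoc, SHom.sgE_sig] at this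
        exact this
      refine SHom.ext' (p₁.hom_ext ?_ ?_) (p₂.hom_ext ?_ ?_)
      · rw [a₁]; exact (p₁.inl_desc _ _ _).symm
      · rw [b₁]; exact (p₁.inr_desc _ _ _).symm
      · rw [a₂]; exact (p₂.inl_desc _ _ _).symm
      · rw [b₂]; exact (p₂.inr_desc _ _ _).symm

variable {hθ}

lemma SHom.incl_comp_b {S T U : Theta0} (f : S ⟶ T) (g : SHom K0 G θ T U) :
    ((SHom.incl hθ f).comp g).b = K0.Cy.map (jm f) ≫ g.b := by
  change (K0.Cy.map (jm f) ≫ sgE K0 G θ T) ≫ g.sig = _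
  rw [Category.assoc, SHom.sgE_sig]

variable (hθ)

/-- The compatibility on spheres, in terms of hemispheres. -/
lemma bd_comp_eq_sphDesc {𝓜 : Type 1} [Category.{0} 𝓜] [HasColimits 𝓜] {F E : Globe ⥤ 𝓜}
    (i : F ⟶ E) {k : ℕ} {X : 𝓜} (u v : cob E k ⟶ X) (h : bd E k ≫ u = bd E k ≫ v)
    (w : cob F (k + 1) ⟶ X) (hs : sg F k ≫ w = i.app _ ≫ u)
    (ht : tg F k ≫ w = i.app _ ≫ v) :
    bd F (k + 1) ≫ w = sphMap i (k + 1) ≫ sphDesc E u v h := by
  apply sph_hom_ext
  · rw [hemS_bd_assoc, hemS_sphMap_assoc, hemS_sphDesc]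
    exact hs
  · rw [hemT_bd_assoc, hemT_sphMap_assoc, hemT_sphDesc]
    exact ht

lemma sg_tg_of_bd {𝓜 : Type 1} [Category.{0} 𝓜] [HasColimits 𝓜] {E : Globe ⥤ 𝓜} {k : ℕ}
    {X : 𝓜} (u v : cob E k ⟶ X) (h : bd E k ≫ u = bd E k ≫ v) (c : cob E (k + 1) ⟶ X)
    (hc : bd E (k + 1) ≫ c = sphDesc E u v h) : sg E k ≫ c = u ∧ tg E k ≫ c = v := by
  constructor
  · rw [← hemS_bd, Category.assoc, hc, hemS_sphDesc]
  · rw [← hemT_bd, Category.assoc, hc, hemT_sphDesc]

/-- The projection of the extension used in the construction of `Σ`. -/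
noncomputable def sgProj : Map (sgExt K0 G θ hθ) C where
  map f := f.a
  map_id _ := rfl
  map_comp _ _ := rfl
  map_incl _ := rfl

theorem liftsAlong_sgProj (hcontr : ∀ S, Contr (C.F ⊤) (SgOb K0 G θ S)) :
    LiftsAlong (sgProj (K0 := K0) (G := G) (θ := θ) hθ) := by
  intro k S hS (u : SHom K0 G θ (disc k) S) (v : SHom K0 G θ (disc k) S) hpar w hw
  have hu : jm (σ k) ≫ w = u.a := hw.1
  have hv : jm (τ k) ≫ w = v.a := hw.2
  have hbd : bd (C.discF ⋙ K0.Cy) k ≫ u.b = bd (C.discF ⋙ K0.Cy) k ≫ v.b := by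
    cases k with
    | zero => exact sph_zero_hom_ext _ _ _
    | succ k =>
      obtain ⟨h1, h2⟩ := hpar
      exact (bd_comp_eq_iff (C.discF ⋙ K0.Cy) u.b v.b).2 ⟨(SHom.incl_comp_b (hθ := hθ) (σ k) u).symm.trans
          ((congrArg SHom.b h1).trans (SHom.incl_comp_b (hθ := hθ) (σ k) v)),
        (SHom.incl_comp_b (hθ := hθ) (τ k) u).symm.trans
          ((congrArg SHom.b h2).trans (SHom.incl_comp_b (hθ := hθ) (τ k) v))⟩
  have hsu : (C.y ⊤).map (jm (σ k)) ≫ θ (disc (k + 1)) ≫ G.map w ≫ sgI K0 G θ S =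
      K0.im.app (.of (disc k)) ≫ u.b := by
    rw [u.im, ← hu, G.map_comp, ← Category.assoc, hθ, Category.assoc, Category.assoc]
  have htv : (C.y ⊤).map (jm (τ k)) ≫ θ (disc (k + 1)) ≫ G.map w ≫ sgI K0 G θ S =
      K0.im.app (.of (disc k)) ≫ v.b := by
    rw [v.im, ← hv, G.map_comp, ← Category.assoc, hθ, Category.assoc, Category.assoc]
  have hsu' : (C.y ⊤).map (jm (σ k)) ≫ (C.y ⊤).map w ≫ K0.ip.app (.of S) ≫ sgE K0 G θ S =
      K0.ip.app (.of (disc k)) ≫ u.b := by
    rw [u.ip, ← hu, (C.y ⊤).map_comp, Category.assoc]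
  have htv' : (C.y ⊤).map (jm (τ k)) ≫ (C.y ⊤).map w ≫ K0.ip.app (.of S) ≫ sgE K0 G θ S =
      K0.ip.app (.of (disc k)) ≫ v.b := by
    rw [v.ip, ← hv, (C.y ⊤).map_comp, Category.assoc]
  obtain ⟨c, hc1, hc2, hc3, -⟩ := K0.ext (k + 1) (Nat.zero_le _)
    (terminal.from (SgOb K0 G θ S)) (hcontr S).trivFib_terminal (sphDesc (C.discF ⋙ K0.Cy) _ _ hbd)
    (θ (disc (k + 1)) ≫ G.map w ≫ sgI K0 G θ S)
    ((C.y ⊤).map w ≫ K0.ip.app (.of S) ≫ sgE K0 G θ S) (terminal.from _)
    (bd_comp_eq_sphDesc (Functor.whiskerLeft C.discF K0.im : C.F ⊤ ⟶ C.discF ⋙ K0.Cy) _ _ hbd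
      _ hsu htv)
    (bd_comp_eq_sphDesc (Functor.whiskerLeft C.discF K0.ip : C.F ⊤ ⟶ C.discF ⋙ K0.Cy) _ _ hbd
      _ hsu' htv')
    (terminal.hom_ext _ _) (terminal.hom_ext _ _) (terminal.hom_ext _ _)
  obtain ⟨e1, e2⟩ := sg_tg_of_bd u.b v.b hbd c hc1
  let w' : SHom K0 G θ (disc (k + 1)) S := ⟨w, c, hc2, hc3⟩
  exact ⟨w', ⟨SHom.ext' hu ((SHom.incl_comp_b (hθ := hθ) (σ k) w').trans e1),
    SHom.ext' hv ((SHom.incl_comp_b (hθ := hθ) (τ k) w').trans e2)⟩, rfl⟩

section final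

variable {hθ} (s : Map C (sgExt K0 G θ hθ)) (hs : s.comp (sgProj hθ) = Map.id C)

/-- The functor `Σ`. -/
noncomputable def sgFun : C.Obj ⥤ C.Gpd where
  obj S := SgOb K0 G θ S.sum
  map {S T} φ := (s.map φ : SHom K0 G θ S.sum T.sum).sig
  map_id S := (congrArg SHom.sig (s.map_id S.sum)).trans (SHom.sig_id _)
  map_comp f g := (congrArg SHom.sig (s.map_comp f g)).trans (SHom.sig_comp _ _)

include hs in
lemma sgFun_a {S T : Theta0} (f : C.Hom S T) : (s.map f : SHom K0 G θ S T).a = f :=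
  congrArg (fun F : Map C C => F.map f) hs

lemma sgFun_jm {S T : Theta0} (f : S ⟶ T) :
    (s.map (jm f) : SHom K0 G θ S T) = SHom.incl hθ f := s.map_incl f

/-- The inclusion of `G`. -/
noncomputable def sgIG : G ⟶ sgFun s where
  app S := sgI K0 G θ S.sum
  naturality S T φ := by
    have h := (s.map φ : SHom K0 G θ S.sum T.sum).sgI_sig
    rw [sgFun_a s hs] at h
    exact h.symm

/-- The other end of the mapping cylinder. -/
noncomputable def sgIp : C.y ⊤ ⟶ sgFun s where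
  app S := K0.ip.app S ≫ sgE K0 G θ S.sum
  naturality S T φ := by
    have h := (s.map φ : SHom K0 G θ S.sum T.sum).ip
    have h' := (s.map φ : SHom K0 G θ S.sum T.sum).sgE_sig
    rw [sgFun_a s hs] at h
    exact (h.symm.trans (congrArg (fun x => K0.ip.app S ≫ x) h'.symm)).trans
      (Category.assoc _ _ _).symm

/-- The inclusion of the cylinder. -/
noncomputable def sgEn : C.J ⋙ K0.Cy ⟶ C.J ⋙ sgFun s where
  app S := sgE K0 G θ S
  naturality S T f := by
    have h : sgE K0 G θ S ≫ (s.map (jm f) : SHom K0 G θ S T).sig =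
        K0.Cy.map (jm f) ≫ sgE K0 G θ T := by
      rw [sgFun_jm, SHom.sgE_sig]
      rfl
    exact h.symm

end final

end GlobExt

end Vale.Agent.P259
end
end

section

section

open CategoryTheory Limits Opposite

namespace Vale.Agent.P259

open Theta0 GlobExt

/-- The functor `Σ : C ⥤ Gpd C`, `Σ_S = Γ(D(S)) ⨿_{S} (S ⊗ I)`. -/
structure SigmaCat {C : GlobExt} (hC : C.IsCoherator) (K0 : C.CylFun ⊤ 0) (Δ : DiscFunctor C)
    (Gd : GammaData (K0.pathCtx hC) Δ.Pi) where
  Sg : C.Obj ⥤ C.Gpd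
  iG : Δ.D ⋙ Gd.Γ ⟶ Sg
  ip : C.y ⊤ ⟶ Sg
  θ : C.J ⋙ C.y ⊤ ⟶ C.J ⋙ Δ.D ⋙ Gd.Γ
  e : C.J ⋙ K0.Cy ⟶ C.J ⋙ Sg
  push : ∀ S : Theta0, IsPushout (K0.im.app (C.J.obj S)) (θ.app S) (e.app S)
    (iG.app (C.J.obj S))
  ip_e : ∀ S : Theta0, K0.ip.app (C.J.obj S) ≫ e.app S = ip.app (C.J.obj S)
  ζ : C.J ⋙ K0.Cy ⟶ C.J ⋙ Δ.D ⋙ Δ.Pi
  im_ζ : ∀ S : Theta0, K0.im.app (C.J.obj S) ≫ ζ.app S = Δ.can.app (C.J.obj S)
  ip_ζ : ∀ S : Theta0, K0.ip.app (C.J.obj S) ≫ ζ.app S =
    θ.app S ≫ Gd.u.app (Δ.D.obj (C.J.obj S))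

variable {C : GlobExt}

lemma preservesGlue_y (C : GlobExt) : PreservesGlue (C.J ⋙ C.y ⊤) :=
  fun t j i hl hi => C.y_isPushout ⊤ t j i hl hi

lemma preservesGlue_cy (K0 : C.CylFun ⊤ 0) : PreservesGlue (C.J ⋙ K0.Cy) :=
  fun t j i hl hi => K0.push t j i hl hi

section

variable {hC : C.IsCoherator} {K0 : C.CylFun ⊤ 0} {Δ : DiscFunctor C}
  (Gd : GammaData (K0.pathCtx hC) Δ.Pi)

lemma GammaData.cof_obj (Y : TopCat.{0}) : Cof (C.F ⊤) (initial.to (Gd.Γ.obj Y)) := by
  obtain ⟨h⟩ := Gd.empty (TopCat.of Empty) inferInstanceAs (IsEmpty Empty)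
  let f : TopCat.of Empty ⟶ Y := TopCat.ofHom ⟨fun x => x.elim, by fun_prop⟩
  have hf : Cof (C.F ⊤) (Gd.Γ.map f) := Gd.cof f (fun x => x.elim)
  have e : initial.to (Gd.Γ.obj Y) = initial.to (Gd.Γ.obj (TopCat.of Empty)) ≫ Gd.Γ.map f :=
    initial.hom_ext _ _
  have : IsIso (initial.to (Gd.Γ.obj (TopCat.of Empty))) :=
    ⟨h.to _, initialIsInitial.hom_ext _ _, h.hom_ext _ _⟩
  rw [e]
  exact MorphismProperty.comp_mem _ _ _ (MorphismProperty.of_isIso _ _) hf

theorem contr_sgOb (θ : C.J ⋙ C.y ⊤ ⟶ C.J ⋙ Δ.D ⋙ Gd.Γ) (S : Theta0) :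
    Contr (C.F ⊤) (SgOb K0 (Δ.D ⋙ Gd.Γ) (fun S => θ.app S) S) := by
  refine K0.contr_of_an hC (sgI K0 (Δ.D ⋙ Gd.Γ) (fun S => θ.app S) S)
    (Gd.contr _ (Δ.contractible _)) (Gd.cof_obj _) ?_
  exact MorphismProperty.of_isPushout (P := AN (C.F ⊤) 0) (sg_push K0 _ _ S).flip
    (K0.im_an hC _)

end

/-- The section principle for `Σ`. -/
theorem exists_sigmaCat (hC : C.IsCoherator) (K0 : C.CylFun ⊤ 0) (Δ : DiscFunctor C)
    (Gd : GammaData (K0.pathCtx hC) Δ.Pi) : Nonempty (SigmaCat hC K0 Δ Gd) := by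
  obtain ⟨θ0⟩ := exists_theta_disc ⊤ (C.discF ⋙ Δ.D ⋙ Gd.Γ)
    (fun j => Gd.contr _ (Δ.contractible _))
  obtain ⟨θ, hθ⟩ := exists_extend (C.J ⋙ C.y ⊤) (C.J ⋙ Δ.D ⋙ Gd.Γ) (preservesGlue_y C) θ0
  obtain ⟨ζ0, hζ1, hζ2⟩ := exists_zeta_disc K0 (C.discF ⋙ Δ.D ⋙ Δ.Pi)
    (fun j => by
      have := Δ.contractible (C.discF.obj (Globe.D j))
      exact Δ.contr_Pi _) (Functor.whiskerLeft C.discF Δ.can)
    (θ0 ≫ Functor.whiskerLeft (C.discF ⋙ Δ.D) Gd.u)
  obtain ⟨ζ, hζ⟩ := exists_extend (C.J ⋙ K0.Cy) (C.J ⋙ Δ.D ⋙ Δ.Pi) (preservesGlue_cy K0) ζ0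
  have hθn : ∀ n, θ.app (disc n) = θ0.app (Globe.D n) := fun n =>
    congrArg (fun α => α.app (Globe.D n)) hθ
  have hζn : ∀ n, ζ.app (disc n) = ζ0.app (Globe.D n) := fun n =>
    congrArg (fun α => α.app (Globe.D n)) hζ
  have h1 : Functor.whiskerLeft C.J K0.im ≫ ζ = Functor.whiskerLeft C.J Δ.can := by
    refine ext_of_disc (preservesGlue_y C) (fun n => ?_)
    exact (congrArg (fun x => K0.im.app (C.J.obj (disc n)) ≫ x) (hζn n)).trans
      (congrArg (fun α => α.app (Globe.D n)) hζ1)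
  have h2 : Functor.whiskerLeft C.J K0.ip ≫ ζ =
      θ ≫ Functor.whiskerLeft (C.J ⋙ Δ.D) Gd.u := by
    refine ext_of_disc (preservesGlue_y C) (fun n => ?_)
    exact ((congrArg (fun x => K0.ip.app (C.J.obj (disc n)) ≫ x) (hζn n)).trans
      (congrArg (fun α => α.app (Globe.D n)) hζ2)).trans
      (congrArg (fun x => x ≫ Gd.u.app (Δ.D.obj (C.J.obj (disc n)))) (hθn n)).symm
  have hnat : ∀ {S T : Theta0} (f : S ⟶ T), (C.y ⊤).map (jm f) ≫ θ.app T =
      θ.app S ≫ (Δ.D ⋙ Gd.Γ).map (jm f) := fun f => θ.naturality f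
  obtain ⟨T⟩ := hC.tower
  obtain ⟨s, hs⟩ := T.exists_section (sgProj (K0 := K0) (G := Δ.D ⋙ Gd.Γ)
    (θ := fun S => θ.app S) hnat) (liftsAlong_sgProj hnat (contr_sgOb Gd θ))
  exact ⟨{
    Sg := sgFun s
    iG := sgIG s hs
    ip := sgIp s hs
    θ := θ
    e := sgEn s
    push := fun S => sg_push K0 (Δ.D ⋙ Gd.Γ) (fun S => θ.app S) S
    ip_e := fun S => rfl
    ζ := ζ
    im_ζ := fun S => congrArg (fun α => α.app S) h1
    ip_ζ := fun S => congrArg (fun α => α.app S) h2 }⟩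

end Vale.Agent.P259
end
end

section

section

open CategoryTheory Limits Opposite

namespace Vale.Agent.P259

open Theta0 GlobExt

variable {C : GlobExt} {hC : C.IsCoherator} {K0 : C.CylFun ⊤ 0} {Δ : DiscFunctor C}
  {Gd : GammaData (K0.pathCtx hC) Δ.Pi} (Sc : SigmaCat hC K0 Δ Gd)

lemma SigmaCat.HPre_aux {Y : TopCat.{0}} {Z : C.Gpd} (a : Gd.Γ.obj Y ⟶ Z) {S T : C.Obj}
    (φ : T ⟶ S) (f : Δ.D.obj S ⟶ Y) (η : Sc.Sg.obj S ⟶ Z)
    (h : Sc.iG.app S ≫ η = Gd.Γ.map f ≫ a) :
    Sc.iG.app T ≫ Sc.Sg.map φ ≫ η = Gd.Γ.map (Δ.D.map φ ≫ f) ≫ a := by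
  have h1 : Gd.Γ.map (Δ.D.map φ) ≫ Sc.iG.app S = Sc.iG.app T ≫ Sc.Sg.map φ :=
    Sc.iG.naturality φ
  rw [← Category.assoc, ← h1, Category.assoc, h, Gd.Γ.map_comp, Category.assoc]

/-- The presheaf `H_a(Z)(S) = {(f : D(S) ⟶ Y, η : Σ_S ⟶ Z) | η extends a ∘ Γ(f)}`. -/
noncomputable def SigmaCat.HPre {Y : TopCat.{0}} {Z : C.Gpd} (a : Gd.Γ.obj Y ⟶ Z) :
    C.Objᵒᵖ ⥤ Type where
  obj S := {p : (Δ.D.obj S.unop ⟶ Y) × (Sc.Sg.obj S.unop ⟶ Z) //
    Sc.iG.app S.unop ≫ p.2 = Gd.Γ.map p.1 ≫ a}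
  map φ := ↾(fun p => ⟨(Δ.D.map φ.unop ≫ p.1.1, Sc.Sg.map φ.unop ≫ p.1.2),
    Sc.HPre_aux a φ.unop p.1.1 p.1.2 p.2⟩)
  map_id S := by
    refine ConcreteCategory.ext_apply (fun p => ?_)
    apply Subtype.ext
    apply Prod.ext
    · change Δ.D.map (𝟙 S.unop) ≫ p.1.1 = p.1.1
      rw [Δ.D.map_id, Category.id_comp]
    · change Sc.Sg.map (𝟙 S.unop) ≫ p.1.2 = p.1.2
      rw [Sc.Sg.map_id, Category.id_comp]
  map_comp φ ψ := by
    refine ConcreteCategory.ext_apply (fun p => ?_)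
    apply Subtype.ext
    apply Prod.ext
    · change Δ.D.map (ψ.unop ≫ φ.unop) ≫ p.1.1 = Δ.D.map ψ.unop ≫ Δ.D.map φ.unop ≫ p.1.1
      rw [Δ.D.map_comp, Category.assoc]
    · change Sc.Sg.map (ψ.unop ≫ φ.unop) ≫ p.1.2 = Sc.Sg.map ψ.unop ≫ Sc.Sg.map φ.unop ≫ p.1.2
      rw [Sc.Sg.map_comp, Category.assoc]

lemma SigmaCat.HPre_ext {Y : TopCat.{0}} {Z : C.Gpd} {a : Gd.Γ.obj Y ⟶ Z} {S : Theta0}
    {x x' : (Sc.HPre a).obj (op (.of S))} (h1 : x.1.1 = x'.1.1)
    (h2 : Sc.e.app S ≫ x.1.2 = Sc.e.app S ≫ x'.1.2) : x = x' := by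
  apply Subtype.ext
  apply Prod.ext h1
  apply (Sc.push S).hom_ext h2
  exact x.2.trans ((congrArg (fun f => Gd.Γ.map f ≫ a) h1).trans x'.2.symm)

lemma SigmaCat.im_e {Y : TopCat.{0}} {Z : C.Gpd} {a : Gd.Γ.obj Y ⟶ Z} {S : Theta0}
    (x : (Sc.HPre a).obj (op (.of S))) :
    K0.im.app (C.J.obj S) ≫ Sc.e.app S ≫ x.1.2 = Sc.θ.app S ≫ Gd.Γ.map x.1.1 ≫ a := by
  refine (Category.assoc _ _ _).symm.trans ((congrArg (fun t => t ≫ x.1.2)
    (Sc.push S).w).trans ((Category.assoc _ _ _).trans ?_))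
  exact congrArg (fun t => Sc.θ.app S ≫ t) x.2

lemma SigmaCat.HPre_exists {Y : TopCat.{0}} {Z : C.Gpd} (a : Gd.Γ.obj Y ⟶ Z) {S : Theta0}
    (f : Δ.D.obj (C.J.obj S) ⟶ Y) (c : K0.Cy.obj (C.J.obj S) ⟶ Z)
    (h : K0.im.app (C.J.obj S) ≫ c = Sc.θ.app S ≫ Gd.Γ.map f ≫ a) :
    ∃ x : (Sc.HPre a).obj (op (.of S)), x.1.1 = f ∧ Sc.e.app S ≫ x.1.2 = c :=
  ⟨⟨(f, (Sc.push S).desc c (Gd.Γ.map f ≫ a) h), (Sc.push S).inr_desc _ _ _⟩, rfl,
    (Sc.push S).inl_desc _ _ _⟩

lemma SigmaCat.HPre_map_fst {Y : TopCat.{0}} {Z : C.Gpd} {a : Gd.Γ.obj Y ⟶ Z} {S T : Theta0}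
    (φ : T ⟶ S) (x : (Sc.HPre a).obj (op (.of S))) :
    ((Sc.HPre a).map (C.J.map φ).op x).1.1 = Δ.D.map (C.J.map φ) ≫ x.1.1 := rfl

lemma SigmaCat.HPre_map_e {Y : TopCat.{0}} {Z : C.Gpd} {a : Gd.Γ.obj Y ⟶ Z} {S T : Theta0}
    (φ : T ⟶ S) (x : (Sc.HPre a).obj (op (.of S))) :
    Sc.e.app T ≫ ((Sc.HPre a).map (C.J.map φ).op x).1.2 =
      K0.Cy.map (C.J.map φ) ≫ Sc.e.app S ≫ x.1.2 := by
  have h : K0.Cy.map (C.J.map φ) ≫ Sc.e.app S = Sc.e.app T ≫ Sc.Sg.map (C.J.map φ) :=
    Sc.e.naturality φ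
  exact (Category.assoc _ _ _).symm.trans ((congrArg (fun t => t ≫ x.1.2)
    h.symm).trans (Category.assoc _ _ _))

theorem SigmaCat.HPre_isSegal {Y : TopCat.{0}} {Z : C.Gpd} (a : Gd.Γ.obj Y ⟶ Z) :
    C.IsSegal (Sc.HPre a) := by
  refine (Seg.of ?_ ?_).isSegal
  · intro l t j i hl hi x x' h1 h2
    apply Sc.HPre_ext
    · apply (Δ.glue t j i hl hi).hom_ext
      · exact congrArg (fun z : (Sc.HPre a).obj (op (.of ⟨t⟩)) => z.1.1) h1
      · exact congrArg (fun z : (Sc.HPre a).obj (op (.of (disc i))) => z.1.1) h2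
    · apply (K0.push t j i hl hi).hom_ext
      · rw [← Sc.HPre_map_e, ← Sc.HPre_map_e]
        exact congrArg (fun z : (Sc.HPre a).obj (op (.of ⟨t⟩)) => Sc.e.app _ ≫ z.1.2) h1
      · rw [← Sc.HPre_map_e, ← Sc.HPre_map_e]
        exact congrArg (fun z : (Sc.HPre a).obj (op (.of (disc i))) => Sc.e.app _ ≫ z.1.2) h2
  · intro l t j i hl hi x z h
    have hf : Δ.D.map (C.J.map (face true hl ≫ lastIncl t)) ≫ x.1.1 =
        Δ.D.map (C.J.map (face false hi)) ≫ z.1.1 :=
      congrArg (fun z : (Sc.HPre a).obj (op (.of (disc j))) => z.1.1) h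
    have hc : K0.Cy.map (C.J.map (face true hl ≫ lastIncl t)) ≫ Sc.e.app ⟨t⟩ ≫ x.1.2 =
        K0.Cy.map (C.J.map (face false hi)) ≫ Sc.e.app (disc i) ≫ z.1.2 := by
      rw [← Sc.HPre_map_e, ← Sc.HPre_map_e]
      exact congrArg (fun z : (Sc.HPre a).obj (op (.of (disc j))) => Sc.e.app _ ≫ z.1.2) h
    obtain ⟨f, hf1, hf2⟩ : ∃ f : Δ.D.obj (C.J.obj (Theta0.glue t j i hl hi)) ⟶ Y,
        Δ.D.map (C.J.map (inl t j i hl hi)) ≫ f = x.1.1 ∧
        Δ.D.map (C.J.map (inr t j i hl hi)) ≫ f = z.1.1 :=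
      ⟨(Δ.glue t j i hl hi).desc _ _ hf, (Δ.glue t j i hl hi).inl_desc _ _ _,
        (Δ.glue t j i hl hi).inr_desc _ _ _⟩
    obtain ⟨c, hc1, hc2⟩ : ∃ c : K0.Cy.obj (C.J.obj (Theta0.glue t j i hl hi)) ⟶ Z,
        K0.Cy.map (C.J.map (inl t j i hl hi)) ≫ c = Sc.e.app ⟨t⟩ ≫ x.1.2 ∧
        K0.Cy.map (C.J.map (inr t j i hl hi)) ≫ c = Sc.e.app (disc i) ≫ z.1.2 :=
      ⟨(K0.push t j i hl hi).desc _ _ hc, (K0.push t j i hl hi).inl_desc _ _ _,
        (K0.push t j i hl hi).inr_desc _ _ _⟩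
    have key : ∀ {T : Theta0} (φ : T ⟶ Theta0.glue t j i hl hi)
        (w : (Sc.HPre a).obj (op (.of T))), Δ.D.map (C.J.map φ) ≫ f = w.1.1 →
        K0.Cy.map (C.J.map φ) ≫ c = Sc.e.app T ≫ w.1.2 →
        (C.y ⊤).map (C.J.map φ) ≫ K0.im.app (C.J.obj (Theta0.glue t j i hl hi)) ≫ c =
        (C.y ⊤).map (C.J.map φ) ≫ Sc.θ.app (Theta0.glue t j i hl hi) ≫ Gd.Γ.map f ≫ a := by
      intro T φ w e1 e2
      have n2 : (C.y ⊤).map (C.J.map φ) ≫ Sc.θ.app (Theta0.glue t j i hl hi) =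
          Sc.θ.app T ≫ Gd.Γ.map (Δ.D.map (C.J.map φ)) := Sc.θ.naturality φ
      rw [← Category.assoc, K0.im.naturality, Category.assoc, e2, Sc.im_e,
        ← Category.assoc ((C.y ⊤).map (C.J.map φ)), n2, Category.assoc,
        ← Category.assoc (Gd.Γ.map _), ← Gd.Γ.map_comp, e1]
    obtain ⟨y, hy1, hy2⟩ := Sc.HPre_exists a f c (by
      apply (C.y_isPushout ⊤ t j i hl hi).hom_ext
      · exact key _ x hf1 hc1
      · exact key _ z hf2 hc2)
    refine ⟨y, ?_, ?_⟩
    · apply Sc.HPre_ext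
      · exact (congrArg (fun f => Δ.D.map (C.J.map (inl t j i hl hi)) ≫ f) hy1).trans hf1
      · refine (Sc.HPre_map_e (inl t j i hl hi) y).trans ?_
        rw [hy2, hc1]
    · apply Sc.HPre_ext
      · exact (congrArg (fun f => Δ.D.map (C.J.map (inr t j i hl hi)) ≫ f) hy1).trans hf2
      · refine (Sc.HPre_map_e (inr t j i hl hi) y).trans ?_
        rw [hy2, hc2]

/-- The `∞`-groupoid `H_a(Z)`. -/
noncomputable def SigmaCat.H {Y : TopCat.{0}} {Z : C.Gpd} (a : Gd.Γ.obj Y ⟶ Z) : C.Gpd :=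
  ⟨Sc.HPre a, Sc.HPre_isSegal a, isThin_top _⟩

/-- The projection `H_a(Z) ⟶ Π(Y)`. -/
noncomputable def SigmaCat.Hpi {Y : TopCat.{0}} {Z : C.Gpd} (a : Gd.Γ.obj Y ⟶ Z) :
    Sc.H a ⟶ Δ.Pi.obj Y :=
  ⟨{ app := fun S => ↾(fun p : (Sc.HPre a).obj S => p.1.1)
     naturality := by
      intro S T φ
      ext p
      rfl }⟩

/-- The projection `H_a(Z) ⟶ Z`. -/
noncomputable def SigmaCat.Hq {Y : TopCat.{0}} {Z : C.Gpd} (a : Gd.Γ.obj Y ⟶ Z) :
    Sc.H a ⟶ Z :=
  ⟨{ app := fun S => ↾(fun p : (Sc.HPre a).obj S => yEquiv S.unop Z (Sc.ip.app S.unop ≫ p.1.2))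
     naturality := by
      intro S T φ
      ext p
      change yEquiv T.unop Z (Sc.ip.app T.unop ≫ Sc.Sg.map φ.unop ≫ p.1.2) =
        Z.obj.map φ (yEquiv S.unop Z (Sc.ip.app S.unop ≫ p.1.2))
      have h := yEquiv_naturality_left φ.unop (Sc.ip.app S.unop ≫ p.1.2)
      rw [← Category.assoc, Sc.ip.naturality, Category.assoc] at h
      exact h }⟩

/-- Functoriality. -/
noncomputable def SigmaCat.Hmap {Y Y' : TopCat.{0}} {Z Z' : C.Gpd} (a : Gd.Γ.obj Y ⟶ Z)
    (a' : Gd.Γ.obj Y' ⟶ Z') (g : Y ⟶ Y') (z : Z ⟶ Z') (h : a ≫ z = Gd.Γ.map g ≫ a') :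
    Sc.H a ⟶ Sc.H a' :=
  ⟨{ app := fun S => ↾(fun p : (Sc.HPre a).obj S =>
        (⟨(p.1.1 ≫ g, p.1.2 ≫ z), by
          have hp := p.2
          dsimp only at hp ⊢
          rw [← Category.assoc, hp, Category.assoc, h, Gd.Γ.map_comp, Category.assoc]⟩ :
            (Sc.HPre a').obj S))
     naturality := by
      intro S T φ
      ext p
      apply Subtype.ext
      apply Prod.ext
      · exact Category.assoc _ _ _
      · exact Category.assoc _ _ _ }⟩

/-- The element of `H_a(Z)` which underlies a cell. -/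
noncomputable def SigmaCat.hel {Y : TopCat.{0}} {Z : C.Gpd} {a : Gd.Γ.obj Y ⟶ Z} {j : ℕ}
    (x : cob (C.F ⊤) j ⟶ Sc.H a) : (Sc.HPre a).obj (op (.of (disc j))) :=
  yEquiv (.of (disc j)) (Sc.H a) x

/-- The map from a disc which underlies a cell of `H_a(Z)`. -/
noncomputable def SigmaCat.top {Y : TopCat.{0}} {Z : C.Gpd} {a : Gd.Γ.obj Y ⟶ Z} {j : ℕ}
    (x : cob (C.F ⊤) j ⟶ Sc.H a) : Δ.D.obj (C.discF.obj (Globe.D j)) ⟶ Y :=
  (Sc.hel x).1.1

/-- The cylinder on a disc which underlies a cell of `H_a(Z)`. -/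
noncomputable def SigmaCat.cyl {Y : TopCat.{0}} {Z : C.Gpd} (a : Gd.Γ.obj Y ⟶ Z) {j : ℕ}
    (x : cob (C.F ⊤) j ⟶ Sc.H a) : cob (C.discF ⋙ K0.Cy) j ⟶ Z :=
  Sc.e.app (disc j) ≫ (yEquiv (.of (disc j)) (Sc.H a) x : (Sc.HPre a).obj (op (.of (disc j)))).1.2

lemma SigmaCat.top_nat {Y : TopCat.{0}} {Z : C.Gpd} {a : Gd.Γ.obj Y ⟶ Z} {i j : ℕ}
    (φ : Globe.D i ⟶ Globe.D j) (x : cob (C.F ⊤) j ⟶ Sc.H a) :
    Sc.top ((C.F ⊤).map φ ≫ x) = Δ.D.map (C.discF.map φ) ≫ Sc.top x := by
  have h : Sc.hel ((C.F ⊤).map φ ≫ x) = (Sc.HPre a).map (C.discF.map φ).op (Sc.hel x) :=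
    yEquiv_naturality_left (C.discF.map φ) x
  exact congrArg (fun z : (Sc.HPre a).obj (op (.of (disc i))) => z.1.1) h

lemma SigmaCat.cyl_nat {Y : TopCat.{0}} {Z : C.Gpd} (a : Gd.Γ.obj Y ⟶ Z) {i j : ℕ}
    (φ : Globe.D i ⟶ Globe.D j) (x : cob (C.F ⊤) j ⟶ Sc.H a) :
    Sc.cyl a ((C.F ⊤).map φ ≫ x) = (C.discF ⋙ K0.Cy).map φ ≫ Sc.cyl a x := by
  have h : Sc.hel ((C.F ⊤).map φ ≫ x) = (Sc.HPre a).map (C.discF.map φ).op (Sc.hel x) :=
    yEquiv_naturality_left (C.discF.map φ) x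
  refine (congrArg (fun z : (Sc.HPre a).obj (op (.of (disc i))) => Sc.e.app (disc i) ≫ z.1.2)
    h).trans ?_
  exact Sc.HPre_map_e (discMap φ) (Sc.hel x)

/-- The map from a disc to `Γ` of its realization. -/
noncomputable def SigmaCat.th (j : ℕ) :
    cob (C.F ⊤) j ⟶ Gd.Γ.obj (Δ.D.obj (C.discF.obj (Globe.D j))) :=
  Sc.θ.app (disc j)

lemma SigmaCat.th_nat {i j : ℕ} (φ : Globe.D i ⟶ Globe.D j) :
    (C.F ⊤).map φ ≫ Sc.th j = Sc.th i ≫ Gd.Γ.map (Δ.D.map (C.discF.map φ)) :=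
  Sc.θ.naturality (discMap φ)

lemma SigmaCat.im_cyl {Y : TopCat.{0}} {Z : C.Gpd} (a : Gd.Γ.obj Y ⟶ Z) {j : ℕ}
    (x : cob (C.F ⊤) j ⟶ Sc.H a) :
    (Functor.whiskerLeft C.discF K0.im : C.F ⊤ ⟶ C.discF ⋙ K0.Cy).app (Globe.D j) ≫
      Sc.cyl a x = Sc.th j ≫ Gd.Γ.map (Sc.top x) ≫ a :=
  Sc.im_e (Sc.hel x)

lemma SigmaCat.ip_cyl {Y : TopCat.{0}} {Z : C.Gpd} (a : Gd.Γ.obj Y ⟶ Z) {j : ℕ}
    (x : cob (C.F ⊤) j ⟶ Sc.H a) :
    K0.ip.app (C.discF.obj (Globe.D j)) ≫ Sc.cyl a x = x ≫ Sc.Hq a := by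
  apply (yEquiv (.of (disc j)) Z).injective
  refine Eq.trans ?_ (yEquiv_naturality_right x (Sc.Hq a)).symm
  refine congrArg (yEquiv (.of (disc j)) Z) ?_
  exact (Category.assoc _ _ _).symm.trans (congrArg (fun t => t ≫ (Sc.hel x).1.2)
    (Sc.ip_e (disc j)))

lemma SigmaCat.cell_ext {Y : TopCat.{0}} {Z : C.Gpd} {a : Gd.Γ.obj Y ⟶ Z} {j : ℕ}
    {x x' : cob (C.F ⊤) j ⟶ Sc.H a} (h1 : Sc.top x = Sc.top x') (h2 : Sc.cyl a x = Sc.cyl a x') :
    x = x' := by
  apply (yEquiv (.of (disc j)) (Sc.H a)).injective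
  exact Sc.HPre_ext h1 h2

lemma SigmaCat.cell_exists {Y : TopCat.{0}} {Z : C.Gpd} (a : Gd.Γ.obj Y ⟶ Z) {j : ℕ}
    (f : Δ.D.obj (C.discF.obj (Globe.D j)) ⟶ Y) (c : cob (C.discF ⋙ K0.Cy) j ⟶ Z)
    (h : K0.im.app (C.discF.obj (Globe.D j)) ≫ c = Sc.th j ≫ Gd.Γ.map f ≫ a) :
    ∃ x : cob (C.F ⊤) j ⟶ Sc.H a, Sc.top x = f ∧ Sc.cyl a x = c := by
  obtain ⟨x, h1, h2⟩ := Sc.HPre_exists a (S := disc j) f c h
  have e : Sc.hel ((yEquiv (.of (disc j)) (Sc.H a)).symm x) = x := Equiv.apply_symm_apply _ _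
  refine ⟨(yEquiv (.of (disc j)) (Sc.H a)).symm x, ?_, ?_⟩
  · exact (congrArg (fun z : (Sc.HPre a).obj (op (.of (disc j))) => z.1.1) e).trans h1
  · exact (congrArg (fun z : (Sc.HPre a).obj (op (.of (disc j))) => Sc.e.app (disc j) ≫ z.1.2)
      e).trans h2

lemma SigmaCat.top_Hmap {Y Y' : TopCat.{0}} {Z Z' : C.Gpd} {a : Gd.Γ.obj Y ⟶ Z}
    {a' : Gd.Γ.obj Y' ⟶ Z'} (g : Y ⟶ Y') (z : Z ⟶ Z') (h : a ≫ z = Gd.Γ.map g ≫ a') {j : ℕ}
    (x : cob (C.F ⊤) j ⟶ Sc.H a) : Sc.top (x ≫ Sc.Hmap a a' g z h) = Sc.top x ≫ g := by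
  have h := yEquiv_naturality_right x (Sc.Hmap a a' g z h)
  exact congrArg (fun t : (Sc.HPre a').obj (op (.of (disc j))) => t.1.1) h

lemma SigmaCat.cyl_Hmap {Y Y' : TopCat.{0}} {Z Z' : C.Gpd} {a : Gd.Γ.obj Y ⟶ Z}
    {a' : Gd.Γ.obj Y' ⟶ Z'} (g : Y ⟶ Y') (z : Z ⟶ Z') (h : a ≫ z = Gd.Γ.map g ≫ a') {j : ℕ}
    (x : cob (C.F ⊤) j ⟶ Sc.H a) : Sc.cyl a' (x ≫ Sc.Hmap a a' g z h) = Sc.cyl a x ≫ z := by
  have h := yEquiv_naturality_right x (Sc.Hmap a a' g z h)
  refine (congrArg (fun t : (Sc.HPre a').obj (op (.of (disc j))) => Sc.e.app (disc j) ≫ t.1.2)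
    h).trans ?_
  exact (Category.assoc _ _ _).symm

lemma SigmaCat.top_Hpi {Y : TopCat.{0}} {Z : C.Gpd} {a : Gd.Γ.obj Y ⟶ Z} {j : ℕ}
    (x : cob (C.F ⊤) j ⟶ Sc.H a) : Δ.dEquiv j Y (x ≫ Sc.Hpi a) = Sc.top x :=
  yEquiv_naturality_right x (Sc.Hpi a)

/-- Cells of `H_a(Z)` with the same boundary have cylinders with the same boundary. -/
lemma SigmaCat.bd_cyl {Y : TopCat.{0}} {Z : C.Gpd} {a : Gd.Γ.obj Y ⟶ Z} : ∀ {j : ℕ}
    {x x' : cob (C.F ⊤) j ⟶ Sc.H a}, bd (C.F ⊤) j ≫ x = bd (C.F ⊤) j ≫ x' →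
    bd (C.discF ⋙ K0.Cy) j ≫ Sc.cyl a x = bd (C.discF ⋙ K0.Cy) j ≫ Sc.cyl a x' := by
  intro j
  cases j with
  | zero => intro _ _ _; exact sph_zero_hom_ext _ _ _
  | succ j =>
    intro x x' h
    rw [bd_comp_eq_iff] at h ⊢
    rw [← Sc.cyl_nat, ← Sc.cyl_nat, ← Sc.cyl_nat, ← Sc.cyl_nat, h.1, h.2]
    exact ⟨rfl, rfl⟩

lemma SigmaCat.Hmap_Hpi_one {Y : TopCat.{0}} {Z Z' : C.Gpd} (a : Gd.Γ.obj Y ⟶ Z)
    (z : Z ⟶ Z') (h : a ≫ z = Gd.Γ.map (𝟙 Y) ≫ a ≫ z) :
    Sc.Hmap a (a ≫ z) (𝟙 Y) z h ≫ Sc.Hpi (a ≫ z) = Sc.Hpi a := by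
  apply ObjectProperty.hom_ext
  apply NatTrans.ext
  funext S
  refine ConcreteCategory.ext_apply (fun p => ?_)
  exact Category.comp_id (X := Δ.D.obj S.unop) (Y := Y) p.1.1

/-- The cylinder on a sphere which underlies a sphere of `H_a(Z)`. -/
lemma SigmaCat.exists_sphCyl {Y : TopCat.{0}} {Z : C.Gpd} (a : Gd.Γ.obj Y ⟶ Z) (j : ℕ)
    (u : sph (C.F ⊤) j ⟶ Sc.H a) (b : cob (C.F ⊤) j ⟶ Δ.Pi.obj Y)
    (hb : u ≫ Sc.Hpi a = bd (C.F ⊤) j ≫ b) :
    ∃ β : sph (C.discF ⋙ K0.Cy) j ⟶ Z,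
      (∀ x : cob (C.F ⊤) j ⟶ Sc.H a, Sc.top x = Δ.dEquiv j Y b →
        bd (C.discF ⋙ K0.Cy) j ≫ Sc.cyl a x = β → bd (C.F ⊤) j ≫ x = u) ∧
      sphMap (Functor.whiskerLeft C.discF K0.im : C.F ⊤ ⟶ C.discF ⋙ K0.Cy) j ≫ β =
        bd (C.F ⊤) j ≫ Sc.th j ≫ Gd.Γ.map (Δ.dEquiv j Y b) ≫ a ∧
      ∀ {Z' : C.Gpd} (z : Z ⟶ Z') (h : a ≫ z = Gd.Γ.map (𝟙 Y) ≫ a ≫ z)
        (y : cob (C.F ⊤) j ⟶ Sc.H (a ≫ z)),
        u ≫ Sc.Hmap a (a ≫ z) (𝟙 Y) z h = bd (C.F ⊤) j ≫ y →
        bd (C.discF ⋙ K0.Cy) j ≫ Sc.cyl (a ≫ z) y = β ≫ z := by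
  cases j with
  | zero =>
    exact ⟨(isInitialSphZero _).to _, fun _ _ _ => sph_zero_hom_ext _ _ _,
      sph_zero_hom_ext _ _ _, fun _ _ _ _ => sph_zero_hom_ext _ _ _⟩
  | succ j =>
    have hS : Sc.top (hemS (C.F ⊤) j ≫ u) =
        Δ.D.map (C.discF.map (Globe.σ j)) ≫ Δ.dEquiv (j + 1) Y b := by
      rw [← Sc.top_Hpi, Category.assoc, hb, hemS_bd_assoc, Δ.dEquiv_map]
    have hT : Sc.top (hemT (C.F ⊤) j ≫ u) =
        Δ.D.map (C.discF.map (Globe.τ j)) ≫ Δ.dEquiv (j + 1) Y b := by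
      rw [← Sc.top_Hpi, Category.assoc, hb, hemT_bd_assoc, Δ.dEquiv_map]
    refine ⟨sphDesc _ (Sc.cyl a (hemS (C.F ⊤) j ≫ u)) (Sc.cyl a (hemT (C.F ⊤) j ≫ u))
      (Sc.bd_cyl ?_), ?_, ?_, ?_⟩
    · rw [← Category.assoc, (isPushout_sph (C.F ⊤) j).w, Category.assoc]
    · intro x hx1 hx2
      apply sph_hom_ext
      · rw [hemS_bd_assoc]
        apply Sc.cell_ext
        · rw [Sc.top_nat, hx1, hS]
        · refine (Sc.cyl_nat a (Globe.σ j) x).trans ?_
          refine (congrArg (fun t => t ≫ Sc.cyl a x) (hemS_bd (C.discF ⋙ K0.Cy) j)).symm.trans ?_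
          rw [Category.assoc, hx2, hemS_sphDesc]
      · rw [hemT_bd_assoc]
        apply Sc.cell_ext
        · rw [Sc.top_nat, hx1, hT]
        · refine (Sc.cyl_nat a (Globe.τ j) x).trans ?_
          refine (congrArg (fun t => t ≫ Sc.cyl a x) (hemT_bd (C.discF ⋙ K0.Cy) j)).symm.trans ?_
          rw [Category.assoc, hx2, hemT_sphDesc]
    · refine sph_hom_ext (C.F ⊤) ?_ ?_
      · refine (hemS_sphMap_assoc (Functor.whiskerLeft C.discF K0.im :
          C.F ⊤ ⟶ C.discF ⋙ K0.Cy) j _).trans ?_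
        rw [hemS_sphDesc, hemS_bd_assoc, Sc.im_cyl a, hS, Gd.Γ.map_comp, Category.assoc,
          ← Category.assoc (Sc.th j), ← Sc.th_nat, Category.assoc]
      · refine (hemT_sphMap_assoc (Functor.whiskerLeft C.discF K0.im :
          C.F ⊤ ⟶ C.discF ⋙ K0.Cy) j _).trans ?_
        rw [hemT_sphDesc, hemT_bd_assoc, Sc.im_cyl a, hT, Gd.Γ.map_comp, Category.assoc,
          ← Category.assoc (Sc.th j), ← Sc.th_nat, Category.assoc]
    · intro Z' z h y hy
      apply sph_hom_ext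
      · rw [hemS_sphDesc_assoc, hemS_bd_assoc, ← Sc.cyl_Hmap _ z h, Category.assoc, hy,
          hemS_bd_assoc, Sc.cyl_nat]
      · rw [hemT_sphDesc_assoc, hemT_bd_assoc, ← Sc.cyl_Hmap _ z h, Category.assoc, hy,
          hemT_bd_assoc, Sc.cyl_nat]

/-- `H_a(Z) ⟶ H_{za}(Z')` is a trivial fibration when `z : Z ⟶ Z'` is a fibration. -/
theorem SigmaCat.trivFib_Hmap {Y : TopCat.{0}} {Z Z' : C.Gpd} (a : Gd.Γ.obj Y ⟶ Z)
    (z : Z ⟶ Z') (hz : Fib (C.F ⊤) 0 z) :
    TrivFib (C.F ⊤) (Sc.Hmap a (a ≫ z) (𝟙 Y) z (by simp)) := by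
  refine GCtx.trivFib_of_lift fun j u y h => ?_
  obtain ⟨β, hβ1, hβ2, hβ3⟩ := Sc.exists_sphCyl a j u (y ≫ Sc.Hpi (a ≫ z)) (by
    rw [← Category.assoc, ← h, Category.assoc, Sc.Hmap_Hpi_one])
  rw [Sc.top_Hpi] at hβ1 hβ2
  obtain ⟨c, hc1, hc2, hc3⟩ := K0.corner j z hz β
    (Sc.th j ≫ Gd.Γ.map (Sc.top y) ≫ a) (Sc.cyl (a ≫ z) y) hβ2 (hβ3 z _ y h)
    ((Sc.im_cyl (a ≫ z) y).trans (by rw [Category.assoc, Category.assoc]))
  obtain ⟨x, hx1, hx2⟩ := Sc.cell_exists a (Sc.top y) c hc2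
  refine ⟨x, hβ1 x hx1 (by rw [hx2, hc1]), Sc.cell_ext ?_ ?_⟩
  · rw [Sc.top_Hmap, hx1, Category.comp_id]
  · rw [Sc.cyl_Hmap, hx2, hc3]

/-- The projection `H_a(Z) ⟶ Π(Y)` is a trivial fibration. -/
theorem SigmaCat.trivFib_Hpi {Y : TopCat.{0}} {Z : C.Gpd} (a : Gd.Γ.obj Y ⟶ Z) :
    TrivFib (C.F ⊤) (Sc.Hpi a) := by
  refine GCtx.trivFib_of_lift fun j u b h => ?_
  obtain ⟨β, hβ1, hβ2, -⟩ := Sc.exists_sphCyl a j u b h
  obtain ⟨c, hc1, hc2, -⟩ := K0.corner j (terminal.from Z)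
    (GCtx.fib_terminal (gContr hC ⊤) terminalIsTerminal _) β
    (Sc.th j ≫ Gd.Γ.map (Δ.dEquiv j Y b) ≫ a) (terminal.from _) hβ2
    (terminal.hom_ext _ _) (terminal.hom_ext _ _)
  obtain ⟨x, hx1, hx2⟩ := Sc.cell_exists a (Δ.dEquiv j Y b) c hc2
  refine ⟨x, hβ1 x hx1 (by rw [hx2, hc1]), (Δ.dEquiv j Y).injective ?_⟩
  rw [Sc.top_Hpi, hx1]

end Vale.Agent.P259
end
end

section

section

/-!
A formal criterion for a functor to induce an equivalence of localized categories.
-/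

open CategoryTheory

namespace Vale.Agent.P259

universe v₁ v₂ u₁ u₂

variable {𝓣 : Type u₁} [Category.{v₁} 𝓣] {𝓖 : Type u₂} [Category.{v₂} 𝓖]

/-- If `P : 𝓣 ⥤ 𝓖` and `L : 𝓖 ⥤ 𝓣` respect the classes of weak equivalences, if `L ⋙ P` is
related to the identity by a zigzag of weak equivalences and `P ⋙ L` maps to the identity by weak
equivalences, then `P` induces an equivalence of localized categories. -/
theorem isLocalizedEquivalence_of_zigzag (Wt : MorphismProperty 𝓣) (Wg : MorphismProperty 𝓖)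
    (P : 𝓣 ⥤ 𝓖) (hP : Wt ≤ Wg.inverseImage P) (L : 𝓖 ⥤ 𝓣) (hL : Wg ≤ Wt.inverseImage L)
    (Q : 𝓖 ⥤ 𝓖) (q : Q ⟶ 𝟭 𝓖) (hq : ∀ X, Wg (q.app X)) (r : Q ⟶ L ⋙ P)
    (hr : ∀ X, Wg (r.app X)) (e : P ⋙ L ⟶ 𝟭 𝓣) (he : ∀ Y, Wt (e.app Y)) :
    (LocalizerMorphism.mk P hP : LocalizerMorphism Wt Wg).IsLocalizedEquivalence := by
  have h1 : Wt.IsInvertedBy (P ⋙ Wg.Q) := fun X Y f hf =>
    Localization.inverts Wg.Q Wg _ (hP f hf)
  have h2 : Wg.IsInvertedBy (L ⋙ Wt.Q) := fun X Y f hf =>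
    Localization.inverts Wt.Q Wt _ (hL f hf)
  let G' : Wt.Localization ⥤ Wg.Localization := Localization.lift (P ⋙ Wg.Q) h1 Wt.Q
  let F' : Wg.Localization ⥤ Wt.Localization := Localization.lift (L ⋙ Wt.Q) h2 Wg.Q
  have i1 : ∀ X, IsIso ((Functor.whiskerRight q Wg.Q).app X) := fun X =>
    Localization.inverts Wg.Q Wg _ (hq X)
  have i2 : ∀ X, IsIso ((Functor.whiskerRight r Wg.Q).app X) := fun X =>
    Localization.inverts Wg.Q Wg _ (hr X)
  have i3 : ∀ X, IsIso ((Functor.whiskerRight e Wt.Q).app X) := fun X =>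
    Localization.inverts Wt.Q Wt _ (he X)
  have j1 : IsIso (Functor.whiskerRight q Wg.Q) := NatIso.isIso_of_isIso_app _
  have j2 : IsIso (Functor.whiskerRight r Wg.Q) := NatIso.isIso_of_isIso_app _
  have j3 : IsIso (Functor.whiskerRight e Wt.Q) := NatIso.isIso_of_isIso_app _
  let α : (P ⋙ Wg.Q) ⋙ F' ≅ Wt.Q :=
    Functor.isoWhiskerLeft P (Localization.Lifting.iso Wg.Q Wg (L ⋙ Wt.Q) F') ≪≫
      asIso (Functor.whiskerRight e Wt.Q)
  let β : (L ⋙ Wt.Q) ⋙ G' ≅ Wg.Q :=
    Functor.isoWhiskerLeft L (Localization.Lifting.iso Wt.Q Wt (P ⋙ Wg.Q) G') ≪≫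
      (asIso (Functor.whiskerRight r Wg.Q)).symm ≪≫ asIso (Functor.whiskerRight q Wg.Q)
  have : G'.IsEquivalence :=
    (Localization.equivalence Wt.Q Wt Wg.Q Wg (P ⋙ Wg.Q) G' (L ⋙ Wt.Q) F' α β).isEquivalence_functor
  have : CatCommSq (LocalizerMorphism.mk P hP : LocalizerMorphism Wt Wg).functor Wt.Q Wg.Q G' :=
    ⟨(Localization.Lifting.iso Wt.Q Wt (P ⋙ Wg.Q) G').symm⟩
  exact LocalizerMorphism.IsLocalizedEquivalence.mk' _ Wt.Q Wg.Q G'

end Vale.Agent.P259
end
end

section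

section

/-!
Pushouts of closed embeddings of topological spaces, point-set part.
-/

open CategoryTheory Limits Topology

namespace Vale.Agent.P259

universe w

/-- Pushouts of types along an injective map: equality of the images of two points. -/
lemma types_push_eq {S X₁ X₂ X : Type w} {t : S ⟶ X₁} {l : S ⟶ X₂} {r : X₁ ⟶ X} {b : X₂ ⟶ X}
    (h : IsPushout t l r b) (ht : Function.Injective t) (x x' : X₁) (hx : r x = r x') :
    x = x' ∨ ∃ a a', l a = l a' ∧ x = t a ∧ x' = t a' := by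
  have hm : Mono t := (mono_iff_injective t).2 ht
  let e : X ≅ Types.Pushout t l :=
    IsColimit.coconePointUniqueUpToIso h.isColimit (Types.Pushout.isColimitCocone t l)
  have he : r ≫ e.hom = Types.Pushout.inl t l :=
    IsColimit.comp_coconePointUniqueUpToIso_hom h.isColimit (Types.Pushout.isColimitCocone t l)
      WalkingSpan.left
  have h1 : Types.Pushout.inl t l x = Types.Pushout.inl t l x' := by
    rw [← he]
    simp only [types_comp_apply]
    rw [hx]
  have h2 := (Types.Pushout.quot_mk_eq_iff t l (Sum.inl x) (Sum.inl x')).1 h1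
  rw [Types.Pushout.inl_rel'_inl_iff] at h2
  rcases h2 with h2 | ⟨a, a', h3, h4, h5⟩
  · exact Or.inl h2
  · exact Or.inr ⟨a, a', h3, h4, h5⟩

/-- The elementary description of a pushout of topological spaces along an injective map. -/
structure PushFacts {A T Y Z : Type} [TopologicalSpace A] [TopologicalSpace T]
    [TopologicalSpace Y] [TopologicalSpace Z] (i : A → T) (f : A → Y) (g : T → Z)
    (j : Y → Z) : Prop where
  comm : ∀ a, g (i a) = j (f a)
  gg : ∀ x x', g x = g x' → x = x' ∨ ∃ a a', f a = f a' ∧ x = i a ∧ x' = i a'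
  gj : ∀ x y, g x = j y → ∃ a, i a = x ∧ f a = y
  jinj : Function.Injective j
  cover : ∀ z, (∃ x, g x = z) ∨ ∃ y, j y = z
  cf : Continuous f
  cg : Continuous g
  cj : Continuous j
  isOpen_iff : ∀ s : Set Z, IsOpen s ↔ IsOpen (g ⁻¹' s) ∧ IsOpen (j ⁻¹' s)

theorem pushFacts {A T Y Z : TopCat.{0}} {i : A ⟶ T} {f : A ⟶ Y} {g : T ⟶ Z} {j : Y ⟶ Z}
    (sq : IsPushout i f g j) (hi : Function.Injective i) : PushFacts i f g j := by
  have sq' : IsPushout ((forget TopCat).map i) ((forget TopCat).map f) ((forget TopCat).map g)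
      ((forget TopCat).map j) := sq.map (forget TopCat)
  have hi' : Function.Injective ((forget TopCat).map i) := hi
  refine ⟨?_, ?_, ?_, ?_, ?_, f.hom.continuous, g.hom.continuous, j.hom.continuous, ?_⟩
  · intro a
    exact ConcreteCategory.congr_hom sq.w a
  · intro x x' h
    exact types_push_eq sq' hi' x x' h
  · intro x y h
    exact (Types.pushoutCocone_inl_eq_inr_iff_of_isColimit sq'.isColimit hi' x y).1 h
  · exact Types.pushoutCocone_inr_injective_of_isColimit sq'.isColimit hi'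
  · intro z
    exact Types.eq_or_eq_of_isPushout sq' z
  · intro s
    refine (TopCat.isOpen_iff_of_isColimit _ sq.isColimit s).trans ?_
    constructor
    · intro h
      exact ⟨h WalkingSpan.left, h WalkingSpan.right⟩
    · rintro ⟨h1, h2⟩ (_ | _ | _)
      · have : (sq.cocone.ι.app none : A → Z) ⁻¹' s = i ⁻¹' (g ⁻¹' s) := by
          have e : sq.cocone.ι.app none = i ≫ g := rfl
          rw [e]; rfl
        exact h1.preimage i.hom.continuous
      · exact h1
      · exact h2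

end Vale.Agent.P259
end
end

section

section

/-!
Attaching a family of balls along their boundary spheres: point-set part.
-/

open Topology

namespace Vale.Agent.P259

open scoped unitInterval

/-- A radial structure: a norm and a scaling operation. -/
structure Radial (T : Type) [TopologicalSpace T] where
  ν : T → ℝ
  sc : ℝ × T → T
  cν : Continuous ν
  csc : Continuous sc
  nonneg : ∀ x, 0 ≤ ν x
  le_one : ∀ x, ν x ≤ 1
  ν_sc : ∀ (c : ℝ) (x : T), 0 ≤ c → c * ν x ≤ 1 → ν (sc (c, x)) = c * ν x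
  sc_one : ∀ x, sc (1, x) = x

section ball

variable {E : Type} [NormedAddCommGroup E] [NormedSpace ℝ E]

/-- Scaling in the closed unit ball (clipped). -/
noncomputable def ballSc (p : ℝ × Metric.closedBall (0 : E) 1) : Metric.closedBall (0 : E) 1 :=
  ⟨(p.1 / max 1 (|p.1| * ‖(p.2 : E)‖)) • (p.2 : E), by
    rw [mem_closedBall_zero_iff, norm_smul, norm_div, Real.norm_eq_abs, Real.norm_eq_abs]
    have h1 : (1 : ℝ) ≤ max 1 (|p.1| * ‖(p.2 : E)‖) := le_max_left _ _
    have h2 : |p.1| * ‖(p.2 : E)‖ ≤ max 1 (|p.1| * ‖(p.2 : E)‖) := le_max_right _ _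
    rw [abs_of_pos (lt_of_lt_of_le one_pos h1), div_mul_eq_mul_div, div_le_one
      (lt_of_lt_of_le one_pos h1)]
    exact h2⟩

lemma continuous_ballSc : Continuous (ballSc (E := E)) := by
  unfold ballSc
  refine Continuous.subtype_mk ?_ _
  have h1 : Continuous fun p : ℝ × Metric.closedBall (0 : E) 1 =>
      max 1 (|p.1| * ‖(p.2 : E)‖) := by fun_prop
  refine Continuous.smul (Continuous.div continuous_fst h1 fun p => ?_) (by fun_prop)
  exact (lt_of_lt_of_le one_pos (le_max_left _ _)).ne'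

lemma norm_ballSc (c : ℝ) (x : Metric.closedBall (0 : E) 1) (hc : 0 ≤ c) (h : c * ‖(x : E)‖ ≤ 1) :
    ‖((ballSc (c, x) : Metric.closedBall (0 : E) 1) : E)‖ = c * ‖(x : E)‖ := by
  unfold ballSc
  simp only
  rw [abs_of_nonneg hc, max_eq_left h, div_one, norm_smul, Real.norm_eq_abs, abs_of_nonneg hc]

lemma ballSc_one (x : Metric.closedBall (0 : E) 1) : ballSc (1, x) = x := by
  apply Subtype.ext
  have h : ‖(x : E)‖ ≤ 1 := mem_closedBall_zero_iff.1 x.2
  unfold ballSc
  simp only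
  rw [abs_one, one_mul, max_eq_left h, div_one, one_smul]

end ball

/-- The radial structure of a family of balls. -/
noncomputable def Radial.sigma {J : Type} (n : J → ℕ) :
    Radial (Σ j : J, Metric.closedBall (0 : EuclideanSpace ℝ (Fin (n j))) 1) where
  ν x := ‖(x.2 : EuclideanSpace ℝ (Fin (n x.1)))‖
  sc p := ⟨p.2.1, ballSc (p.1, p.2.2)⟩
  cν := by
    rw [continuous_sigma_iff]
    intro j
    exact continuous_norm.comp continuous_subtype_val
  csc := by
    have h : Continuous fun p : (Σ j : J, Metric.closedBall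
        (0 : EuclideanSpace ℝ (Fin (n j))) 1) × ℝ =>
        (⟨p.1.1, ballSc (p.2, p.1.2)⟩ :
          Σ j : J, Metric.closedBall (0 : EuclideanSpace ℝ (Fin (n j))) 1) := by
      have e := (Homeomorph.sigmaProdDistrib (X := fun j : J => Metric.closedBall
        (0 : EuclideanSpace ℝ (Fin (n j))) 1) (Y := ℝ)).symm
      rw [← (Homeomorph.sigmaProdDistrib (X := fun j : J => Metric.closedBall
        (0 : EuclideanSpace ℝ (Fin (n j))) 1) (Y := ℝ)).symm.comp_continuous_iff']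
      rw [continuous_sigma_iff]
      intro j
      exact continuous_sigmaMk.comp (continuous_ballSc.comp
        (continuous_snd.prodMk continuous_fst))
    exact h.comp continuous_swap
  nonneg x := norm_nonneg _
  le_one x := mem_closedBall_zero_iff.1 x.2.2
  ν_sc c x hc h := norm_ballSc c x.2 hc h
  sc_one x := by
    rw [ballSc_one]

/-- Transport of a radial structure. -/
def Radial.transport {T T' : Type} [TopologicalSpace T] [TopologicalSpace T'] (R : Radial T')
    (e : T ≃ₜ T') : Radial T where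
  ν x := R.ν (e x)
  sc p := e.symm (R.sc (p.1, e p.2))
  cν := R.cν.comp e.continuous
  csc := e.symm.continuous.comp (R.csc.comp
    (continuous_fst.prodMk (e.continuous.comp continuous_snd)))
  nonneg x := R.nonneg _
  le_one x := R.le_one _
  ν_sc c x hc h := by
    rw [e.apply_symm_apply]
    exact R.ν_sc c _ hc h
  sc_one x := by
    rw [R.sc_one, e.symm_apply_apply]

/-! ### The sets `N`, `U`, `V` -/

section attach

variable {A T Y Z : Type} [TopologicalSpace A] [TopologicalSpace T] [TopologicalSpace Y]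
  [TopologicalSpace Z] {i : A → T} {f : A → Y} {g : T → Z} {j : Y → Z}

/-- The attachment data. -/
structure AttData (i : A → T) (f : A → Y) (g : T → Z) (j : Y → Z) extends
    PushFacts i f g j where
  R : Radial T
  hi : IsClosedEmbedding i
  hA : ∀ x, x ∈ Set.range i ↔ R.ν x = 1

namespace AttData

variable (D : AttData i f g j)

/-- The neighbourhood of the spheres. -/
def N : Set T := {x | 1 / 3 < D.R.ν x}

/-- The neighbourhood of `Y`. -/
def U : Set Z := {z | (∃ y, j y = z) ∨ ∃ x ∈ D.N, g x = z}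

/-- The open cells. -/
def V : Set Z := {z | ∃ x, D.R.ν x < 1 ∧ g x = z}

lemma ν_i (a : A) : D.R.ν (i a) = 1 := (D.hA _).1 ⟨a, rfl⟩

lemma i_mem_N (a : A) : i a ∈ D.N := by
  show 1 / 3 < D.R.ν (i a)
  rw [D.ν_i]
  norm_num

lemma isOpen_N : IsOpen D.N := isOpen_lt continuous_const D.R.cν

lemma g_mem_U (x : T) : g x ∈ D.U ↔ x ∈ D.N := by
  constructor
  · rintro (⟨y, hy⟩ | ⟨x', hx', h⟩)
    · obtain ⟨a, rfl, -⟩ := D.gj x y hy.symm
      exact D.i_mem_N a
    · rcases D.gg x' x h with rfl | ⟨a, a', -, -, rfl⟩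
      · exact hx'
      · exact D.i_mem_N a'
  · intro h
    exact Or.inr ⟨x, h, rfl⟩

lemma j_mem_U (y : Y) : j y ∈ D.U := Or.inl ⟨y, rfl⟩

lemma isOpen_U : IsOpen D.U := by
  rw [D.isOpen_iff]
  constructor
  · have : g ⁻¹' D.U = D.N := by
      ext x
      exact D.g_mem_U x
    rw [this]
    exact D.isOpen_N
  · have : j ⁻¹' D.U = Set.univ := by
      ext y
      simp [D.j_mem_U y]
    rw [this]
    exact isOpen_univ

lemma g_mem_V (x : T) : g x ∈ D.V ↔ D.R.ν x < 1 := by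
  constructor
  · rintro ⟨x', hx', h⟩
    rcases D.gg x' x h with rfl | ⟨a, a', -, rfl, -⟩
    · exact hx'
    · rw [D.ν_i] at hx'
      exact absurd hx' (lt_irrefl _)
  · intro h
    exact ⟨x, h, rfl⟩

lemma j_not_mem_V (y : Y) : j y ∉ D.V := by
  rintro ⟨x, hx, h⟩
  obtain ⟨a, rfl, -⟩ := D.gj x y h
  rw [D.ν_i] at hx
  exact lt_irrefl _ hx

lemma isOpen_V : IsOpen D.V := by
  rw [D.isOpen_iff]
  constructor
  · have : g ⁻¹' D.V = {x | D.R.ν x < 1} := by
      ext x
      exact D.g_mem_V x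
    rw [this]
    exact isOpen_lt D.R.cν continuous_const
  · have : j ⁻¹' D.V = ∅ := by
      ext y
      simp [D.j_not_mem_V y]
    rw [this]
    exact isOpen_empty

lemma U_union_V : D.U ∪ D.V = Set.univ := by
  ext z
  simp only [Set.mem_union, Set.mem_univ, iff_true]
  rcases D.cover z with ⟨x, rfl⟩ | ⟨y, rfl⟩
  · by_cases h : D.R.ν x < 1
    · exact Or.inr ⟨x, h, rfl⟩
    · left
      rw [D.g_mem_U]
      show 1 / 3 < D.R.ν x
      push Not at h
      linarith
  · exact Or.inl (D.j_mem_U y)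

lemma g_inj_of_lt {x x' : T} (hx : D.R.ν x < 1) (h : g x = g x') : x = x' := by
  rcases D.gg x x' h with h | ⟨a, a', -, rfl, -⟩
  · exact h
  · rw [D.ν_i] at hx
    exact absurd hx (lt_irrefl _)

/-- The inverse of `g` on the open cells. -/
noncomputable def gi (z : D.V) : T := z.2.choose

lemma ν_gi (z : D.V) : D.R.ν (D.gi z) < 1 := z.2.choose_spec.1

lemma g_gi (z : D.V) : g (D.gi z) = z := z.2.choose_spec.2

lemma gi_g (x : T) (hx : D.R.ν x < 1) (h : g x ∈ D.V) : D.gi ⟨g x, h⟩ = x :=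
  (D.g_inj_of_lt hx (D.g_gi ⟨g x, h⟩).symm).symm

lemma continuous_gi : Continuous D.gi := by
  rw [continuous_def]
  intro s hs
  have hO : IsOpen {z : Z | ∃ x, D.R.ν x < 1 ∧ x ∈ s ∧ g x = z} := by
    rw [D.isOpen_iff]
    constructor
    · have : g ⁻¹' {z : Z | ∃ x, D.R.ν x < 1 ∧ x ∈ s ∧ g x = z} = {x | D.R.ν x < 1} ∩ s := by
        ext x
        constructor
        · rintro ⟨x', h1, h2, h3⟩
          obtain rfl := D.g_inj_of_lt h1 h3
          exact ⟨h1, h2⟩
        · rintro ⟨h1, h2⟩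
          exact ⟨x, h1, h2, rfl⟩
      rw [this]
      exact (isOpen_lt D.R.cν continuous_const).inter hs
    · have : j ⁻¹' {z : Z | ∃ x, D.R.ν x < 1 ∧ x ∈ s ∧ g x = z} = ∅ := by
        ext y
        simp only [Set.mem_preimage, Set.mem_ofPred_eq, Set.mem_empty_iff_false, iff_false]
        rintro ⟨x, h1, -, h3⟩
        exact D.j_not_mem_V y ⟨x, h1, h3⟩
      rw [this]
      exact isOpen_empty
  have : D.gi ⁻¹' s = Subtype.val ⁻¹' {z : Z | ∃ x, D.R.ν x < 1 ∧ x ∈ s ∧ g x = z} := by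
    ext z
    constructor
    · intro h
      exact ⟨D.gi z, D.ν_gi z, h, D.g_gi z⟩
    · rintro ⟨x, h1, h2, h3⟩
      have : D.gi z = x := (D.g_inj_of_lt h1 (by rw [h3, D.g_gi])).symm
      show D.gi z ∈ s
      rw [this]
      exact h2
  rw [this]
  exact hO.preimage continuous_subtype_val

lemma gi_mem_N (z : D.V) (h : (z : Z) ∈ D.U) : D.gi z ∈ D.N := by
  rw [← D.g_mem_U, D.g_gi]
  exact h

end AttData

end attach

end Vale.Agent.P259
end
end

section

section

/-!
The homotopy equivalences used for the attachment of a family of balls.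
-/

open Topology

namespace Vale.Agent.P259

open scoped unitInterval

/-- Homotopy equivalences, in unbundled form. -/
def IsHE {X X' : Type} [TopologicalSpace X] [TopologicalSpace X'] (k : X → X') : Prop :=
  Continuous k ∧ ∃ r : X' → X, Continuous r ∧
    (∃ H : I × X → X, Continuous H ∧ (∀ x, H (0, x) = r (k x)) ∧ ∀ x, H (1, x) = x) ∧
    ∃ H : I × X' → X', Continuous H ∧ (∀ x, H (0, x) = k (r x)) ∧ ∀ x, H (1, x) = x

lemma exists_quot_lift {X Y Z : Type} [TopologicalSpace X] [TopologicalSpace Y]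
    [TopologicalSpace Z] {q : X → Y} (hq : IsQuotientMap q) (r : X → Z) (hr : Continuous r)
    (h : ∀ a b, q a = q b → r a = r b) : ∃ ρ : Y → Z, Continuous ρ ∧ ∀ a, ρ (q a) = r a := by
  have key : ∀ a, r (Function.surjInv hq.surjective (q a)) = r a := fun a =>
    h _ _ (Function.surjInv_eq hq.surjective (q a))
  refine ⟨fun y => r (Function.surjInv hq.surjective y), ?_, key⟩
  rw [hq.continuous_iff]
  exact hr.congr fun a => (key a).symm

lemma exists_quot_lift_prod {X Y Z : Type} [TopologicalSpace X] [TopologicalSpace Y]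
    [TopologicalSpace Z] {q : X → Y} (hq : IsQuotientMap q) (r : I × X → Z) (hr : Continuous r)
    (h : ∀ t a b, q a = q b → r (t, a) = r (t, b)) :
    ∃ ρ : I × Y → Z, Continuous ρ ∧ ∀ t a, ρ (t, q a) = r (t, a) := by
  have key : ∀ t a, r (t, Function.surjInv hq.surjective (q a)) = r (t, a) := fun t a =>
    h _ _ _ (Function.surjInv_eq hq.surjective (q a))
  refine ⟨fun y => r (y.1, Function.surjInv hq.surjective y.2), ?_, key⟩
  refine hq.continuous_lift_prod_right ?_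
  exact hr.congr fun a => (key a.1 a.2).symm

lemma continuous_prod_sum {W X Y Z : Type} [TopologicalSpace W] [TopologicalSpace X]
    [TopologicalSpace Y] [TopologicalSpace Z] {h : W × (X ⊕ Y) → Z}
    (h1 : Continuous fun p : W × X => h (p.1, Sum.inl p.2))
    (h2 : Continuous fun p : W × Y => h (p.1, Sum.inr p.2)) : Continuous h := by
  rw [← (Homeomorph.prodSumDistrib (X := W) (Y := X) (Z := Y)).symm.comp_continuous_iff']
  rw [continuous_sum_dom]
  exact ⟨h1, h2⟩

namespace AttData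

variable {A T Y Z : Type} [TopologicalSpace A] [TopologicalSpace T] [TopologicalSpace Y]
  [TopologicalSpace Z] {i : A → T} {f : A → Y} {g : T → Z} {j : Y → Z}

variable (D : AttData i f g j)

/-- Points of `N`. -/
lemma ν_pos (x : D.N) : 0 < D.R.ν (x : T) := lt_trans (by norm_num) x.2

/-- The retraction of `N` onto the spheres. -/
noncomputable def rN (x : D.N) : A :=
  D.hi.toIsEmbedding.toHomeomorph.symm ⟨D.R.sc ((D.R.ν (x : T))⁻¹, (x : T)), by
    have h := D.ν_pos x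
    rw [D.hA, D.R.ν_sc _ _ (inv_nonneg.2 h.le) (by rw [inv_mul_cancel₀ h.ne']),
      inv_mul_cancel₀ h.ne']⟩

lemma i_rN (x : D.N) : i (D.rN x) = D.R.sc ((D.R.ν (x : T))⁻¹, (x : T)) := by
  have := D.hi.toIsEmbedding.toHomeomorph.apply_symm_apply
    ⟨D.R.sc ((D.R.ν (x : T))⁻¹, (x : T)), by
    have h := D.ν_pos x
    rw [D.hA, D.R.ν_sc _ _ (inv_nonneg.2 h.le) (by rw [inv_mul_cancel₀ h.ne']),
      inv_mul_cancel₀ h.ne']⟩
  exact congrArg Subtype.val this

lemma rN_i (a : A) (h : i a ∈ D.N) : D.rN ⟨i a, h⟩ = a := by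
  apply D.hi.injective
  rw [D.i_rN]
  simp only
  rw [D.ν_i, inv_one, D.R.sc_one]

lemma continuous_rN : Continuous D.rN := by
  unfold rN
  refine D.hi.toIsEmbedding.toHomeomorph.symm.continuous.comp (Continuous.subtype_mk ?_ _)
  refine D.R.csc.comp (Continuous.prodMk ?_ continuous_subtype_val)
  exact Continuous.inv₀ (D.R.cν.comp continuous_subtype_val) fun x => (D.ν_pos x).ne'

/-- The radial deformation of `N` onto the spheres. -/
lemma mem_N_aux (t : I) (x : D.N) :
    D.R.ν (D.R.sc ((1 - (t : ℝ)) * (D.R.ν (x : T))⁻¹ + t, (x : T))) =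
      (1 - (t : ℝ)) + t * D.R.ν (x : T) := by
  have h := D.ν_pos x
  have h1 := D.R.le_one (x : T)
  have t0 := t.2.1
  have t1 := t.2.2
  have e : ((1 - (t : ℝ)) * (D.R.ν (x : T))⁻¹ + t) * D.R.ν (x : T) =
      (1 - (t : ℝ)) + t * D.R.ν (x : T) := by
    rw [add_mul, mul_assoc, inv_mul_cancel₀ h.ne', mul_one]
  rw [D.R.ν_sc, e]
  · have := inv_nonneg.2 h.le
    have : 0 ≤ (1 - (t : ℝ)) * (D.R.ν (x : T))⁻¹ := mul_nonneg (by linarith) this
    linarith
  · rw [e]
    nlinarith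

/-- The radial deformation of `N` onto the spheres. -/
noncomputable def defN (p : I × D.N) : D.N :=
  ⟨D.R.sc ((1 - (p.1 : ℝ)) * (D.R.ν (p.2 : T))⁻¹ + p.1, (p.2 : T)), by
    show 1 / 3 < D.R.ν _
    rw [D.mem_N_aux]
    have t0 := p.1.2.1
    have t1 := p.1.2.2
    have h : 1 / 3 < D.R.ν (p.2 : T) := p.2.2
    have h1 := D.R.le_one (p.2 : T)
    nlinarith⟩

lemma continuous_defN : Continuous D.defN := by
  unfold defN
  refine Continuous.subtype_mk (D.R.csc.comp (Continuous.prodMk ?_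
    (continuous_subtype_val.comp continuous_snd))) _
  have h1 : Continuous fun p : I × D.N => (p.1 : ℝ) := continuous_subtype_val.comp continuous_fst
  have h2 : Continuous fun p : I × D.N => (D.R.ν (p.2 : T))⁻¹ :=
    Continuous.inv₀ (D.R.cν.comp (continuous_subtype_val.comp continuous_snd))
      fun p => (D.ν_pos p.2).ne'
  exact ((continuous_const.sub h1).mul h2).add h1

lemma defN_zero (x : D.N) : (D.defN (0, x) : T) = i (D.rN x) := by
  rw [D.i_rN]
  simp [defN]

lemma defN_one (x : D.N) : D.defN (1, x) = x := by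
  apply Subtype.ext
  simp [defN, D.R.sc_one]

lemma defN_i (t : I) (a : A) (h : i a ∈ D.N) : (D.defN (t, ⟨i a, h⟩) : T) = i a := by
  simp only [defN]
  rw [D.ν_i, inv_one, mul_one, sub_add_cancel, D.R.sc_one]

/-- First homotopy equivalence. -/
theorem he_A : IsHE (fun a : A => (⟨i a, D.i_mem_N a⟩ : D.N)) := by
  refine ⟨Continuous.subtype_mk D.hi.continuous _, D.rN, D.continuous_rN,
    ⟨fun p => p.2, continuous_snd, fun a => (D.rN_i a _).symm, fun a => rfl⟩,
    ⟨D.defN, D.continuous_defN, fun x => ?_, D.defN_one⟩⟩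
  apply Subtype.ext
  exact D.defN_zero x

/-- The quotient map onto `U`. -/
def qU : D.N ⊕ Y → D.U :=
  Sum.elim (fun x => ⟨g x, (D.g_mem_U x).2 x.2⟩) (fun y => ⟨j y, D.j_mem_U y⟩)

lemma isQuotientMap_qU : IsQuotientMap D.qU := by
  have hc : Continuous D.qU := by
    unfold qU
    refine Continuous.sumElim ?_ ?_
    · exact Continuous.subtype_mk (D.cg.comp continuous_subtype_val) _
    · exact Continuous.subtype_mk D.cj _
  have hs : Function.Surjective D.qU := by
    rintro ⟨z, ⟨y, rfl⟩ | ⟨x, hx, rfl⟩⟩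
    · exact ⟨Sum.inr y, rfl⟩
    · exact ⟨Sum.inl ⟨x, hx⟩, rfl⟩
  rw [isQuotientMap_iff]
  refine ⟨.of_isOpen_preimage_iff_isOpen fun s => ⟨fun h => ?_, fun h => h.preimage hc⟩, hs⟩
  rw [isOpen_sum_iff] at h
  obtain ⟨h1, h2⟩ := h
  have hO : IsOpen (Subtype.val '' s) := by
    rw [D.isOpen_iff]
    constructor
    · have : g ⁻¹' (Subtype.val '' s) = Subtype.val '' (Sum.inl ⁻¹' (D.qU ⁻¹' s)) := by
        ext x
        constructor
        · rintro ⟨z, hz, hz'⟩
          have hx : x ∈ D.N := by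
            rw [← D.g_mem_U, ← hz']
            exact z.2
          refine ⟨⟨x, hx⟩, ?_, rfl⟩
          show D.qU (Sum.inl ⟨x, hx⟩) ∈ s
          have : D.qU (Sum.inl ⟨x, hx⟩) = z := Subtype.ext hz'.symm
          rw [this]
          exact hz
        · rintro ⟨x', hx', rfl⟩
          exact ⟨_, hx', rfl⟩
      rw [this]
      exact (D.isOpen_N.isOpenEmbedding_subtypeVal).isOpenMap _ h1
    · have : j ⁻¹' (Subtype.val '' s) = Sum.inr ⁻¹' (D.qU ⁻¹' s) := by
        ext y
        constructor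
        · rintro ⟨z, hz, hz'⟩
          show D.qU (Sum.inr y) ∈ s
          have : D.qU (Sum.inr y) = z := Subtype.ext hz'.symm
          rw [this]
          exact hz
        · intro hy
          exact ⟨_, hy, rfl⟩
      rw [this]
      exact h2
  have : s = Subtype.val ⁻¹' (Subtype.val '' s) :=
    (Set.preimage_image_eq s Subtype.val_injective).symm
  rw [this]
  exact hO.preimage continuous_subtype_val

lemma qU_fac {W : Type} (r : D.N ⊕ Y → W)
    (h : ∀ a : A, r (Sum.inl ⟨i a, D.i_mem_N a⟩) = r (Sum.inr (f a))) :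
    ∀ a b, D.qU a = D.qU b → r a = r b := by
  rintro (⟨x, hx⟩ | y) (⟨x', hx'⟩ | y') hab
  · have e : g x = g x' := congrArg Subtype.val hab
    rcases D.gg x x' e with rfl | ⟨a, a', h1, rfl, rfl⟩
    · rfl
    · rw [h a, h a', h1]
  · have e : g x = j y' := congrArg Subtype.val hab
    obtain ⟨a, rfl, rfl⟩ := D.gj x y' e
    exact h a
  · have e : g x' = j y := (congrArg Subtype.val hab).symm
    obtain ⟨a, rfl, rfl⟩ := D.gj x' y e
    exact (h a).symm
  · have e : j y = j y' := congrArg Subtype.val hab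
    rw [D.jinj e]

/-- Second homotopy equivalence. -/
theorem he_Y : IsHE (fun y : Y => (⟨j y, D.j_mem_U y⟩ : D.U)) := by
  obtain ⟨ρ, hρc, hρ⟩ := exists_quot_lift D.isQuotientMap_qU
    (Sum.elim (fun x => f (D.rN x)) (fun y => y))
    (Continuous.sumElim (D.cf.comp D.continuous_rN) continuous_id)
    (D.qU_fac _ (fun a => by simp only [Sum.elim_inl, Sum.elim_inr]; rw [D.rN_i]))
  obtain ⟨K, hKc, hK⟩ := exists_quot_lift_prod D.isQuotientMap_qU
    (fun p : I × (D.N ⊕ Y) => Sum.elim (fun x => D.qU (Sum.inl (D.defN (p.1, x))))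
      (fun y => D.qU (Sum.inr y)) p.2)
    (continuous_prod_sum
      (D.isQuotientMap_qU.continuous.comp (continuous_inl.comp D.continuous_defN))
      (D.isQuotientMap_qU.continuous.comp (continuous_inr.comp continuous_snd)))
    (fun t => D.qU_fac _ (fun a => by
      simp only [Sum.elim_inl, Sum.elim_inr]
      apply Subtype.ext
      show g (D.defN (t, ⟨i a, _⟩) : T) = j (f a)
      rw [D.defN_i, D.comm]))
  refine ⟨Continuous.subtype_mk D.cj _, ρ, hρc,
    ⟨fun p => p.2, continuous_snd, fun y => (hρ (Sum.inr y)).symm, fun y => rfl⟩,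
    ⟨K, hKc, ?_, ?_⟩⟩
  · intro u
    obtain ⟨u, rfl⟩ := D.isQuotientMap_qU.surjective u
    rw [hK]
    rcases u with x | y
    · apply Subtype.ext
      show g (D.defN (0, x) : T) = j (ρ (D.qU (Sum.inl x)))
      rw [D.defN_zero, hρ, D.comm]
      rfl
    · apply Subtype.ext
      show j y = j (ρ (D.qU (Sum.inr y)))
      rw [hρ]
      rfl
  · intro u
    obtain ⟨u, rfl⟩ := D.isQuotientMap_qU.surjective u
    rw [hK]
    rcases u with x | y
    · show D.qU (Sum.inl (D.defN (1, x))) = _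
      rw [D.defN_one]
    · rfl

lemma ν_sc_le {c : ℝ} (h0 : 0 ≤ c) (h1 : c ≤ 1) (x : T) :
    D.R.ν (D.R.sc (c, x)) = c * D.R.ν x := by
  have h := D.R.le_one x
  have h' := D.R.nonneg x
  apply D.R.ν_sc _ _ h0
  nlinarith

/-- Third homotopy equivalence. -/
theorem he_V : IsHE (fun z : D.V => D.gi z) := by
  have hlt : ∀ (t : I) (z : D.V), D.R.ν (D.R.sc ((1 + (t : ℝ)) / 2, D.gi z)) < 1 := by
    intro t z
    have t0 := t.2.1
    have t1 := t.2.2
    rw [D.ν_sc_le (by linarith) (by linarith) _]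
    have := D.ν_gi z
    have := D.R.nonneg (D.gi z)
    nlinarith
  have hlt' : ∀ x : T, D.R.ν (D.R.sc (1 / 2, x)) < 1 := by
    intro x
    rw [D.ν_sc_le (by norm_num) (by norm_num) _]
    have := D.R.le_one x
    linarith
  have c1 : Continuous fun x : T => D.R.sc (1 / 2, x) :=
    D.R.csc.comp (continuous_const.prodMk continuous_id)
  have c2 : Continuous fun p : I × D.V => D.R.sc ((1 + (p.1 : ℝ)) / 2, D.gi p.2) :=
    D.R.csc.comp (Continuous.prodMk
      ((continuous_const.add (continuous_subtype_val.comp continuous_fst)).div_const 2)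
      (D.continuous_gi.comp continuous_snd))
  have c3 : Continuous fun p : I × T => D.R.sc ((1 + (p.1 : ℝ)) / 2, p.2) :=
    D.R.csc.comp (Continuous.prodMk
      ((continuous_const.add (continuous_subtype_val.comp continuous_fst)).div_const 2)
      continuous_snd)
  refine ⟨D.continuous_gi, fun x => ⟨g (D.R.sc (1 / 2, x)), (D.g_mem_V _).2 (hlt' x)⟩,
    Continuous.subtype_mk (D.cg.comp c1) _,
    ⟨fun p => ⟨g (D.R.sc ((1 + (p.1 : ℝ)) / 2, D.gi p.2)), (D.g_mem_V _).2 (hlt p.1 p.2)⟩,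
      Continuous.subtype_mk (D.cg.comp c2) _, fun z => ?_, fun z => ?_⟩,
    ⟨fun p => D.R.sc ((1 + (p.1 : ℝ)) / 2, p.2), c3, fun x => ?_, fun x => ?_⟩⟩
  · apply Subtype.ext
    simp
  · apply Subtype.ext
    have : ((1 : ℝ) + ((1 : I) : ℝ)) / 2 = 1 := by norm_num
    simp only [this, D.R.sc_one]
    exact D.g_gi z
  · refine Eq.trans ?_ (D.gi_g _ (hlt' x) ((D.g_mem_V _).2 (hlt' x))).symm
    simp
  · have : ((1 : ℝ) + ((1 : I) : ℝ)) / 2 = 1 := by norm_num
    simp only [this, D.R.sc_one]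

/-- The scaling factor which moves the collar away from the boundary. -/
noncomputable def cc (s ν : ℝ) : ℝ := (1 - s) * ((ν + 1 / 3) / 2 * ν⁻¹) + s

lemma cc_mul {s ν : ℝ} (hν : 0 < ν) : cc s ν * ν = (1 - s) * ((ν + 1 / 3) / 2) + s * ν := by
  unfold cc
  have := mul_inv_cancel₀ hν.ne'
  field_simp

lemma ν_cc (t : I) (x : T) (hx : 1 / 3 < D.R.ν x) :
    D.R.ν (D.R.sc (cc t (D.R.ν x), x)) = (1 - (t : ℝ)) * ((D.R.ν x + 1 / 3) / 2) +
      t * D.R.ν x := by
  have h1 := D.R.le_one x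
  have t0 := t.2.1
  have t1 := t.2.2
  have hpos : 0 < D.R.ν x := by linarith
  have e := cc_mul (s := (t : ℝ)) hpos
  rw [D.R.ν_sc, e]
  · unfold cc
    have h2 : 0 ≤ (D.R.ν x)⁻¹ := inv_nonneg.2 hpos.le
    have h3 : 0 ≤ (D.R.ν x + 1 / 3) / 2 * (D.R.ν x)⁻¹ := mul_nonneg (by linarith) h2
    have h4 : 0 ≤ (1 - (t : ℝ)) * ((D.R.ν x + 1 / 3) / 2 * (D.R.ν x)⁻¹) :=
      mul_nonneg (by linarith) h3
    linarith
  · rw [e]
    nlinarith

lemma continuous_cc {X : Type} [TopologicalSpace X] {s ν : X → ℝ} (hs : Continuous s)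
    (hν : Continuous ν) (h : ∀ x, ν x ≠ 0) : Continuous fun x => cc (s x) (ν x) := by
  unfold cc
  exact (((continuous_const.sub hs).mul (((hν.add continuous_const).div_const 2).mul
    (hν.inv₀ h))).add hs)

/-- Fourth homotopy equivalence. -/
theorem he_UV : IsHE (fun z : (D.U ∩ D.V : Set Z) => (⟨D.gi ⟨z, z.2.2⟩,
    D.gi_mem_N ⟨z, z.2.2⟩ z.2.1⟩ : D.N)) := by
  have hgiN : ∀ z : (D.U ∩ D.V : Set Z), 1 / 3 < D.R.ν (D.gi ⟨z, z.2.2⟩) :=
    fun z => D.gi_mem_N ⟨z, z.2.2⟩ z.2.1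
  have hcgi : Continuous fun z : (D.U ∩ D.V : Set Z) => D.gi ⟨z, z.2.2⟩ :=
    D.continuous_gi.comp (Continuous.subtype_mk continuous_subtype_val _)
  have hcν : Continuous fun z : (D.U ∩ D.V : Set Z) => D.R.ν (D.gi ⟨z, z.2.2⟩) :=
    D.R.cν.comp hcgi
  -- the motion
  have key : ∀ (t : I) (x : T), 1 / 3 < D.R.ν x →
      1 / 3 < D.R.ν (D.R.sc (cc t (D.R.ν x), x)) := by
    intro t x hx
    rw [D.ν_cc t x hx]
    have t0 := t.2.1
    have t1 := t.2.2
    nlinarith
  have key' : ∀ (t : I) (x : T), 1 / 3 < D.R.ν x → D.R.ν x < 1 →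
      D.R.ν (D.R.sc (cc t (D.R.ν x), x)) < 1 := by
    intro t x hx hx'
    rw [D.ν_cc t x hx]
    have t0 := t.2.1
    have t1 := t.2.2
    nlinarith
  have key0 : ∀ x : T, 1 / 3 < D.R.ν x → D.R.ν (D.R.sc (cc ((0 : I) : ℝ) (D.R.ν x), x)) < 1 := by
    intro x hx
    rw [D.ν_cc 0 x hx]
    have := D.R.le_one x
    simp only [Set.Icc.coe_zero]
    linarith
  have c1 : Continuous fun x : D.N => D.R.sc (cc ((0 : I) : ℝ) (D.R.ν (x : T)), (x : T)) :=
    D.R.csc.comp (Continuous.prodMk (continuous_cc continuous_const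
      (D.R.cν.comp continuous_subtype_val) (fun x => (D.ν_pos x).ne')) continuous_subtype_val)
  have c2 : Continuous fun p : I × (D.U ∩ D.V : Set Z) =>
      D.R.sc (cc (p.1 : ℝ) (D.R.ν (D.gi ⟨p.2, p.2.2.2⟩)), D.gi ⟨p.2, p.2.2.2⟩) :=
    D.R.csc.comp (Continuous.prodMk (continuous_cc (continuous_subtype_val.comp continuous_fst)
      (hcν.comp continuous_snd) (fun p => by have := hgiN p.2; linarith))
      (hcgi.comp continuous_snd))
  have c3 : Continuous fun p : I × D.N =>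
      D.R.sc (cc (p.1 : ℝ) (D.R.ν (p.2 : T)), (p.2 : T)) :=
    D.R.csc.comp (Continuous.prodMk (continuous_cc (continuous_subtype_val.comp continuous_fst)
      (D.R.cν.comp (continuous_subtype_val.comp continuous_snd)) (fun p => (D.ν_pos p.2).ne'))
      (continuous_subtype_val.comp continuous_snd))
  have cc1 : ∀ ν : ℝ, cc ((1 : I) : ℝ) ν = 1 := by
    intro ν
    simp [cc]
  refine ⟨Continuous.subtype_mk hcgi _,
    fun x => ⟨g (D.R.sc (cc ((0 : I) : ℝ) (D.R.ν (x : T)), (x : T))),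
      (D.g_mem_U _).2 (key 0 x x.2), (D.g_mem_V _).2 (key0 x x.2)⟩,
    Continuous.subtype_mk (D.cg.comp c1) _,
    ⟨fun p => ⟨g (D.R.sc (cc (p.1 : ℝ) (D.R.ν (D.gi ⟨p.2, p.2.2.2⟩)), D.gi ⟨p.2, p.2.2.2⟩)),
      (D.g_mem_U _).2 (key _ _ (hgiN p.2)),
      (D.g_mem_V _).2 (key' _ _ (hgiN p.2) (D.ν_gi _))⟩,
      Continuous.subtype_mk (D.cg.comp c2) _, fun z => rfl, fun z => ?_⟩,
    ⟨fun p => ⟨D.R.sc (cc (p.1 : ℝ) (D.R.ν (p.2 : T)), (p.2 : T)), key _ _ p.2.2⟩,
      Continuous.subtype_mk c3 _, fun x => ?_, fun x => ?_⟩⟩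
  · apply Subtype.ext
    simp only [cc1, D.R.sc_one]
    exact D.g_gi ⟨z, z.2.2⟩
  · apply Subtype.ext
    simp only
    rw [D.gi_g _ (key0 x x.2)]
  · apply Subtype.ext
    simp only [cc1, D.R.sc_one]

end AttData

end Vale.Agent.P259
end
end

section

section

open CategoryTheory
open scoped Topology.Homotopy

namespace Vale.Agent.P259

/-- The map induced on `π_0`. -/
def piZeroMap {X Y : Type*} [TopologicalSpace X] [TopologicalSpace Y] (f : C(X, Y)) :
    ZerothHomotopy X → ZerothHomotopy Y :=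
  ZerothHomotopy.lift (fun x => ZerothHomotopy.mk (f x))
    (fun _ _ p => ZerothHomotopy.sound (p.map f.continuous))

/-- The map induced on generalized loops. -/
def loopMap {X Y : Type*} [TopologicalSpace X] [TopologicalSpace Y] (f : C(X, Y)) (n : ℕ)
    (x : X) (p : Ω^ (Fin n) X x) : Ω^ (Fin n) Y (f x) :=
  ⟨f.comp p.1, fun y hy => congrArg f (p.2 y hy)⟩

/-- The map induced on the `n`-th homotopy group. -/
def piMap {X Y : Type*} [TopologicalSpace X] [TopologicalSpace Y] (f : C(X, Y)) (n : ℕ)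
    (x : X) : HomotopyGroup (Fin n) X x → HomotopyGroup (Fin n) Y (f x) :=
  Quotient.map (loopMap f n x) (fun _ _ h => h.comp_continuousMap f)

/-- Weak homotopy equivalences: bijections on `π_0` and on all homotopy groups, at all base
points. -/
def IsWHE {X Y : Type*} [TopologicalSpace X] [TopologicalSpace Y] (f : C(X, Y)) : Prop :=
  Function.Bijective (piZeroMap f) ∧
    ∀ (n : ℕ) (x : X), Function.Bijective (piMap f (n + 1) x)

/-- The weak homotopy equivalences between compactly generated spaces. -/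
def wheCG : MorphismProperty CompactlyGenerated.{0, 0} := fun _ _ f => IsWHE f.hom.hom

/-- The weak homotopy equivalences between topological spaces. -/
def wheTop : MorphismProperty TopCat.{0} := fun _ _ f => IsWHE f.hom

end Vale.Agent.P259
end
end

section

section

open CategoryTheory Limits Opposite

namespace Vale.Agent.P259

open Theta0 GlobExt

variable {C : GlobExt} {hC : C.IsCoherator} {K0 : C.CylFun ⊤ 0} {Δ : DiscFunctor C}
  {Gd : GammaData (K0.pathCtx hC) Δ.Pi} (Sc : SigmaCat hC K0 Δ Gd)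

/-- The space component of a generalized element of `H_a(Z)`. -/
noncomputable def SigmaCat.hf {Y : TopCat.{0}} {Z : C.Gpd} {a : Gd.Γ.obj Y ⟶ Z} {S : C.Obj}
    (x : (C.y ⊤).obj S ⟶ Sc.H a) : Δ.D.obj S ⟶ Y :=
  (yEquiv S (Sc.H a) x : (Sc.HPre a).obj (op S)).1.1

/-- The groupoid component of a generalized element of `H_a(Z)`. -/
noncomputable def SigmaCat.hη {Y : TopCat.{0}} {Z : C.Gpd} {a : Gd.Γ.obj Y ⟶ Z} {S : C.Obj}
    (x : (C.y ⊤).obj S ⟶ Sc.H a) : Sc.Sg.obj S ⟶ Z :=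
  (yEquiv S (Sc.H a) x : (Sc.HPre a).obj (op S)).1.2

lemma SigmaCat.iG_hη {Y : TopCat.{0}} {Z : C.Gpd} {a : Gd.Γ.obj Y ⟶ Z} {S : C.Obj}
    (x : (C.y ⊤).obj S ⟶ Sc.H a) : Sc.iG.app S ≫ Sc.hη x = Gd.Γ.map (Sc.hf x) ≫ a :=
  (yEquiv S (Sc.H a) x : (Sc.HPre a).obj (op S)).2

lemma SigmaCat.H_ext {Y : TopCat.{0}} {Z : C.Gpd} {a : Gd.Γ.obj Y ⟶ Z} {S : C.Obj}
    {x x' : (C.y ⊤).obj S ⟶ Sc.H a} (h1 : Sc.hf x = Sc.hf x') (h2 : Sc.hη x = Sc.hη x') :
    x = x' := by
  apply (yEquiv S (Sc.H a)).injective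
  exact Subtype.ext (Prod.ext h1 h2)

lemma SigmaCat.hf_nat {Y : TopCat.{0}} {Z : C.Gpd} {a : Gd.Γ.obj Y ⟶ Z} {S T : C.Obj}
    (φ : S ⟶ T) (x : (C.y ⊤).obj T ⟶ Sc.H a) :
    Sc.hf ((C.y ⊤).map φ ≫ x) = Δ.D.map φ ≫ Sc.hf x := by
  have h := yEquiv_naturality_left φ x
  exact congrArg (fun t : (Sc.HPre a).obj (op S) => t.1.1) h

lemma SigmaCat.hη_nat {Y : TopCat.{0}} {Z : C.Gpd} {a : Gd.Γ.obj Y ⟶ Z} {S T : C.Obj}
    (φ : S ⟶ T) (x : (C.y ⊤).obj T ⟶ Sc.H a) :
    Sc.hη ((C.y ⊤).map φ ≫ x) = Sc.Sg.map φ ≫ Sc.hη x := by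
  have h := yEquiv_naturality_left φ x
  exact congrArg (fun t : (Sc.HPre a).obj (op S) => t.1.2) h

lemma SigmaCat.comp_Hq {Y : TopCat.{0}} {Z : C.Gpd} {a : Gd.Γ.obj Y ⟶ Z} {S : C.Obj}
    (x : (C.y ⊤).obj S ⟶ Sc.H a) : x ≫ Sc.Hq a = Sc.ip.app S ≫ Sc.hη x := by
  apply (yEquiv S Z).injective
  exact yEquiv_naturality_right x (Sc.Hq a)

lemma DiscFunctor.can_comp {Y : TopCat.{0}} {S : C.Obj} (f : Δ.D.obj S ⟶ Y) :
    yEquiv S (Δ.Pi.obj Y) (Δ.can.app S ≫ Δ.Pi.map f) = f := by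
  have h : yEquiv S (Δ.Pi.obj (Δ.D.obj S)) (Δ.can.app S) = 𝟙 (Δ.D.obj S) :=
    (yEquiv S (Δ.Pi.obj (Δ.D.obj S))).apply_symm_apply _
  refine (yEquiv_naturality_right (Δ.can.app S) (Δ.Pi.map f)).trans ?_
  refine (congrArg (fun t => (Δ.Pi.map f).hom.app (op S) t) h).trans ?_
  exact Category.id_comp f

lemma SigmaCat.comp_Hpi {Y : TopCat.{0}} {Z : C.Gpd} {a : Gd.Γ.obj Y ⟶ Z} {S : C.Obj}
    (x : (C.y ⊤).obj S ⟶ Sc.H a) : x ≫ Sc.Hpi a = Δ.can.app S ≫ Δ.Pi.map (Sc.hf x) := by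
  apply (yEquiv S (Δ.Pi.obj Y)).injective
  rw [DiscFunctor.can_comp]
  exact yEquiv_naturality_right x (Sc.Hpi a)

lemma SigmaCat.hf_Hmap {Y Y' : TopCat.{0}} {Z Z' : C.Gpd} {a : Gd.Γ.obj Y ⟶ Z}
    {a' : Gd.Γ.obj Y' ⟶ Z'} (g : Y ⟶ Y') (z : Z ⟶ Z') (h : a ≫ z = Gd.Γ.map g ≫ a') {S : C.Obj}
    (x : (C.y ⊤).obj S ⟶ Sc.H a) : Sc.hf (x ≫ Sc.Hmap a a' g z h) = Sc.hf x ≫ g := by
  have h := yEquiv_naturality_right x (Sc.Hmap a a' g z h)
  exact congrArg (fun t : (Sc.HPre a').obj (op S) => t.1.1) h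

lemma SigmaCat.hη_Hmap {Y Y' : TopCat.{0}} {Z Z' : C.Gpd} {a : Gd.Γ.obj Y ⟶ Z}
    {a' : Gd.Γ.obj Y' ⟶ Z'} (g : Y ⟶ Y') (z : Z ⟶ Z') (h : a ≫ z = Gd.Γ.map g ≫ a') {S : C.Obj}
    (x : (C.y ⊤).obj S ⟶ Sc.H a) : Sc.hη (x ≫ Sc.Hmap a a' g z h) = Sc.hη x ≫ z := by
  have h := yEquiv_naturality_right x (Sc.Hmap a a' g z h)
  exact congrArg (fun t : (Sc.HPre a').obj (op S) => t.1.2) h

lemma SigmaCat.Hmap_Hpi {Y Y' : TopCat.{0}} {Z Z' : C.Gpd} (a : Gd.Γ.obj Y ⟶ Z)
    (a' : Gd.Γ.obj Y' ⟶ Z') (g : Y ⟶ Y') (z : Z ⟶ Z') (h : a ≫ z = Gd.Γ.map g ≫ a') :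
    Sc.Hmap a a' g z h ≫ Sc.Hpi a' = Sc.Hpi a ≫ Δ.Pi.map g := by
  apply Md.hom_ext
  intro S x
  rw [← Category.assoc, Sc.comp_Hpi, Sc.hf_Hmap, ← Category.assoc x, Sc.comp_Hpi,
    Category.assoc, Δ.Pi.map_comp]

lemma SigmaCat.Hmap_Hq {Y Y' : TopCat.{0}} {Z Z' : C.Gpd} (a : Gd.Γ.obj Y ⟶ Z)
    (a' : Gd.Γ.obj Y' ⟶ Z') (g : Y ⟶ Y') (z : Z ⟶ Z') (h : a ≫ z = Gd.Γ.map g ≫ a') :
    Sc.Hmap a a' g z h ≫ Sc.Hq a' = Sc.Hq a ≫ z := by
  apply Md.hom_ext
  intro S x
  rw [← Category.assoc, Sc.comp_Hq, Sc.hη_Hmap, ← Category.assoc x, Sc.comp_Hq,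
      Category.assoc]

omit Sc in
lemma SigmaCat.HF_w {Y Y' : TopCat.{0}} (g : Y ⟶ Y') :
    𝟙 (Gd.Γ.obj Y) ≫ Gd.Γ.map g = Gd.Γ.map g ≫ 𝟙 (Gd.Γ.obj Y') := by
  rw [Category.id_comp, Category.comp_id]

/-- The functor `Y ↦ H_1(Γ Y)`. -/
noncomputable def SigmaCat.HF : TopCat.{0} ⥤ C.Gpd where
  obj Y := Sc.H (𝟙 (Gd.Γ.obj Y))
  map {Y Y'} g := Sc.Hmap (𝟙 _) (𝟙 _) g (Gd.Γ.map g) (SigmaCat.HF_w g)
  map_id Y := by
    apply Md.hom_ext
    intro S x
    apply Sc.H_ext
    · rw [Sc.hf_Hmap, Category.comp_id, Category.comp_id]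
    · rw [Sc.hη_Hmap, Category.comp_id, Gd.Γ.map_id, Category.comp_id]
  map_comp f g := by
    apply Md.hom_ext
    intro S x
    apply Sc.H_ext
    · rw [Sc.hf_Hmap, ← Category.assoc x, Sc.hf_Hmap, Sc.hf_Hmap, Category.assoc]
    · rw [Sc.hη_Hmap, ← Category.assoc x, Sc.hη_Hmap, Sc.hη_Hmap, Category.assoc, Gd.Γ.map_comp]

/-- The projection `H_1(Γ Y) ⟶ Π Y`. -/
noncomputable def SigmaCat.HpiN : Sc.HF ⟶ Δ.Pi where
  app Y := Sc.Hpi (𝟙 (Gd.Γ.obj Y))
  naturality _ _ g := Sc.Hmap_Hpi _ _ g _ (SigmaCat.HF_w g)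

/-- The projection `H_1(Γ Y) ⟶ Γ Y`. -/
noncomputable def SigmaCat.HqN : Sc.HF ⟶ Gd.Γ where
  app Y := Sc.Hq (𝟙 (Gd.Γ.obj Y))
  naturality _ _ g := Sc.Hmap_Hq _ _ g _ (SigmaCat.HF_w g)

/-- The section `v : Γ ⟶ H`. -/
lemma SigmaCat.exists_v : ∃ v : Gd.Γ ⟶ Sc.HF, v ≫ Sc.HpiN = Gd.u :=
  Gd.lift Sc.HF Δ.Pi Sc.HpiN (fun _ => Sc.trivFib_Hpi _) Gd.u

/-- The functor `Y ↦ Γ Y × Γ Y`. -/
noncomputable def GammaData.sq (Gd : GammaData (K0.pathCtx hC) Δ.Pi) : TopCat.{0} ⥤ C.Gpd where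
  obj Y := Gd.Γ.obj Y ⨯ Gd.Γ.obj Y
  map g := prod.map (Gd.Γ.map g) (Gd.Γ.map g)
  map_id Y := by
    rw [Gd.Γ.map_id]
    exact prod.map_id_id
  map_comp f g := by
    rw [Gd.Γ.map_comp, prod.map_map]

/-- Cubes are contractible. -/
lemma contractible_cubeT (n : ℕ) : ContractibleSpace (cubeT n) := by
  change ContractibleSpace (Fin n → unitInterval)
  rw [contractible_iff_id_nullhomotopic]
  refine ⟨fun _ => 0, ⟨⟨⟨fun p i => unitInterval.symm p.1 * p.2 i, ?_⟩, ?_, ?_⟩⟩⟩
  · refine continuous_pi fun i => ?_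
    have h1 : Continuous fun p : unitInterval × (Fin n → unitInterval) =>
      unitInterval.symm p.1 := unitInterval.continuous_symm.comp continuous_fst
    have h2 : Continuous fun p : unitInterval × (Fin n → unitInterval) => p.2 i :=
      (continuous_apply i).comp continuous_snd
    exact Continuous.subtype_mk
      ((continuous_subtype_val.comp h1).mul (continuous_subtype_val.comp h2)) _
  · intro x
    funext i
    simp
  · intro x
    funext i
    simp

/-- Two natural endomorphisms of `Γ` are naturally homotopic. -/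
lemma GammaData.exists_homotopy (Gd : GammaData (K0.pathCtx hC) Δ.Pi) (α β : Gd.Γ ⟶ Gd.Γ)
    (Y : TopCat.{0}) : ∃ h : Gd.Γ.obj Y ⟶ (K0.pathCtx hC).P.obj (Gd.Γ.obj Y),
      h ≫ (K0.pathCtx hC).pm.app _ = α.app Y ∧ h ≫ (K0.pathCtx hC).pp.app _ = β.app Y := by
  let p : Gd.Γ ⋙ K0.P ⟶ Gd.sq :=
    { app := fun Y => prod.lift (K0.pm.app (Gd.Γ.obj Y)) (K0.pp.app (Gd.Γ.obj Y))
      naturality := by
        intro Y Y' g
        apply Limits.prod.hom_ext
        · change K0.P.map (Gd.Γ.map g) ≫ prod.lift _ _ ≫ prod.fst = (prod.lift _ _ ≫ prod.map _ _) ≫ prod.fst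
          rw [prod.lift_fst, prod.lift_map, prod.lift_fst]
          exact K0.pm.naturality _
        · change K0.P.map (Gd.Γ.map g) ≫ prod.lift _ _ ≫ prod.snd = (prod.lift _ _ ≫ prod.map _ _) ≫ prod.snd
          rw [prod.lift_snd, prod.lift_map, prod.lift_snd]
          exact K0.pp.naturality _ }
  let b : Gd.Γ ⟶ Gd.sq :=
    { app := fun Y => prod.lift (α.app Y) (β.app Y)
      naturality := by
        intro Y Y' g
        apply Limits.prod.hom_ext
        · change Gd.Γ.map g ≫ prod.lift _ _ ≫ prod.fst = (prod.lift _ _ ≫ prod.map _ _) ≫ prod.fst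
          rw [prod.lift_fst, prod.lift_map, prod.lift_fst]
          exact α.naturality _
        · change Gd.Γ.map g ≫ prod.lift _ _ ≫ prod.snd = (prod.lift _ _ ≫ prod.map _ _) ≫ prod.snd
          rw [prod.lift_snd, prod.lift_map, prod.lift_snd]
          exact β.naturality _ }
  obtain ⟨a, ha⟩ := Gd.lift (Gd.Γ ⋙ K0.P) Gd.sq p
    (fun n => (K0.pathCtx hC).contr _ (Gd.contr _ (contractible_cubeT n))) b
  have h := congrArg (fun t => t.app Y) ha
  have h1 : a.app Y ≫ prod.lift (K0.pm.app (Gd.Γ.obj Y)) (K0.pp.app (Gd.Γ.obj Y)) =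
    prod.lift (α.app Y) (β.app Y) := h
  refine ⟨a.app Y, ?_, ?_⟩
  · have := congrArg (fun t => t ≫ prod.fst) h1
    simp only [Category.assoc, prod.lift_fst] at this
    exact this.trans (prod.lift_fst _ _)
  · have := congrArg (fun t => t ≫ prod.snd) h1
    simp only [Category.assoc, prod.lift_snd] at this
    exact this.trans (prod.lift_snd _ _)

/-- A globular map given by an operation on cells. -/
def GM.mk1 {𝓜 : Type 1} [Category.{0} 𝓜] {F : Globe ⥤ 𝓜} {X Y : 𝓜}
    (φ : ∀ j, (cob F j ⟶ X) → (cob F j ⟶ Y))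
    (hφ : ∀ {j k : ℕ} (a : Globe.D j ⟶ Globe.D k) (u : cob F k ⟶ X),
      φ j (F.map a ≫ u) = F.map a ≫ φ k u) : (under F).obj X ⟶ (under F).obj Y where
  app j := ↾(fun u => φ j.unop.dim u)
  naturality j k f := by
    ext u
    exact hφ f.unop u

lemma GM.app_mk1 {𝓜 : Type 1} [Category.{0} 𝓜] {F : Globe ⥤ 𝓜} {X Y : 𝓜}
    (φ : ∀ j, (cob F j ⟶ X) → (cob F j ⟶ Y))
    (hφ : ∀ {j k : ℕ} (a : Globe.D j ⟶ Globe.D k) (u : cob F k ⟶ X),
      φ j (F.map a ≫ u) = F.map a ≫ φ k u) {j : ℕ} (u : cob F j ⟶ X) :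
    GM.app (GM.mk1 φ hφ) u = φ j u := rfl

/-- The component of `ζ` on a disc. -/
noncomputable def SigmaCat.ζd (j : ℕ) : K0.Cy.obj (C.discF.obj (Globe.D j)) ⟶
    Δ.Pi.obj (Δ.D.obj (C.discF.obj (Globe.D j))) :=
  Sc.ζ.app (disc j)

lemma SigmaCat.ζd_nat {j k : ℕ} (a : Globe.D j ⟶ Globe.D k) :
    K0.Cy.map (C.discF.map a) ≫ Sc.ζd k = Sc.ζd j ≫ Δ.Pi.map (Δ.D.map (C.discF.map a)) :=
  Sc.ζ.naturality (discMap a)

/-- The component of `θ` on a disc. -/
noncomputable def SigmaCat.θd (j : ℕ) : (C.y ⊤).obj (C.discF.obj (Globe.D j)) ⟶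
    Gd.Γ.obj (Δ.D.obj (C.discF.obj (Globe.D j))) :=
  Sc.θ.app (disc j)

/-- The component of `e` on a disc. -/
noncomputable def SigmaCat.ed (j : ℕ) : K0.Cy.obj (C.discF.obj (Globe.D j)) ⟶
    Sc.Sg.obj (C.discF.obj (Globe.D j)) :=
  Sc.e.app (disc j)

lemma SigmaCat.ed_nat {j k : ℕ} (a : Globe.D j ⟶ Globe.D k) :
    K0.Cy.map (C.discF.map a) ≫ Sc.ed k = Sc.ed j ≫ Sc.Sg.map (C.discF.map a) :=
  Sc.e.naturality (discMap a)

lemma SigmaCat.im_ζd (j : ℕ) : K0.im.app (C.discF.obj (Globe.D j)) ≫ Sc.ζd j =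
    Δ.can.app (C.discF.obj (Globe.D j)) :=
  Sc.im_ζ (disc j)

lemma SigmaCat.ip_ζd (j : ℕ) : K0.ip.app (C.discF.obj (Globe.D j)) ≫ Sc.ζd j =
    Sc.θd j ≫ Gd.u.app (Δ.D.obj (C.discF.obj (Globe.D j))) :=
  Sc.ip_ζ (disc j)

lemma SigmaCat.im_ed (j : ℕ) : K0.im.app (C.discF.obj (Globe.D j)) ≫ Sc.ed j =
    Sc.θd j ≫ Sc.iG.app (C.discF.obj (Globe.D j)) :=
  (Sc.push (disc j)).w

lemma SigmaCat.ip_ed (j : ℕ) : K0.ip.app (C.discF.obj (Globe.D j)) ≫ Sc.ed j =
    Sc.ip.app (C.discF.obj (Globe.D j)) :=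
  Sc.ip_e (disc j)

/-- The globular homotopy given by `ζ`. -/
noncomputable def SigmaCat.h1 (Y : TopCat.{0}) :
    (under (C.F ⊤)).obj (Sc.H (𝟙 (Gd.Γ.obj Y))) ⟶
      (under (C.F ⊤)).obj (K0.P.obj (Δ.Pi.obj Y)) :=
  GM.mk1 (fun j x => (K0.PEquiv (C.discF.obj (Globe.D j)) (Δ.Pi.obj Y)).symm
    (Sc.ζd j ≫ Δ.Pi.map (Sc.hf x))) (by
    intro j k a u
    apply (K0.PEquiv (C.discF.obj (Globe.D j)) (Δ.Pi.obj Y)).injective
    rw [Equiv.apply_symm_apply]
    refine Eq.trans ?_ (K0.PEquiv_naturality_left (C.discF.map a) _).symm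
    rw [Equiv.apply_symm_apply, ← Category.assoc, Sc.ζd_nat, Category.assoc, ← Δ.Pi.map_comp]
    congr 2
    exact Sc.hf_nat (C.discF.map a) u)

/-- The globular homotopy given by the cylinders of `H`. -/
noncomputable def SigmaCat.h2 (Y : TopCat.{0}) :
    (under (C.F ⊤)).obj (Sc.H (𝟙 (Gd.Γ.obj Y))) ⟶
      (under (C.F ⊤)).obj (K0.P.obj (Δ.Pi.obj Y)) :=
  GM.mk1 (fun j x => (K0.PEquiv (C.discF.obj (Globe.D j)) (Δ.Pi.obj Y)).symm
    (Sc.ed j ≫ Sc.hη x ≫ Gd.u.app Y)) (by
    intro j k a u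
    apply (K0.PEquiv (C.discF.obj (Globe.D j)) (Δ.Pi.obj Y)).injective
    rw [Equiv.apply_symm_apply]
    refine Eq.trans ?_ (K0.PEquiv_naturality_left (C.discF.map a) _).symm
    rw [Equiv.apply_symm_apply, ← Category.assoc (K0.Cy.map _), Sc.ed_nat, Category.assoc,
      ← Category.assoc (Sc.Sg.map _)]
    congr 2
    exact Sc.hη_nat (C.discF.map a) u)

lemma SigmaCat.h1_app (Y : TopCat.{0}) {j : ℕ}
    (x : (C.y ⊤).obj (C.discF.obj (Globe.D j)) ⟶ Sc.H (𝟙 (Gd.Γ.obj Y))) :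
    K0.PEquiv (C.discF.obj (Globe.D j)) (Δ.Pi.obj Y) (GM.app (Sc.h1 Y) x) =
      Sc.ζd j ≫ Δ.Pi.map (Sc.hf x) :=
  Equiv.apply_symm_apply _ _

lemma SigmaCat.h2_app (Y : TopCat.{0}) {j : ℕ}
    (x : (C.y ⊤).obj (C.discF.obj (Globe.D j)) ⟶ Sc.H (𝟙 (Gd.Γ.obj Y))) :
    K0.PEquiv (C.discF.obj (Globe.D j)) (Δ.Pi.obj Y) (GM.app (Sc.h2 Y) x) =
      Sc.ed j ≫ Sc.hη x ≫ Gd.u.app Y :=
  Equiv.apply_symm_apply _ _

lemma SigmaCat.h1_pm (Y : TopCat.{0}) : Sc.h1 Y ≫ (under (C.F ⊤)).map (K0.pm.app (Δ.Pi.obj Y)) =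
    (under (C.F ⊤)).map (Sc.Hpi (𝟙 (Gd.Γ.obj Y))) := by
  apply GM.ext
  intro j u
  refine (K0.comp_pm _).trans ((congrArg (K0.im.app _ ≫ ·) (Sc.h1_app Y u)).trans ?_)
  refine Eq.trans ?_ (Sc.comp_Hpi _).symm
  rw [← Category.assoc, Sc.im_ζd]

lemma SigmaCat.h1_pp (Y : TopCat.{0}) : Sc.h1 Y ≫ (under (C.F ⊤)).map (K0.pp.app (Δ.Pi.obj Y)) =
    Sc.h2 Y ≫ (under (C.F ⊤)).map (K0.pm.app (Δ.Pi.obj Y)) := by
  apply GM.ext
  intro j u
  refine (K0.comp_pp _).trans ((congrArg (K0.ip.app _ ≫ ·) (Sc.h1_app Y u)).trans ?_)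
  refine Eq.trans ?_
    ((K0.comp_pm _).trans (congrArg (K0.im.app _ ≫ ·) (Sc.h2_app Y u))).symm
  rw [← Category.assoc, Sc.ip_ζd, ← Category.assoc (K0.im.app _), Sc.im_ed, Category.assoc,
    Category.assoc, ← Category.assoc (Sc.iG.app _)]
  congr 1
  have h := (Sc.iG_hη (a := 𝟙 (Gd.Γ.obj Y)) (S := C.discF.obj (Globe.D j)) u).trans
    (Category.comp_id _)
  exact (Gd.u.naturality (Sc.hf (S := C.discF.obj (Globe.D j)) u)).symm.trans
    (congrArg (· ≫ Gd.u.app Y) h.symm)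

lemma SigmaCat.h2_pp (Y : TopCat.{0}) : Sc.h2 Y ≫ (under (C.F ⊤)).map (K0.pp.app (Δ.Pi.obj Y)) =
    (under (C.F ⊤)).map (Sc.Hq (𝟙 (Gd.Γ.obj Y)) ≫ Gd.u.app Y) := by
  apply GM.ext
  intro j u
  refine (K0.comp_pp _).trans ((congrArg (K0.ip.app _ ≫ ·) (Sc.h2_app Y u)).trans ?_)
  have h := Sc.comp_Hq (a := 𝟙 (Gd.Γ.obj Y)) (S := C.discF.obj (Globe.D j)) u
  change _ = u ≫ Sc.Hq (𝟙 (Gd.Γ.obj Y)) ≫ Gd.u.app Y
  refine Eq.trans ?_ (Category.assoc _ _ _)
  refine Eq.trans ?_ (congrArg (· ≫ Gd.u.app Y) h).symm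
  rw [← Category.assoc, Sc.ip_ed, Category.assoc]

/-- The composite `H_1(Γ Y) ⟶ Γ Y ⟶ Π Y` is a weak equivalence. -/
theorem SigmaCat.W_Hq_u (Y : TopCat.{0}) :
    (K0.pathCtx hC).W (Sc.Hq (𝟙 (Gd.Γ.obj Y)) ≫ Gd.u.app Y) := by
  rw [PathCtx.W_iff_WG]
  have h0 : (K0.pathCtx hC).W (Sc.Hpi (𝟙 (Gd.Γ.obj Y))) :=
    (K0.pathCtx hC).trivFib_le_W _ (Sc.trivFib_Hpi _)
  rw [PathCtx.W_iff_WG] at h0
  have h1 := (K0.pathCtx hC).WG_iff_of_homotopy (Sc.h1 Y)
  have h2 := (K0.pathCtx hC).WG_iff_of_homotopy (Sc.h2 Y)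
  have e1 : Sc.h1 Y ≫ (under (K0.pathCtx hC).F).map ((K0.pathCtx hC).pm.app (Δ.Pi.obj Y)) =
    (under (C.F ⊤)).map (Sc.Hpi (𝟙 (Gd.Γ.obj Y))) := Sc.h1_pm Y
  have e2 : Sc.h1 Y ≫ (under (K0.pathCtx hC).F).map ((K0.pathCtx hC).pp.app (Δ.Pi.obj Y)) =
    Sc.h2 Y ≫ (under (K0.pathCtx hC).F).map ((K0.pathCtx hC).pm.app (Δ.Pi.obj Y)) := Sc.h1_pp Y
  have e3 : Sc.h2 Y ≫ (under (K0.pathCtx hC).F).map ((K0.pathCtx hC).pp.app (Δ.Pi.obj Y)) =
    (under (C.F ⊤)).map (Sc.Hq (𝟙 (Gd.Γ.obj Y)) ≫ Gd.u.app Y) := Sc.h2_pp Y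
  have h3 := h1.1 (e1 ▸ h0)
  have h4 := h2.1 (e2 ▸ h3)
  exact e3 ▸ h4

omit Sc in
/-- `u : Γ ⟶ Π` is a weak equivalence on every space. -/
theorem SigmaCat.W_u (Y : TopCat.{0}) : (K0.pathCtx hC).W (Gd.u.app Y) := by
  obtain ⟨Sc⟩ := exists_sigmaCat hC K0 Δ Gd
  obtain ⟨v, hv⟩ := Sc.exists_v
  obtain ⟨h, hh1, hh2⟩ := Gd.exists_homotopy (𝟙 _) (v ≫ Sc.HqN) Y
  have h1 : (K0.pathCtx hC).W (v.app Y ≫ Sc.Hq (𝟙 (Gd.Γ.obj Y))) := by
    have h2 := (K0.pathCtx hC).W_iff_of_homotopy (Y := Gd.Γ.obj Y) h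
    have e1 : h ≫ (K0.pathCtx hC).pm.app (Gd.Γ.obj Y) = 𝟙 (Gd.Γ.obj Y) := hh1
    have e2 : h ≫ (K0.pathCtx hC).pp.app (Gd.Γ.obj Y) = v.app Y ≫ Sc.Hq (𝟙 (Gd.Γ.obj Y)) := hh2
    rw [← e2]
    apply h2.1
    rw [e1]
    exact MorphismProperty.id_mem _ _
  exact ((K0.pathCtx hC).two_of_six _ _ _ h1 (Sc.W_Hq_u Y)).2.2

end Vale.Agent.P259
end
end

section

section

open CategoryTheory Limits Opposite

namespace Vale.Agent.P259

/-- A continuous map which is, up to homeomorphism, the inclusion of the boundary spheres in a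
family of closed balls. -/
def IsSphereInc {A T : TopCat.{0}} (i : A ⟶ T) : Prop :=
  Topology.IsClosedEmbedding i ∧
    ∃ (J : Type) (n : J → ℕ)
      (e : T ≃ₜ (Σ j : J, Metric.closedBall (0 : EuclideanSpace ℝ (Fin (n j))) 1)),
      ∀ x : T, x ∈ Set.range i ↔ ‖((e x).2 : EuclideanSpace ℝ (Fin (n (e x).1)))‖ = 1

lemma exists_attData {A T Y Y' : TopCat.{0}} {i : A ⟶ T} {f : A ⟶ Y}
    {g : T ⟶ Y'} {j : Y ⟶ Y'} (sq : IsPushout i f g j) (hi : IsSphereInc i) :
    Nonempty (AttData i f g j) := by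
  obtain ⟨h1, J, n, e, h2⟩ := hi
  exact ⟨{ toPushFacts := pushFacts sq h1.injective
           R := (Radial.sigma n).transport e
           hi := h1
           hA := h2 }⟩

variable {𝓜 : Type 1} [Category.{0} 𝓜] [HasLimits 𝓜] [HasColimits 𝓜]
  {K : PathCtx 𝓜} {Pi : TopCat.{0} ⥤ 𝓜}

/-- Homotopy equivalences are sent to weak equivalences. -/
theorem GammaData.W_of_homotopyEquiv (Gd : GammaData K Pi) {Y Y' : TopCat.{0}} (f : Y ⟶ Y')
    (g : Y' ⟶ Y) (h1 : (f ≫ g).hom.Homotopic (𝟙 Y : Y ⟶ Y).hom)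
    (h2 : (g ≫ f).hom.Homotopic (𝟙 Y' : Y' ⟶ Y').hom) : K.W (Gd.Γ.map f) := by
  have key : ∀ {Z : TopCat.{0}} (k : Z ⟶ Z), k.hom.Homotopic (𝟙 Z : Z ⟶ Z).hom →
      K.W (Gd.Γ.map k) := by
    intro Z k hk
    obtain ⟨h, e1, e2⟩ := Gd.homotopy k (𝟙 Z) hk
    rw [← e1, K.W_iff_of_homotopy, e2, Gd.Γ.map_id]
    exact PathCtx.W.id _
  have w1 := key _ h1
  have w2 := key _ h2
  rw [Gd.Γ.map_comp] at w1 w2
  exact (K.two_of_six _ _ _ w1 w2).1

theorem GammaData.W_of_isHE (Gd : GammaData K Pi) {Y Y' : TopCat.{0}} (k : Y ⟶ Y')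
    (h : IsHE k) : K.W (Gd.Γ.map k) := by
  obtain ⟨-, r, hr, ⟨H, hH, h0, h1⟩, H', hH', h0', h1'⟩ := h
  refine Gd.W_of_homotopyEquiv k (TopCat.ofHom ⟨r, hr⟩) ?_ ?_
  · exact ⟨{ toFun := H
             continuous_toFun := hH
             map_zero_left := h0
             map_one_left := h1 }⟩
  · exact ⟨{ toFun := H'
             continuous_toFun := hH'
             map_zero_left := h0'
             map_one_left := h1' }⟩

theorem GammaData.isCof (Gd : GammaData K Pi) (Y : TopCat.{0}) : K.IsCof (Gd.Γ.obj Y) := by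
  let E : TopCat.{0} := TopCat.of PEmpty
  have hE : IsEmpty E := inferInstanceAs (IsEmpty PEmpty)
  obtain ⟨hI⟩ := Gd.empty E hE
  let f : E ⟶ Y := TopCat.ofHom ⟨fun x => x.elim, continuous_of_discreteTopology⟩
  have hf : Cof K.F (Gd.Γ.map f) := Gd.cof f (fun x => x.elim)
  have hEc : K.IsCof (Gd.Γ.obj E) := by
    have : IsIso (initial.to (Gd.Γ.obj E)) :=
      ⟨hI.to _, initial.hom_ext _ _, hI.hom_ext _ _⟩
    exact MorphismProperty.of_isIso (Cof K.F) (initial.to (Gd.Γ.obj E))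
  exact PathCtx.isCof_of_cof hEc hf

/-- The functor `Γ` is compatible, up to weak equivalence, with the attachment of a family of
cells. -/
theorem GammaData.W_attach (Gd : GammaData K Pi) {A T Y Y' : TopCat.{0}} (i : A ⟶ T) (f : A ⟶ Y)
    (g : T ⟶ Y') (j : Y ⟶ Y') (sq : IsPushout i f g j) (hi : IsSphereInc i) {Q : 𝓜}
    (a : Gd.Γ.obj T ⟶ Q) (b : Gd.Γ.obj Y ⟶ Q) (sq' : IsPushout (Gd.Γ.map i) (Gd.Γ.map f) a b)
    (d : Q ⟶ Gd.Γ.obj Y') (h1 : a ≫ d = Gd.Γ.map g) (h2 : b ≫ d = Gd.Γ.map j) : K.W d := by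
  obtain ⟨D⟩ := exists_attData sq hi
  -- the maps
  let nT : TopCat.of D.N ⟶ T := subV D.N
  let gN : TopCat.of D.N ⟶ TopCat.of D.U := TopCat.ofHom
    ⟨fun x => ⟨g x, (D.g_mem_U x).2 x.2⟩,
      Continuous.subtype_mk (D.cg.comp continuous_subtype_val) _⟩
  let uZ : TopCat.of D.U ⟶ Y' := subV D.U
  let iN : A ⟶ TopCat.of D.N := TopCat.ofHom
    ⟨fun x => ⟨i x, D.i_mem_N x⟩, Continuous.subtype_mk D.hi.continuous _⟩
  let jU : Y ⟶ TopCat.of D.U := TopCat.ofHom
    ⟨fun y => ⟨j y, D.j_mem_U y⟩, Continuous.subtype_mk D.cj _⟩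
  let vT : TopCat.of D.V ⟶ T := TopCat.ofHom ⟨D.gi, D.continuous_gi⟩
  let wN : TopCat.of (D.U ∩ D.V : Set Y') ⟶ TopCat.of D.N := TopCat.ofHom
    ⟨fun z => ⟨D.gi ⟨z, z.2.2⟩, D.gi_mem_N ⟨z, z.2.2⟩ z.2.1⟩, D.he_UV.1⟩
  let l : TopCat.of (D.U ∩ D.V : Set Y') ⟶ TopCat.of D.U :=
    subI (Set.inter_subset_left (s := D.U) (t := D.V))
  let r : TopCat.of (D.U ∩ D.V : Set Y') ⟶ TopCat.of D.V :=
    subI (Set.inter_subset_right (s := D.U) (t := D.V))
  -- relations
  have r1 : nT ≫ g = gN ≫ uZ := rfl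
  have r2 : iN ≫ nT = i := rfl
  have r2' : Gd.Γ.map i = Gd.Γ.map iN ≫ Gd.Γ.map nT := Gd.Γ.map_comp iN nT
  have r3 : iN ≫ gN = f ≫ jU := by
    ext x
    exact D.comm x
  have r4 : jU ≫ uZ = j := rfl
  have r5 : wN ≫ nT = r ≫ vT := rfl
  have r6 : wN ≫ gN = l := by
    ext z
    exact D.g_gi ⟨z, z.2.2⟩
  have r7 : vT ≫ g = subV D.V := by
    ext z
    exact D.g_gi z
  -- weak equivalences
  have w1 : K.W (Gd.Γ.map iN) := Gd.W_of_isHE iN D.he_A
  have w2 : K.W (Gd.Γ.map jU) := Gd.W_of_isHE jU D.he_Y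
  have w3 : K.W (Gd.Γ.map vT) := Gd.W_of_isHE vT D.he_V
  have w4 : K.W (Gd.Γ.map wN) := Gd.W_of_isHE wN D.he_UV
  -- cofibrations
  have c1 : Cof K.F (Gd.Γ.map i) := Gd.cof i D.hi.injective
  have c2 : Cof K.F (Gd.Γ.map nT) := Gd.cof nT Subtype.val_injective
  have c3 : Cof K.F (Gd.Γ.map r) := Gd.cof r
    (Set.inclusion_injective (Set.inter_subset_right (s := D.U) (t := D.V)))
  -- pushouts
  have sqm := IsPushout.of_hasPushout (Gd.Γ.map nT) (Gd.Γ.map gN)
  have sqr := IsPushout.of_hasPushout (Gd.Γ.map l) (Gd.Γ.map r)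
  have AN1 := Gd.excision Y' D.U D.V D.isOpen_U D.isOpen_V D.U_union_V
  let dm : pushout (Gd.Γ.map nT) (Gd.Γ.map gN) ⟶ Gd.Γ.obj Y' :=
    pushout.desc (Gd.Γ.map g) (Gd.Γ.map uZ) (by rw [← Gd.Γ.map_comp, r1, Gd.Γ.map_comp])
  let c : pushout (Gd.Γ.map l) (Gd.Γ.map r) ⟶ pushout (Gd.Γ.map nT) (Gd.Γ.map gN) :=
    pushout.desc (pushout.inr _ _) (Gd.Γ.map vT ≫ pushout.inl _ _) (by
      rw [← Category.assoc, ← Gd.Γ.map_comp, ← r5, ← r6, Gd.Γ.map_comp, Gd.Γ.map_comp,
        Category.assoc, Category.assoc, sqm.w])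
  have wc : K.W c := by
    refine K.W_gluing _ _ _ _ sqr.flip _ _ _ _ sqm c3 c2 (Gd.isCof _) (Gd.isCof _) (Gd.isCof _)
      (Gd.isCof _) (Gd.Γ.map wN) (Gd.Γ.map vT) (𝟙 _) c ?_ ?_ ?_ ?_ w4 w3 (PathCtx.W.id _)
    · rw [← Gd.Γ.map_comp, ← Gd.Γ.map_comp, r5]
    · rw [Category.comp_id, ← Gd.Γ.map_comp, r6]
    · exact pushout.inr_desc _ _ _
    · rw [Category.id_comp]
      exact pushout.inl_desc _ _ _
  have wm : K.W dm := by
    apply PathCtx.W.of_comp wc
    have hQr : K.IsCof (pushout (Gd.Γ.map l) (Gd.Γ.map r)) :=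
      PathCtx.isCof_of_cof (Gd.isCof _) (PathCtx.Cof.cobase sqr.flip c3)
    have := K.W_of_AN _ hQr AN1
    refine Eq.subst (motive := fun k => K.W k) ?_ this
    symm
    apply pushout.hom_ext
    · rw [pushout.inl_desc_assoc, pushout.inr_desc, pushout.inl_desc]
    · rw [pushout.inr_desc_assoc, Category.assoc, pushout.inl_desc, pushout.inr_desc,
        ← Gd.Γ.map_comp, r7]
  let e : Q ⟶ pushout (Gd.Γ.map nT) (Gd.Γ.map gN) :=
    sq'.desc (pushout.inl _ _) (Gd.Γ.map jU ≫ pushout.inr _ _) (by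
      refine (congrArg (fun k => k ≫ pushout.inl (Gd.Γ.map nT) (Gd.Γ.map gN)) r2').trans ?_
      rw [Category.assoc, sqm.w, ← Category.assoc, ← Category.assoc,
        ← Gd.Γ.map_comp, ← Gd.Γ.map_comp, r3])
  have we : K.W e := by
    refine K.W_gluing _ _ _ _ sq' _ _ _ _ sqm c1 c2 (Gd.isCof _) (Gd.isCof _) (Gd.isCof _)
      (Gd.isCof _) (Gd.Γ.map iN) (𝟙 _) (Gd.Γ.map jU) e ?_ ?_ ?_ ?_ w1 (PathCtx.W.id _) w2
    · rw [Category.comp_id]
      exact r2'
    · rw [← Gd.Γ.map_comp, ← Gd.Γ.map_comp, r3]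
    · rw [Category.id_comp]
      exact sq'.inl_desc _ _ _
    · exact sq'.inr_desc _ _ _
  have hd : e ≫ dm = d := by
    apply sq'.hom_ext
    · rw [sq'.inl_desc_assoc, h1]
      exact pushout.inl_desc _ _ _
    · rw [sq'.inr_desc_assoc, h2, Category.assoc, pushout.inr_desc, ← Gd.Γ.map_comp, r4]
  rw [← hd]
  exact PathCtx.W.comp we wm

end Vale.Agent.P259
end
end

section

section

open CategoryTheory Limits Opposite

namespace Vale.Agent.P259


section Pushout

variable {A T Y Y' : TopCat.{0}} {i : A ⟶ T} {f : A ⟶ Y} {g : T ⟶ Y'} {j : Y ⟶ Y'}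

lemma top_po_types (sq : IsPushout i f g j) :
    IsPushout ((forget TopCat.{0}).map i) ((forget TopCat.{0}).map f)
      ((forget TopCat.{0}).map g) ((forget TopCat.{0}).map j) :=
  sq.map (forget TopCat.{0})

lemma top_po_isClosed_iff (sq : IsPushout i f g j) (C : Set Y') :
    IsClosed C ↔ IsClosed (g ⁻¹' C) ∧ IsClosed (j ⁻¹' C) := by
  refine (TopCat.isClosed_iff_of_isColimit _ sq.isColimit C).trans ?_
  constructor
  · intro h
    exact ⟨h WalkingSpan.left, h WalkingSpan.right⟩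
  · rintro ⟨h1, h2⟩ (_ | _ | _)
    · change IsClosed ((i ≫ g : A ⟶ Y') ⁻¹' C)
      exact h1.preimage i.hom.continuous
    · exact h1
    · exact h2

lemma top_po_inj (sq : IsPushout i f g j) (hi : Function.Injective i) :
    Function.Injective j :=
  Types.pushoutCocone_inr_injective_of_isColimit (top_po_types sq).isColimit hi

lemma top_po_surj (sq : IsPushout i f g j) (y : Y') : (∃ t, g t = y) ∨ ∃ y0, j y0 = y :=
  Types.eq_or_eq_of_isPushout (top_po_types sq) y

lemma top_po_eq (sq : IsPushout i f g j) (hi : Function.Injective i) (t : T) (y : Y) :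
    g t = j y ↔ ∃ a, i a = t ∧ f a = y :=
  Types.pushoutCocone_inl_eq_inr_iff_of_isColimit (top_po_types sq).isColimit hi t y

lemma top_po_g_eq (sq : IsPushout i f g j) (t t' : T) (ht : t ∉ Set.range i)
    (h : g t' = g t) : t' = t := by
  let u : T → Prop := fun x => x = t
  let v : Y → Prop := fun _ => False
  let φ : (forget TopCat.{0}).obj Y' ⟶ Prop := (top_po_types sq).desc (↾u) (↾v) (by
    ext a
    change (i a = t) ↔ False
    exact ⟨fun h => ht ⟨a, h⟩, fun h => h.elim⟩)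
  have h1 : ∀ x : T, φ (g x) = (x = t) := fun x =>
    ConcreteCategory.congr_hom ((top_po_types sq).inl_desc (↾u) (↾v) _) x
  have h2 := h1 t'
  rw [h, h1 t] at h2
  exact h2 ▸ rfl

lemma top_po_closedEmb (sq : IsPushout i f g j) (hi : Topology.IsClosedEmbedding i) :
    Topology.IsClosedEmbedding j := by
  refine Topology.IsClosedEmbedding.of_continuous_injective_isClosedMap j.hom.continuous
    (top_po_inj sq hi.injective) ?_
  intro C hC
  rw [top_po_isClosed_iff sq]
  constructor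
  · have : g ⁻¹' (j '' C) = i '' (f ⁻¹' C) := by
      ext t
      constructor
      · rintro ⟨y, hy, h⟩
        obtain ⟨a, ha, ha'⟩ := (top_po_eq sq hi.injective t y).1 h.symm
        exact ⟨a, by rw [Set.mem_preimage, ha']; exact hy, ha⟩
      · rintro ⟨a, ha, rfl⟩
        exact ⟨f a, ha, ((top_po_eq sq hi.injective (i a) (f a)).2 ⟨a, rfl, rfl⟩).symm⟩
    rw [this]
    exact hi.isClosedMap _ (hC.preimage f.hom.continuous)
  · rw [Set.preimage_image_eq _ (top_po_inj sq hi.injective)]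
    exact hC

lemma top_po_closed_pt (sq : IsPushout i f g j) [T1Space T] (y : Y') (hy : y ∉ Set.range j) :
    IsClosed ({y} : Set Y') := by
  rw [top_po_isClosed_iff sq]
  constructor
  · rcases top_po_surj sq y with ⟨t, rfl⟩ | ⟨y0, rfl⟩
    · have ht : t ∉ Set.range i := by
        rintro ⟨a, rfl⟩
        apply hy
        refine ⟨f a, ?_⟩
        rw [← ConcreteCategory.comp_apply, ← sq.w]
        rfl
      have : g ⁻¹' ({g t} : Set Y') = {t} := by
        ext t'
        constructor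
        · intro h
          exact top_po_g_eq sq t t' ht h
        · rintro rfl
          rfl
      rw [this]
      exact isClosed_singleton
    · exact absurd ⟨y0, rfl⟩ hy
  · have : j ⁻¹' ({y} : Set Y') = ∅ := by
      ext y0
      constructor
      · intro h
        exact absurd ⟨y0, h⟩ hy
      · intro h
        exact h.elim
    rw [this]
    exact isClosed_empty

end Pushout

section Seq

variable {G : ℕ ⥤ TopCat.{0}}

lemma seq_closedEmb
    (h1 : ∀ k, Topology.IsClosedEmbedding (G.map (homOfLE (Nat.le_succ k)))) {a b : ℕ}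
    (h : a ⟶ b) : Topology.IsClosedEmbedding (G.map h) := by
  obtain ⟨d, hd⟩ := Nat.exists_eq_add_of_le h.le
  subst hd
  induction d with
  | zero =>
    have : h = 𝟙 a := Subsingleton.elim _ _
    rw [this, G.map_id]
    exact Topology.IsClosedEmbedding.id
  | succ d ih =>
    have : h = (homOfLE (Nat.le_add_right a d)) ≫ homOfLE (Nat.le_succ (a + d)) :=
      Subsingleton.elim _ _
    rw [this, G.map_comp]
    exact (h1 (a + d)).comp (ih _)

variable {c : Cocone G} (hc : IsColimit c)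

include hc

lemma seq_inj
    (h1 : ∀ k, Topology.IsClosedEmbedding (G.map (homOfLE (Nat.le_succ k)))) (n : ℕ) :
    Function.Injective (c.ι.app n) := by
  intro x y hxy
  obtain ⟨m, h, e⟩ := (Types.FilteredColimit.isColimit_eq_iff' (F := G ⋙ forget TopCat.{0})
    (isColimitOfPreserves (forget TopCat.{0}) hc) x y).1 hxy
  exact (seq_closedEmb h1 h).injective e

lemma seq_surj (x : c.pt) : ∃ n y, c.ι.app n y = x :=
  Types.jointly_surjective_of_isColimit (isColimitOfPreserves (forget TopCat.{0}) hc) x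

omit hc in
lemma seq_w {a b : ℕ} (h : a ⟶ b) (x : G.obj a) : c.ι.app b (G.map h x) = c.ι.app a x :=
  ConcreteCategory.congr_hom (c.w h) x

lemma seq_ι_closedEmb
    (h1 : ∀ k, Topology.IsClosedEmbedding (G.map (homOfLE (Nat.le_succ k)))) (n : ℕ) :
    Topology.IsClosedEmbedding (c.ι.app n) := by
  refine Topology.IsClosedEmbedding.of_continuous_injective_isClosedMap (c.ι.app n).hom.continuous
    (seq_inj hc h1 n) ?_
  intro C hC
  refine (TopCat.isClosed_iff_of_isColimit _ hc _).2 ?_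
  intro m
  rcases le_total n m with h | h
  · have : (c.ι.app m) ⁻¹' ((c.ι.app n) '' C) = (G.map (homOfLE h)) '' C := by
      ext y
      constructor
      · rintro ⟨x, hx, e⟩
        refine ⟨x, hx, ?_⟩
        apply seq_inj hc h1 m
        rw [seq_w]
        exact e
      · rintro ⟨x, hx, rfl⟩
        exact ⟨x, hx, (seq_w (homOfLE h) x).symm⟩
    rw [this]
    exact (seq_closedEmb h1 _).isClosedMap _ hC
  · have : (c.ι.app m) ⁻¹' ((c.ι.app n) '' C) = (G.map (homOfLE h)) ⁻¹' C := by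
      ext y
      constructor
      · rintro ⟨x, hx, e⟩
        rw [Set.mem_preimage]
        have : G.map (homOfLE h) y = x := by
          apply seq_inj hc h1 n
          rw [seq_w]
          exact e.symm
        rw [this]
        exact hx
      · intro hy
        exact ⟨_, hy, seq_w (homOfLE h) y⟩
    rw [this]
    exact hC.preimage (G.map (homOfLE h)).hom.continuous

/-- The compactness of sequential colimits of attachments of cells. -/
theorem seq_compact
    (h1 : ∀ k, Topology.IsClosedEmbedding (G.map (homOfLE (Nat.le_succ k))))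
    (h2 : ∀ k (y : G.obj (k + 1)), y ∉ Set.range (G.map (homOfLE (Nat.le_succ k))) →
      IsClosed ({y} : Set (G.obj (k + 1))))
    (L : Set c.pt) (hL : IsCompact L) : ∃ n, L ⊆ Set.range (c.ι.app n) := by
  by_contra hcon
  push Not at hcon
  have hmono : ∀ {a b : ℕ}, a ≤ b → Set.range (c.ι.app a) ⊆ Set.range (c.ι.app b) := by
    rintro a b h _ ⟨x, rfl⟩
    exact ⟨G.map (homOfLE h) x, seq_w (homOfLE h) x⟩
  -- a strictly increasing sequence of stages
  have step : ∀ n : ℕ, ∃ x : c.pt, ∃ m : ℕ, x ∈ L ∧ x ∉ Set.range (c.ι.app n) ∧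
      x ∈ Set.range (c.ι.app m) ∧ n < m ∧ IsClosed ({x} : Set c.pt) := by
    intro n
    obtain ⟨x, hx, hxn⟩ := Set.not_subset.1 (hcon n)
    obtain ⟨m, y, rfl⟩ := seq_surj hc x
    classical
    have hex : ∃ m, c.ι.app _ y ∈ Set.range (c.ι.app m) := ⟨_, y, rfl⟩
    have hm0 := Nat.find_spec hex
    have hmin := fun k => Nat.find_min (m := k) hex
    have hlt : n < Nat.find hex := by
      by_contra hlt
      exact hxn (hmono (not_lt.1 hlt) hm0)
    obtain ⟨k, hk⟩ : ∃ k, Nat.find hex = k + 1 := ⟨Nat.find hex - 1, by omega⟩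
    refine ⟨_, Nat.find hex, hx, hxn, hm0, hlt, ?_⟩
    rw [hk] at hm0
    obtain ⟨z, hz⟩ := hm0
    have hz' : z ∉ Set.range (G.map (homOfLE (Nat.le_succ k))) := by
      rintro ⟨w, rfl⟩
      refine hmin k (by omega) ⟨w, ?_⟩
      rw [← hz, seq_w]
    have := (seq_ι_closedEmb hc h1 (k + 1)).isClosedMap _ (h2 k z hz')
    rw [Set.image_singleton, hz] at this
    exact this
  choose X M hXL hXn hXM hM hXc using step
  let s : ℕ → ℕ := fun k => Nat.rec 0 (fun _ a => M a) k
  have hs : ∀ k, s (k + 1) = M (s k) := fun k => rfl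
  have hsm : StrictMono s := strictMono_nat_of_lt_succ fun k => by rw [hs]; exact hM _
  let p : ℕ → c.pt := fun k => X (s k)
  have hp1 : ∀ k, p k ∉ Set.range (c.ι.app (s k)) := fun k => hXn _
  have hp2 : ∀ k, p k ∈ Set.range (c.ι.app (s (k + 1))) := fun k => hXM _
  have hpc : ∀ k, IsClosed ({p k} : Set c.pt) := fun k => hXc _
  have hpinj : Function.Injective p := by
    have : ∀ a b, a < b → p a ≠ p b := by
      intro a b hab e
      exact hp1 b (e ▸ hmono (hsm.monotone hab) (hp2 a))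
    intro a b e
    rcases lt_trichotomy a b with h | h | h
    · exact absurd e (this a b h)
    · exact h
    · exact absurd e.symm (this b a h)
  -- all subsets of the sequence are closed
  have hclosed : ∀ S : Set ℕ, IsClosed (p '' S) := by
    intro S
    refine (TopCat.isClosed_iff_of_isColimit _ hc _).2 ?_
    intro m
    have : (c.ι.app m) ⁻¹' (p '' S) = ⋃ k ∈ {k | k ∈ S ∧ k < m}, (c.ι.app m) ⁻¹' {p k} := by
      ext y
      simp only [Set.mem_preimage, Set.mem_image, Set.mem_iUnion, Set.mem_ofPred_eq,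
        Set.mem_singleton_iff]
      constructor
      · rintro ⟨k, hk, e⟩
        refine ⟨k, ⟨hk, ?_⟩, e.symm⟩
        by_contra hkm
        have h3 : m ≤ s k := (not_lt.1 hkm).trans (hsm.le_apply)
        exact hp1 k (hmono h3 ⟨y, e.symm⟩)
      · rintro ⟨k, ⟨hk, -⟩, e⟩
        exact ⟨k, hk, e.symm⟩
    rw [this]
    refine Set.Finite.isClosed_biUnion ?_ ?_
    · exact (Set.finite_lt_nat m).subset fun k hk => hk.2
    · intro k _
      exact (hpc k).preimage (c.ι.app m).hom.continuous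
  have hD : IsCompact (Set.range p) := by
    refine IsCompact.of_isClosed_subset hL ?_ ?_
    · rw [← Set.image_univ]
      exact hclosed _
    · rintro _ ⟨k, rfl⟩
      exact hXL _
  have hdisc : DiscreteTopology (Set.range p) := by
    rw [discreteTopology_iff_forall_isClosed]
    intro C
    have : C = Subtype.val ⁻¹' (p '' {k | ∃ h : p k ∈ Set.range p, (⟨p k, h⟩ : Set.range p) ∈ C}) := by
      ext ⟨x, k, rfl⟩
      constructor
      · intro h
        exact ⟨k, ⟨⟨k, rfl⟩, h⟩, rfl⟩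
      · rintro ⟨k', ⟨h, h'⟩, e⟩
        have : k' = k := hpinj e
        subst this
        exact h'
    rw [this]
    exact (hclosed _).preimage continuous_subtype_val
  have : Finite (Set.range p) := by
    have : CompactSpace (Set.range p) := isCompact_iff_compactSpace.1 hD
    exact finite_of_compact_of_discrete
  exact Set.infinite_range_of_injective hpinj this

/-- A map from a compact space to the colimit factors through some stage. -/
theorem seq_factors
    (h1 : ∀ k, Topology.IsClosedEmbedding (G.map (homOfLE (Nat.le_succ k))))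
    (h2 : ∀ k (y : G.obj (k + 1)), y ∉ Set.range (G.map (homOfLE (Nat.le_succ k))) →
      IsClosed ({y} : Set (G.obj (k + 1))))
    (L : TopCat.{0}) [CompactSpace L] (f : L ⟶ c.pt) :
    ∃ (n : ℕ) (g : L ⟶ G.obj n), g ≫ c.ι.app n = f := by
  obtain ⟨n, hn⟩ := seq_compact hc h1 h2 (Set.range f) (isCompact_range f.hom.continuous)
  have he := seq_ι_closedEmb hc h1 n
  choose u hu using fun x : L => hn ⟨x, rfl⟩
  refine ⟨n, TopCat.ofHom ⟨u, ?_⟩, ?_⟩
  · rw [he.isInducing.continuous_iff]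
    have : (c.ι.app n) ∘ u = f := funext hu
    rw [this]
    exact f.hom.continuous
  · ext x
    exact hu x

end Seq


/-- A coproduct of sphere inclusions is a sphere inclusion. -/
theorem isSphereInc_coprod {J : Type} {A T : J → TopCat.{0}} (i : ∀ j, A j ⟶ T j)
    (hi : ∀ j, IsSphereInc (i j)) (c : Cofan A) (hc : IsColimit c) (d : Cofan T)
    (hd : IsColimit d) (m : c.pt ⟶ d.pt) (hm : ∀ j, c.inj j ≫ m = i j ≫ d.inj j) :
    IsSphereInc m := by
  let eA : (Σ j, A j) ≃ₜ c.pt := TopCat.homeoOfIso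
    ((TopCat.sigmaCofanIsColimit A).coconePointUniqueUpToIso hc)
  let eT : (Σ j, T j) ≃ₜ d.pt := TopCat.homeoOfIso
    ((TopCat.sigmaCofanIsColimit T).coconePointUniqueUpToIso hd)
  have hA : ∀ j (a : A j), eA ⟨j, a⟩ = c.inj j a := fun j a =>
    ConcreteCategory.congr_hom
      ((TopCat.sigmaCofanIsColimit A).comp_coconePointUniqueUpToIso_hom hc ⟨j⟩) a
  have hT : ∀ j (a : T j), eT ⟨j, a⟩ = d.inj j a := fun j a =>
    ConcreteCategory.congr_hom
      ((TopCat.sigmaCofanIsColimit T).comp_coconePointUniqueUpToIso_hom hd ⟨j⟩) a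
  let s : (Σ j, A j) → (Σ j, T j) := Sigma.map id (fun j => i j)
  have hs : ∀ p, m (eA p) = eT (s p) := by
    rintro ⟨j, a⟩
    rw [hA]
    change (c.inj j ≫ m) a = _
    rw [hm]
    exact (hT j (i j a)).symm
  have hsm : (m : c.pt → d.pt) = eT ∘ s ∘ eA.symm := by
    funext x
    obtain ⟨p, rfl⟩ := eA.surjective x
    change m (eA p) = eT (s (eA.symm (eA p)))
    rw [eA.symm_apply_apply, hs]
  have hcl : Topology.IsClosedEmbedding s := by
    refine ⟨(Topology.isEmbedding_sigmaMap Function.injective_id).2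
      fun j => (hi j).1.isEmbedding, ?_⟩
    rw [isClosed_sigma_iff]
    intro j
    have : Sigma.mk j ⁻¹' Set.range s = Set.range (i j) := by
      ext x
      constructor
      · rintro ⟨⟨j', a⟩, h⟩
        change (⟨j', i j' a⟩ : Σ j, T j) = ⟨j, x⟩ at h
        obtain rfl : j' = j := congrArg Sigma.fst h
        exact ⟨a, eq_of_heq (Sigma.mk.inj h).2⟩
      · rintro ⟨a, rfl⟩
        exact ⟨⟨j, a⟩, rfl⟩
    rw [this]
    exact (hi j).1.isClosed_range
  choose Jj N e he using fun j => (hi j).2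
  let F : (Σ j, T j) ≃ₜ
      (Σ p : (Σ j, Jj j), Metric.closedBall (0 : EuclideanSpace ℝ (Fin (N p.1 p.2))) 1) :=
    { toFun := fun q => ⟨⟨q.1, (e q.1 q.2).1⟩, (e q.1 q.2).2⟩
      invFun := fun q => ⟨q.1.1, (e q.1.1).symm ⟨q.1.2, q.2⟩⟩
      left_inv := by
        rintro ⟨j, x⟩
        change (⟨j, (e j).symm (e j x)⟩ : Σ j, T j) = ⟨j, x⟩
        rw [(e j).symm_apply_apply]
      right_inv := by
        rintro ⟨⟨j, k⟩, b⟩
        have := (e j).apply_symm_apply ⟨k, b⟩
        change (⟨⟨j, (e j ((e j).symm ⟨k, b⟩)).1⟩, (e j ((e j).symm ⟨k, b⟩)).2⟩ :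
          (Σ p : (Σ j, Jj j),
            Metric.closedBall (0 : EuclideanSpace ℝ (Fin (N p.1 p.2))) 1)) = ⟨⟨j, k⟩, b⟩
        rw [this]
      continuous_toFun := by
        refine continuous_sigma fun j => ?_
        have h1 : Continuous (Sigma.map (fun k => (⟨j, k⟩ : Σ j, Jj j)) (fun _ => id) :
            (Σ k : Jj j, Metric.closedBall (0 : EuclideanSpace ℝ (Fin (N j k))) 1) →
            (Σ p : (Σ j, Jj j),
              Metric.closedBall (0 : EuclideanSpace ℝ (Fin (N p.1 p.2))) 1)) :=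
          Continuous.sigma_map fun _ => continuous_id
        exact h1.comp (e j).continuous
      continuous_invFun := by
        refine continuous_sigma ?_
        rintro ⟨j, k⟩
        exact continuous_sigmaMk.comp ((e j).symm.continuous.comp
          (continuous_sigmaMk (σ := fun k : Jj j =>
            Metric.closedBall (0 : EuclideanSpace ℝ (Fin (N j k))) 1) (i := k))) }
  refine ⟨?_, _, fun p : (Σ j, Jj j) => N p.1 p.2, eT.symm.trans F, ?_⟩
  · rw [hsm]
    exact eT.isClosedEmbedding.comp (hcl.comp eA.symm.isClosedEmbedding)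
  · intro x
    obtain ⟨⟨j, t⟩, rfl⟩ := eT.surjective x
    have h1 : (eT.symm.trans F) (eT ⟨j, t⟩) = F ⟨j, t⟩ := by
      change F (eT.symm (eT ⟨j, t⟩)) = _
      rw [eT.symm_apply_apply]
    rw [h1]
    have h2 : eT ⟨j, t⟩ ∈ Set.range m ↔ t ∈ Set.range (i j) := by
      constructor
      · rintro ⟨y, hy⟩
        obtain ⟨⟨j', a⟩, rfl⟩ := eA.surjective y
        rw [hs] at hy
        have h := eT.injective hy
        change (⟨j', i j' a⟩ : Σ j, T j) = ⟨j, t⟩ at h
        obtain rfl : j' = j := congrArg Sigma.fst h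
        exact ⟨a, eq_of_heq (Sigma.mk.inj h).2⟩
      · rintro ⟨a, rfl⟩
        exact ⟨eA ⟨j, a⟩, hs _⟩
    exact h2.trans (he j t)

/-- The target of a sphere inclusion is a `T1` space. -/
theorem IsSphereInc.t1 {A T : TopCat.{0}} {i : A ⟶ T} (h : IsSphereInc i) : T1Space T := by
  obtain ⟨J, n, e, -⟩ := h.2
  exact e.symm.t1Space

variable {𝓜 : Type 1} [Category.{0} 𝓜] [HasColimits 𝓜]

/-- The attachments of families of discs are sent to attachments of families of balls. -/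
theorem isSphereInc_sigma' {R : 𝓜 ⥤ TopCat.{0}} (hR : PreservesColimits R) {J : Type}
    {A T : J → 𝓜} (b : ∀ j, A j ⟶ T j) (hR' : ∀ j, IsSphereInc (R.map (b j))) :
    IsSphereInc (R.map (Limits.Sigma.map b)) := by
  refine isSphereInc_coprod (fun j => R.map (b j)) hR'
    (Cofan.mk (R.obj (∐ A)) (fun j => R.map (Sigma.ι A j)))
    (isColimitCofanMkObjOfIsColimit R _ _ (coproductIsCoproduct A))
    (Cofan.mk (R.obj (∐ T)) (fun j => R.map (Sigma.ι T j)))
    (isColimitCofanMkObjOfIsColimit R _ _ (coproductIsCoproduct T)) _ ?_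
  intro j
  change R.map (Sigma.ι A j) ≫ R.map (Limits.Sigma.map b) = R.map (b j) ≫ R.map (Sigma.ι T j)
  rw [← R.map_comp, ← R.map_comp, Limits.Sigma.ι_map]

section Functor

variable {R : 𝓜 ⥤ TopCat.{0}} {G : ℕ ⥤ 𝓜}

omit [HasColimits 𝓜] in
lemma R_step_closedEmb (hR : PreservesColimits R) {A T : 𝓜} {k : ℕ} (i : A ⟶ T)
    (f : A ⟶ G.obj k) (g : T ⟶ G.obj (k + 1))
    (sq : IsPushout i f g (G.map (homOfLE (Nat.le_succ k)))) (hi : IsSphereInc (R.map i)) :
    Topology.IsClosedEmbedding ((G ⋙ R).map (homOfLE (Nat.le_succ k))) :=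
  top_po_closedEmb (sq.map R) hi.1

omit [HasColimits 𝓜] in
lemma R_step_closed_pt (hR : PreservesColimits R) {A T : 𝓜} {k : ℕ} (i : A ⟶ T)
    (f : A ⟶ G.obj k) (g : T ⟶ G.obj (k + 1))
    (sq : IsPushout i f g (G.map (homOfLE (Nat.le_succ k)))) (hi : IsSphereInc (R.map i))
    (y : (G ⋙ R).obj (k + 1))
    (hy : y ∉ Set.range ((G ⋙ R).map (homOfLE (Nat.le_succ k)))) :
    IsClosed ({y} : Set ((G ⋙ R).obj (k + 1))) := by
  have := hi.t1
  exact top_po_closed_pt (sq.map R) y hy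

omit [HasColimits 𝓜] in
/-- The realization of a sequence of attachments of cells: `R (G k) → R X` is a closed
embedding. -/
theorem R_ι_closedEmb (hR : PreservesColimits R)
    (hG : ∀ k, ∃ (A T : 𝓜) (i : A ⟶ T) (f : A ⟶ G.obj k) (g : T ⟶ G.obj (k + 1)),
      IsPushout i f g (G.map (homOfLE (Nat.le_succ k))) ∧ IsSphereInc (R.map i))
    (c : Cocone G) (hc : IsColimit c) (n : ℕ) :
    Topology.IsClosedEmbedding (R.map (c.ι.app n)) := by
  refine seq_ι_closedEmb (G := G ⋙ R) (isColimitOfPreserves R hc) (fun k => ?_) n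
  obtain ⟨A, T, i, f, g, sq, hi⟩ := hG k
  exact R_step_closedEmb hR i f g sq hi

omit [HasColimits 𝓜] in
/-- The realization of a sequence of attachments of cells: every map from a compact space to
`R X` factors through some `R (G k)`. -/
theorem R_factors (hR : PreservesColimits R)
    (hG : ∀ k, ∃ (A T : 𝓜) (i : A ⟶ T) (f : A ⟶ G.obj k) (g : T ⟶ G.obj (k + 1)),
      IsPushout i f g (G.map (homOfLE (Nat.le_succ k))) ∧ IsSphereInc (R.map i))
    (c : Cocone G) (hc : IsColimit c) (L : TopCat.{0}) [CompactSpace L] (f : L ⟶ R.obj c.pt) :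
    ∃ (n : ℕ) (g : L ⟶ R.obj (G.obj n)), g ≫ R.map (c.ι.app n) = f := by
  refine seq_factors (G := G ⋙ R) (isColimitOfPreserves R hc) (fun k => ?_) (fun k y hy => ?_) L f
  · obtain ⟨A, T, i, f, g, sq, hi⟩ := hG k
    exact R_step_closedEmb hR i f g sq hi
  · obtain ⟨A, T, i, f, g, sq, hi⟩ := hG k
    exact R_step_closed_pt hR i f g sq hi y hy

end Functor

end Vale.Agent.P259
end
end

section

section

open CategoryTheory Limits Opposite

namespace Vale.Agent.P259

variable {𝓜 : Type 1} [Category.{0} 𝓜] [HasLimits 𝓜] [HasColimits 𝓜]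

/-- A presentation of `X` as the colimit of a sequence of attachments of families of discs. -/
structure CellSeq (F : Globe ⥤ 𝓜) (X : 𝓜) where
  G : ℕ ⥤ 𝓜
  zero : IsInitial (G.obj 0)
  /-- the family of cells of step `k` -/
  J : ℕ → Type
  n : ∀ k, J k → ℕ
  att : ∀ k, ∐ (fun j : J k => sph F (n k j)) ⟶ G.obj k
  chr : ∀ k, ∐ (fun j : J k => cob F (n k j)) ⟶ G.obj (k + 1)
  push : ∀ k, IsPushout (Limits.Sigma.map (fun j : J k => bd F (n k j))) (att k) (chr k)
    (G.map (homOfLE (Nat.le_succ k)))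
  ι : G ⟶ (Functor.const ℕ).obj X
  colim : Nonempty (IsColimit (Cocone.mk X ι))

/-- The data of the comparison functor `Σ` between an object and the singular object of its
realization `R X`. -/
structure SigmaFun (K : PathCtx 𝓜) {Pi : TopCat.{0} ⥤ 𝓜} (Gd : GammaData K Pi)
    (R : 𝓜 ⥤ TopCat.{0}) where
  Sg : 𝓜 ⥤ 𝓜
  i : 𝟭 𝓜 ⟶ Sg
  j : R ⋙ Gd.Γ ⟶ Sg
  an : ∀ X, K.IsCof X → AN K.F 0 (j.app X)
  cof : ∀ {X X' : 𝓜} (f : X ⟶ X'), K.IsCof X → Cof K.F f → Cof K.F (Gd.Γ.map (R.map f)) →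
    Cof K.F (Sg.map f)

variable {K : PathCtx 𝓜} {Pi : TopCat.{0} ⥤ 𝓜} {Gd : GammaData K Pi} {R : 𝓜 ⥤ TopCat.{0}}

lemma PathCtx.cof_of_isIso (K : PathCtx 𝓜) {X Y : 𝓜} (f : X ⟶ Y) [IsIso f] : Cof K.F f :=
  MorphismProperty.llp_of_isIso _ _

lemma PathCtx.isCof_of_isInitial (K : PathCtx 𝓜) {X : 𝓜} (h : IsInitial X) : K.IsCof X := by
  unfold PathCtx.IsCof
  have : IsIso (initial.to X) := by
    rw [show initial.to X = (initialIsInitial.uniqueUpToIso h).hom from initial.hom_ext _ _]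
    infer_instance
  exact K.cof_of_isIso _

lemma PathCtx.cof_sigma_bd (K : PathCtx 𝓜) {J : Type} (n : J → ℕ) :
    Cof K.F (Limits.Sigma.map (fun j : J => bd K.F (n j))) :=
  fun _ _ p hp => PathCtx.sigma_lift _ _ (fun j => K.cof_bd (n j) p hp)

lemma CellSeq.cof_map {X : 𝓜} (S : CellSeq K.F X) (n : ℕ) :
    Cof K.F (S.G.map (homOfLE (Nat.le_succ n))) :=
  PathCtx.Cof.cobase (S.push n) (K.cof_sigma_bd _)

lemma CellSeq.isCof_obj {X : 𝓜} (S : CellSeq K.F X) (n : ℕ) : K.IsCof (S.G.obj n) := by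
  induction n with
  | zero => exact K.isCof_of_isInitial S.zero
  | succ n ih => exact PathCtx.isCof_of_cof ih (S.cof_map n)

/-- Cellular objects are cofibrant. -/
theorem CellSeq.isCof {X : 𝓜} (S : CellSeq K.F X) : K.IsCof X :=
  PathCtx.isCof_of_cof (S.isCof_obj 0) (PathCtx.seq_cof (cY := Cocone.mk X S.ι) S.colim.some
    S.cof_map)

lemma SigmaFun.isCof_Sg (Sf : SigmaFun K Gd R) {X : 𝓜} (hX : K.IsCof X) :
    K.IsCof (Sf.Sg.obj X) :=
  PathCtx.isCof_of_cof (Gd.isCof (R.obj X)) (K.AN_le_Cof _ (Sf.an X hX))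

lemma SigmaFun.W_j (Sf : SigmaFun K Gd R) {X : 𝓜} (hX : K.IsCof X) : K.W (Sf.j.app X) :=
  K.W_of_AN _ (Gd.isCof (R.obj X)) (Sf.an X hX)

/-- The empty space of cells. -/
lemma SigmaFun.W_initial (Sf : SigmaFun K Gd R) (hR : PreservesColimits R) {X : 𝓜}
    (h : IsInitial X) : K.W (Sf.i.app X) := by
  have hX := K.isCof_of_isInitial h
  have h1 : IsInitial (R.obj X) := h.isInitialObj R
  have h2 : IsEmpty (R.obj X) := by
    have f : R.obj X ⟶ TopCat.of PEmpty := h1.to _
    exact ⟨fun x => (f.hom x).elim⟩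
  have h3 : IsInitial (Gd.Γ.obj (R.obj X)) := (Gd.empty _ h2).some
  have e : Sf.i.app X = h.to _ ≫ Sf.j.app X := h.hom_ext _ _
  rw [e]
  apply PathCtx.W.comp _ (Sf.W_j hX)
  have : IsIso (h.to ((R ⋙ Gd.Γ).obj X)) := by
    rw [show h.to ((R ⋙ Gd.Γ).obj X) = (h.uniqueUpToIso h3).hom from h.hom_ext _ _]
    infer_instance
  exact (K.AN_iff _ hX).1 (MorphismProperty.llp_of_isIso _ _) |>.2

/-- Discs are good. -/
lemma SigmaFun.W_cob (Sf : SigmaFun K Gd R) (hD : ∀ n, ContractibleSpace (R.obj (cob K.F n)))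
    (n : ℕ) : K.W (Sf.i.app (cob K.F n)) := by
  have hc : K.IsCof (cob K.F n) := (K.isCof_sph_cob n).2
  have h1 : Contr K.F (Gd.Γ.obj (R.obj (cob K.F n))) := Gd.contr _ (hD n)
  have h2 : Contr K.F (Sf.Sg.obj (cob K.F n)) := K.contr_of_W _ h1 (Sf.W_j hc)
  exact K.W_of_contr _ (K.gc.disc n) h2

/-- The step of the cell induction. -/
theorem SigmaFun.W_step (Sf : SigmaFun K Gd R) (hR : PreservesColimits R) {A B X X' : 𝓜}
    (b : A ⟶ B) (f : A ⟶ X) (g : B ⟶ X') (k : X ⟶ X') (sq : IsPushout b f g k)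
    (hA : K.IsCof A) (hX : K.IsCof X) (hb : Cof K.F b) (hb' : IsSphereInc (R.map b))
    (wA : K.W (Sf.i.app A)) (wB : K.W (Sf.i.app B)) (wX : K.W (Sf.i.app X)) :
    K.W (Sf.i.app X') := by
  have hB : K.IsCof B := PathCtx.isCof_of_cof hA hb
  have hX' : K.IsCof X' := PathCtx.isCof_of_cof hX (PathCtx.Cof.cobase sq hb)
  have cΓ : Cof K.F (Gd.Γ.map (R.map b)) := Gd.cof _ hb'.1.injective
  have cS : Cof K.F (Sf.Sg.map b) := Sf.cof b hA hb cΓ
  -- the three pushouts
  have sqΓ := IsPushout.of_hasPushout (Gd.Γ.map (R.map b)) (Gd.Γ.map (R.map f))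
  have sqS := IsPushout.of_hasPushout (Sf.Sg.map b) (Sf.Sg.map f)
  set Q := pushout (Sf.Sg.map b) (Sf.Sg.map f)
  set PΓ := pushout (Gd.Γ.map (R.map b)) (Gd.Γ.map (R.map f))
  have sqR : IsPushout (R.map b) (R.map f) (R.map g) (R.map k) := sq.map R
  -- the map from `X'`
  let y : X' ⟶ Q := sq.desc (Sf.i.app B ≫ pushout.inl _ _) (Sf.i.app X ≫ pushout.inr _ _) (by
    rw [← Category.assoc, ← Category.assoc]
    erw [Sf.i.naturality b, Sf.i.naturality f]
    rw [Category.assoc, Category.assoc, sqS.w])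
  have wy : K.W y := by
    refine K.W_gluing _ _ _ _ sq _ _ _ _ sqS hb cS hA hX (Sf.isCof_Sg hA) (Sf.isCof_Sg hX)
      (Sf.i.app A) (Sf.i.app B) (Sf.i.app X) y ?_ ?_ (sq.inl_desc _ _ _) (sq.inr_desc _ _ _)
      wA wB wX
    · exact Sf.i.naturality b
    · exact Sf.i.naturality f
  -- the map from `PΓ` to `Q`
  let z : PΓ ⟶ Q := sqΓ.desc (Sf.j.app B ≫ pushout.inl _ _) (Sf.j.app X ≫ pushout.inr _ _) (by
    rw [← Category.assoc, ← Category.assoc]
    erw [Sf.j.naturality b, Sf.j.naturality f]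
    rw [Category.assoc, Category.assoc, sqS.w])
  have wz : K.W z := by
    refine K.W_gluing _ _ _ _ sqΓ _ _ _ _ sqS cΓ cS (Gd.isCof _) (Gd.isCof _)
      (Sf.isCof_Sg hA) (Sf.isCof_Sg hX)
      (Sf.j.app A) (Sf.j.app B) (Sf.j.app X) z ?_ ?_ (sqΓ.inl_desc _ _ _) (sqΓ.inr_desc _ _ _)
      (Sf.W_j hA) (Sf.W_j hB) (Sf.W_j hX)
    · exact Sf.j.naturality b
    · exact Sf.j.naturality f
  -- the map from `PΓ` to `Γ R X'`
  let d : PΓ ⟶ Gd.Γ.obj (R.obj X') := sqΓ.desc (Gd.Γ.map (R.map g)) (Gd.Γ.map (R.map k)) (by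
    rw [← Gd.Γ.map_comp, ← Gd.Γ.map_comp, sqR.w])
  have wd : K.W d := Gd.W_attach _ _ _ _ sqR hb' _ _ sqΓ d (sqΓ.inl_desc _ _ _)
    (sqΓ.inr_desc _ _ _)
  -- the map from `Q`
  let q : Q ⟶ Sf.Sg.obj X' := sqS.desc (Sf.Sg.map g) (Sf.Sg.map k) (by
    rw [← Sf.Sg.map_comp, ← Sf.Sg.map_comp, sq.w])
  have e1 : z ≫ q = d ≫ Sf.j.app X' := by
    apply sqΓ.hom_ext
    · rw [sqΓ.inl_desc_assoc, Category.assoc, sqS.inl_desc, sqΓ.inl_desc_assoc]
      exact (Sf.j.naturality g).symm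
    · rw [sqΓ.inr_desc_assoc, Category.assoc, sqS.inr_desc, sqΓ.inr_desc_assoc]
      exact (Sf.j.naturality k).symm
  have wq : K.W q := by
    apply PathCtx.W.of_comp wz
    rw [e1]
    exact PathCtx.W.comp wd (Sf.W_j hX')
  have e2 : y ≫ q = Sf.i.app X' := by
    apply sq.hom_ext
    · rw [sq.inl_desc_assoc, Category.assoc, sqS.inl_desc]
      exact (Sf.i.naturality g).symm
    · rw [sq.inr_desc_assoc, Category.assoc, sqS.inr_desc]
      exact (Sf.i.naturality k).symm
  rw [← e2]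
  exact PathCtx.W.comp wy wq

/-- Spheres are good. -/
theorem SigmaFun.W_sph (Sf : SigmaFun K Gd R) (hR : PreservesColimits R)
    (hR' : ∀ n, IsSphereInc (R.map (bd K.F n)))
    (hD : ∀ n, ContractibleSpace (R.obj (cob K.F n))) (n : ℕ) :
    K.W (Sf.i.app (sph K.F n)) := by
  induction n with
  | zero => exact Sf.W_initial hR (isInitialSphZero K.F)
  | succ n ih =>
    exact Sf.W_step hR _ _ _ _ (isPushout_sph K.F n) (K.isCof_sph_cob n).1 (K.isCof_sph_cob n).2
      (K.cof_bd n) (hR' n) ih (Sf.W_cob hD n) (Sf.W_cob hD n)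

/-- Coproducts. -/
theorem SigmaFun.W_sigma (Sf : SigmaFun K Gd R) (hR : PreservesColimits R) {J : Type}
    (X : J → 𝓜) (hX : ∀ j, K.IsCof (X j)) (hW : ∀ j, K.W (Sf.i.app (X j))) :
    K.W (Sf.i.app (∐ X)) := by
  have hS : ∀ j, K.IsCof (Sf.Sg.obj (X j)) := fun j => Sf.isCof_Sg (hX j)
  have hΓ : ∀ j, K.IsCof (Gd.Γ.obj (R.obj (X j))) := fun j => Gd.isCof _
  have hsX : K.IsCof (∐ X) := K.isCof_sigma X hX
  let c : (∐ fun j => Sf.Sg.obj (X j)) ⟶ Sf.Sg.obj (∐ X) :=
    Sigma.desc (fun j => Sf.Sg.map (Sigma.ι X j))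
  let c' : (∐ fun j => Gd.Γ.obj (R.obj (X j))) ⟶ Gd.Γ.obj (R.obj (∐ X)) :=
    Sigma.desc (fun j => Gd.Γ.map (R.map (Sigma.ι X j)))
  have hc' : IsIso c' := by
    let cof : Cofan (fun j => R.obj (X j)) := Cofan.mk (R.obj (∐ X)) (fun j => R.map (Sigma.ι X j))
    have hcof : Nonempty (IsColimit cof) :=
      ⟨isColimitCofanMkObjOfIsColimit R X (fun j => Sigma.ι X j) (coproductIsCoproduct X)⟩
    obtain ⟨h2⟩ := Gd.coprod _ cof hcof
    have h3 := isColimitMapCoconeCofanMkEquiv Gd.Γ _ _ h2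
    have : c' = ((coproductIsCoproduct (fun j => Gd.Γ.obj (R.obj (X j)))).coconePointUniqueUpToIso
        h3).hom := by
      apply Sigma.hom_ext
      intro j
      rw [Sigma.ι_desc]
      exact ((coproductIsCoproduct _).comp_coconePointUniqueUpToIso_hom h3 ⟨j⟩).symm
    rw [this]
    infer_instance
  have w1 : K.W (Limits.Sigma.map (fun j => Sf.i.app (X j))) := K.W_sigma _ hX hS hW
  have w2 : K.W (Limits.Sigma.map (fun j => Sf.j.app (X j))) :=
    K.W_sigma _ hΓ hS (fun j => Sf.W_j (hX j))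
  have wc' : K.W c' := (K.AN_iff _ (K.isCof_sigma _ hΓ)).1 (MorphismProperty.llp_of_isIso _ _) |>.2
  have e1 : Limits.Sigma.map (fun j => Sf.j.app (X j)) ≫ c = c' ≫ Sf.j.app (∐ X) := by
    apply Sigma.hom_ext
    intro j
    rw [Limits.Sigma.ι_map_assoc, Sigma.ι_desc, Sigma.ι_desc_assoc]
    exact (Sf.j.naturality _).symm
  have wc : K.W c := by
    apply PathCtx.W.of_comp w2
    rw [e1]
    exact PathCtx.W.comp wc' (Sf.W_j hsX)
  have e2 : Limits.Sigma.map (fun j => Sf.i.app (X j)) ≫ c = Sf.i.app (∐ X) := by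
    apply Sigma.hom_ext
    intro j
    rw [Limits.Sigma.ι_map_assoc, Sigma.ι_desc]
    exact (Sf.i.naturality _).symm
  rw [← e2]
  exact PathCtx.W.comp w1 wc

/-- The attachments of families of discs are sent to attachments of families of balls. -/
theorem isSphereInc_sigma (hR : PreservesColimits R)
    (hR' : ∀ n, IsSphereInc (R.map (bd K.F n))) {J : Type} (n : J → ℕ) :
    IsSphereInc (R.map (Limits.Sigma.map (fun j : J => bd K.F (n j)))) :=
  isSphereInc_sigma' hR _ fun j => hR' (n j)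

/-- The compactness property of sequential colimits of attachments of cells. -/
theorem CellSeq.cube_factors (hR : PreservesColimits R)
    (hR' : ∀ n, IsSphereInc (R.map (bd K.F n))) {X : 𝓜} (S : CellSeq K.F X) (k : ℕ)
    (f : cubeT k ⟶ R.obj X) :
    ∃ (n : ℕ) (g : cubeT k ⟶ R.obj (S.G.obj n)), g ≫ R.map (S.ι.app n) = f :=
  R_factors hR (fun k => ⟨_, _, _, _, _, S.push k, isSphereInc_sigma hR hR' (S.n k)⟩)
    (Cocone.mk X S.ι) S.colim.some (cubeT k) f

/-- The inclusions of the stages in the realization are injective. -/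
theorem CellSeq.map_injective (hR : PreservesColimits R)
    (hR' : ∀ n, IsSphereInc (R.map (bd K.F n))) {X : 𝓜} (S : CellSeq K.F X) (n : ℕ) :
    Function.Injective (R.map (S.ι.app n)) := by
  -- work in the category of types
  have h1 : ∀ k, Function.Injective (R.map (S.G.map (homOfLE (Nat.le_succ k)))) := by
    intro k
    have sq := ((S.push k).map R).map (forget TopCat.{0})
    have hm : Mono ((forget TopCat.{0}).map (R.map
        (Limits.Sigma.map (fun j : S.J k => bd K.F (S.n k j))))) := by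
      rw [mono_iff_injective]
      exact (isSphereInc_sigma hR hR' (S.n k)).1.injective
    have := MorphismProperty.of_isPushout (P := MorphismProperty.monomorphisms (Type))
      sq.flip hm
    rw [MorphismProperty.monomorphisms.iff, mono_iff_injective] at this
    exact this
  have h2 : ∀ k l (h : k ≤ l), Function.Injective (R.map (S.G.map (homOfLE h))) := by
    intro k l h
    induction l, h using Nat.le_induction with
    | base =>
      rw [show homOfLE (le_refl k) = 𝟙 k from rfl, S.G.map_id, R.map_id]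
      exact Function.injective_id
    | succ l h ih =>
      rw [show homOfLE (h.trans (Nat.le_succ l)) = homOfLE h ≫ homOfLE (Nat.le_succ l) from rfl,
        S.G.map_comp, R.map_comp]
      exact (h1 l).comp ih
  have hc : IsColimit ((forget TopCat.{0}).mapCocone (R.mapCocone (Cocone.mk X S.ι))) :=
    isColimitOfPreserves _ (isColimitOfPreserves R S.colim.some)
  intro x y hxy
  obtain ⟨k, f, hk⟩ := (Types.FilteredColimit.isColimit_eq_iff' hc x y).1 hxy
  exact h2 n k (leOfHom f) (by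
    rw [show homOfLE (leOfHom f) = f from Subsingleton.elim _ _]; exact hk)

/-- The main theorem of the cell induction. -/
theorem SigmaFun.W_cellSeq (Sf : SigmaFun K Gd R) (hR : PreservesColimits R)
    (hR' : ∀ n, IsSphereInc (R.map (bd K.F n)))
    (hD : ∀ n, ContractibleSpace (R.obj (cob K.F n))) {X : 𝓜} (S : CellSeq K.F X) :
    K.W (Sf.i.app X) := by
  have good : ∀ k, K.W (Sf.i.app (S.G.obj k)) := by
    intro k
    induction k with
    | zero => exact Sf.W_initial hR S.zero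
    | succ k ih =>
      have hA : ∀ j : S.J k, K.IsCof (sph K.F (S.n k j)) := fun j => (K.isCof_sph_cob _).1
      have hB : ∀ j : S.J k, K.IsCof (cob K.F (S.n k j)) := fun j => (K.isCof_sph_cob _).2
      exact Sf.W_step hR _ _ _ _ (S.push k) (K.isCof_sigma _ hA) (S.isCof_obj k)
        (K.cof_sigma_bd _) (isSphereInc_sigma hR hR' (S.n k))
        (Sf.W_sigma hR _ hA (fun j => Sf.W_sph hR hR' hD _))
        (Sf.W_sigma hR _ hB (fun j => Sf.W_cob hD _)) ih
  obtain ⟨hX⟩ := S.colim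
  obtain ⟨hΓ⟩ := Gd.seq (S.G ⋙ R) (R.mapCocone (Cocone.mk X S.ι)) ⟨isColimitOfPreserves R hX⟩
    (fun n => S.map_injective hR hR' n) (fun k f => S.cube_factors hR hR' k f)
  let α : S.G ⟶ S.G ⋙ Sf.Sg :=
    { app := fun n => Sf.i.app (S.G.obj n)
      naturality := fun _ _ f => Sf.i.naturality (S.G.map f) }
  let β : (S.G ⋙ R) ⋙ Gd.Γ ⟶ S.G ⋙ Sf.Sg :=
    { app := fun n => Sf.j.app (S.G.obj n)
      naturality := fun _ _ f => Sf.j.naturality (S.G.map f) }
  let cS := colimit.cocone (S.G ⋙ Sf.Sg)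
  have hcS : IsColimit cS := colimit.isColimit _
  have cofΓ : ∀ n, Cof K.F (Gd.Γ.map (R.map (S.G.map (homOfLE (Nat.le_succ n))))) := by
    intro n
    apply Gd.cof
    have := S.map_injective hR hR' n
    rw [show S.ι.app n = S.G.map (homOfLE (Nat.le_succ n)) ≫ S.ι.app (n + 1) by
      rw [S.ι.naturality]; exact (Category.comp_id _).symm, R.map_comp] at this
    exact Function.Injective.of_comp (f := R.map (S.ι.app (n + 1))) this
  have cofS : ∀ n, Cof K.F (Sf.Sg.map (S.G.map (homOfLE (Nat.le_succ n)))) := fun n =>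
    Sf.cof _ (S.isCof_obj n) (S.cof_map n) (cofΓ n)
  let a : X ⟶ cS.pt := hX.map cS α
  let b : Gd.Γ.obj (R.obj X) ⟶ cS.pt := hΓ.map cS β
  have ha : ∀ n, S.ι.app n ≫ a = α.app n ≫ cS.ι.app n := fun n => hX.ι_map cS α n
  have hb : ∀ n, Gd.Γ.map (R.map (S.ι.app n)) ≫ b = β.app n ≫ cS.ι.app n := fun n =>
    hΓ.ι_map cS β n
  have wa : K.W a := K.W_seq_colim α hX hcS a ha (S.isCof_obj 0) (Sf.isCof_Sg (S.isCof_obj 0))
    S.cof_map cofS good
  have wb : K.W b := K.W_seq_colim β hΓ hcS b hb (Gd.isCof _) (Sf.isCof_Sg (S.isCof_obj 0))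
    cofΓ cofS (fun n => Sf.W_j (S.isCof_obj n))
  let c : cS.pt ⟶ Sf.Sg.obj X := hcS.desc (Sf.Sg.mapCocone (Cocone.mk X S.ι))
  have hc : ∀ n, cS.ι.app n ≫ c = Sf.Sg.map (S.ι.app n) := fun n =>
    hcS.fac (Sf.Sg.mapCocone (Cocone.mk X S.ι)) n
  have e1 : b ≫ c = Sf.j.app X := by
    apply hΓ.hom_ext
    intro n
    change Gd.Γ.map (R.map (S.ι.app n)) ≫ b ≫ c = Gd.Γ.map (R.map (S.ι.app n)) ≫ Sf.j.app X
    rw [← Category.assoc, hb, Category.assoc, hc]
    exact (Sf.j.naturality (S.ι.app n)).symm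
  have wc : K.W c := by
    apply PathCtx.W.of_comp wb
    rw [e1]
    exact Sf.W_j S.isCof
  have e2 : a ≫ c = Sf.i.app X := by
    apply hX.hom_ext
    intro n
    change S.ι.app n ≫ a ≫ c = S.ι.app n ≫ Sf.i.app X
    rw [← Category.assoc, ha, Category.assoc, hc]
    exact (Sf.i.naturality (S.ι.app n)).symm
  rw [← e2]
  exact PathCtx.W.comp wa wc

end Vale.Agent.P259
end
end

section

section

open CategoryTheory Limits

namespace Vale.Agent.P259

universe u

variable {𝓜 : Type u} [Category.{0} 𝓜]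

attribute [local instance] Cardinal.fact_isRegular_aleph0
  Cardinal.orderBotAleph0OrdToType

section General

variable {ι : Type} {A B : ι → 𝓜} (f : ∀ i, A i ⟶ B i)

/-- The small object argument at `ω` for a small family of maps with finitely presentable
sources. -/
lemma isCardinal_ofHoms [HasColimitsOfSize.{0, 0} 𝓜] [LocallySmall.{0} 𝓜]
    (hf : ∀ i, IsFinitelyPresentable.{0} (A i)) :
    (MorphismProperty.ofHoms f).IsCardinalForSmallObjectArgument Cardinal.aleph0.{0} where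
  isSmall := MorphismProperty.isSmall_ofHoms _
  hasCoproducts := fun _ => inferInstance
  hasIterationOfShape := inferInstance
  preservesColimit {A B X Y} i hi g hg := by
    obtain ⟨j⟩ := hi
    have := hf j
    infer_instance

lemma soa_ofHoms [HasColimitsOfSize.{0, 0} 𝓜]
    (hf : ∀ i, IsFinitelyPresentable.{0} (A i)) :
    MorphismProperty.HasFunctorialFactorization (MorphismProperty.ofHoms f).rlp.llp
      (MorphismProperty.ofHoms f).rlp := by
  have := isCardinal_ofHoms f hf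
  have : (MorphismProperty.ofHoms f).HasSmallObjectArgument :=
    ⟨.aleph0, inferInstance, inferInstance, inferInstance⟩
  infer_instance

variable (E : Type) [SmallCategory E] [HasColimitsOfSize.{0, 0} 𝓜]

/-- The generating maps in a category of functors. -/
noncomputable def gens : MorphismProperty (E ⥤ 𝓜) :=
  MorphismProperty.ofHoms (fun x : E × ι => (evaluationLeftAdjoint 𝓜 x.1).map (f x.2))

lemma rlp_gens : (gens f E).rlp = (MorphismProperty.ofHoms f).rlp.functorCategory E := by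
  ext X Y p
  constructor
  · rintro h e _ _ _ ⟨i⟩
    have := h _ (MorphismProperty.ofHoms.mk (f := fun x : E × ι =>
      (evaluationLeftAdjoint 𝓜 x.1).map (f x.2)) (e, i))
    rwa [(evaluationAdjunctionRight 𝓜 e).hasLiftingProperty_iff] at this
  · rintro h _ _ _ ⟨e, i⟩
    rw [(evaluationAdjunctionRight 𝓜 e).hasLiftingProperty_iff]
    exact h e _ (MorphismProperty.ofHoms.mk i)

lemma soa_gens (hf : ∀ i, IsFinitelyPresentable.{0} (A i)) :
    MorphismProperty.HasFunctorialFactorization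
      ((MorphismProperty.ofHoms f).rlp.functorCategory E).llp
      ((MorphismProperty.ofHoms f).rlp.functorCategory E) := by
  rw [← rlp_gens f E]
  apply soa_ofHoms
  rintro ⟨e, i⟩
  have := hf i
  exact (evaluationAdjunctionRight 𝓜 e).isCardinalPresentable_leftAdjoint_obj _ _

end General

end Vale.Agent.P259
end
end

section

section

open CategoryTheory Limits

namespace Vale.Agent.P259

set_option linter.unusedSectionVars false

universe u

variable {𝓜 : Type u} [Category.{0} 𝓜] [HasColimitsOfSize.{0, 0} 𝓜] [HasLimitsOfSize.{0, 0} 𝓜]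

/-- Cofibrant objects. -/
def Cofibrant (F : Globe ⥤ 𝓜) (X : 𝓜) : Prop := Cof F (initial.to X)

/-- The standing hypotheses on the discs. -/
structure Good (F : Globe ⥤ 𝓜) : Prop where
  fpS : ∀ n, IsFinitelyPresentable.{0} (sph F n)
  fpD : ∀ n, IsFinitelyPresentable.{0} (cob F n)
  anContr : ∀ ⦃A B : 𝓜⦄ (f : A ⟶ B), Cofibrant F A → Contr F A → AN F 0 f → Contr F B

section

variable {F : Globe ⥤ 𝓜}

lemma Contr.trivFib {X Y : 𝓜} (hX : Contr F X) (f : X ⟶ Y) (hf : Fib F 0 f) (hY : Contr F Y) :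
    TrivFib F f := by
  rintro _ _ _ ⟨j⟩
  constructor
  intro β w sq
  obtain ⟨v, hv⟩ := hX j β
  have par : bd F j ≫ (v ≫ f) = bd F j ≫ w := by
    rw [← Category.assoc, hv, sq.w]
  obtain ⟨h, hh⟩ := hY (j + 1) (sphDesc F (v ≫ f) w par)
  have h1 : sg F j ≫ h = v ≫ f := by
    rw [← hemS_bd, Category.assoc, hh, hemS_sphDesc]
  have h2 : tg F j ≫ h = w := by
    rw [← hemT_bd, Category.assoc, hh, hemT_sphDesc]
  have := hf (sg F j) (MorphismProperty.ofHoms.mk (f := fun k : {k : ℕ // 0 ≤ k} =>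
    sg F k.1) ⟨j, Nat.zero_le j⟩)
  have sq' : CommSq v (sg F j) f h := ⟨h1.symm⟩
  refine ⟨⟨⟨tg F j ≫ sq'.lift, ?_, ?_⟩⟩⟩
  · rw [← Category.assoc, ← bd_sg, Category.assoc, sq'.fac_left, hv]
  · rw [Category.assoc, sq'.fac_right, h2]

lemma contr_iff_trivFib {X T : 𝓜} (hT : IsTerminal T) :
    Contr F X ↔ TrivFib F (hT.from X) := by
  constructor
  · rintro h _ _ _ ⟨j⟩
    constructor
    intro β w sq
    obtain ⟨v, hv⟩ := h j β
    exact ⟨⟨⟨v, hv, hT.hom_ext _ _⟩⟩⟩
  · intro h j β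
    have := h (bd F j) (MorphismProperty.ofHoms.mk j)
    have sq : CommSq β (bd F j) (hT.from X) (hT.from _) := ⟨hT.hom_ext _ _⟩
    exact ⟨sq.lift, sq.fac_left⟩

lemma TrivFib.contr {X Y : 𝓜} {f : X ⟶ Y} (hf : TrivFib F f) (hY : Contr F Y) : Contr F X := by
  intro j β
  obtain ⟨w, hw⟩ := hY j (β ≫ f)
  have := hf (bd F j) (MorphismProperty.ofHoms.mk j)
  have sq : CommSq β (bd F j) f w := ⟨hw.symm⟩
  exact ⟨sq.lift, sq.fac_left⟩

lemma sg_mem_cof (F : Globe ⥤ 𝓜) (k : ℕ) : Cof F (sg F k) := by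
  rw [← hemS_bd]
  apply MorphismProperty.comp_mem
  · exact MorphismProperty.of_isPushout (isPushout_sph F k)
      (MorphismProperty.le_llp_rlp _ _ (MorphismProperty.ofHoms.mk k))
  · exact MorphismProperty.le_llp_rlp _ _ (MorphismProperty.ofHoms.mk (k + 1))

lemma trivFib_le_fib (F : Globe ⥤ 𝓜) (n : ℕ) : TrivFib F ≤ Fib F n := by
  rintro X Y f hf _ _ _ ⟨k⟩
  exact sg_mem_cof F k.1 _ hf

lemma an_le_cof (F : Globe ⥤ 𝓜) (n : ℕ) : AN F n ≤ Cof F :=
  MorphismProperty.antitone_llp (trivFib_le_fib F n)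

lemma Cofibrant.of_cof {X Y : 𝓜} (hX : Cofibrant F X) {f : X ⟶ Y} (hf : Cof F f) :
    Cofibrant F Y := by
  unfold Cofibrant
  rw [show initial.to Y = initial.to X ≫ f from initial.hom_ext _ _]
  exact MorphismProperty.comp_mem _ _ _ hX hf

lemma cofibrant_sph (F : Globe ⥤ 𝓜) (j : ℕ) : Cofibrant F (sph F j) := by
  induction j with
  | zero =>
    have : IsIso (initial.to (sph F 0)) :=
      ⟨(isInitialSphZero F).to _, initial.hom_ext _ _, (isInitialSphZero F).hom_ext _ _⟩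
    exact MorphismProperty.llp_of_isIso _ _
  | succ j ih =>
    have h1 : Cofibrant F (cob F j) :=
      ih.of_cof (MorphismProperty.le_llp_rlp _ _ (MorphismProperty.ofHoms.mk j))
    exact h1.of_cof (MorphismProperty.of_isPushout (isPushout_sph F j).flip
      (MorphismProperty.le_llp_rlp _ _ (MorphismProperty.ofHoms.mk j)))

lemma cofibrant_cob (F : Globe ⥤ 𝓜) (j : ℕ) : Cofibrant F (cob F j) :=
  (cofibrant_sph F j).of_cof (MorphismProperty.le_llp_rlp _ _ (MorphismProperty.ofHoms.mk j))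

end

section Diagrams

variable (F : Globe ⥤ 𝓜) (E : Type) [SmallCategory E]

/-- Projective cofibrations of diagrams. -/
abbrev PCof : MorphismProperty (E ⥤ 𝓜) := ((TrivFib F).functorCategory E).llp

/-- Projective anodyne maps of diagrams. -/
abbrev PAN : MorphismProperty (E ⥤ 𝓜) := ((Fib F 0).functorCategory E).llp

variable {F E}

lemma Good.soaCof (hF : Good F) : MorphismProperty.HasFunctorialFactorization (PCof F E)
    ((TrivFib F).functorCategory E) :=
  soa_gens _ E hF.fpS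

lemma Good.soaAn (hF : Good F) : MorphismProperty.HasFunctorialFactorization (PAN F E)
    ((Fib F 0).functorCategory E) :=
  soa_gens _ E (fun k => hF.fpD k.1)

lemma Good.soaCof' (hF : Good F) : MorphismProperty.HasFunctorialFactorization (Cof F)
    (TrivFib F) :=
  soa_ofHoms _ hF.fpS

lemma Good.soaAn' (hF : Good F) : MorphismProperty.HasFunctorialFactorization (AN F 0)
    (Fib F 0) :=
  soa_ofHoms _ (fun k : {k : ℕ // 0 ≤ k} => hF.fpD k.1)

set_option backward.isDefEq.respectTransparency false in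
lemma llp_app (W : MorphismProperty 𝓜) (I : MorphismProperty 𝓜) (hW : W = I.rlp)
    {A B : E ⥤ 𝓜} {f : A ⟶ B} (h : (W.functorCategory E).llp f) (e : E) :
    W.llp (f.app e) := by
  intro X Y p hp
  change HasLiftingProperty (((evaluation E 𝓜).obj e).map f) p
  rw [(evaluationAdjunctionLeft 𝓜 e).hasLiftingProperty_iff]
  apply h
  intro e'
  subst hW
  intro K L i hi
  have := hp i hi
  have h : ((evaluationRightAdjoint 𝓜 e).map p).app e' =
      Limits.Pi.map (fun _ : e' ⟶ e => p) := by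
    refine Pi.hom_ext _ _ (fun g => ?_)
    simp
  rw [h]
  have h' : ∀ _ : e' ⟶ e, HasLiftingProperty i p := fun _ => this
  infer_instance

lemma PCof.app {A B : E ⥤ 𝓜} {f : A ⟶ B} (h : PCof F E f) (e : E) : Cof F (f.app e) :=
  llp_app _ _ rfl h e

lemma PAN.app {A B : E ⥤ 𝓜} {f : A ⟶ B} (h : PAN F E f) (e : E) : AN F 0 (f.app e) :=
  llp_app _ _ rfl h e

lemma llp_colim (W : MorphismProperty 𝓜) {A B : E ⥤ 𝓜} {f : A ⟶ B}
    (h : (W.functorCategory E).llp f) : W.llp (colim.map f) := by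
  intro X Y p hp
  rw [colimConstAdj.hasLiftingProperty_iff]
  exact h _ (fun _ => hp)

lemma PCof.colim {A B : E ⥤ 𝓜} {f : A ⟶ B} (h : PCof F E f) : Cof F (colim.map f) :=
  llp_colim _ h

lemma PAN.colim {A B : E ⥤ 𝓜} {f : A ⟶ B} (h : PAN F E f) : AN F 0 (colim.map f) :=
  llp_colim _ h

/-- A projective cofibration between levelwise contractible diagrams, with levelwise
cofibrant source, is anodyne. -/
theorem PCof.pan (hF : Good F) {A B : E ⥤ 𝓜} {f : A ⟶ B} (hf : PCof F E f)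
    (hA : ∀ e, Cofibrant F (A.obj e)) (hA' : ∀ e, Contr F (A.obj e))
    (hB : ∀ e, Contr F (B.obj e)) : PAN F E f := by
  have := hF.soaAn (E := E)
  have h := MorphismProperty.factorizationData (PAN F E) ((Fib F 0).functorCategory E) f
  have hp : (TrivFib F).functorCategory E h.p := fun e =>
    Contr.trivFib (hF.anContr _ (hA e) (hA' e) (PAN.app h.hi e)) _ (h.hp e) (hB e)
  have := hf _ hp
  exact MorphismProperty.of_retract (RetractArrow.ofLeftLiftingProperty h.fac) h.hi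

/-- A cofibration between contractible objects, with cofibrant source, is anodyne. -/
theorem Cof.an (hF : Good F) {A B : 𝓜} {f : A ⟶ B} (hf : Cof F f)
    (hA : Cofibrant F A) (hA' : Contr F A) (hB : Contr F B) : AN F 0 f := by
  have := hF.soaAn'
  have h := MorphismProperty.factorizationData (AN F 0) (Fib F 0) f
  have := hf _ (Contr.trivFib (hF.anContr _ hA hA' h.hi) _ h.hp hB)
  exact MorphismProperty.of_retract (RetractArrow.ofLeftLiftingProperty h.fac) h.hi

end Diagrams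

end Vale.Agent.P259
end
end

section

section

open CategoryTheory Limits

namespace Vale.Agent.P259

set_option linter.unusedSectionVars false

universe u

/-- Presheaves of sets on a small category, in unbundled form. -/
structure PSh (S : Type) [SmallCategory S] where
  obj : S → Type
  res : ∀ {s t : S}, (s ⟶ t) → obj t → obj s
  res_id : ∀ {s : S} (x : obj s), res (𝟙 s) x = x
  res_comp : ∀ {s t r : S} (f : s ⟶ t) (g : t ⟶ r) (x : obj r), res (f ≫ g) x = res f (res g x)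

namespace PSh

variable {S : Type} [SmallCategory S]

attribute [simp] res_id res_comp

/-- The representable presheaf. -/
abbrev yo (s : S) : PSh S where
  obj r := r ⟶ s
  res f g := f ≫ g
  res_id := by simp
  res_comp := by simp

/-- Subpresheaves. -/
@[ext]
structure Sub (K : PSh S) where
  mem : ∀ {s : S}, K.obj s → Prop
  res : ∀ {s t : S} (f : s ⟶ t) {x : K.obj t}, mem x → mem (K.res f x)

/-- A subpresheaf as a presheaf. -/
abbrev Sub.psh {K : PSh S} (L : Sub K) : PSh S where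
  obj s := {x : K.obj s // L.mem x}
  res f x := ⟨K.res f x.1, L.res f x.2⟩
  res_id x := by simp
  res_comp f g x := by simp

/-- The pullback of a subpresheaf along a section. -/
abbrev Sub.pull {K : PSh S} (L : Sub K) {s : S} (x : K.obj s) : Sub (yo s) where
  mem g := L.mem (K.res g x)
  res f g h := by
    have := L.res f h
    rwa [← K.res_comp] at this

/-- Morphisms of presheaves. -/
@[ext]
structure Hom (K L : PSh S) where
  app : ∀ {s : S}, K.obj s → L.obj s
  nat : ∀ {s t : S} (f : s ⟶ t) (x : K.obj t), app (K.res f x) = L.res f (app x)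

/-- The identity morphism. -/
@[simps]
def Hom.id (K : PSh S) : Hom K K where
  app x := x
  nat _ _ := rfl

/-- Composition of morphisms. -/
@[simps]
def Hom.comp {K L M : PSh S} (f : Hom K L) (g : Hom L M) : Hom K M where
  app x := g.app (f.app x)
  nat h x := by rw [f.nat, g.nat]

/-- The inclusion of a subpresheaf. -/
@[simps]
def Sub.incl {K : PSh S} (L : Sub K) : Hom L.psh K where
  app x := x.1
  nat _ _ := rfl

/-- The category of elements. -/
@[ext]
structure El (K : PSh S) where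
  s : S
  x : K.obj s

instance (K : PSh S) : SmallCategory (El K) where
  Hom a b := {f : a.s ⟶ b.s // K.res f b.x = a.x}
  id a := ⟨𝟙 _, by simp⟩
  comp f g := ⟨f.1 ≫ g.1, by rw [K.res_comp, g.2, f.2]⟩
  id_comp _ := Subtype.ext (Category.id_comp _)
  comp_id _ := Subtype.ext (Category.comp_id _)
  assoc _ _ _ := Subtype.ext (Category.assoc _ _ _)

@[simp] lemma El.id_val {K : PSh S} (a : El K) : (𝟙 a : a ⟶ a).1 = 𝟙 a.s := rfl

@[simp] lemma El.comp_val {K : PSh S} {a b c : El K} (f : a ⟶ b) (g : b ⟶ c) :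
    (f ≫ g).1 = f.1 ≫ g.1 := rfl

/-- The restriction map in the category of elements. -/
def El.res {K : PSh S} {s t : S} (f : s ⟶ t) (x : K.obj t) :
    (⟨s, K.res f x⟩ : El K) ⟶ ⟨t, x⟩ := ⟨f, rfl⟩

/-- The map between pullbacks of a subpresheaf. -/
@[simps]
def pullHom {K : PSh S} (L : Sub K) {x y : El K} (f : x ⟶ y) :
    Hom (L.pull x.x).psh (L.pull y.x).psh where
  app {r} g := ⟨g.1 ≫ f.1, by
    have h1 : L.mem (K.res g.1 x.x) := g.2
    have h2 : L.mem (K.res (g.1 ≫ f.1) y.x) := by rwa [K.res_comp, f.2]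
    exact h2⟩
  nat _ _ := Subtype.ext (Category.assoc _ _ _)

end PSh

open PSh

variable {𝓜 : Type u} [Category.{0} 𝓜] [HasColimitsOfSize.{0, 0} 𝓜] [HasLimitsOfSize.{0, 0} 𝓜]

variable {S : Type} [SmallCategory S] (B : S ⥤ 𝓜)

/-- The restriction of `B` to the category of elements. -/
abbrev resB (K : PSh S) : El K ⥤ 𝓜 where
  obj x := B.obj x.s
  map f := B.map f.1

/-- The realization of a presheaf. -/
noncomputable def real (K : PSh S) : 𝓜 := colimit (resB B K)

namespace real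

variable {B}

/-- The canonical maps to the realization. -/
noncomputable def ι {K : PSh S} {s : S} (x : K.obj s) : B.obj s ⟶ real B K :=
  colimit.ι (resB B K) ⟨s, x⟩

@[reassoc]
lemma w {K : PSh S} {s t : S} (f : s ⟶ t) (x : K.obj t) :
    B.map f ≫ ι x = ι (K.res f x) :=
  colimit.w (resB B K) (El.res f x)

/-- The universal property of the realization. -/
noncomputable def desc {K : PSh S} {X : 𝓜} (φ : ∀ {s : S}, K.obj s → (B.obj s ⟶ X))
    (h : ∀ {s t : S} (f : s ⟶ t) (x : K.obj t), B.map f ≫ φ x = φ (K.res f x)) :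
    real B K ⟶ X :=
  colimit.desc (resB B K)
    { pt := X
      ι := { app := fun a => φ a.x
             naturality := by
              intro a b f
              have h1 := h f.1 b.x
              rw [f.2] at h1
              exact h1.trans (Category.comp_id _).symm } }

@[reassoc (attr := simp)]
lemma ι_desc {K : PSh S} {X : 𝓜} (φ : ∀ {s : S}, K.obj s → (B.obj s ⟶ X))
    (h : ∀ {s t : S} (f : s ⟶ t) (x : K.obj t), B.map f ≫ φ x = φ (K.res f x)) {s : S}
    (x : K.obj s) : ι x ≫ desc φ h = φ x :=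
  colimit.ι_desc _ _

lemma hom_ext {K : PSh S} {X : 𝓜} {f g : real B K ⟶ X}
    (h : ∀ {s : S} (x : K.obj s), ι x ≫ f = ι x ≫ g) : f = g :=
  colimit.hom_ext (fun a => h a.x)

/-- Functoriality of the realization. -/
noncomputable def map {K L : PSh S} (α : PSh.Hom K L) : real B K ⟶ real B L :=
  desc (fun {_} x => ι (α.app x)) (fun {_ _} f x => by rw [w, α.nat])

@[reassoc (attr := simp)]
lemma ι_map {K L : PSh S} (α : PSh.Hom K L) {s : S} (x : K.obj s) :
    ι x ≫ (map α : real B K ⟶ real B L) = ι (α.app x) := by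
  exact ι_desc (fun {_} x => ι (α.app x)) (fun {_ _} f x => by rw [w, α.nat]) x

@[simp]
lemma map_id (K : PSh S) : (map (PSh.Hom.id K) : real B K ⟶ real B K) = 𝟙 _ := by
  apply hom_ext
  intro s x
  simp

@[reassoc (attr := simp)]
lemma map_comp {K L M : PSh S} (f : PSh.Hom K L) (g : PSh.Hom L M) :
    (map f : real B K ⟶ real B L) ≫ map g = map (f.comp g) := by
  apply hom_ext
  intro s x
  simp

/-- The realization of a representable. -/
noncomputable def ofYo (s : S) : real B (yo s) ⟶ B.obj s :=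
  desc (K := yo s) (fun {r} (g : r ⟶ s) => B.map g) (fun {_ _} _ _ => (B.map_comp _ _).symm)

@[reassoc (attr := simp)]
lemma ι_ofYo {s r : S} (g : (yo s).obj r) : ι g ≫ (ofYo s : real B (yo s) ⟶ B.obj s) =
    B.map g :=
  ι_desc (K := yo s) (fun {r} (g : r ⟶ s) => B.map g)
    (fun {_ _} _ _ => (B.map_comp _ _).symm) g

end real

section ClaimB

variable {B}

variable {K : PSh S} (L : Sub K)

lemma pi_res (X : El K ⥤ 𝓜) {r r' : S} (f : r ⟶ r') (y : {y : K.obj r' // L.mem y})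
    (z : K.obj r) (hz : L.mem z) (h : K.res f y.1 = z) :
    Pi.π (fun y : {y : K.obj r // L.mem y} => X.obj ⟨r, y.1⟩) ⟨K.res f y.1, L.res f y.2⟩ ≫
      X.map (El.res f y.1) =
      Pi.π (fun y : {y : K.obj r // L.mem y} => X.obj ⟨r, y.1⟩) ⟨z, hz⟩ ≫
        X.map (⟨f, h⟩ : (⟨r, z⟩ : El K) ⟶ ⟨r', y.1⟩) := by
  subst h; rfl

/-- The product functor. -/
noncomputable def prodL (X : El K ⥤ 𝓜) : S ⥤ 𝓜 where
  obj r := ∏ᶜ fun y : {y : K.obj r // L.mem y} => X.obj ⟨r, y.1⟩
  map {r r'} f := Pi.lift (fun y => Pi.π (fun y : {y : K.obj r // L.mem y} => X.obj ⟨r, y.1⟩)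
    ⟨K.res f y.1, L.res f y.2⟩ ≫ X.map (El.res f y.1))
  map_id r := by
    apply Pi.hom_ext
    intro y
    rw [Pi.lift_π, Category.id_comp, pi_res L X _ _ y.1 y.2 (K.res_id y.1)]
    exact (congrArg _ (X.map_id _)).trans (Category.comp_id _)
  map_comp {r r' r''} f g := by
    apply Pi.hom_ext
    intro y
    rw [Pi.lift_π, Category.assoc, Pi.lift_π, Pi.lift_π_assoc,
      pi_res L X _ _ (K.res f (K.res g y.1)) (L.res f (L.res g y.2)) (K.res_comp f g y.1),
      Category.assoc, ← X.map_comp]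
    rfl

namespace prodL

variable {L}

/-- The projections. -/
noncomputable def π {X : El K ⥤ 𝓜} {r : S} (y : K.obj r) (hy : L.mem y) :
    (prodL L X).obj r ⟶ X.obj ⟨r, y⟩ :=
  Pi.π (fun y : {y : K.obj r // L.mem y} => X.obj ⟨r, y.1⟩) ⟨y, hy⟩

/-- The universal property of the products. -/
noncomputable def lift {X : El K ⥤ 𝓜} {r : S} {A : 𝓜}
    (a : ∀ (y : K.obj r), L.mem y → (A ⟶ X.obj ⟨r, y⟩)) : A ⟶ (prodL L X).obj r :=
  Pi.lift (fun y : {y : K.obj r // L.mem y} => a y.1 y.2)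

@[reassoc (attr := simp)]
lemma lift_π {X : El K ⥤ 𝓜} {r : S} {A : 𝓜}
    (a : ∀ (y : K.obj r), L.mem y → (A ⟶ X.obj ⟨r, y⟩)) (y : K.obj r) (hy : L.mem y) :
    lift a ≫ π y hy = a y hy :=
  Pi.lift_π _ _

lemma hom_ext {X : El K ⥤ 𝓜} {r : S} {A : 𝓜} {f g : A ⟶ (prodL L X).obj r}
    (h : ∀ y hy, f ≫ π y hy = g ≫ π y hy) : f = g :=
  Pi.hom_ext _ _ (fun y => h y.1 y.2)

@[reassoc (attr := simp)]
lemma map_π {X : El K ⥤ 𝓜} {r r' : S} (f : r ⟶ r') (y : K.obj r') (hy : L.mem y) :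
    (prodL L X).map f ≫ π y hy = π (K.res f y) (L.res f hy) ≫ X.map (El.res f y) :=
  Pi.lift_π _ _

/-- Functoriality. -/
noncomputable def map {X Y : El K ⥤ 𝓜} (p : X ⟶ Y) : prodL L X ⟶ prodL L Y where
  app r := lift (fun y hy => π y hy ≫ p.app ⟨r, y⟩)
  naturality r r' f := by
    apply hom_ext
    intro y hy
    simp

@[reassoc (attr := simp)]
lemma map_app_π {X Y : El K ⥤ 𝓜} (p : X ⟶ Y) {r : S} (y : K.obj r) (hy : L.mem y) :
    (map (L := L) p).app r ≫ π y hy = π y hy ≫ p.app ⟨r, y⟩ :=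
  lift_π (fun y hy => π y hy ≫ p.app ⟨r, y⟩) _ _

/-- Restriction. -/
noncomputable def rest {L' : Sub K} (h : ∀ {s : S} (x : K.obj s), L.mem x → L'.mem x)
    (X : El K ⥤ 𝓜) : prodL L' X ⟶ prodL L X where
  app r := lift (fun y hy => π y (h y hy))
  naturality r r' f := by
    apply hom_ext
    intro y hy
    simp

@[reassoc (attr := simp)]
lemma rest_app_π {L' : Sub K} (h : ∀ {s : S} (x : K.obj s), L.mem x → L'.mem x)
    (X : El K ⥤ 𝓜) {r : S} (y : K.obj r) (hy : L.mem y) :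
    (rest h X).app r ≫ π y hy = π y (h y hy) :=
  lift_π (fun y hy => π y (h y hy)) _ _

lemma rest_map {L' : Sub K} (h : ∀ {s : S} (x : K.obj s), L.mem x → L'.mem x)
    {X Y : El K ⥤ 𝓜} (p : X ⟶ Y) : rest h X ≫ map p = map p ≫ rest h Y := by
  ext r
  apply hom_ext
  intro y hy
  simp

end prodL

/-- The full subpresheaf. -/
def PSh.Sub.top (K : PSh S) : Sub K where
  mem _ := True
  res _ _ _ := trivial

lemma PSh.Sub.mem_top {s : S} (x : K.obj s) : (Sub.top K).mem x := trivial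

lemma PSh.Sub.le_top (L : Sub K) {s : S} (x : K.obj s) (_ : L.mem x) : (Sub.top K).mem x :=
  trivial

/-- The comparison map. -/
noncomputable def theta {X Y : El K ⥤ 𝓜} (p : X ⟶ Y) :
    prodL (.top K) X ⟶ pullback (prodL.map (L := L) p)
      (prodL.rest L.le_top Y) :=
  pullback.lift (prodL.rest L.le_top X) (prodL.map p) (prodL.rest_map _ p)

lemma theta_tf {X Y : El K ⥤ 𝓜} (I : MorphismProperty 𝓜) (p : X ⟶ Y)
    (hp : I.rlp.functorCategory (El K) p) :
    I.rlp.functorCategory S (theta L p) := by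
  classical
  intro r A A' i hi
  constructor
  intro t b sq
  set fst := (pullback.fst (prodL.map (L := L) p)
      (prodL.rest L.le_top Y)).app r with hfst
  set snd := (pullback.snd (prodL.map (L := L) p)
      (prodL.rest L.le_top Y)).app r with hsnd
  have h1 : (theta L p).app r ≫ fst = (prodL.rest L.le_top X).app r := by
    rw [hfst, ← NatTrans.comp_app, theta, pullback.lift_fst]
  have h2 : (theta L p).app r ≫ snd = (prodL.map p).app r := by
    rw [hsnd, ← NatTrans.comp_app, theta, pullback.lift_snd]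
  have h3 : fst ≫ (prodL.map (L := L) p).app r = snd ≫ (prodL.rest L.le_top Y).app r := by
    rw [hfst, hsnd, ← NatTrans.comp_app, pullback.condition, NatTrans.comp_app]
  have sq' : ∀ y : K.obj r, CommSq (t ≫ prodL.π y (Sub.mem_top y)) i
      (p.app ⟨r, y⟩) (b ≫ snd ≫ prodL.π y (Sub.mem_top y)) := by
    intro y
    have e : (t ≫ prodL.π y (Sub.mem_top y)) ≫ p.app ⟨r, y⟩ = i ≫ b ≫ snd ≫ prodL.π y (Sub.mem_top y) := by
      rw [← sq.w_assoc, reassoc_of% h2]
      simp
    exact ⟨e⟩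
  have hl : ∀ y : K.obj r, (sq' y).HasLift := fun y => (hp ⟨r, y⟩ i hi).sq_hasLift (sq' y)
  let c : ∀ y : K.obj r, (Sub.top K).mem y → (A' ⟶ X.obj ⟨r, y⟩) := fun y _ =>
    if hy : L.mem y then b ≫ fst ≫ prodL.π y hy else (sq' y).lift
  have hc : ∀ y : K.obj r, i ≫ c y (Sub.mem_top y) = t ≫ prodL.π y (Sub.mem_top y) := by
    intro y
    by_cases hy : L.mem y
    · simp only [c, dif_pos hy]
      rw [← sq.w_assoc, reassoc_of% h1]
      simp
    · simp only [c, dif_neg hy]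
      exact (sq' y).fac_left
  have hc' : ∀ y : K.obj r, c y (Sub.mem_top y) ≫ p.app ⟨r, y⟩ = b ≫ snd ≫ prodL.π y (Sub.mem_top y) := by
    intro y
    by_cases hy : L.mem y
    · simp only [c, dif_pos hy]
      have := congrArg (fun f => b ≫ f ≫ prodL.π y hy) h3
      simpa using this
    · simp only [c, dif_neg hy]
      exact (sq' y).fac_right
  refine ⟨⟨⟨prodL.lift c, ?_, ?_⟩⟩⟩
  · apply prodL.hom_ext
    intro y hy
    rw [Category.assoc, prodL.lift_π, hc]
  · have hpb := (IsPullback.of_hasPullback (prodL.map (L := L) p)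
      (prodL.rest L.le_top Y)).map ((evaluation S 𝓜).obj r)
    apply hpb.hom_ext
    · change _ ≫ fst = _ ≫ fst
      rw [Category.assoc, h1]
      apply prodL.hom_ext
      intro y hy
      simp [c, hy]
    · change _ ≫ snd = _ ≫ snd
      rw [Category.assoc, h2]
      apply prodL.hom_ext
      intro y hy
      rw [Category.assoc, prodL.map_app_π, prodL.lift_π_assoc, hc', Category.assoc]

lemma theta_fst {X Y : El K ⥤ 𝓜} (p : X ⟶ Y) :
    theta L p ≫ pullback.fst _ _ = prodL.rest L.le_top X := pullback.lift_fst _ _ _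

lemma theta_snd {X Y : El K ⥤ 𝓜} (p : X ⟶ Y) :
    theta L p ≫ pullback.snd _ _ = prodL.map p := pullback.lift_snd _ _ _

/-- Lifting of natural families. -/
theorem lift_family (I : MorphismProperty 𝓜) (hB : (I.rlp.functorCategory S).llp (initial.to B))
    {X Y : El K ⥤ 𝓜} (p : X ⟶ Y) (hp : I.rlp.functorCategory (El K) p)
    (a : ∀ {r : S} (y : K.obj r), L.mem y → (B.obj r ⟶ X.obj ⟨r, y⟩))
    (ha : ∀ {r r' : S} (f : r ⟶ r') (y : K.obj r') (hy : L.mem y),
      B.map f ≫ a y hy = a (K.res f y) (L.res f hy) ≫ X.map (El.res f y))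
    (b : ∀ {r : S} (y : K.obj r), (B.obj r ⟶ Y.obj ⟨r, y⟩))
    (hb : ∀ {r r' : S} (f : r ⟶ r') (y : K.obj r'),
      B.map f ≫ b y = b (K.res f y) ≫ Y.map (El.res f y))
    (hab : ∀ {r : S} (y : K.obj r) (hy : L.mem y), a y hy ≫ p.app ⟨r, y⟩ = b y) :
    ∃ c : ∀ {r : S} (y : K.obj r), (B.obj r ⟶ X.obj ⟨r, y⟩),
      (∀ {r r' : S} (f : r ⟶ r') (y : K.obj r'),
        B.map f ≫ c y = c (K.res f y) ≫ X.map (El.res f y)) ∧
      (∀ {r : S} (y : K.obj r), c y ≫ p.app ⟨r, y⟩ = b y) ∧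
      ∀ {r : S} (y : K.obj r) (hy : L.mem y), c y = a y hy := by
  let a' : B ⟶ prodL L X :=
    { app := fun r => prodL.lift (fun y hy => a y hy)
      naturality := by
        intro r r' f
        apply prodL.hom_ext
        intro y hy
        rw [Category.assoc, prodL.lift_π, Category.assoc, prodL.map_π, prodL.lift_π_assoc, ha] }
  let b' : B ⟶ prodL (.top K) Y :=
    { app := fun r => prodL.lift (fun y hy => b y)
      naturality := by
        intro r r' f
        apply prodL.hom_ext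
        intro y hy
        rw [Category.assoc, prodL.lift_π, Category.assoc, prodL.map_π, prodL.lift_π_assoc, hb] }
  have hab' : a' ≫ prodL.map p = b' ≫ prodL.rest L.le_top Y := by
    ext r
    apply prodL.hom_ext
    intro y hy
    simp only [NatTrans.comp_app, Category.assoc, prodL.map_app_π, prodL.rest_app_π, a', b',
      prodL.lift_π, prodL.lift_π_assoc, hab]
  have := hB _ (theta_tf L I p hp)
  have sq : CommSq (initial.to _) (initial.to B) (theta L p) (pullback.lift a' b' hab') :=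
    ⟨initial.hom_ext _ _⟩
  have h1 : sq.lift ≫ prodL.rest L.le_top X = a' := by
    rw [← theta_fst L p, ← Category.assoc, sq.fac_right, pullback.lift_fst]
  have h2 : sq.lift ≫ prodL.map p = b' := by
    rw [← theta_snd L, ← Category.assoc, sq.fac_right, pullback.lift_snd]
  refine ⟨fun {r} y => sq.lift.app r ≫ prodL.π y (Sub.mem_top y), ?_, ?_, ?_⟩
  · intro r r' f y
    have := sq.lift.naturality_assoc f (prodL.π y (Sub.mem_top y))
    rw [prodL.map_π] at this
    simp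
  · intro r y
    have := congrArg (fun g => g.app r ≫ prodL.π y (Sub.mem_top y)) h2
    simpa [b'] using this
  · intro r y hy
    have := congrArg (fun g => g.app r ≫ prodL.π y hy) h1
    simpa [a'] using this

/-- The diagram of the realizations of the pullbacks of a subpresheaf. -/
noncomputable abbrev pullDiag (B : S ⥤ 𝓜) (L : Sub K) : El K ⥤ 𝓜 where
  obj x := real B (L.pull x.x).psh
  map f := real.map (pullHom L f)
  map_id x := by
    rw [← real.map_id]
    congr 1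
    ext r g
    exact Category.comp_id _
  map_comp f g := by
    rw [real.map_comp]
    congr 1
    ext r h
    exact (Category.assoc _ _ _).symm

/-- The map from the diagram of the realizations of pullbacks to the restriction of `B`. -/
noncomputable def pullMap (B : S ⥤ 𝓜) (L : Sub K) : pullDiag B L ⟶ resB B K where
  app x := real.map (L.pull x.x).incl ≫ real.ofYo x.s
  naturality x y f := by
    apply real.hom_ext
    intro r g
    rw [real.ι_map_assoc, real.ι_map_assoc, real.ι_ofYo]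
    rw [Category.assoc, real.ι_map_assoc, real.ι_ofYo_assoc]
    exact B.map_comp _ _

lemma fam_nat (X : El K ⥤ 𝓜) (c : ∀ {r : S} (y : K.obj r), (B.obj r ⟶ X.obj ⟨r, y⟩))
    (hc : ∀ {r r' : S} (f : r ⟶ r') (y : K.obj r'),
      B.map f ≫ c y = c (K.res f y) ≫ X.map (El.res f y))
    {s t : S} (f : s ⟶ t) (x : K.obj s) (y : K.obj t) (h : K.res f y = x) :
    B.map f ≫ c y = c x ≫ X.map (⟨f, h⟩ : (⟨s, x⟩ : El K) ⟶ ⟨t, y⟩) := by
  subst h
  exact hc f y

/-- A natural family as a natural transformation. -/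
def famHom {X : El K ⥤ 𝓜} (c : ∀ {r : S} (y : K.obj r), (B.obj r ⟶ X.obj ⟨r, y⟩))
    (hc : ∀ {r r' : S} (f : r ⟶ r') (y : K.obj r'),
      B.map f ≫ c y = c (K.res f y) ≫ X.map (El.res f y)) : resB B K ⟶ X where
  app x := c x.x
  naturality x y f := fam_nat X c hc f.1 x.x y.x f.2

/-- `B` is projectively cofibrant. -/
abbrev PCofibrant (F : Globe ⥤ 𝓜) (B : S ⥤ 𝓜) : Prop := PCof F S (initial.to B)

variable {F : Globe ⥤ 𝓜}

theorem pullMap_pcof (hB : PCofibrant F B) : PCof F (El K) (pullMap B L) := by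
  intro X Y p hp
  constructor
  intro a' b' sq
  have hid : ∀ {r : S} (y : K.obj r), L.mem y → (L.pull y).mem (𝟙 r) := by
    intro r y hy
    change L.mem (K.res (𝟙 r) y)
    rwa [K.res_id]
  let a : ∀ {r : S} (y : K.obj r), L.mem y → (B.obj r ⟶ X.obj ⟨r, y⟩) := fun {r} y hy =>
    real.ι (K := (L.pull y).psh) ⟨𝟙 r, hid y hy⟩ ≫ a'.app ⟨r, y⟩
  let b : ∀ {r : S} (y : K.obj r), (B.obj r ⟶ Y.obj ⟨r, y⟩) := fun {r} y => b'.app ⟨r, y⟩
  have ha : ∀ {r r' : S} (f : r ⟶ r') (y : K.obj r') (hy : L.mem y),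
      B.map f ≫ a y hy = a (K.res f y) (L.res f hy) ≫ X.map (El.res f y) := by
    intro r r' f y hy
    dsimp only [a]
    rw [Category.assoc, ← a'.naturality, real.w_assoc, real.ι_map_assoc]
    congr 2
    apply Subtype.ext
    exact (Category.comp_id _).trans (Category.id_comp _).symm
  have hb : ∀ {r r' : S} (f : r ⟶ r') (y : K.obj r'),
      B.map f ≫ b y = b (K.res f y) ≫ Y.map (El.res f y) := fun f y =>
    b'.naturality (El.res f y)
  have hab : ∀ {r : S} (y : K.obj r) (hy : L.mem y), a y hy ≫ p.app ⟨r, y⟩ = b y := by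
    intro r y hy
    dsimp only [a, b]
    rw [Category.assoc, ← NatTrans.comp_app, sq.w, NatTrans.comp_app, pullMap, Category.assoc,
      real.ι_map_assoc, real.ι_ofYo_assoc]
    exact (congrArg (· ≫ b'.app ⟨r, y⟩) (B.map_id r)).trans (Category.id_comp _)
  obtain ⟨c, hc, hcb, hca⟩ := lift_family L (bds F) hB p hp a ha b hb hab
  refine ⟨⟨⟨famHom c hc, ?_, ?_⟩⟩⟩
  · ext x
    apply real.hom_ext
    intro r g
    rw [NatTrans.comp_app, pullMap, Category.assoc, real.ι_map_assoc, real.ι_ofYo_assoc]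
    change B.map g.1 ≫ c x.x = _
    rw [hc, hca _ g.2]
    dsimp only [a]
    rw [Category.assoc, ← a'.naturality, real.ι_map_assoc]
    congr 2
    apply Subtype.ext
    exact Category.id_comp _
  · ext x
    exact hcb x.x

/-- The realization of the inclusion of a subpresheaf. -/
noncomputable abbrev real.incl (B : S ⥤ 𝓜) (L : Sub K) : real B L.psh ⟶ real B K :=
  real.map L.incl

theorem llp_incl (I : MorphismProperty 𝓜) (h : (I.functorCategory (El K)).llp (pullMap B L)) :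
    I.llp (real.incl B L) := by
  intro X Y p hp
  constructor
  intro u v sq
  let X' : El K ⥤ 𝓜 := (Functor.const _).obj X
  let Y' : El K ⥤ 𝓜 := (Functor.const _).obj Y
  let p' : X' ⟶ Y' := (Functor.const _).map p
  have := h p' (fun _ => hp)
  let a : pullDiag B L ⟶ X' :=
    { app := fun x => real.map (K := (L.pull x.x).psh) (L := L.psh)
        { app := fun g => ⟨K.res g.1 x.x, g.2⟩
          nat := fun f g => Subtype.ext (K.res_comp _ _ _) } ≫ u
      naturality := by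
        intro x y f
        apply real.hom_ext
        intro r g
        rw [real.ι_map_assoc, real.ι_map_assoc]
        change _ = real.ι g ≫ (_ ≫ u) ≫ 𝟙 X
        rw [Category.comp_id, real.ι_map_assoc]
        congr 2
        apply Subtype.ext
        change K.res (g.1 ≫ f.1) y.x = K.res g.1 x.x
        rw [K.res_comp, f.2] }
  let b : resB B K ⟶ Y' :=
    { app := fun x => (real.ι x.x : B.obj x.s ⟶ real B K) ≫ v
      naturality := by
        intro x y f
        change B.map f.1 ≫ (real.ι y.x ≫ v) = ((real.ι x.x : B.obj x.s ⟶ real B K) ≫ v) ≫ 𝟙 Y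
        rw [Category.comp_id, real.w_assoc, f.2] }
  have sq' : CommSq a (pullMap B L) p' b := by
    constructor
    ext x
    apply real.hom_ext
    intro r g
    change real.ι g ≫ (real.map _ ≫ u) ≫ p = real.ι g ≫ (real.map _ ≫ real.ofYo _) ≫
      ((real.ι x.x : B.obj x.s ⟶ real B K) ≫ v)
    rw [Category.assoc, Category.assoc, real.ι_map_assoc, real.ι_map_assoc, real.ι_ofYo_assoc,
      sq.w, real.w_assoc, real.ι_map_assoc]
    rfl
  let c : ∀ {r : S} (y : K.obj r), (B.obj r ⟶ X) := fun {r} y => sq'.lift.app ⟨r, y⟩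
  have hc : ∀ {r r' : S} (f : r ⟶ r') (y : K.obj r'), B.map f ≫ c y = c (K.res f y) := by
    intro r r' f y
    exact (sq'.lift.naturality (El.res f y)).trans (Category.comp_id _)
  have hc1 : ∀ {r : S} (y : K.obj r), c y ≫ p = real.ι y ≫ v := fun {r} y =>
    NatTrans.congr_app sq'.fac_right ⟨r, y⟩
  have hc2 : ∀ {r : S} (y : K.obj r) (hy : L.mem y), c y = real.ι (K := L.psh) ⟨y, hy⟩ ≫ u := by
    intro r y hy
    have hid : (L.pull y).mem (𝟙 r) := by
      change L.mem (K.res (𝟙 r) y)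
      rwa [K.res_id]
    have h1 : (pullMap B L).app ⟨r, y⟩ ≫ c y = a.app ⟨r, y⟩ :=
      NatTrans.congr_app sq'.fac_left ⟨r, y⟩
    have h2 := real.ι (B := B) (K := (L.pull y).psh) ⟨𝟙 r, hid⟩ ≫= h1
    have h3 : real.ι (B := B) (K := (L.pull y).psh) ⟨𝟙 r, hid⟩ ≫ (pullMap B L).app ⟨r, y⟩ =
        𝟙 (B.obj r) := by
      rw [pullMap, real.ι_map_assoc, real.ι_ofYo]
      exact B.map_id r
    have h4 : real.ι (B := B) (K := (L.pull y).psh) ⟨𝟙 r, hid⟩ ≫ a.app ⟨r, y⟩ =
        real.ι (K := L.psh) ⟨y, hy⟩ ≫ u := by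
      dsimp only [a]
      rw [real.ι_map_assoc]
      congr 2
      apply Subtype.ext
      exact K.res_id y
    rw [← h4, ← h2, reassoc_of% h3]
  refine ⟨⟨⟨real.desc c hc, ?_, ?_⟩⟩⟩
  · apply real.hom_ext
    intro r y
    rw [real.ι_map_assoc, real.ι_desc]
    exact hc2 y.1 y.2
  · apply real.hom_ext
    intro r y
    rw [real.ι_desc_assoc, hc1]

theorem real_incl_cof (hB : PCofibrant F B) : Cof F (real.incl B L) :=
  llp_incl L _ (pullMap_pcof L hB)

/-- The empty subpresheaf. -/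
def PSh.Sub.bot (K : PSh S) : Sub K where
  mem _ := False
  res _ _ h := h

theorem real_cofibrant (hB : PCofibrant F B) : Cofibrant F (real B K) := by
  have h := real_incl_cof (Sub.bot K) hB
  have h1 : Cofibrant F (real B (Sub.bot K).psh) := by
    have : IsIso (initial.to (real B (Sub.bot K).psh)) := by
      refine ⟨real.desc (fun {_} x => x.2.elim) (fun {_ _} _ x => x.2.elim), ?_, ?_⟩
      · exact initial.hom_ext _ _
      · apply real.hom_ext
        intro s x
        exact x.2.elim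
    exact MorphismProperty.llp_of_isIso _ _
  exact h1.of_cof h

/-- Claim B: a subpresheaf all of whose pullbacks have contractible realization. -/
theorem claimB (hF : Good F) (hB : PCofibrant F B) (hB' : ∀ s, Contr F (B.obj s))
    (h : ∀ x : El K, Contr F (real B (L.pull x.x).psh)) : AN F 0 (real.incl B L) :=
  llp_incl L _ ((pullMap_pcof L hB).pan hF (fun _ => real_cofibrant hB) h (fun x => hB' x.s))

end ClaimB

end Vale.Agent.P259
end
end

section

section

open CategoryTheory Limits Opposite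

namespace Vale.Agent.P259

open Theta0 GlobExt

variable {C : GlobExt} {hC : C.IsCoherator} {K0 : C.CylFun ⊤ 0} {Δ : DiscFunctor C}
  {Gd : GammaData (K0.pathCtx hC) Δ.Pi} (Sc : SigmaCat hC K0 Δ Gd)
  {R : C.Gpd ⥤ TopCat.{0}} (adj : R ⊣ Δ.Pi)

/-- The functor `Σ(X) = Γ(R X) ⨿ (X ⊗ I)` (glued along `X`), for a left adjoint `R` of `Π`. -/
structure SigmaX {C : GlobExt} {hC : C.IsCoherator} {K0 : C.CylFun ⊤ 0} {Δ : DiscFunctor C}
    {Gd : GammaData (K0.pathCtx hC) Δ.Pi} (Sc : SigmaCat hC K0 Δ Gd)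
    {R : C.Gpd ⥤ TopCat.{0}} (adj : R ⊣ Δ.Pi) extends SigmaFun (K0.pathCtx hC) Gd R where
  /-- the cylinder on a cell -/
  e : ∀ (X : C.Gpd) {k : ℕ} (_ : cob (C.F ⊤) k ⟶ X), (cob (C.discF ⋙ K0.Cy) k ⟶ Sg.obj X)
  e_nat : ∀ (X : C.Gpd) {k l : ℕ} (a : Globe.D k ⟶ Globe.D l) (x : cob (C.F ⊤) l ⟶ X),
    e X ((C.F ⊤).map a ≫ x) = (C.discF ⋙ K0.Cy).map a ≫ e X x
  im_e : ∀ (X : C.Gpd) {k : ℕ} (x : cob (C.F ⊤) k ⟶ X),
    K0.im.app (.of (disc k)) ≫ e X x = Sc.θ.app (disc k) ≫
      Gd.Γ.map (yEquiv (.of (disc k)) (Δ.Pi.obj (R.obj X)) (x ≫ adj.unit.app X) :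
        Δ.D.obj (.of (disc k)) ⟶ R.obj X) ≫ j.app X
  ip_e : ∀ (X : C.Gpd) {k : ℕ} (x : cob (C.F ⊤) k ⟶ X),
    K0.ip.app (.of (disc k)) ≫ e X x = x ≫ i.app X

namespace SX

/-- The map `D(S) ⟶ R X` attached to an element of `X(S)`. -/
noncomputable def tr (X : C.Gpd) {S : C.Obj} (x : X.obj.obj (op S)) : Δ.D.obj S ⟶ R.obj X :=
  ((adj.unit.app X).hom.app (op S) x : (Δ.D.op ⋙ yoneda.obj (R.obj X)).obj (op S))

lemma tr_res (X : C.Gpd) {S T : C.Obj} (φ : S ⟶ T) (x : X.obj.obj (op T)) :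
    Δ.D.map φ ≫ tr adj X x = tr adj X (X.obj.map φ.op x) := by
  have h := ConcreteCategory.congr_hom ((adj.unit.app X).hom.naturality φ.op) x
  exact h.symm

lemma tr_nat {X X' : C.Gpd} (f : X ⟶ X') {S : C.Obj} (x : X.obj.obj (op S)) :
    tr adj X x ≫ R.map f = tr adj X' (f.hom.app (op S) x) := by
  have h := adj.unit.naturality f
  have h1 : (f ≫ adj.unit.app X').hom.app (op S) =
      (adj.unit.app X ≫ Δ.Pi.map (R.map f)).hom.app (op S) := by
    have h2 := congrArg (fun g : X ⟶ Δ.Pi.obj (R.obj X') => g.hom) h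
    exact congrArg (fun g => NatTrans.app g (op S)) h2
  exact (ConcreteCategory.congr_hom h1 x).symm

/-- Cocones defining `Σ(X)`. -/
structure Co (X : C.Gpd) where
  pt : C.Gpd
  j : Gd.Γ.obj (R.obj X) ⟶ pt
  e : ∀ {S : C.Obj} (_ : X.obj.obj (op S)), (Sc.Sg.obj S ⟶ pt)
  w : ∀ {S : C.Obj} (x : X.obj.obj (op S)), Sc.iG.app S ≫ e x = Gd.Γ.map (tr adj X x) ≫ j
  nat : ∀ {S T : C.Obj} (φ : S ⟶ T) (x : X.obj.obj (op T)),
    Sc.Sg.map φ ≫ e x = e (X.obj.map φ.op x)

variable {Sc adj}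

/-- The universal property. -/
structure Co.IsUniv {X : C.Gpd} (U : Co Sc adj X) : Prop where
  exists_desc : ∀ V : Co Sc adj X, ∃ g : U.pt ⟶ V.pt, U.j ≫ g = V.j ∧
    ∀ {S : C.Obj} (x : X.obj.obj (op S)), U.e x ≫ g = V.e x
  hom_ext : ∀ {Z : C.Gpd} {g g' : U.pt ⟶ Z}, U.j ≫ g = U.j ≫ g' →
    (∀ {S : C.Obj} (x : X.obj.obj (op S)), U.e x ≫ g = U.e x ≫ g') → g = g'

variable (Sc adj)

/-- The presheaf underlying an `∞`-groupoid. -/
abbrev psh (X : C.Gpd) : PSh C.Obj where
  obj S := X.obj.obj (op S)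
  res f := X.obj.map f.op
  res_id {S} x := by
    have := X.obj.map_id (op S)
    exact ConcreteCategory.congr_hom this x
  res_comp f g x := by
    have := X.obj.map_comp g.op f.op
    exact ConcreteCategory.congr_hom this x

theorem exists_univ (X : C.Gpd) : ∃ U : Co Sc adj X, U.IsUniv := by
  let A1 : C.Obj ⥤ C.Gpd := Δ.D ⋙ Gd.Γ
  let c : real A1 (psh X) ⟶ Gd.Γ.obj (R.obj X) :=
    real.desc (K := psh X) (B := A1) (fun {S} x => Gd.Γ.map (tr adj X x)) (by
      intro S T f x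
      change Gd.Γ.map (Δ.D.map f) ≫ _ = _
      rw [← Gd.Γ.map_comp, tr_res])
  let l : real A1 (psh X) ⟶ real Sc.Sg (psh X) :=
    real.desc (K := psh X) (B := A1) (fun {S} x => Sc.iG.app S ≫ real.ι (K := psh X) x) (by
      intro S T f x
      have h := Sc.iG.naturality f
      rw [← Category.assoc, h, Category.assoc, real.w])
  let U : Co Sc adj X :=
    { pt := pushout c l
      j := pushout.inl c l
      e := fun {S} x => real.ι (K := psh X) x ≫ pushout.inr c l
      w := by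
        intro S x
        have h := pushout.condition (f := c) (g := l)
        have h2 : real.ι (K := psh X) (B := A1) x ≫ c = Gd.Γ.map (tr adj X x) :=
          real.ι_desc _ _ _
        have h3 : real.ι (K := psh X) (B := A1) x ≫ l = Sc.iG.app S ≫ real.ι (K := psh X) x :=
          real.ι_desc _ _ _
        rw [← Category.assoc, ← h3, Category.assoc, ← h, ← Category.assoc, h2]
      nat := by
        intro S T φ x
        rw [← Category.assoc, real.w] }
  refine ⟨U, ?_, ?_⟩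
  · intro V
    let b : real Sc.Sg (psh X) ⟶ V.pt :=
      real.desc (K := psh X) (B := Sc.Sg) (fun {S} x => V.e x) (fun φ x => V.nat φ x)
    have hb : ∀ {S : C.Obj} (x : X.obj.obj (op S)), real.ι (K := psh X) x ≫ b = V.e x :=
      fun x => real.ι_desc _ _ _
    have hw : c ≫ V.j = l ≫ b := by
      apply real.hom_ext
      intro S x
      have h2 : real.ι (K := psh X) (B := A1) x ≫ c = Gd.Γ.map (tr adj X x) :=
        real.ι_desc _ _ _
      have h3 : real.ι (K := psh X) (B := A1) x ≫ l = Sc.iG.app S ≫ real.ι (K := psh X) x :=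
        real.ι_desc _ _ _
      rw [← Category.assoc, h2, ← Category.assoc, h3, Category.assoc, hb, V.w]
    refine ⟨pushout.desc V.j b hw, pushout.inl_desc _ _ _, ?_⟩
    intro S x
    change (real.ι (K := psh X) x ≫ pushout.inr c l) ≫ _ = _
    rw [Category.assoc, pushout.inr_desc, hb]
  · intro Z g g' h1 h2
    apply pushout.hom_ext
    · exact h1
    · apply real.hom_ext
      intro S x
      have := h2 x
      change (real.ι (K := psh X) x ≫ pushout.inr c l) ≫ _ =
        (real.ι (K := psh X) x ≫ pushout.inr c l) ≫ _ at this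
      rw [← Category.assoc, this, Category.assoc]

/-- A chosen universal cocone. -/
noncomputable def U (X : C.Gpd) : Co Sc adj X := (exists_univ Sc adj X).choose

lemma hU (X : C.Gpd) : (U Sc adj X).IsUniv := (exists_univ Sc adj X).choose_spec

/-- The object `Σ(X)`. -/
noncomputable abbrev Sg (X : C.Gpd) : C.Gpd := (U Sc adj X).pt

/-- The inclusion of `Γ(R X)`. -/
noncomputable abbrev jj (X : C.Gpd) : Gd.Γ.obj (R.obj X) ⟶ Sg Sc adj X := (U Sc adj X).j

/-- The inclusion of a cell. -/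
noncomputable abbrev ee {X : C.Gpd} {S : C.Obj} (x : X.obj.obj (op S)) :
    Sc.Sg.obj S ⟶ Sg Sc adj X := (U Sc adj X).e x

lemma jj_w {X : C.Gpd} {S : C.Obj} (x : X.obj.obj (op S)) :
    Sc.iG.app S ≫ ee Sc adj x = Gd.Γ.map (tr adj X x) ≫ jj Sc adj X := (U Sc adj X).w x

lemma ee_nat {X : C.Gpd} {S T : C.Obj} (φ : S ⟶ T) (x : X.obj.obj (op T)) :
    Sc.Sg.map φ ≫ ee Sc adj x = ee Sc adj (X.obj.map φ.op x) := (U Sc adj X).nat φ x

/-- The cocone of a map. -/
noncomputable def coMap {X X' : C.Gpd} (f : X ⟶ X') : Co Sc adj X where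
  pt := Sg Sc adj X'
  j := Gd.Γ.map (R.map f) ≫ jj Sc adj X'
  e {S} x := ee Sc adj (f.hom.app (op S) x)
  w {S} x := by
    rw [jj_w, ← tr_nat adj f x, Gd.Γ.map_comp, Category.assoc]
  nat {S T} φ x := by
    rw [ee_nat]
    congr 1
    exact (ConcreteCategory.congr_hom (f.hom.naturality φ.op) x).symm

/-- Functoriality of `Σ`. -/
noncomputable def SgMap {X X' : C.Gpd} (f : X ⟶ X') : Sg Sc adj X ⟶ Sg Sc adj X' :=
  ((hU Sc adj X).exists_desc (coMap Sc adj f)).choose

lemma jj_map {X X' : C.Gpd} (f : X ⟶ X') :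
    jj Sc adj X ≫ SgMap Sc adj f = Gd.Γ.map (R.map f) ≫ jj Sc adj X' :=
  ((hU Sc adj X).exists_desc (coMap Sc adj f)).choose_spec.1

lemma ee_map {X X' : C.Gpd} (f : X ⟶ X') {S : C.Obj} (x : X.obj.obj (op S)) :
    ee Sc adj x ≫ SgMap Sc adj f = ee Sc adj (f.hom.app (op S) x) :=
  ((hU Sc adj X).exists_desc (coMap Sc adj f)).choose_spec.2 x

/-- The functor `Σ`. -/
noncomputable def SgF : C.Gpd ⥤ C.Gpd where
  obj X := Sg Sc adj X
  map f := SgMap Sc adj f
  map_id X := by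
    apply (hU Sc adj X).hom_ext
    · rw [jj_map, R.map_id, Gd.Γ.map_id, Category.id_comp, Category.comp_id]
    · intro S x
      rw [ee_map, Category.comp_id]
      rfl
  map_comp {X Y Z} f g := by
    apply (hU Sc adj X).hom_ext
    · rw [jj_map, ← Category.assoc, jj_map, Category.assoc, jj_map, ← Category.assoc,
        ← Gd.Γ.map_comp, ← R.map_comp]
    · intro S x
      rw [ee_map, ← Category.assoc, ee_map, ee_map]
      rfl

/-- The inclusion of `X`. -/
noncomputable def ii (X : C.Gpd) : X ⟶ Sg Sc adj X :=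
  ⟨{ app := fun S => ↾(fun x : X.obj.obj S =>
        yEquiv S.unop (Sg Sc adj X) (Sc.ip.app S.unop ≫ ee Sc adj (S := S.unop) x))
     naturality := by
      intro S T φ
      ext x
      change yEquiv T.unop (Sg Sc adj X) (Sc.ip.app T.unop ≫ ee Sc adj (S := T.unop)
        (X.obj.map φ x)) = (Sg Sc adj X).obj.map φ (yEquiv S.unop (Sg Sc adj X)
          (Sc.ip.app S.unop ≫ ee Sc adj (S := S.unop) x))
      rw [← Quiver.Hom.op_unop φ, ← ee_nat, ← yEquiv_naturality_left, ← Category.assoc,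
        ← Sc.ip.naturality, Category.assoc] }⟩

lemma yEquiv_ii {X : C.Gpd} {S : C.Obj} (x : (C.y ⊤).obj S ⟶ X) :
    x ≫ ii Sc adj X = Sc.ip.app S ≫ ee Sc adj (yEquiv S X x) := by
  apply (yEquiv S (Sg Sc adj X)).injective
  rw [yEquiv_naturality_right]
  rfl

/-- The section of `H_a(Z)` attached to a cocone. -/
noncomputable def sec {X : C.Gpd} (V : Co Sc adj X) : X ⟶ Sc.H V.j :=
  ⟨{ app := fun S => ↾(fun x : X.obj.obj S =>
        (⟨(tr adj X (S := S.unop) x, V.e (S := S.unop) x), V.w (S := S.unop) x⟩ :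
          (Sc.HPre V.j).obj S))
     naturality := by
      intro S T φ
      ext x
      apply Subtype.ext
      apply Prod.ext
      · exact (tr_res adj X φ.unop x).symm
      · exact (V.nat φ.unop x).symm }⟩

/-- The cocone attached to a section of `H_a(Z)`. -/
noncomputable def ofSec {X Z : C.Gpd} (a : Gd.Γ.obj (R.obj X) ⟶ Z) (s : X ⟶ Sc.H a)
    (hs : ∀ (S : C.Obj) (x : X.obj.obj (op S)),
      (s.hom.app (op S) x : (Sc.HPre a).obj (op S)).1.1 = tr adj X x) : Co Sc adj X where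
  pt := Z
  j := a
  e {S} x := (s.hom.app (op S) x : (Sc.HPre a).obj (op S)).1.2
  w {S} x := by
    rw [← hs S x]
    exact (s.hom.app (op S) x : (Sc.HPre a).obj (op S)).2
  nat {S T} φ x := by
    have h := ConcreteCategory.congr_hom (s.hom.naturality φ.op) x
    exact (congrArg (fun p : (Sc.HPre a).obj (op S) => p.1.2) h).symm

/-- The composite of a cocone with a map. -/
noncomputable def Co.comp {X Z : C.Gpd} (V : Co Sc adj X) (z : V.pt ⟶ Z) : Co Sc adj X where
  pt := Z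
  j := V.j ≫ z
  e x := V.e x ≫ z
  w x := by rw [← Category.assoc, V.w, Category.assoc]
  nat φ x := by rw [← Category.assoc, V.nat]

theorem jj_an (X : C.Gpd) (hX : (K0.pathCtx hC).IsCof X) :
    AN (K0.pathCtx hC).F 0 (jj Sc adj X) := by
  intro Z Z' z hz
  constructor
  intro a g' sq
  let V' : Co Sc adj X :=
    { pt := Z'
      j := a ≫ z
      e := fun x => ee Sc adj x ≫ g'
      w := by
        intro S x
        rw [sq.w, ← Category.assoc, jj_w, Category.assoc]
      nat := by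
        intro S T φ x
        rw [← Category.assoc, ee_nat] }
  obtain ⟨s, hs⟩ := PathCtx.IsCof.exists_lift hX (Sc.trivFib_Hmap a z hz) (sec Sc adj V')
  have hs' : ∀ (S : C.Obj) (x : X.obj.obj (op S)),
      (Sc.Hmap a (a ≫ z) (𝟙 _) z (by simp)).hom.app (op S) (s.hom.app (op S) x) =
        (sec Sc adj V').hom.app (op S) x := by
    intro S x
    have h2 := congrArg (fun g : X ⟶ Sc.H (a ≫ z) => g.hom) hs
    have h1 := congrArg (fun g => NatTrans.app g (op S)) h2
    exact ConcreteCategory.congr_hom h1 x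
  have h1 : ∀ (S : C.Obj) (x : X.obj.obj (op S)),
      (s.hom.app (op S) x : (Sc.HPre a).obj (op S)).1.1 = tr adj X x := by
    intro S x
    have := congrArg (fun p : (Sc.HPre (a ≫ z)).obj (op S) => p.1.1) (hs' S x)
    exact (Category.comp_id _).symm.trans this
  have h2 : ∀ (S : C.Obj) (x : X.obj.obj (op S)),
      (s.hom.app (op S) x : (Sc.HPre a).obj (op S)).1.2 ≫ z = ee Sc adj x ≫ g' := by
    intro S x
    exact congrArg (fun p : (Sc.HPre (a ≫ z)).obj (op S) => p.1.2) (hs' S x)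
  obtain ⟨g, hg1, hg2⟩ : ∃ g : Sg Sc adj X ⟶ Z, jj Sc adj X ≫ g = a ∧
      ∀ (S : C.Obj) (x : X.obj.obj (op S)), ee Sc adj x ≫ g =
        (s.hom.app (op S) x : (Sc.HPre a).obj (op S)).1.2 := by
    obtain ⟨g, hg1, hg2⟩ := (hU Sc adj X).exists_desc (ofSec Sc adj a s h1)
    exact ⟨g, hg1, fun S x => hg2 x⟩
  refine ⟨⟨{ l := g, fac_left := hg1, fac_right := ?_ }⟩⟩
  apply (hU Sc adj X).hom_ext
  · rw [← Category.assoc, hg1]
    exact sq.w
  · intro S x
    rw [← Category.assoc, hg2]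
    exact h2 S x

theorem SgMap_cof {X X' : C.Gpd} (f : X ⟶ X') (hf : Cof (K0.pathCtx hC).F f)
    (hf' : Cof (K0.pathCtx hC).F (Gd.Γ.map (R.map f))) :
    Cof (K0.pathCtx hC).F (SgMap Sc adj f) := by
  intro Z Z' p hp
  constructor
  intro g g' sq
  -- lift on the first component
  have sq1 : CommSq (jj Sc adj X ≫ g) (Gd.Γ.map (R.map f)) p (jj Sc adj X' ≫ g') := ⟨by
    rw [Category.assoc, sq.w, ← Category.assoc, jj_map, Category.assoc]⟩
  have := hf' p hp
  obtain ⟨a, ha1, ha2⟩ : ∃ a : Gd.Γ.obj (R.obj X') ⟶ Z, Gd.Γ.map (R.map f) ≫ a =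
      jj Sc adj X ≫ g ∧ a ≫ p = jj Sc adj X' ≫ g' := ⟨sq1.lift, sq1.fac_left, sq1.fac_right⟩
  -- the sections
  let V : Co Sc adj X :=
    { pt := Z
      j := jj Sc adj X ≫ g
      e := fun x => ee Sc adj x ≫ g
      w := by
        intro S x
        rw [← Category.assoc, jj_w, Category.assoc]
      nat := by
        intro S T φ x
        rw [← Category.assoc, ee_nat] }
  let V' : Co Sc adj X' :=
    { pt := Z'
      j := a ≫ p
      e := fun x => ee Sc adj x ≫ g'
      w := by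
        intro S x
        rw [ha2, ← Category.assoc, jj_w, Category.assoc]
      nat := by
        intro S T φ x
        rw [← Category.assoc, ee_nat] }
  have hp' : Fib (C.F ⊤) 0 p := (K0.pathCtx hC).trivFib_le_fib _ hp
  have hH := Sc.trivFib_Hmap a p hp'
  let t : X ⟶ Sc.H a := sec Sc adj V ≫ Sc.Hmap V.j a (R.map f) (𝟙 Z)
    ((Category.comp_id _).trans ha1.symm)
  have sq2 : CommSq t f (Sc.Hmap a (a ≫ p) (𝟙 _) p (by simp)) (sec Sc adj V') := ⟨by
    apply ObjectProperty.hom_ext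
    ext S x
    apply Subtype.ext
    apply Prod.ext
    · exact (Category.comp_id _).trans (tr_nat adj f (S := S.unop) x)
    · change ((ee Sc adj (S := S.unop) x ≫ g) ≫ 𝟙 Z) ≫ p =
        ee Sc adj (S := S.unop) (f.hom.app S x) ≫ g'
      rw [Category.comp_id, Category.assoc, sq.w, ← Category.assoc, ee_map]⟩
  have := hf _ hH
  obtain ⟨s, hs1, hs2⟩ : ∃ s : X' ⟶ Sc.H a, f ≫ s = t ∧
      s ≫ Sc.Hmap a (a ≫ p) (𝟙 _) p (by simp) = sec Sc adj V' :=
    ⟨sq2.lift, sq2.fac_left, sq2.fac_right⟩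
  have hs2' : ∀ (S : C.Obj) (x : X'.obj.obj (op S)),
      (Sc.Hmap a (a ≫ p) (𝟙 _) p (by simp)).hom.app (op S) (s.hom.app (op S) x) =
        (sec Sc adj V').hom.app (op S) x := by
    intro S x
    have h2 := congrArg (fun g : X' ⟶ Sc.H (a ≫ p) => g.hom) hs2
    have h1 := congrArg (fun g => NatTrans.app g (op S)) h2
    exact ConcreteCategory.congr_hom h1 x
  have hs1' : ∀ (S : C.Obj) (x : X.obj.obj (op S)),
      s.hom.app (op S) (f.hom.app (op S) x) = t.hom.app (op S) x := by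
    intro S x
    have h2 := congrArg (fun g : X ⟶ Sc.H a => g.hom) hs1
    have h1 := congrArg (fun g => NatTrans.app g (op S)) h2
    exact ConcreteCategory.congr_hom h1 x
  have h1 : ∀ (S : C.Obj) (x : X'.obj.obj (op S)),
      (s.hom.app (op S) x : (Sc.HPre a).obj (op S)).1.1 = tr adj X' x := by
    intro S x
    have := congrArg (fun q : (Sc.HPre (a ≫ p)).obj (op S) => q.1.1) (hs2' S x)
    exact (Category.comp_id _).symm.trans this
  have h2 : ∀ (S : C.Obj) (x : X'.obj.obj (op S)),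
      (s.hom.app (op S) x : (Sc.HPre a).obj (op S)).1.2 ≫ p = ee Sc adj x ≫ g' := by
    intro S x
    exact congrArg (fun q : (Sc.HPre (a ≫ p)).obj (op S) => q.1.2) (hs2' S x)
  have h3 : ∀ (S : C.Obj) (x : X.obj.obj (op S)),
      (s.hom.app (op S) (f.hom.app (op S) x) : (Sc.HPre a).obj (op S)).1.2 =
        ee Sc adj x ≫ g := by
    intro S x
    have := congrArg (fun q : (Sc.HPre a).obj (op S) => q.1.2) (hs1' S x)
    exact this.trans (Category.comp_id _)
  obtain ⟨l, hl1, hl2⟩ : ∃ l : Sg Sc adj X' ⟶ Z, jj Sc adj X' ≫ l = a ∧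
      ∀ (S : C.Obj) (x : X'.obj.obj (op S)), ee Sc adj x ≫ l =
        (s.hom.app (op S) x : (Sc.HPre a).obj (op S)).1.2 := by
    obtain ⟨l, hl1, hl2⟩ := (hU Sc adj X').exists_desc (ofSec Sc adj a s h1)
    exact ⟨l, hl1, fun S x => hl2 x⟩
  refine ⟨⟨{ l := l, fac_left := ?_, fac_right := ?_ }⟩⟩
  · apply (hU Sc adj X).hom_ext
    · rw [← Category.assoc, jj_map, Category.assoc, hl1, ha1]
    · intro S x
      rw [← Category.assoc, ee_map, hl2, h3]
  · apply (hU Sc adj X').hom_ext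
    · rw [← Category.assoc, hl1, ha2]
    · intro S x
      rw [← Category.assoc, hl2, h2]

/-- The cylinder on an element. -/
noncomputable def ecyl {X : C.Gpd} (S : Theta0) (x : X.obj.obj (op (C.J.obj S))) :
    K0.Cy.obj (C.J.obj S) ⟶ Sg Sc adj X :=
  (Sc.e.app S : K0.Cy.obj (C.J.obj S) ⟶ Sc.Sg.obj (C.J.obj S)) ≫ ee Sc adj x

lemma ecyl_nat {X : C.Gpd} {S T : Theta0} (φ : S ⟶ T) (x : X.obj.obj (op (C.J.obj T))) :
    ecyl Sc adj S (X.obj.map (C.J.map φ).op x) =
      K0.Cy.map (C.J.map φ) ≫ ecyl Sc adj T x := by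
  have h : K0.Cy.map (C.J.map φ) ≫
      (Sc.e.app T : K0.Cy.obj (C.J.obj T) ⟶ Sc.Sg.obj (C.J.obj T)) =
      (Sc.e.app S : K0.Cy.obj (C.J.obj S) ⟶ Sc.Sg.obj (C.J.obj S)) ≫ Sc.Sg.map (C.J.map φ) :=
    Sc.e.naturality φ
  rw [ecyl, ecyl, ← ee_nat, ← Category.assoc, ← h, Category.assoc]

lemma im_ecyl {X : C.Gpd} (S : Theta0) (x : X.obj.obj (op (C.J.obj S))) :
    K0.im.app (C.J.obj S) ≫ ecyl Sc adj S x =
      (Sc.θ.app S : (C.y ⊤).obj (C.J.obj S) ⟶ Gd.Γ.obj (Δ.D.obj (C.J.obj S))) ≫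
        Gd.Γ.map (tr adj X x) ≫ jj Sc adj X := by
  have h : K0.im.app (C.J.obj S) ≫
      (Sc.e.app S : K0.Cy.obj (C.J.obj S) ⟶ Sc.Sg.obj (C.J.obj S)) =
      (Sc.θ.app S : (C.y ⊤).obj (C.J.obj S) ⟶ Gd.Γ.obj (Δ.D.obj (C.J.obj S))) ≫
        Sc.iG.app (C.J.obj S) := (Sc.push S).w
  rw [ecyl, ← Category.assoc, h, Category.assoc, jj_w]

lemma ip_ecyl {X : C.Gpd} (S : Theta0) (x : (C.y ⊤).obj (C.J.obj S) ⟶ X) :
    K0.ip.app (C.J.obj S) ≫ ecyl Sc adj S (yEquiv (C.J.obj S) X x) = x ≫ ii Sc adj X := by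
  have h : K0.ip.app (C.J.obj S) ≫
      (Sc.e.app S : K0.Cy.obj (C.J.obj S) ⟶ Sc.Sg.obj (C.J.obj S)) =
      Sc.ip.app (C.J.obj S) := Sc.ip_e S
  rw [ecyl, ← Category.assoc, h, yEquiv_ii]

lemma ii_nat {X X' : C.Gpd} (f : X ⟶ X') :
    f ≫ ii Sc adj X' = ii Sc adj X ≫ SgMap Sc adj f := by
  apply Md.hom_ext
  intro S x
  rw [← Category.assoc, yEquiv_ii, ← Category.assoc, yEquiv_ii, Category.assoc, ee_map,
    yEquiv_naturality_right]

end SX

open SX

/-- Existence of the functor `Σ`. -/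
theorem exists_sigmaX (Sc : SigmaCat hC K0 Δ Gd) {R : C.Gpd ⥤ TopCat.{0}}
    (adj : R ⊣ Δ.Pi) : Nonempty (SigmaX Sc adj) := by
  refine ⟨{ Sg := SgF Sc adj
            i := { app := fun X => ii Sc adj X, naturality := fun _ _ f => ii_nat Sc adj f }
            j := { app := fun X => jj Sc adj X, naturality := fun _ _ f =>
              (jj_map Sc adj f).symm }
            an := fun X hX => jj_an Sc adj X hX
            cof := fun f _ hf hf' => SgMap_cof Sc adj f hf hf'
            e := fun X {k} x => ecyl Sc adj (disc k) (yEquiv (.of (disc k)) X x)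
            e_nat := ?_
            im_e := ?_
            ip_e := ?_ }⟩
  · intro X k l a x
    have h2 : yEquiv (.of (disc k)) X ((C.F ⊤).map a ≫ x) =
        X.obj.map (C.J.map (discMap a)).op (yEquiv (.of (disc l)) X x) :=
      yEquiv_naturality_left (C.J.map (discMap a)) x
    exact (congrArg (ecyl Sc adj (disc k)) h2).trans (ecyl_nat Sc adj (discMap a) _)
  · intro X k x
    have h3 : (yEquiv (.of (disc k)) (Δ.Pi.obj (R.obj X)) (x ≫ adj.unit.app X) :
        Δ.D.obj (.of (disc k)) ⟶ R.obj X) = tr adj X (yEquiv (.of (disc k)) X x) :=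
      yEquiv_naturality_right x (adj.unit.app X)
    rw [h3]
    exact im_ecyl Sc adj (disc k) _
  · intro X k x
    exact ip_ecyl Sc adj (disc k) x

end Vale.Agent.P259
end
end

section

section

open CategoryTheory Limits Opposite

namespace Vale.Agent.P259

open Theta0 GlobExt

universe v u

/-- Construction of globular maps. -/
def GM.mk {𝓜 : Type u} [Category.{v} 𝓜] {F : Globe ⥤ 𝓜} {X Y : 𝓜}
    (f : ∀ j : ℕ, (cob F j ⟶ X) → (cob F j ⟶ Y))
    (hf : ∀ {j k : ℕ} (a : Globe.D j ⟶ Globe.D k) (x : cob F k ⟶ X),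
      f j (F.map a ≫ x) = F.map a ≫ f k x) : (under F).obj X ⟶ (under F).obj Y where
  app j := ↾(fun x => f j.unop.dim x)
  naturality j k a := by
    ext x
    exact hf a.unop x

lemma GM.app_mk {𝓜 : Type u} [Category.{v} 𝓜] {F : Globe ⥤ 𝓜} {X Y : 𝓜}
    (f : ∀ j : ℕ, (cob F j ⟶ X) → (cob F j ⟶ Y))
    (hf : ∀ {j k : ℕ} (a : Globe.D j ⟶ Globe.D k) (x : cob F k ⟶ X),
      f j (F.map a ≫ x) = F.map a ≫ f k x) {j : ℕ} (x : cob F j ⟶ X) :
    GM.app (GM.mk f hf) x = f j x := rfl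

variable {C : GlobExt} {hC : C.IsCoherator} {K0 : C.CylFun ⊤ 0} {Δ : DiscFunctor C}
  {Gd : GammaData (K0.pathCtx hC) Δ.Pi}

/-- Maps `y S ⟶ Π(Y)` are maps `D(S) ⟶ Y`. -/
noncomputable def piEquiv (Δ : DiscFunctor C) (S : C.Obj) (Y : TopCat.{0}) :
    ((C.y ⊤).obj S ⟶ Δ.Pi.obj Y) ≃ (Δ.D.obj S ⟶ Y) :=
  yEquiv S (Δ.Pi.obj Y)

lemma piEquiv_comp_map (S : C.Obj) {Y Y' : TopCat.{0}} (x : (C.y ⊤).obj S ⟶ Δ.Pi.obj Y)
    (f : Y ⟶ Y') : piEquiv Δ S Y' (x ≫ Δ.Pi.map f) = piEquiv Δ S Y x ≫ f :=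
  yEquiv_naturality_right x (Δ.Pi.map f)

lemma piEquiv_map_comp {S T : C.Obj} (φ : S ⟶ T) {Y : TopCat.{0}}
    (x : (C.y ⊤).obj T ⟶ Δ.Pi.obj Y) :
    piEquiv Δ S Y ((C.y ⊤).map φ ≫ x) = Δ.D.map φ ≫ piEquiv Δ T Y x :=
  yEquiv_naturality_left φ x

lemma piEquiv_can (S : C.Obj) : piEquiv Δ S _ (Δ.can.app S) = 𝟙 (Δ.D.obj S) :=
  Equiv.apply_symm_apply _ _

/-- Every cell of `Π(Y)` is the image of the canonical one. -/
lemma can_comp_map (S : C.Obj) {Y : TopCat.{0}} (x : (C.y ⊤).obj S ⟶ Δ.Pi.obj Y) :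
    Δ.can.app S ≫ Δ.Pi.map (piEquiv Δ S Y x) = x := by
  apply (piEquiv Δ S Y).injective
  rw [piEquiv_comp_map, piEquiv_can, Category.id_comp]

/-- The realization of a representable object is the space of the disc functor. -/
noncomputable def realY {R : C.Gpd ⥤ TopCat.{0}} (adj : R ⊣ Δ.Pi) (S : C.Obj) :
    R.obj ((C.y ⊤).obj S) ≅ Δ.D.obj S where
  hom := (adj.homEquiv _ _).symm (Δ.can.app S)
  inv := piEquiv Δ S _ (adj.unit.app ((C.y ⊤).obj S))
  hom_inv_id := by
    apply (adj.homEquiv _ _).injective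
    rw [adj.homEquiv_naturality_right, Equiv.apply_symm_apply]
    exact (can_comp_map S (adj.unit.app ((C.y ⊤).obj S))).trans (adj.homEquiv_id _).symm
  inv_hom_id := by
    refine (piEquiv_comp_map S (adj.unit.app ((C.y ⊤).obj S)) _).symm.trans ?_
    have h : adj.unit.app ((C.y ⊤).obj S) ≫ Δ.Pi.map ((adj.homEquiv _ _).symm (Δ.can.app S)) =
        Δ.can.app S := by
      have := (adj.homEquiv _ _).apply_symm_apply (Δ.can.app S)
      rw [Adjunction.homEquiv_unit] at this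
      exact this
    have h2 := congrArg (piEquiv Δ S _) h
    rw [piEquiv_can] at h2
    exact h2

/-- The realizations of the discs are contractible. -/
lemma contractible_real {R : C.Gpd ⥤ TopCat.{0}} (adj : R ⊣ Δ.Pi) (S : C.Obj) :
    ContractibleSpace (R.obj ((C.y ⊤).obj S)) := by
  have := Δ.contractible S
  exact (TopCat.homeoOfIso (realY adj S)).contractibleSpace

/-- The map `D_k ⟶ Γ(D^k)`. -/
noncomputable def SigmaCat.θD (Sc : SigmaCat hC K0 Δ Gd) (k : ℕ) :
    cob (C.F ⊤) k ⟶ Gd.Γ.obj (Δ.D.obj (.of (disc k))) := Sc.θ.app (disc k)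

/-- The homotopy `D_k ⊗ I ⟶ Π(D^k)` from the canonical map to `θ ≫ u`. -/
noncomputable def SigmaCat.ζD (Sc : SigmaCat hC K0 Δ Gd) (k : ℕ) :
    cob K0.E k ⟶ Δ.Pi.obj (Δ.D.obj (.of (disc k))) := Sc.ζ.app (disc k)

/-- The canonical map `D_k ⟶ Π(D^k)`. -/
noncomputable def canD (Δ : DiscFunctor C) (k : ℕ) :
    cob (C.F ⊤) k ⟶ Δ.Pi.obj (Δ.D.obj (.of (disc k))) := Δ.can.app (.of (disc k))

/-- The maps between discs. -/
noncomputable def dD (Δ : DiscFunctor C) {j k : ℕ} (a : Globe.D j ⟶ Globe.D k) :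
    Δ.D.obj (.of (disc j)) ⟶ Δ.D.obj (.of (disc k)) := Δ.D.map (C.discF.map a)

lemma SigmaCat.ζD_nat (Sc : SigmaCat hC K0 Δ Gd) {j k : ℕ} (a : Globe.D j ⟶ Globe.D k) :
    K0.E.map a ≫ Sc.ζD k = Sc.ζD j ≫ Δ.Pi.map (dD Δ a) :=
  Sc.ζ.naturality (discMap a)

lemma SigmaCat.dim_ζD (Sc : SigmaCat hC K0 Δ Gd) (k : ℕ) :
    K0.dim.app (Globe.D k) ≫ Sc.ζD k = canD Δ k :=
  Sc.im_ζ (disc k)

lemma SigmaCat.dip_ζD (Sc : SigmaCat hC K0 Δ Gd) (k : ℕ) :
    K0.dip.app (Globe.D k) ≫ Sc.ζD k = Sc.θD k ≫ Gd.u.app _ :=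
  Sc.ip_ζ (disc k)

/-- The map `D^k ⟶ Y` of a cell of `Π(Y)`. -/
noncomputable def pD (Δ : DiscFunctor C) {k : ℕ} {Y : TopCat.{0}}
    (x : cob (C.F ⊤) k ⟶ Δ.Pi.obj Y) : Δ.D.obj (.of (disc k)) ⟶ Y :=
  piEquiv Δ (.of (disc k)) Y x

lemma canD_comp_map {k : ℕ} {Y : TopCat.{0}} (x : cob (C.F ⊤) k ⟶ Δ.Pi.obj Y) :
    canD Δ k ≫ Δ.Pi.map (pD Δ x) = x :=
  can_comp_map (.of (disc k)) x

lemma pD_nat {j k : ℕ} (a : Globe.D j ⟶ Globe.D k) {Y : TopCat.{0}}
    (x : cob (C.F ⊤) k ⟶ Δ.Pi.obj Y) :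
    pD Δ ((C.F ⊤).map a ≫ x) = dD Δ a ≫ pD Δ x :=
  piEquiv_map_comp (C.discF.map a) x

/-- The globular homotopy from the identity of `Π(Y)` to `x ↦ θ ≫ Γ(x) ≫ u`. -/
noncomputable def SigmaCat.hζ (Sc : SigmaCat hC K0 Δ Gd) (Y : TopCat.{0}) :
    (under (C.F ⊤)).obj (Δ.Pi.obj Y) ⟶ (under (C.F ⊤)).obj (K0.P.obj (Δ.Pi.obj Y)) :=
  GM.mk (fun k x => (K0.DEquiv k _).symm (Sc.ζD k ≫ Δ.Pi.map (pD Δ x))) (by
    intro j k a x
    apply (K0.DEquiv j _).injective
    rw [Equiv.apply_symm_apply, K0.DEquiv_naturality, Equiv.apply_symm_apply, pD_nat,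
      Δ.Pi.map_comp, ← Category.assoc, ← Category.assoc, Sc.ζD_nat])

lemma SigmaCat.hζ_app (Sc : SigmaCat hC K0 Δ Gd) {Y : TopCat.{0}} {j : ℕ}
    (x : cob (C.F ⊤) j ⟶ Δ.Pi.obj Y) :
    GM.app (Sc.hζ Y) x = (K0.DEquiv j _).symm (Sc.ζD j ≫ Δ.Pi.map (pD Δ x)) := rfl

lemma SigmaCat.hζ_pm (Sc : SigmaCat hC K0 Δ Gd) (Y : TopCat.{0}) :
    Sc.hζ Y ≫ (under (C.F ⊤)).map (K0.pm.app (Δ.Pi.obj Y)) = 𝟙 _ := by
  apply GM.ext
  intro j x
  rw [GM.app_comp_map, Sc.hζ_app, K0.disc_pm, Equiv.apply_symm_apply, GM.app_id,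
    ← Category.assoc, Sc.dim_ζD, canD_comp_map]

lemma SigmaCat.hζ_pp (Sc : SigmaCat hC K0 Δ Gd) {Y : TopCat.{0}} {j : ℕ}
    (x : cob (C.F ⊤) j ⟶ Δ.Pi.obj Y) :
    GM.app (Sc.hζ Y ≫ (under (C.F ⊤)).map (K0.pp.app (Δ.Pi.obj Y))) x =
      Sc.θD j ≫ Gd.Γ.map (pD Δ x) ≫ Gd.u.app Y := by
  rw [GM.app_comp_map, Sc.hζ_app, K0.disc_pp, Equiv.apply_symm_apply,
    ← Category.assoc, Sc.dip_ζD, Category.assoc, Gd.u.naturality]

/-- The unit `X ⟶ Π(R X)` is a weak equivalence for cellular objects. -/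
theorem W_unit_cellSeq' (Sc : SigmaCat hC K0 Δ Gd) {R : C.Gpd ⥤ TopCat.{0}}
    (adj : R ⊣ Δ.Pi) (hR' : ∀ n, IsSphereInc (R.map (bd (C.F ⊤) n))) {X : C.Gpd}
    (S : CellSeq (C.F ⊤) X) : (K0.pathCtx hC).W (adj.unit.app X) := by
  obtain ⟨Sx⟩ := exists_sigmaX Sc adj
  have hR : PreservesColimits R := adj.leftAdjoint_preservesColimits
  have S' : CellSeq (K0.pathCtx hC).F X := S
  have hX : (K0.pathCtx hC).IsCof X := S'.isCof
  have wi : (K0.pathCtx hC).W (Sx.i.app X) :=
    Sx.toSigmaFun.W_cellSeq hR hR' (fun n => contractible_real adj _) S'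
  obtain ⟨ρ, hρ⟩ := PathCtx.an_ext (K := K0.pathCtx hC) (Sx.an X hX) (Gd.u.app (R.obj X))
  have wρ : (K0.pathCtx hC).W ρ := by
    apply PathCtx.W.of_comp (Sx.toSigmaFun.W_j hX)
    rw [hρ]
    exact SigmaCat.W_u (R.obj X)
  have w1 : (K0.pathCtx hC).W (Sx.i.app X ≫ ρ) := PathCtx.W.comp wi wρ
  -- the first homotopy
  let h1 : (under (C.F ⊤)).obj X ⟶ (under (C.F ⊤)).obj (K0.P.obj (Δ.Pi.obj (R.obj X))) :=
    GM.mk (fun k x => (K0.DEquiv k _).symm (Sx.e X x ≫ ρ)) (by
      intro j k a x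
      apply (K0.DEquiv j _).injective
      rw [Equiv.apply_symm_apply, K0.DEquiv_naturality, Equiv.apply_symm_apply, Sx.e_nat,
        Category.assoc])
  -- the second homotopy
  let h2 : (under (C.F ⊤)).obj X ⟶ (under (C.F ⊤)).obj (K0.P.obj (Δ.Pi.obj (R.obj X))) :=
    (under (C.F ⊤)).map (adj.unit.app X) ≫ Sc.hζ (R.obj X)
  have e1 : h1 ≫ (under (C.F ⊤)).map (K0.pp.app _) = (under (C.F ⊤)).map (Sx.i.app X ≫ ρ) := by
    apply GM.ext
    intro j x
    rw [GM.app_comp_map, GM.app_mk, K0.disc_pp, Equiv.apply_symm_apply, GM.app_map]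
    have h := Sx.ip_e X x
    rw [← Category.assoc, ← Category.assoc, ← h]
    rfl
  have e2 : h1 ≫ (under (C.F ⊤)).map (K0.pm.app _) = h2 ≫ (under (C.F ⊤)).map (K0.pp.app _) := by
    apply GM.ext
    intro j x
    rw [GM.app_comp_map, GM.app_mk, K0.disc_pm, Equiv.apply_symm_apply, Category.assoc,
      GM.app_map_comp, Sc.hζ_pp, ← Category.assoc, ← hρ]
    have h := congrArg (fun t => t ≫ ρ) (Sx.im_e X x)
    refine h.trans ?_
    refine (Category.assoc _ _ _).trans ?_
    exact congrArg (fun t => Sc.θD j ≫ t) (Category.assoc _ _ _)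
  have e3 : h2 ≫ (under (C.F ⊤)).map (K0.pm.app _) = (under (C.F ⊤)).map (adj.unit.app X) := by
    rw [Category.assoc]
    erw [Sc.hζ_pm]
    rfl
  have g1 : WG (h1 ≫ (under (C.F ⊤)).map (K0.pp.app _)) := by
    rw [e1]
    exact ((K0.pathCtx hC).W_iff_WG _).1 w1
  have g2 : WG (h2 ≫ (under (C.F ⊤)).map (K0.pp.app _)) := by
    rw [← e2]
    exact ((K0.pathCtx hC).WG_iff_of_homotopy h1).2 g1
  have g3 := ((K0.pathCtx hC).WG_iff_of_homotopy h2).2 g2
  rw [(K0.pathCtx hC).W_iff_WG]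
  have g4 : WG (h2 ≫ (under (C.F ⊤)).map (K0.pm.app _)) := g3
  rw [e3] at g4
  exact g4

end Vale.Agent.P259
end
end

section

section

/-!
Functorial cofibrant replacement by countable cell attachment: the small object argument carried
out over the natural numbers, in the category of functors over the identity functor.
-/

open CategoryTheory Limits Opposite

namespace Vale.Agent.P259

namespace CofRep

variable {𝓜 : Type 1} [Category.{0} 𝓜]

/-- The structure map of an augmented functor at an object. -/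
abbrev aug (E : Over (𝟭 𝓜)) (X : 𝓜) : E.left.obj X ⟶ X := E.hom.app X

lemma aug_naturality (E : Over (𝟭 𝓜)) {X Y : 𝓜} (f : X ⟶ Y) :
    E.left.map f ≫ aug E Y = aug E X ≫ f :=
  E.hom.naturality f

/-- The map of arrows induced by `f`. -/
abbrev arr (E : Over (𝟭 𝓜)) {X Y : 𝓜} (f : X ⟶ Y) : Arrow.mk (aug E X) ⟶ Arrow.mk (aug E Y) :=
  Arrow.homMk (E.left.map f) f (aug_naturality E f)

variable [HasColimits 𝓜] (F : Globe ⥤ 𝓜)

/-- The family of boundary inclusions. -/
noncomputable abbrev fam (n : ℕ) : sph F n ⟶ cob F n := bd F n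

/-- One step of the cell attachment. -/
noncomputable def stepObj (E : Over (𝟭 𝓜)) : Over (𝟭 𝓜) :=
  Over.mk (Y := (
    { obj := fun X => SmallObject.functorObj (fam F) (aug E X)
      map := fun f => SmallObject.functorMap (fam F) (arr E f)
      map_id := fun X => by
        have : arr E (𝟙 X) = 𝟙 (Arrow.mk (aug E X)) := by
          apply Arrow.hom_ext
          · exact E.left.map_id X
          · rfl
        rw [this, SmallObject.functorMap_id]
      map_comp := fun {X Y Z} f g => by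
        have h : arr E (f ≫ g) = arr E f ≫ arr E g := by
          apply Arrow.hom_ext
          · exact E.left.map_comp f g
          · rfl
        have h2 := congrArg (fun k => k.left)
          ((SmallObject.functor (fam F)).map_comp (arr E f) (arr E g))
        rw [h]
        exact h2 } : 𝓜 ⥤ 𝓜))
    { app := fun X => SmallObject.πFunctorObj (fam F) (aug E X)
      naturality := fun {X Y} f => SmallObject.functorMap_π (fam F) (arr E f) }

/-- The inclusion of a stage in the next one. -/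
noncomputable def stepMap (E : Over (𝟭 𝓜)) : E ⟶ stepObj F E :=
  Over.homMk
    { app := fun X => SmallObject.ιFunctorObj (fam F) (aug E X)
      naturality := fun {X Y} f => (SmallObject.ιFunctorObj_naturality (fam F) (arr E f)).symm }
    (by
      ext X
      exact SmallObject.ιFunctorObj_πFunctorObj (fam F) (aug E X))

/-- The stages. -/
noncomputable def stage : ℕ → Over (𝟭 𝓜)
  | 0 => Over.mk (Y := (Functor.const 𝓜).obj (⊥_ 𝓜))
      { app := fun X => initial.to X
        naturality := fun _ _ _ => initial.hom_ext _ _ }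
  | k + 1 => stepObj F (stage k)

/-- The sequence of stages. -/
noncomputable def seq : ℕ ⥤ Over (𝟭 𝓜) :=
  Functor.ofSequence (X := stage F) (fun k => stepMap F (stage F k))

lemma seq_map (k : ℕ) : (seq F).map (homOfLE (Nat.le_succ k)) = stepMap F (stage F k) :=
  Functor.ofSequence_map_homOfLE_succ (X := stage F) (fun k => stepMap F (stage F k)) k

/-- The sequence of stages as a functor of the object. -/
noncomputable def tow : 𝓜 ⥤ ℕ ⥤ 𝓜 := (seq F ⋙ Over.forget _).flip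

/-- The cofibrant replacement functor. -/
noncomputable def Q : 𝓜 ⥤ 𝓜 := tow F ⋙ colim

/-- The cocone over the object itself. -/
noncomputable def coc (X : 𝓜) : Cocone ((tow F).obj X) where
  pt := X
  ι :=
    { app := fun k => aug (stage F k) X
      naturality := fun k l f => by
        have h := congrArg (fun α : (stage F k).left ⟶ 𝟭 𝓜 => α.app X) (Over.w ((seq F).map f))
        exact h.trans (Category.comp_id _).symm }

/-- The inclusions of the stages. -/
noncomputable def inc (X : 𝓜) (k : ℕ) : (stage F k).left.obj X ⟶ (Q F).obj X :=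
  colimit.ι ((tow F).obj X) k

lemma inc_hom_ext {X Z : 𝓜} {f g : (Q F).obj X ⟶ Z} (h : ∀ k, inc F X k ≫ f = inc F X k ≫ g) :
    f = g :=
  colimit.hom_ext h

lemma inc_map {X Y : 𝓜} (f : X ⟶ Y) (k : ℕ) :
    inc F X k ≫ (Q F).map f = (stage F k).left.map f ≫ inc F Y k :=
  ι_colimMap _ _

/-- The projection of the cofibrant replacement. -/
noncomputable def pApp (X : 𝓜) : (Q F).obj X ⟶ X :=
  colimit.desc ((tow F).obj X) (coc F X)

lemma inc_pApp (X : 𝓜) (k : ℕ) : inc F X k ≫ pApp F X = aug (stage F k) X :=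
  colimit.ι_desc _ _

/-- The projection of the cofibrant replacement. -/
noncomputable def p : Q F ⟶ 𝟭 𝓜 where
  app X := pApp F X
  naturality X Y f := by
    apply inc_hom_ext
    intro k
    have h1 : inc F X k ≫ (Q F).map f ≫ pApp F Y = (stage F k).left.map f ≫ aug (stage F k) Y := by
      rw [← Category.assoc, inc_map, Category.assoc, inc_pApp]
    have h2 : inc F X k ≫ pApp F X ≫ f = aug (stage F k) X ≫ f := by
      rw [← Category.assoc, inc_pApp]
    exact h1.trans ((aug_naturality (stage F k) f).trans h2.symm)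

/-- The inclusion of stage `k + 1`. -/
noncomputable def incS (X : 𝓜) (k : ℕ) :
    SmallObject.functorObj (fam F) (aug (stage F k) X) ⟶ (Q F).obj X :=
  inc F X (k + 1)

lemma incS_pApp (X : 𝓜) (k : ℕ) :
    incS F X k ≫ pApp F X = SmallObject.πFunctorObj (fam F) (aug (stage F k) X) :=
  inc_pApp F X (k + 1)

lemma inc_step (X : 𝓜) (k : ℕ) :
    SmallObject.ιFunctorObj (fam F) (aug (stage F k) X) ≫ incS F X k = inc F X k := by
  have h := colimit.w ((tow F).obj X) (homOfLE (Nat.le_succ k))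
  have e : ((tow F).obj X).map (homOfLE (Nat.le_succ k)) =
      SmallObject.ιFunctorObj (fam F) (aug (stage F k) X) := by
    change ((seq F).map (homOfLE (Nat.le_succ k))).left.app X = _
    rw [seq_map]
    rfl
  rw [e] at h
  exact h

/-- The cellular structure of the cofibrant replacement. -/
noncomputable def cellSeq (X : 𝓜) : CellSeq F ((Q F).obj X) where
  G := (tow F).obj X
  zero := initialIsInitial
  J k := SmallObject.FunctorObjIndex (fam F) (aug (stage F k) X)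
  n k j := j.i
  att k := SmallObject.functorObjTop (fam F) (aug (stage F k) X)
  chr k := SmallObject.ρFunctorObj (fam F) (aug (stage F k) X)
  push k := by
    have h := (SmallObject.functorObj_isPushout (fam F) (aug (stage F k) X)).flip
    have e : ((tow F).obj X).map (homOfLE (Nat.le_succ k)) =
        SmallObject.ιFunctorObj (fam F) (aug (stage F k) X) := by
      change ((seq F).map (homOfLE (Nat.le_succ k))).left.app X = _
      rw [seq_map]
      rfl
    rw [e]
    exact h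
  ι := (colimit.cocone ((tow F).obj X)).ι
  colim := ⟨colimit.isColimit _⟩

/-- The projection is a trivial fibration if maps out of spheres into the replacement factor
through a stage. -/
lemma trivFib_p (Z : 𝓜) (h : ∀ (n : ℕ) (u : sph F n ⟶ (Q F).obj Z),
    ∃ (k : ℕ) (u' : sph F n ⟶ (stage F k).left.obj Z), u' ≫ inc F Z k = u) :
    TrivFib F ((p F).app Z) := by
  intro A B b hb
  obtain ⟨n⟩ := hb
  refine ⟨fun {u v₀} sq => ?_⟩
  obtain ⟨v, hv⟩ : ∃ v : cob F n ⟶ Z, v = v₀ := ⟨v₀, rfl⟩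
  obtain ⟨k, u', hu'⟩ := h n u
  have hsq : u ≫ pApp F Z = bd F n ≫ v := by rw [hv]; exact sq.w
  have w : u' ≫ aug (stage F k) Z = bd F n ≫ v := by
    rw [← inc_pApp, ← Category.assoc, hu', hsq]
  obtain ⟨l, h1, h2⟩ := SmallObject.ιFunctorObj_extension (fam F) (i := n) u' v ⟨w⟩
  refine ⟨⟨⟨l ≫ incS F Z k, ?_, ?_⟩⟩⟩
  · rw [← Category.assoc, h1, Category.assoc, inc_step, hu']
  · have h4 : (l ≫ incS F Z k) ≫ pApp F Z = v := by
      rw [Category.assoc, incS_pApp, h2]
    exact h4.trans hv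

end CofRep

namespace GlobExt

variable (C : GlobExt) (m : ℕ∞)

/-- Maps out of spheres into a sequential colimit factor through a stage. -/
lemma sph_factors {G : ℕ ⥤ C.Md m} {c : Cocone G} (hc : IsColimit c) (n : ℕ)
    (u : sph (C.F m) n ⟶ c.pt) : ∃ (k : ℕ) (u' : sph (C.F m) n ⟶ G.obj k), u' ≫ c.ι.app k = u := by
  have : IsFinitelyPresentable.{0} (sph (C.F m) n) := C.presentable_sph m n
  exact IsFinitelyPresentable.exists_hom_of_isColimit hc u

/-- The projection of the functorial cofibrant replacement is a trivial fibration. -/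
theorem cofRep_trivFib (X : C.Md m) : TrivFib (C.F m) ((CofRep.p (C.F m)).app X) :=
  CofRep.trivFib_p (C.F m) X fun n u =>
    C.sph_factors m (colimit.isColimit ((CofRep.tow (C.F m)).obj X)) n u

/-- Functorial cofibrant replacement by countable attachments of cells. -/
theorem exists_cofRep : ∃ (Q : C.Md m ⥤ C.Md m) (p : Q ⟶ 𝟭 _),
    (∀ X, TrivFib (C.F m) (p.app X)) ∧ ∀ X, Nonempty (CellSeq (C.F m) (Q.obj X)) :=
  ⟨CofRep.Q (C.F m), CofRep.p (C.F m), C.cofRep_trivFib m,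
    fun X => ⟨CofRep.cellSeq (C.F m) X⟩⟩

end GlobExt

end Vale.Agent.P259
end
end

section

section

open CategoryTheory Limits Opposite

namespace Vale.Agent.P259

open Theta0

namespace GlobExt

variable (C : GlobExt)

/-- A choice of identity operations: lifts `D_{n+1} ⟶ D_n` of the pairs `(1, 1)`. -/
structure Ident where
  κ : ∀ n : ℕ, C.Hom (disc (n + 1)) (disc n)
  isLift : ∀ n : ℕ, C.IsLift (C.id (disc n)) (C.id (disc n)) (κ n)

variable {C}

/-- The set of `n`-cells of a `C`-`∞`-groupoid. -/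
abbrev cell (X : C.Gpd) (n : ℕ) : Type := X.obj.obj (op (.of (disc n)))

/-- The source of a cell. -/
noncomputable def src {X : C.Gpd} {n : ℕ} (w : cell X (n + 1)) : cell X n := X.obj.map (C.J.map (σ n)).op w

/-- The target of a cell. -/
noncomputable def tgt {X : C.Gpd} {n : ℕ} (w : cell X (n + 1)) : cell X n := X.obj.map (C.J.map (τ n)).op w

/-- The map induced on cells by a morphism. -/
def mapCell {X Y : C.Gpd} (f : X ⟶ Y) {n : ℕ} (w : cell X n) : cell Y n := f.hom.app _ w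

lemma src_mapCell {X Y : C.Gpd} (f : X ⟶ Y) {n : ℕ} (w : cell X (n + 1)) :
    src (mapCell f w) = mapCell f (src w) :=
  (ConcreteCategory.congr_hom (f.hom.naturality (C.J.map (σ n)).op) w).symm

lemma tgt_mapCell {X Y : C.Gpd} (f : X ⟶ Y) {n : ℕ} (w : cell X (n + 1)) :
    tgt (mapCell f w) = mapCell f (tgt w) :=
  (ConcreteCategory.congr_hom (f.hom.naturality (C.J.map (τ n)).op) w).symm

/-- The iterated identity cell `1^n_x` of an object `x` (with `1^0_x = x`). -/
def one (I : C.Ident) {X : C.Gpd} (x : cell X 0) : ∀ n : ℕ, cell X n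
  | 0 => x
  | n + 1 => X.obj.map (show (.of (disc (n + 1)) : C.Obj) ⟶ .of (disc n) from I.κ n).op
      (one I x n)

lemma mapCell_one (I : C.Ident) {X Y : C.Gpd} (f : X ⟶ Y) (x : cell X 0) :
    ∀ n : ℕ, mapCell f (one I x n) = one I (mapCell f x) n
  | 0 => rfl
  | n + 1 => by
    rw [one, one, ← mapCell_one I f x n]
    exact ConcreteCategory.congr_hom (f.hom.naturality _) (one I x n)

/-- There is an `(n+1)`-cell from `u` to `v`. -/
def Rel {X : C.Gpd} {n : ℕ} (u v : cell X n) : Prop :=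
  ∃ w : cell X (n + 1), src w = u ∧ tgt w = v

lemma Rel.map {X Y : C.Gpd} (f : X ⟶ Y) {n : ℕ} {u v : cell X n} (h : Rel u v) :
    Rel (mapCell f u) (mapCell f v) := by
  obtain ⟨w, rfl, rfl⟩ := h
  exact ⟨mapCell f w, src_mapCell f w, tgt_mapCell f w⟩

/-- `π_0(X)`. -/
def PiZ (X : C.Gpd) : Type := Quot (Rel (X := X) (n := 0))

/-- The map induced on `π_0`. -/
noncomputable def PiZ.map {X Y : C.Gpd} (f : X ⟶ Y) : PiZ X → PiZ Y :=
  Quot.map (mapCell f) (fun _ _ h => h.map f)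

/-- The cells `1^n_x ⟶ 1^n_x`. -/
def Loops (I : C.Ident) {X : C.Gpd} (x : cell X 0) (n : ℕ) : Type :=
  {w : cell X (n + 1) // src w = one I x n ∧ tgt w = one I x n}

/-- `π_{n+1}(X, x)`: the `(n+1)`-cells `1^n_x ⟶ 1^n_x` modulo the relation: there is an
`(n+2)`-cell between them. -/
def PiN (I : C.Ident) {X : C.Gpd} (x : cell X 0) (n : ℕ) : Type :=
  Quot (fun u v : Loops I x n => Rel u.1 v.1)

/-- The map induced on `π_{n+1}`. -/
noncomputable def PiN.map (I : C.Ident) {X Y : C.Gpd} (f : X ⟶ Y) (x : cell X 0) (n : ℕ) :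
    PiN I x n → PiN I (mapCell f x) n :=
  Quot.map (fun w => ⟨mapCell f w.1, by rw [src_mapCell, w.2.1, mapCell_one],
    by rw [tgt_mapCell, w.2.2, mapCell_one]⟩) (fun _ _ h => h.map f)

/-- Weak equivalences of `C`-`∞`-groupoids: bijective on `π_0` and on all homotopy groups. -/
def weq (I : C.Ident) : MorphismProperty C.Gpd := fun X _ f =>
  Function.Bijective (PiZ.map f) ∧
    ∀ (x : cell X 0) (n : ℕ), Function.Bijective (PiN.map I f x n)

end GlobExt

end Vale.Agent.P259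
end
end

section

section

open CategoryTheory Limits

namespace Vale.Agent.P259

open scoped unitInterval Topology Topology.Homotopy

/-! ### The ball and the cube -/

/-- The cube as a subset of the Euclidean space. -/
def cubeSet (n : ℕ) : Set (EuclideanSpace ℝ (Fin n)) :=
  EuclideanSpace.equiv (Fin n) ℝ ⁻¹' Set.Icc 0 1

lemma mem_cubeSet {n : ℕ} (x : EuclideanSpace ℝ (Fin n)) :
    x ∈ cubeSet n ↔ ∀ i, x i ∈ I := by
  change (EuclideanSpace.equiv (Fin n) ℝ x) ∈ Set.Icc 0 1 ↔ _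
  rw [Set.mem_Icc, Pi.le_def, Pi.le_def]
  simp only [Set.mem_Icc]
  exact ⟨fun h i => ⟨h.1 i, h.2 i⟩, fun h => ⟨fun i => (h i).1, fun i => (h i).2⟩⟩

lemma isClosed_cubeSet (n : ℕ) : IsClosed (cubeSet n) :=
  isClosed_Icc.preimage (EuclideanSpace.equiv (Fin n) ℝ).continuous

lemma interior_cubeSet (n : ℕ) (x : EuclideanSpace ℝ (Fin n)) :
    x ∈ interior (cubeSet n) ↔ ∀ i, 0 < x i ∧ x i < 1 := by
  have h : interior (cubeSet n) =
      EuclideanSpace.equiv (Fin n) ℝ ⁻¹' interior (Set.Icc (0 : Fin n → ℝ) 1) :=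
    ((EuclideanSpace.equiv (Fin n) ℝ).toHomeomorph.preimage_interior _).symm
  rw [h, ← Set.pi_univ_Icc, interior_pi_set Set.finite_univ]
  simp only [Pi.zero_apply, Pi.one_apply, interior_Icc, Set.mem_preimage, Set.mem_pi,
    Set.mem_univ, true_imp_iff, Set.mem_Ioo]
  rfl

lemma convex_cubeSet (n : ℕ) : Convex ℝ (cubeSet n) :=
  (convex_Icc (0 : Fin n → ℝ) 1).affine_preimage
    ((EuclideanSpace.equiv (Fin n) ℝ).toLinearMap.toAffineMap)

/-- The ball and the cube are homeomorphic, with their boundaries. -/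
theorem exists_ball_homeo (n : ℕ) : ∃ e : Ball n ≃ₜ (Fin n → I),
    ∀ x : Ball n, e x ∈ Cube.boundary (Fin n) ↔ ‖x.1‖ = 1 := by
  obtain ⟨e, h1, h2, h3⟩ := exists_homeomorph_image_eq
    (convex_closedBall (0 : EuclideanSpace ℝ (Fin n)) 1)
    (by
      refine ⟨0, ?_⟩
      rw [interior_closedBall _ one_ne_zero]
      exact Metric.mem_ball_self one_pos)
    (NormedSpace.isVonNBounded_closedBall ℝ _ _) (convex_cubeSet n)
    (by
      refine ⟨WithLp.toLp 2 (fun _ => 1 / 2), ?_⟩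
      rw [interior_cubeSet]
      intro i
      change (0 : ℝ) < 1 / 2 ∧ (1 / 2 : ℝ) < 1
      norm_num)
    (by
      rw [NormedSpace.isVonNBounded_iff]
      have : IsCompact (cubeSet n) :=
        (EuclideanSpace.equiv (Fin n) ℝ).toHomeomorph.isCompact_preimage.2 isCompact_Icc
      exact this.isBounded)
  rw [Metric.isClosed_closedBall.closure_eq, (isClosed_cubeSet n).closure_eq] at h2
  rw [interior_closedBall _ one_ne_zero] at h1
  have h4 : ∀ x : EuclideanSpace ℝ (Fin n), e x ∈ cubeSet n ↔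
      x ∈ Metric.closedBall (0 : EuclideanSpace ℝ (Fin n)) 1 := by
    intro x
    rw [← h2]
    exact e.injective.mem_set_image
  have h5 : ∀ x : EuclideanSpace ℝ (Fin n), e x ∈ interior (cubeSet n) ↔
      x ∈ Metric.ball (0 : EuclideanSpace ℝ (Fin n)) 1 := by
    intro x
    rw [← h1]
    exact e.injective.mem_set_image
  have h6 : ∀ y : EuclideanSpace ℝ (Fin n), y ∈ cubeSet n →
      e.symm y ∈ Metric.closedBall (0 : EuclideanSpace ℝ (Fin n)) 1 := by
    intro y hy
    rw [← h4, e.apply_symm_apply]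
    exact hy
  have h7 : ∀ y : Fin n → I, (WithLp.toLp 2 (fun i => (y i : ℝ)) : EuclideanSpace ℝ (Fin n)) ∈
      cubeSet n := by
    intro y
    rw [mem_cubeSet]
    exact fun i => (y i).2
  refine ⟨⟨⟨fun x i => ⟨e x.1 i, (mem_cubeSet _).1 ((h4 x.1).2 x.2) i⟩,
    fun y => ⟨e.symm (WithLp.toLp 2 (fun i => (y i : ℝ))), h6 _ (h7 y)⟩, ?_, ?_⟩, ?_, ?_⟩, ?_⟩
  · intro x
    apply Subtype.ext
    exact e.symm_apply_apply x.1
  · intro y
    funext i
    apply Subtype.ext
    change e (e.symm (WithLp.toLp 2 (fun i => (y i : ℝ)))) i = y i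
    rw [e.apply_symm_apply]
  · refine continuous_pi (fun i => Continuous.subtype_mk ?_ _)
    exact (continuous_apply i).comp ((PiLp.continuous_ofLp 2 _).comp
      (e.continuous.comp continuous_subtype_val))
  · refine Continuous.subtype_mk (e.symm.continuous.comp
      ((PiLp.continuous_toLp 2 _).comp ?_)) _
    exact continuous_pi (fun i => continuous_subtype_val.comp (continuous_apply i))
  · intro x
    have h8 : ‖x.1‖ = 1 ↔ ¬ x.1 ∈ Metric.ball (0 : EuclideanSpace ℝ (Fin n)) 1 := by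
      rw [mem_ball_zero_iff]
      have := mem_closedBall_zero_iff.1 x.2
      constructor
      · intro h
        rw [h]
        exact lt_irrefl _
      · intro h
        exact le_antisymm this (not_lt.1 h)
    rw [h8, ← h5, interior_cubeSet]
    constructor
    · rintro ⟨i, hi⟩ h
      have h9 := h i
      rcases hi with hi | hi
      · have : e x.1 i = 0 := congrArg Subtype.val hi
        rw [this] at h9
        exact lt_irrefl _ h9.1
      · have : e x.1 i = 1 := congrArg Subtype.val hi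
        rw [this] at h9
        exact lt_irrefl _ h9.2
    · intro h
      push Not at h
      obtain ⟨i, hi⟩ := h
      have hm := (mem_cubeSet _).1 ((h4 x.1).2 x.2) i
      refine ⟨i, ?_⟩
      rcases hm.1.eq_or_lt with h10 | h10
      · left
        exact Subtype.ext h10.symm
      · right
        exact Subtype.ext (le_antisymm hm.2 (hi h10))

/-! ### Homotopies relative to the boundary and maps on the ball of the next dimension -/

/-- The quotient map from the cylinder of the ball to the ball of the next dimension. -/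
noncomputable def thick (n : ℕ) : C(I × Ball n, Ball (n + 1)) where
  toFun p := ⟨snocE p.2.1 ((2 * (p.1 : ℝ) - 1) * Real.sqrt (1 - ‖p.2.1‖ ^ 2)), by
    have h := (mem_ball_iff p.2.1).1 p.2.2
    rw [mem_ball_iff, norm_snocE_sq, mul_pow, Real.sq_sqrt (by linarith)]
    have h1 := p.1.2.1
    have h2 := p.1.2.2
    have h3 : (2 * (p.1 : ℝ) - 1) ^ 2 ≤ 1 := by nlinarith
    have h4 : 0 ≤ 1 - ‖p.2.1‖ ^ 2 := by linarith
    nlinarith⟩
  continuous_toFun := by
    refine Continuous.subtype_mk (continuous_snocE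
      (continuous_subtype_val.comp continuous_snd) ?_) _
    fun_prop

lemma thick_zero {n : ℕ} (x : Ball n) : thick n (0, x) = hemi false n x := by
  apply Subtype.ext
  change snocE x.1 _ = snocE x.1 _
  simp [sgn]

lemma thick_one {n : ℕ} (x : Ball n) : thick n (1, x) = hemi true n x := by
  apply Subtype.ext
  change snocE x.1 _ = snocE x.1 _
  simp [sgn]
  norm_num

lemma snocE_injective {n : ℕ} {x y : EuclideanSpace ℝ (Fin n)} {a b : ℝ}
    (h : snocE x a = snocE y b) : x = y ∧ a = b := by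
  constructor
  · rw [← initE_snocE x a, h, initE_snocE]
  · rw [← snocE_last x a, h, snocE_last]

lemma thick_eq {n : ℕ} {p q : I × Ball n} (h : thick n p = thick n q) :
    p.2 = q.2 ∧ (p.1 = q.1 ∨ ‖p.2.1‖ = 1) := by
  have h1 := snocE_injective (congrArg Subtype.val h)
  have h2 : p.2 = q.2 := Subtype.ext h1.1
  refine ⟨h2, ?_⟩
  have h3 := h1.2
  rw [← h2] at h3
  have h4 := (mem_ball_iff p.2.1).1 p.2.2
  rcases mul_eq_mul_right_iff.1 h3 with h5 | h5
  · left
    apply Subtype.ext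
    linarith
  · right
    rw [Real.sqrt_eq_zero (by linarith)] at h5
    have h6 : ‖p.2.1‖ ^ 2 = 1 := by linarith
    exact (pow_eq_one_iff_of_nonneg (norm_nonneg _) two_ne_zero).1 h6

lemma thick_surjective (n : ℕ) : Function.Surjective (thick n) := by
  intro y
  have h0 := (mem_ball_iff y.1).1 y.2
  rw [norm_sq_succ] at h0
  set a := y.1 (Fin.last n) with ha
  have hx : initE y.1 ∈ Metric.closedBall (0 : EuclideanSpace ℝ (Fin n)) 1 := by
    rw [mem_ball_iff]
    have := sq_nonneg a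
    linarith
  by_cases h : ‖initE y.1‖ ^ 2 = 1
  · have ha0 : a = 0 := by
      have h1 : a ^ 2 ≤ 0 := by linarith
      exact pow_eq_zero_iff (two_ne_zero) |>.1 (le_antisymm h1 (sq_nonneg a))
    refine ⟨(0, ⟨initE y.1, hx⟩), Subtype.ext ?_⟩
    change snocE (initE y.1) _ = y.1
    conv_rhs => rw [← snocE_initE y.1]
    rw [h, ← ha, ha0]
    simp
  · have h1 : 0 < 1 - ‖initE y.1‖ ^ 2 := by
      rcases lt_or_eq_of_le (show ‖initE y.1‖ ^ 2 ≤ 1 from by nlinarith [sq_nonneg a]) with h2 | h2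
      · linarith
      · exact absurd h2 h
    set s := Real.sqrt (1 - ‖initE y.1‖ ^ 2) with hs
    have hs0 : 0 < s := Real.sqrt_pos.2 h1
    have hs2 : s ^ 2 = 1 - ‖initE y.1‖ ^ 2 := Real.sq_sqrt h1.le
    have ha2 : |a| ≤ s := abs_le_of_sq_le_sq (by linarith) hs0.le
    have ha3 := abs_le.1 ha2
    refine ⟨(⟨(a / s + 1) / 2, ?_, ?_⟩, ⟨initE y.1, hx⟩), Subtype.ext ?_⟩
    · have : -1 ≤ a / s := by
        rw [le_div_iff₀ hs0]
        linarith [ha3.1]
      linarith
    · have : a / s ≤ 1 := by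
        rw [div_le_iff₀ hs0]
        linarith [ha3.2]
      linarith
    · change snocE (initE y.1) ((2 * ((a / s + 1) / 2) - 1) * s) = y.1
      conv_rhs => rw [← snocE_initE y.1]
      congr 1
      rw [← ha]
      field_simp
      ring

lemma isQuotientMap_thick (n : ℕ) : Topology.IsQuotientMap (thick n) :=
  IsClosedMap.isQuotientMap (thick n).continuous.isClosedMap (thick n).continuous
    (thick_surjective n)

/-- The homotopy relation of cells of a space. -/
def BHty {Y : Type*} [TopologicalSpace Y] {n : ℕ} (u v : C(Ball n, Y)) : Prop :=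
  ∃ W : C(Ball (n + 1), Y), (∀ x, W (hemi false n x) = u x) ∧ ∀ x, W (hemi true n x) = v x

/-- Cells between cells are homotopies relative to the boundary. -/
theorem homotopicRel_iff {Y : Type*} [TopologicalSpace Y] {n : ℕ} (u v : C(Ball n, Y)) :
    u.HomotopicRel v {x | ‖x.1‖ = 1} ↔ BHty u v := by
  constructor
  · rintro ⟨H⟩
    have hf : Function.FactorsThrough (⟨H, H.continuous⟩ : C(I × Ball n, Y)) (thick n) := by
      intro p q h
      obtain ⟨h1, h2 | h2⟩ := thick_eq h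
      · have : p = q := Prod.ext h2 h1
        rw [this]
      · have e1 := H.eq_fst p.1 (x := p.2) h2
        have e2 := H.eq_fst q.1 (x := q.2) (by rw [← h1]; exact h2)
        change H (p.1, p.2) = H (q.1, q.2)
        rw [e1, e2, h1]
    refine ⟨(isQuotientMap_thick n).lift ⟨H, H.continuous⟩ hf, fun x => ?_, fun x => ?_⟩
    · rw [← thick_zero]
      have := ContinuousMap.congr_fun
        ((isQuotientMap_thick n).lift_comp ⟨H, H.continuous⟩ hf) (0, x)
      exact this.trans (H.apply_zero x)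
    · rw [← thick_one]
      have := ContinuousMap.congr_fun
        ((isQuotientMap_thick n).lift_comp ⟨H, H.continuous⟩ hf) (1, x)
      exact this.trans (H.apply_one x)
  · rintro ⟨W, h1, h2⟩
    refine ⟨⟨⟨W.comp (thick n), fun x => ?_, fun x => ?_⟩, ?_⟩⟩
    · change W (thick n (0, x)) = u x
      rw [thick_zero, h1]
    · change W (thick n (1, x)) = v x
      rw [thick_one, h2]
    · intro t x hx
      change W (thick n (t, x)) = u x
      rw [← h1, ← thick_zero]
      congr 1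
      apply Subtype.ext
      change snocE x.1 _ = snocE x.1 _
      have hx' : ‖x.1‖ = 1 := hx
      rw [hx']
      simp

/-! ### Weak homotopy equivalences -/

/-- Homotopies relative to a subset can be reparametrized. -/
lemma homotopicRel_comp {X Y Z : Type*} [TopologicalSpace X] [TopologicalSpace Y]
    [TopologicalSpace Z] {u v : C(X, Y)} {S : Set X} {T : Set Z} (g : C(Z, X))
    (hg : ∀ z ∈ T, g z ∈ S) (h : u.HomotopicRel v S) : (u.comp g).HomotopicRel (v.comp g) T := by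
  obtain ⟨H⟩ := h
  refine ⟨⟨H.toHomotopy.comp (.refl g), fun t z hz => ?_⟩⟩
  exact H.eq_fst t (hg z hz)

lemma homotopic_iff_bHty {Y : Type*} [TopologicalSpace Y] {n : ℕ} (e : Ball n ≃ₜ (Fin n → I))
    (he : ∀ x : Ball n, e x ∈ Cube.boundary (Fin n) ↔ ‖x.1‖ = 1) (u v : C(Fin n → I, Y)) :
    u.HomotopicRel v (Cube.boundary (Fin n)) ↔
      BHty (u.comp (e : C(Ball n, Fin n → I))) (v.comp (e : C(Ball n, Fin n → I))) := by
  rw [← homotopicRel_iff]
  constructor
  · exact homotopicRel_comp _ (fun z hz => (he z).2 hz)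
  · intro h
    have h1 := homotopicRel_comp (T := Cube.boundary (Fin n)) (e.symm : C(Fin n → I, Ball n))
      (fun z hz => (he _).1 (by
        change e (e.symm z) ∈ _
        rwa [e.apply_symm_apply])) h
    have e1 : ∀ w : C(Fin n → I, Y),
        (w.comp (e : C(Ball n, Fin n → I))).comp (e.symm : C(Fin n → I, Ball n)) = w := by
      intro w
      ext z
      exact congrArg w (e.apply_symm_apply z)
    rwa [e1, e1] at h1

lemma comp_symm_comp {Z : Type*} [TopologicalSpace Z] {n : ℕ} (e : Ball n ≃ₜ (Fin n → I))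
    (w : C(Ball n, Z)) :
    (w.comp (e.symm : C(Fin n → I, Ball n))).comp (e : C(Ball n, Fin n → I)) = w := by
  ext z
  exact congrArg w (e.symm_apply_apply z)

/-- Bijectivity on a homotopy group, in terms of balls. -/
theorem piMap_bijective_iff {X Y : Type*} [TopologicalSpace X] [TopologicalSpace Y]
    (f : C(X, Y)) (n : ℕ) (x : X) : Function.Bijective (piMap f n x) ↔
      (∀ w : C(Ball n, Y), (∀ z, ‖z.1‖ = 1 → w z = f x) →
        ∃ w' : C(Ball n, X), (∀ z, ‖z.1‖ = 1 → w' z = x) ∧ BHty (f.comp w') w) ∧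
      (∀ u v : C(Ball n, X), (∀ z, ‖z.1‖ = 1 → u z = x) → (∀ z, ‖z.1‖ = 1 → v z = x) →
        BHty (f.comp u) (f.comp v) → BHty u v) := by
  obtain ⟨e, he⟩ := exists_ball_homeo n
  have e2 : ∀ y ∈ Cube.boundary (Fin n), ‖(e.symm y).1‖ = 1 := by
    intro y hy
    rw [← he, e.apply_symm_apply]
    exact hy
  constructor
  · rintro ⟨hi, hs⟩
    constructor
    · intro w hw
      obtain ⟨a, ha⟩ := hs (Quotient.mk _ ⟨w.comp (e.symm : C(Fin n → I, Ball n)),
        fun y hy => hw _ (e2 y hy)⟩)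
      obtain ⟨p, rfl⟩ := Quotient.exists_rep a
      have h1 : (f.comp p.1).HomotopicRel (w.comp (e.symm : C(Fin n → I, Ball n)))
        (Cube.boundary (Fin n)) := Quotient.exact ha
      rw [homotopic_iff_bHty e he, comp_symm_comp] at h1
      exact ⟨p.1.comp (e : C(Ball n, Fin n → I)), fun z hz => p.2 _ ((he z).2 hz), h1⟩
    · intro u v hu hv huv
      have h1 := hi (a₁ := Quotient.mk _ ⟨u.comp (e.symm : C(Fin n → I, Ball n)),
          fun y hy => hu _ (e2 y hy)⟩)
        (a₂ := Quotient.mk _ ⟨v.comp (e.symm : C(Fin n → I, Ball n)),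
          fun y hy => hv _ (e2 y hy)⟩) (Quotient.sound (by
          change (f.comp (u.comp (e.symm : C(Fin n → I, Ball n)))).HomotopicRel
            (f.comp (v.comp (e.symm : C(Fin n → I, Ball n)))) (Cube.boundary (Fin n))
          rw [homotopic_iff_bHty e he]
          rw [← comp_symm_comp e u, ← comp_symm_comp e v] at huv
          exact huv))
      have h2 : (u.comp (e.symm : C(Fin n → I, Ball n))).HomotopicRel
        (v.comp (e.symm : C(Fin n → I, Ball n))) (Cube.boundary (Fin n)) := Quotient.exact h1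
      rwa [homotopic_iff_bHty e he, comp_symm_comp, comp_symm_comp] at h2
  · rintro ⟨hs, hi⟩
    constructor
    · intro a b
      obtain ⟨p, rfl⟩ := Quotient.exists_rep a
      obtain ⟨q, rfl⟩ := Quotient.exists_rep b
      intro h
      have h1 : (f.comp p.1).HomotopicRel (f.comp q.1) (Cube.boundary (Fin n)) :=
        Quotient.exact h
      rw [homotopic_iff_bHty e he] at h1
      have h2 := hi (p.1.comp (e : C(Ball n, Fin n → I))) (q.1.comp (e : C(Ball n, Fin n → I)))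
        (fun z hz => p.2 _ ((he z).2 hz)) (fun z hz => q.2 _ ((he z).2 hz)) h1
      rw [← homotopic_iff_bHty e he] at h2
      exact Quotient.sound h2
    · intro b
      obtain ⟨q, rfl⟩ := Quotient.exists_rep b
      obtain ⟨w', h1, h2⟩ := hs (q.1.comp (e : C(Ball n, Fin n → I)))
        (fun z hz => q.2 _ ((he z).2 hz))
      refine ⟨Quotient.mk _ ⟨w'.comp (e.symm : C(Fin n → I, Ball n)),
        fun y hy => h1 _ (e2 y hy)⟩, Quotient.sound ?_⟩
      change (f.comp (w'.comp (e.symm : C(Fin n → I, Ball n)))).HomotopicRel q.1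
        (Cube.boundary (Fin n))
      rw [homotopic_iff_bHty e he]
      rw [← comp_symm_comp e w'] at h2
      exact h2

/-- The point of a ball of dimension zero. -/
lemma ball_zero_eq (x y : Ball 0) : x = y := Subtype.ext (Subsingleton.elim _ _)

/-- Cells of dimension one between points are paths. -/
lemma bHty_zero_iff {Y : Type*} [TopologicalSpace Y] (u v : C(Ball 0, Y)) (z : Ball 0) :
    BHty u v ↔ Joined (u z) (v z) := by
  rw [← homotopicRel_iff]
  constructor
  · rintro ⟨H⟩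
    exact ⟨⟨⟨fun t => H (t, z), by fun_prop⟩, H.apply_zero z, H.apply_one z⟩⟩
  · rintro ⟨p⟩
    refine ⟨⟨⟨⟨fun t => p t.1, by fun_prop⟩, fun x => ?_, fun x => ?_⟩, fun t x hx => ?_⟩⟩
    · rw [ball_zero_eq x z]
      exact p.source
    · rw [ball_zero_eq x z]
      exact p.target
    · exfalso
      have hx' : ‖x.1‖ = 1 := hx
      have h0 : x.1 = 0 := Subsingleton.elim _ _
      rw [h0, norm_zero] at hx'
      exact zero_ne_one hx'

/-- Bijectivity on `π_0`, in terms of balls. -/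
theorem piZeroMap_bijective_iff {X Y : Type*} [TopologicalSpace X] [TopologicalSpace Y]
    (f : C(X, Y)) : Function.Bijective (piZeroMap f) ↔
      (∀ w : C(Ball 0, Y), ∃ w' : C(Ball 0, X), BHty (f.comp w') w) ∧
      (∀ u v : C(Ball 0, X), BHty (f.comp u) (f.comp v) → BHty u v) := by
  have z : Ball 0 := ⟨0, by simp⟩
  constructor
  · rintro ⟨hi, hs⟩
    constructor
    · intro w
      obtain ⟨a, ha⟩ := hs (ZerothHomotopy.mk (w z))
      obtain ⟨x, rfl⟩ := ZerothHomotopy.mk_surjective a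
      refine ⟨ContinuousMap.const _ x, ?_⟩
      rw [bHty_zero_iff _ _ z]
      exact Quotient.exact ha
    · intro u v huv
      rw [bHty_zero_iff _ _ z] at huv ⊢
      have h1 := hi (a₁ := ZerothHomotopy.mk (u z)) (a₂ := ZerothHomotopy.mk (v z))
        (Quotient.sound huv)
      exact Quotient.exact h1
  · rintro ⟨hs, hi⟩
    constructor
    · intro a b
      obtain ⟨x, rfl⟩ := ZerothHomotopy.mk_surjective a
      obtain ⟨y, rfl⟩ := ZerothHomotopy.mk_surjective b
      intro h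
      have h1 : Joined (f x) (f y) := Quotient.exact h
      have h2 := hi (ContinuousMap.const _ x) (ContinuousMap.const _ y) (by
        rw [bHty_zero_iff _ _ z]
        exact h1)
      rw [bHty_zero_iff _ _ z] at h2
      exact Quotient.sound h2
    · intro b
      obtain ⟨y, rfl⟩ := ZerothHomotopy.mk_surjective b
      obtain ⟨w', h1⟩ := hs (ContinuousMap.const _ y)
      rw [bHty_zero_iff _ _ z] at h1
      exact ⟨ZerothHomotopy.mk (w' z), Quotient.sound h1⟩

/-- Weak homotopy equivalences, in terms of balls. -/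
theorem isWHE_iff {X Y : Type*} [TopologicalSpace X] [TopologicalSpace Y] (f : C(X, Y)) :
    IsWHE f ↔
      ((∀ w : C(Ball 0, Y), ∃ w' : C(Ball 0, X), BHty (f.comp w') w) ∧
      (∀ u v : C(Ball 0, X), BHty (f.comp u) (f.comp v) → BHty u v)) ∧
      ∀ (n : ℕ) (x : X),
        (∀ w : C(Ball (n + 1), Y), (∀ z, ‖z.1‖ = 1 → w z = f x) →
          ∃ w' : C(Ball (n + 1), X), (∀ z, ‖z.1‖ = 1 → w' z = x) ∧ BHty (f.comp w') w) ∧
        (∀ u v : C(Ball (n + 1), X), (∀ z, ‖z.1‖ = 1 → u z = x) → (∀ z, ‖z.1‖ = 1 → v z = x) →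
          BHty (f.comp u) (f.comp v) → BHty u v) := by
  unfold IsWHE
  rw [piZeroMap_bijective_iff]
  simp only [piMap_bijective_iff]

end Vale.Agent.P259
end
end

section

section

open CategoryTheory Limits Opposite

namespace Vale.Agent.P259

open GlobExt

/-- The definition of weak equivalences in terms of cells, for arbitrary iterated identity
operations. -/
def WRaw {𝓜 : Type*} [Category 𝓜] [HasPushouts 𝓜] [HasInitial 𝓜] (F : Globe ⥤ 𝓜)
    (idc : ∀ k, cob F k ⟶ cob F 0) {X Y : 𝓜} (f : X ⟶ Y) : Prop :=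
  ((∀ w : cob F 0 ⟶ Y, ∃ w' : cob F 0 ⟶ X, Hty F (w' ≫ f) w) ∧
    (∀ u v : cob F 0 ⟶ X, Hty F (u ≫ f) (v ≫ f) → Hty F u v)) ∧
  ∀ (x : cob F 0 ⟶ X) (k : ℕ),
    (∀ w : cob F (k + 1) ⟶ Y, bd F (k + 1) ≫ w = bd F (k + 1) ≫ idc (k + 1) ≫ x ≫ f →
      ∃ w' : cob F (k + 1) ⟶ X, bd F (k + 1) ≫ w' = bd F (k + 1) ≫ idc (k + 1) ≫ x ∧
        Hty F (w' ≫ f) w) ∧
    (∀ u v : cob F (k + 1) ⟶ X, bd F (k + 1) ≫ u = bd F (k + 1) ≫ idc (k + 1) ≫ x →
      bd F (k + 1) ≫ v = bd F (k + 1) ≫ idc (k + 1) ≫ x → Hty F (u ≫ f) (v ≫ f) → Hty F u v)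

lemma PathCtx.W_iff_raw {𝓜 : Type*} [Category 𝓜] [HasLimits 𝓜] [HasColimits 𝓜]
    (K : PathCtx 𝓜) {X Y : 𝓜} (f : X ⟶ Y) : K.W f ↔ WRaw K.F K.idc f := by
  change (Function.Bijective (PathCtx.PiZero.map K f) ∧
    ∀ (x : cob K.F 0 ⟶ X) (k : ℕ),
      Function.Bijective (PathCtx.Pi.map K f x k)) ↔ _
  rw [K.piZero_bijective_iff _ ((isInitialSphZero K.F).to _)]
  simp only [K.pi_bijective_iff]
  unfold WRaw PathCtx.Bij PathCtx.Sur PathCtx.Inj
  simp only [Category.assoc]
  refine and_congr (and_congr ?_ ?_) Iff.rfl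
  · constructor
    · intro h w
      obtain ⟨w', -, h2⟩ := h w (sph_zero_hom_ext _ _ _)
      exact ⟨w', h2⟩
    · intro h w _
      obtain ⟨w', h2⟩ := h w
      exact ⟨w', sph_zero_hom_ext _ _ _, h2⟩
  · constructor
    · intro h u v huv
      exact h u v (sph_zero_hom_ext _ _ _) (sph_zero_hom_ext _ _ _) huv
    · intro h u v _ _ huv
      exact h u v huv

variable {C : GlobExt} (Δ : DiscFunctor C)

namespace DiscFunctor

/-- The cells of `Π(Y)` are the maps from balls to `Y`. -/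
noncomputable def toBall {k : ℕ} {Y : TopCat.{0}} (w : cob (C.F ⊤) k ⟶ Δ.Pi.obj Y) :
    C(Ball k, Y) :=
  ((Δ.disc.inv.app (Globe.D k) : ballData.obj k ⟶ Δ.D.obj (.of (Theta0.disc k))) ≫
    (yEquiv (.of (Theta0.disc k)) (Δ.Pi.obj Y) w : Δ.D.obj (.of (Theta0.disc k)) ⟶ Y)).hom

lemma toBall_injective {k : ℕ} {Y : TopCat.{0}} {w w' : cob (C.F ⊤) k ⟶ Δ.Pi.obj Y}
    (h : Δ.toBall w = Δ.toBall w') : w = w' := by
  apply (yEquiv (C := C) (.of (Theta0.disc k)) (Δ.Pi.obj Y)).injective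
  have h1 : (Δ.disc.inv.app (Globe.D k) : ballData.obj k ⟶ Δ.D.obj (.of (Theta0.disc k))) ≫
    (yEquiv (.of (Theta0.disc k)) (Δ.Pi.obj Y) w : Δ.D.obj (.of (Theta0.disc k)) ⟶ Y) =
    (Δ.disc.inv.app (Globe.D k) : ballData.obj k ⟶ Δ.D.obj (.of (Theta0.disc k))) ≫
    (yEquiv (.of (Theta0.disc k)) (Δ.Pi.obj Y) w' : Δ.D.obj (.of (Theta0.disc k)) ⟶ Y) := TopCat.hom_ext h
  exact (cancel_epi (Δ.disc.inv.app (Globe.D k))).1 h1

lemma toBall_surjective {k : ℕ} {Y : TopCat.{0}} (b : C(Ball k, Y)) :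
    ∃ w : cob (C.F ⊤) k ⟶ Δ.Pi.obj Y, Δ.toBall w = b := by
  obtain ⟨w, hw⟩ := (yEquiv (C := C) (.of (Theta0.disc k)) (Δ.Pi.obj Y)).surjective
    ((Δ.disc.hom.app (Globe.D k) : Δ.D.obj (.of (Theta0.disc k)) ⟶ ballData.obj k) ≫ TopCat.ofHom b :
      Δ.D.obj (.of (Theta0.disc k)) ⟶ Y)
  refine ⟨w, ?_⟩
  have h1 : (Δ.disc.inv.app (Globe.D k) : ballData.obj k ⟶ Δ.D.obj (.of (Theta0.disc k))) ≫
    (yEquiv (.of (Theta0.disc k)) (Δ.Pi.obj Y) w : Δ.D.obj (.of (Theta0.disc k)) ⟶ Y) = TopCat.ofHom b := by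
    rw [hw]
    exact Δ.disc.inv_hom_id_app_assoc (Globe.D k) _
  exact congrArg TopCat.Hom.hom h1

lemma toBall_map {k : ℕ} {Y Z : TopCat.{0}} (w : cob (C.F ⊤) k ⟶ Δ.Pi.obj Y) (f : Y ⟶ Z) :
    Δ.toBall (w ≫ Δ.Pi.map f) = f.hom.comp (Δ.toBall w) := by
  have h := yEquiv_naturality_right (S := (.of (Theta0.disc k))) w (Δ.Pi.map f)
  unfold toBall
  have h2 : (yEquiv (.of (Theta0.disc k)) (Δ.Pi.obj Z) (w ≫ Δ.Pi.map f) :
      Δ.D.obj (.of (Theta0.disc k)) ⟶ Z) =
      (yEquiv (.of (Theta0.disc k)) (Δ.Pi.obj Y) w : Δ.D.obj (.of (Theta0.disc k)) ⟶ Y) ≫ f := h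
  exact congrArg (fun t : Δ.D.obj (.of (Theta0.disc k)) ⟶ Z =>
    ((Δ.disc.inv.app (Globe.D k) : ballData.obj k ⟶ Δ.D.obj (.of (Theta0.disc k))) ≫ t).hom) h2

lemma toBall_precomp {k l : ℕ} {Y : TopCat.{0}} (a : Globe.D k ⟶ Globe.D l)
    (w : cob (C.F ⊤) l ⟶ Δ.Pi.obj Y) :
    Δ.toBall ((C.F ⊤).map a ≫ w) =
      (Δ.toBall w).comp (ballF.map a : ballData.obj k ⟶ ballData.obj l).hom := by
  have h := yEquiv_naturality_left (m := ⊤) (C.discF.map a) w
  have h2 : (yEquiv (.of (Theta0.disc k)) (Δ.Pi.obj Y) ((C.F ⊤).map a ≫ w) :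
      Δ.D.obj (.of (Theta0.disc k)) ⟶ Y) = Δ.D.map (C.discF.map a) ≫
      (yEquiv (.of (Theta0.disc l)) (Δ.Pi.obj Y) w : Δ.D.obj (.of (Theta0.disc l)) ⟶ Y) := h
  have h3 := Δ.disc.inv.naturality a
  have key : ∀ (g : Δ.D.obj (C.discF.obj (Globe.D l)) ⟶ Y)
      (g' : Δ.D.obj (C.discF.obj (Globe.D k)) ⟶ Y), g' = Δ.D.map (C.discF.map a) ≫ g →
      Δ.disc.inv.app (Globe.D k) ≫ g' = ballF.map a ≫ (Δ.disc.inv.app (Globe.D l) ≫ g) := by
    intro g g' hg
    rw [hg, ← Category.assoc (ballF.map a), h3, Category.assoc]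
    rfl
  exact congrArg TopCat.Hom.hom (key _ _ h2)

lemma toBall_sg {k : ℕ} {Y : TopCat.{0}} (w : cob (C.F ⊤) (k + 1) ⟶ Δ.Pi.obj Y) :
    Δ.toBall (sg (C.F ⊤) k ≫ w) = (Δ.toBall w).comp (hemi false k) := by
  rw [Δ.toBall_precomp]
  have : (ballF.map (Globe.σ k) : ballData.obj k ⟶ ballData.obj (k + 1)) = ballData.s k :=
    ballData.functor_σ k
  exact congrArg (fun t : ballData.obj k ⟶ ballData.obj (k + 1) => (Δ.toBall w).comp t.hom) this

lemma toBall_tg {k : ℕ} {Y : TopCat.{0}} (w : cob (C.F ⊤) (k + 1) ⟶ Δ.Pi.obj Y) :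
    Δ.toBall (tg (C.F ⊤) k ≫ w) = (Δ.toBall w).comp (hemi true k) := by
  rw [Δ.toBall_precomp]
  have : (ballF.map (Globe.τ k) : ballData.obj k ⟶ ballData.obj (k + 1)) = ballData.t k :=
    ballData.functor_τ k
  exact congrArg (fun t : ballData.obj k ⟶ ballData.obj (k + 1) => (Δ.toBall w).comp t.hom) this

lemma hty_iff {k : ℕ} {Y : TopCat.{0}} (u v : cob (C.F ⊤) k ⟶ Δ.Pi.obj Y) :
    Hty (C.F ⊤) u v ↔ BHty (Δ.toBall u) (Δ.toBall v) := by
  constructor
  · rintro ⟨w, h1, h2⟩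
    refine ⟨Δ.toBall w, fun x => ?_, fun x => ?_⟩
    · rw [← h1, Δ.toBall_sg]; rfl
    · rw [← h2, Δ.toBall_tg]; rfl
  · rintro ⟨W, h1, h2⟩
    obtain ⟨w, rfl⟩ := Δ.toBall_surjective W
    refine ⟨w, Δ.toBall_injective ?_, Δ.toBall_injective ?_⟩
    · rw [Δ.toBall_sg]
      exact ContinuousMap.ext h1
    · rw [Δ.toBall_tg]
      exact ContinuousMap.ext h2

/-- Cells which factor through `D_0` are constant. -/
lemma toBall_const {k : ℕ} {Y : TopCat.{0}} (φ : cob (C.F ⊤) k ⟶ cob (C.F ⊤) 0)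
    (x : cob (C.F ⊤) 0 ⟶ Δ.Pi.obj Y) (z : Ball k) (z0 : Ball 0) :
    Δ.toBall (φ ≫ x) z = Δ.toBall x z0 := by
  have hsub : Subsingleton (Δ.D.obj (.of (Theta0.disc 0))) := by
    have e := TopCat.homeoOfIso (Δ.disc.app (Globe.D 0))
    refine ⟨fun a b => ?_⟩
    apply e.injective
    exact ball_zero_eq _ _
  obtain ⟨c, hc⟩ : ∃ c : cob (C.F ⊤) 0 ⟶ Δ.Pi.obj (Δ.D.obj (.of (Theta0.disc 0))),
      yEquiv (C := C) (m := ⊤) (.of (Theta0.disc 0))
        (Δ.Pi.obj (Δ.D.obj (.of (Theta0.disc 0)))) c = 𝟙 (Δ.D.obj (.of (Theta0.disc 0))) :=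
    (yEquiv (C := C) (m := ⊤) (.of (Theta0.disc 0))
      (Δ.Pi.obj (Δ.D.obj (.of (Theta0.disc 0))))).surjective (𝟙 (Δ.D.obj (.of (Theta0.disc 0))))
  let x' : Δ.D.obj (.of (Theta0.disc 0)) ⟶ Y := yEquiv (.of (Theta0.disc 0)) (Δ.Pi.obj Y) x
  have hx : x = c ≫ Δ.Pi.map x' := by
    apply (yEquiv (C := C) (.of (Theta0.disc 0)) (Δ.Pi.obj Y)).injective
    have e1 := yEquiv_naturality_right (S := .of (Theta0.disc 0)) c (Δ.Pi.map x')
    refine Eq.symm (e1.trans ((congrArg ((Δ.Pi.map x').hom.app (op (.of (Theta0.disc 0))))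
      hc).trans ?_))
    exact Category.id_comp x'
  have h1 : Δ.toBall (φ ≫ x) z = x'.hom (Δ.toBall (φ ≫ c) z) := by
    rw [hx, ← Category.assoc, Δ.toBall_map]
    rfl
  have h2 : Δ.toBall x z0 = x'.hom (Δ.toBall c z0) := by
    rw [hx, Δ.toBall_map]
    rfl
  rw [h1, h2]
  congr 1
  exact Subsingleton.elim _ _

lemma bd_eq_iff {k : ℕ} {Y : TopCat.{0}} (u v : cob (C.F ⊤) (k + 1) ⟶ Δ.Pi.obj Y) :
    bd (C.F ⊤) (k + 1) ≫ u = bd (C.F ⊤) (k + 1) ≫ v ↔
      ∀ z : Ball (k + 1), ‖z.1‖ = 1 → Δ.toBall u z = Δ.toBall v z := by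
  rw [bd_comp_eq_iff]
  constructor
  · rintro ⟨h1, h2⟩ z hz
    obtain ⟨b, hb⟩ := exists_hemi_eq z (by rw [hz]; norm_num)
    cases b
    · have := congrArg Δ.toBall h1
      rw [Δ.toBall_sg, Δ.toBall_sg] at this
      have := ContinuousMap.congr_fun this (projB k z)
      change Δ.toBall u (hemi false k (projB k z)) = Δ.toBall v (hemi false k (projB k z)) at this
      rwa [hb] at this
    · have := congrArg Δ.toBall h2
      rw [Δ.toBall_tg, Δ.toBall_tg] at this
      have := ContinuousMap.congr_fun this (projB k z)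
      change Δ.toBall u (hemi true k (projB k z)) = Δ.toBall v (hemi true k (projB k z)) at this
      rwa [hb] at this
  · intro h
    have hn : ∀ (b : Bool) (x : Ball k), ‖(hemi b k x).1‖ = 1 := by
      intro b x
      exact (pow_eq_one_iff_of_nonneg (norm_nonneg _) two_ne_zero).1 (norm_hemi b x)
    constructor
    · apply Δ.toBall_injective
      rw [Δ.toBall_sg, Δ.toBall_sg]
      ext x
      exact h _ (hn false x)
    · apply Δ.toBall_injective
      rw [Δ.toBall_tg, Δ.toBall_tg]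
      ext x
      exact h _ (hn true x)

/-- `Π(f)` is a weak equivalence of `∞`-groupoids iff `f` is a weak homotopy equivalence. -/
theorem wRaw_Pi_iff (idc : ∀ k, cob (C.F ⊤) k ⟶ cob (C.F ⊤) 0) {Y Z : TopCat.{0}} (f : Y ⟶ Z) :
    WRaw (C.F ⊤) idc (Δ.Pi.map f) ↔ IsWHE f.hom := by
  have z0 : Ball 0 := ⟨0, by simp⟩
  rw [isWHE_iff]
  refine and_congr ?_ ?_
  · refine and_congr ?_ ?_
    · constructor
      · intro h w
        obtain ⟨w0, rfl⟩ := Δ.toBall_surjective w
        obtain ⟨w', h2⟩ := h w0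
        refine ⟨Δ.toBall w', ?_⟩
        rw [← Δ.toBall_map, ← Δ.hty_iff]
        exact h2
      · intro h w
        obtain ⟨w', h1⟩ := h (Δ.toBall w)
        obtain ⟨w0, rfl⟩ := Δ.toBall_surjective w'
        refine ⟨w0, ?_⟩
        rw [← Δ.toBall_map, ← Δ.hty_iff] at h1
        exact h1
    · constructor
      · intro h u v huv
        obtain ⟨u, rfl⟩ := Δ.toBall_surjective u
        obtain ⟨v, rfl⟩ := Δ.toBall_surjective v
        rw [← Δ.toBall_map, ← Δ.toBall_map, ← Δ.hty_iff] at huv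
        rw [← Δ.hty_iff]
        exact h u v huv
      · intro h u v huv
        rw [Δ.hty_iff, Δ.toBall_map, Δ.toBall_map] at huv
        have := h _ _ huv
        rw [← Δ.hty_iff] at this
        exact this
  · -- the higher homotopy groups
    have hb : ∀ {T : TopCat.{0}} (k : ℕ) (x : cob (C.F ⊤) 0 ⟶ Δ.Pi.obj T)
        (w : cob (C.F ⊤) (k + 1) ⟶ Δ.Pi.obj T),
        bd (C.F ⊤) (k + 1) ≫ w = bd (C.F ⊤) (k + 1) ≫ idc (k + 1) ≫ x ↔
        ∀ z : Ball (k + 1), ‖z.1‖ = 1 → Δ.toBall w z = Δ.toBall x z0 := by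
      intro T k x w
      rw [Δ.bd_eq_iff]
      refine forall_congr' (fun z => forall_congr' (fun hz => ?_))
      rw [Δ.toBall_const _ x z z0]
    constructor
    · intro h k y
      obtain ⟨x, hx⟩ := Δ.toBall_surjective (ContinuousMap.const (Ball 0) y)
      have hx' : Δ.toBall x z0 = y := by rw [hx]; rfl
      have hfx : Δ.toBall (x ≫ Δ.Pi.map f) z0 = f.hom y := by
        rw [Δ.toBall_map]
        exact congrArg f.hom hx'
      obtain ⟨hs, hi⟩ := h x k
      constructor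
      · intro w hw
        obtain ⟨w0, rfl⟩ := Δ.toBall_surjective w
        obtain ⟨w', h2, h3⟩ := hs w0 ((hb k _ w0).2 (fun z hz => by rw [hw z hz, hfx]))
        refine ⟨Δ.toBall w', ?_, ?_⟩
        · rw [← hx']
          exact (hb k x w').1 h2
        · rw [← Δ.toBall_map, ← Δ.hty_iff]
          exact h3
      · intro u v hu hv huv
        obtain ⟨u, rfl⟩ := Δ.toBall_surjective u
        obtain ⟨v, rfl⟩ := Δ.toBall_surjective v
        rw [← Δ.toBall_map, ← Δ.toBall_map, ← Δ.hty_iff] at huv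
        rw [← Δ.hty_iff]
        rw [← hx'] at hu hv
        exact hi u v ((hb k x u).2 hu) ((hb k x v).2 hv) huv
    · intro h x k
      obtain ⟨hs, hi⟩ := h k (Δ.toBall x z0)
      have hfx : Δ.toBall (x ≫ Δ.Pi.map f) z0 = f.hom (Δ.toBall x z0) := by
        rw [Δ.toBall_map]
        rfl
      constructor
      · intro w hw
        rw [hb] at hw
        obtain ⟨w', h2, h3⟩ := hs (Δ.toBall w) (fun z hz => by rw [hw z hz, hfx])
        obtain ⟨w0, rfl⟩ := Δ.toBall_surjective w'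
        refine ⟨w0, (hb k x w0).2 h2, ?_⟩
        rw [← Δ.toBall_map, ← Δ.hty_iff] at h3
        exact h3
      · intro u v hu hv huv
        rw [Δ.hty_iff, Δ.toBall_map, Δ.toBall_map] at huv
        have := hi _ _ ((hb k x u).1 hu) ((hb k x v).1 hv) huv
        rw [← Δ.hty_iff] at this
        exact this

/-- `Π(f)` is a weak equivalence of `∞`-groupoids iff `f` is a weak homotopy equivalence. -/
theorem W_Pi_iff (hC : C.IsCoherator) (K0 : C.CylFun ⊤ 0) {Y Z : TopCat.{0}} (f : Y ⟶ Z) :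
    (K0.pathCtx hC).W (Δ.Pi.map f) ↔ IsWHE f.hom := by
  rw [PathCtx.W_iff_raw]
  exact Δ.wRaw_Pi_iff _ f

end DiscFunctor

end Vale.Agent.P259
end
end

section

section

open CategoryTheory Limits Opposite

namespace Vale.Agent.P259

universe v u

/-! ### The identity operations do not matter -/

namespace PathCtx

variable {𝓜 : Type u} [Category.{v} 𝓜] [HasLimits 𝓜] [HasColimits 𝓜] (K : PathCtx 𝓜)

/-- Every cell is homotopic to a constant cell, for an arbitrary map to `D_0`. -/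
lemma bij_iff_const' {X Y : 𝓜} (f : X ⟶ Y) {j : ℕ} (c : cob K.F j ⟶ cob K.F 0)
    (w : cob K.F j ⟶ X) :
    ∃ x : cob K.F 0 ⟶ X, K.Bij f (bd K.F j ≫ w) ↔ K.Bij f (bd K.F j ≫ c ≫ x) := by
  obtain ⟨s⟩ : Nonempty (cob K.F 0 ⟶ cob K.F j) := by
    rcases Nat.eq_zero_or_pos j with h | h
    · subst h
      exact ⟨𝟙 _⟩
    · exact ⟨K.F.map (Globe.face false h)⟩
  obtain ⟨H, h1, h2⟩ := K.exists_path (K.isCof_sph_cob j).2 (K.gc.disc j) (𝟙 _) (c ≫ s)
  refine ⟨s ≫ w, ?_⟩
  have h3 := K.bij_iff_of_path f (bd K.F j ≫ H ≫ K.P.map w)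
  have e1 : (bd K.F j ≫ H ≫ K.P.map w) ≫ K.pm.app X = bd K.F j ≫ w := by
    rw [Category.assoc, Category.assoc, K.pm.naturality, ← Category.assoc H, h1]
    simp
  have e2 : (bd K.F j ≫ H ≫ K.P.map w) ≫ K.pp.app X = bd K.F j ≫ c ≫ s ≫ w := by
    rw [Category.assoc, Category.assoc, K.pp.naturality, ← Category.assoc H, h2]
    simp
  rw [e1, e2] at h3
  exact h3

lemma bij_of_const {X Y : 𝓜} (f : X ⟶ Y) (idc : ∀ k, cob K.F k ⟶ cob K.F 0)
    (h0 : ∀ β : sph K.F 0 ⟶ X, K.Bij f β)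
    (h : ∀ (x : cob K.F 0 ⟶ X) (k : ℕ), K.Bij f (bd K.F (k + 1) ≫ idc (k + 1) ≫ x)) (j : ℕ) :
    ∀ β : sph K.F j ⟶ X, K.Bij f β := by
  have hcell : ∀ (j : ℕ) (w : cob K.F j ⟶ X), K.Bij f (bd K.F j ≫ w) := by
    intro j w
    cases j with
    | zero => exact h0 _
    | succ j =>
      obtain ⟨x, hx⟩ := K.bij_iff_const' f (idc (j + 1)) w
      exact hx.2 (h x j)
  induction j with
  | zero => exact h0
  | succ j ih =>
    intro β
    constructor
    · intro v hv
      have hpar : bd K.F j ≫ (hemS K.F j ≫ β) = bd K.F j ≫ (hemT K.F j ≫ β) := by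
        rw [← Category.assoc, ← Category.assoc, (isPushout_sph K.F j).w]
      have hh : Hty K.F (hemS K.F j ≫ β) (hemT K.F j ≫ β) := by
        apply (ih (bd K.F j ≫ (hemS K.F j ≫ β))).2 _ _ rfl hpar.symm
        refine ⟨v, ?_, ?_⟩
        · rw [← hemS_bd, Category.assoc, hv, Category.assoc]
        · rw [← hemT_bd, Category.assoc, hv, Category.assoc]
      obtain ⟨w, hw1, hw2⟩ := hh
      have hw : bd K.F (j + 1) ≫ w = β := by
        apply sph_hom_ext
        · rw [hemS_bd_assoc, hw1]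
        · rw [hemT_bd_assoc, hw2]
      have := (hcell (j + 1) w).1
      rw [hw] at this
      exact this v hv
    · intro u v hu hv huv
      have := (hcell (j + 1) u).2
      rw [hu] at this
      exact this u v hu hv huv

/-- The weak equivalences do not depend on the choice of the iterated identity operations. -/
theorem W_iff_wRaw {X Y : 𝓜} (f : X ⟶ Y) (idc : ∀ k, cob K.F k ⟶ cob K.F 0) :
    K.W f ↔ WRaw K.F idc f := by
  rw [K.W_iff_bij]
  constructor
  · intro h
    refine ⟨⟨fun w => ?_, fun u v huv => ?_⟩, fun x k => ⟨fun w hw => ?_, fun u v hu hv huv => ?_⟩⟩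
    · obtain ⟨w', -, h2⟩ := (h 0 ((isInitialSphZero K.F).to X)).1 w (sph_zero_hom_ext _ _ _)
      exact ⟨w', h2⟩
    · exact (h 0 ((isInitialSphZero K.F).to X)).2 u v (sph_zero_hom_ext _ _ _)
        (sph_zero_hom_ext _ _ _) huv
    · exact (h (k + 1) (bd K.F (k + 1) ≫ idc (k + 1) ≫ x)).1 w (by
        rw [hw]
        simp only [Category.assoc])
    · exact (h (k + 1) (bd K.F (k + 1) ≫ idc (k + 1) ≫ x)).2 u v hu hv huv
  · rintro ⟨⟨h1, h2⟩, h3⟩ j
    apply K.bij_of_const f idc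
    · intro β
      refine ⟨fun w _ => ?_, fun u v _ _ huv => h2 u v huv⟩
      obtain ⟨w', hw'⟩ := h1 w
      exact ⟨w', sph_zero_hom_ext _ _ _, hw'⟩
    · intro x k
      refine ⟨fun w hw => ?_, (h3 x k).2⟩
      exact (h3 x k).1 w (by
        rw [hw]
        simp only [Category.assoc])

end PathCtx

/-- Bijectivity of a map between quotients by equivalence relations. -/
lemma bijective_quotMap_iff {α β : Type*} {ra : α → α → Prop} {rb : β → β → Prop}
    (ha : Equivalence ra) (hb : Equivalence rb) (f : α → β)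
    (h : ∀ a b, ra a b → rb (f a) (f b)) :
    Function.Bijective (Quot.map f h) ↔
      (∀ b, ∃ a, rb (f a) b) ∧ (∀ a a', rb (f a) (f a') → ra a a') := by
  constructor
  · rintro ⟨hi, hs⟩
    constructor
    · intro b
      obtain ⟨a, hab⟩ := hs (Quot.mk _ b)
      obtain ⟨a, rfl⟩ := Quot.exists_rep a
      exact ⟨a, (hb.quot_mk_eq_iff _ _).1 hab⟩
    · intro a a' haa
      have := hi (a₁ := Quot.mk _ a) (a₂ := Quot.mk _ a') ((hb.quot_mk_eq_iff _ _).2 haa)
      exact (ha.quot_mk_eq_iff _ _).1 this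
  · rintro ⟨hs, hi⟩
    constructor
    · intro a a' haa
      obtain ⟨a, rfl⟩ := Quot.exists_rep a
      obtain ⟨a', rfl⟩ := Quot.exists_rep a'
      exact (ha.quot_mk_eq_iff _ _).2 (hi _ _ ((hb.quot_mk_eq_iff _ _).1 haa))
    · intro b
      obtain ⟨b, rfl⟩ := Quot.exists_rep b
      obtain ⟨a, hab⟩ := hs b
      exact ⟨Quot.mk _ a, (hb.quot_mk_eq_iff _ _).2 hab⟩

namespace GlobExt

variable {C : GlobExt}

/-- The element corresponding to a cell. -/
noncomputable def toCell {X : C.Gpd} {k : ℕ} (w : cob (C.F ⊤) k ⟶ X) : cell X k :=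
  yEquiv (.of (Theta0.disc k)) X w

lemma toCell_injective {X : C.Gpd} {k : ℕ} {w w' : cob (C.F ⊤) k ⟶ X}
    (h : toCell w = toCell w') : w = w' :=
  (yEquiv (C := C) (m := ⊤) (.of (Theta0.disc k)) X).injective h

lemma toCell_surjective {X : C.Gpd} {k : ℕ} (x : cell X k) :
    ∃ w : cob (C.F ⊤) k ⟶ X, toCell w = x :=
  (yEquiv (C := C) (m := ⊤) (.of (Theta0.disc k)) X).surjective x

lemma toCell_sg {X : C.Gpd} {k : ℕ} (w : cob (C.F ⊤) (k + 1) ⟶ X) :
    toCell (sg (C.F ⊤) k ≫ w) = src (toCell w) :=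
  yEquiv_naturality_left (C.discF.map (Globe.σ k)) w

lemma toCell_tg {X : C.Gpd} {k : ℕ} (w : cob (C.F ⊤) (k + 1) ⟶ X) :
    toCell (tg (C.F ⊤) k ≫ w) = tgt (toCell w) :=
  yEquiv_naturality_left (C.discF.map (Globe.τ k)) w

lemma toCell_map {X Y : C.Gpd} {k : ℕ} (w : cob (C.F ⊤) k ⟶ X) (f : X ⟶ Y) :
    toCell (w ≫ f) = mapCell f (toCell w) :=
  yEquiv_naturality_right w f

/-- The identity operation. -/
noncomputable def identMap (I : C.Ident) (k : ℕ) : cob (C.F ⊤) (k + 1) ⟶ cob (C.F ⊤) k :=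
  (C.y ⊤).map (show (.of (Theta0.disc (k + 1)) : C.Obj) ⟶ .of (Theta0.disc k) from I.κ k)

lemma sg_identMap (I : C.Ident) (k : ℕ) : sg (C.F ⊤) k ≫ identMap I k = 𝟙 _ := by
  have h := (I.isLift k).1
  have h2 : C.J.map (Theta0.σ k) ≫
      (show (.of (Theta0.disc (k + 1)) : C.Obj) ⟶ .of (Theta0.disc k) from I.κ k) = 𝟙 _ := h
  exact ((C.y ⊤).map_comp _ _).symm.trans ((congrArg (C.y ⊤).map h2).trans ((C.y ⊤).map_id _))

lemma tg_identMap (I : C.Ident) (k : ℕ) : tg (C.F ⊤) k ≫ identMap I k = 𝟙 _ := by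
  have h := (I.isLift k).2
  have h2 : C.J.map (Theta0.τ k) ≫
      (show (.of (Theta0.disc (k + 1)) : C.Obj) ⟶ .of (Theta0.disc k) from I.κ k) = 𝟙 _ := h
  exact ((C.y ⊤).map_comp _ _).symm.trans ((congrArg (C.y ⊤).map h2).trans ((C.y ⊤).map_id _))

/-- The iterated identity operations. -/
noncomputable def identIter (I : C.Ident) : ∀ k : ℕ, cob (C.F ⊤) k ⟶ cob (C.F ⊤) 0
  | 0 => 𝟙 _
  | k + 1 => identMap I k ≫ identIter I k

lemma toCell_identMap (I : C.Ident) {X : C.Gpd} {k : ℕ} (w : cob (C.F ⊤) k ⟶ X) :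
    toCell (identMap I k ≫ w) =
      X.obj.map (show (.of (Theta0.disc (k + 1)) : C.Obj) ⟶ .of (Theta0.disc k) from I.κ k).op
        (toCell w) :=
  yEquiv_naturality_left (m := ⊤)
    (show (.of (Theta0.disc (k + 1)) : C.Obj) ⟶ .of (Theta0.disc k) from I.κ k) w

lemma toCell_identIter (I : C.Ident) {X : C.Gpd} (x : cob (C.F ⊤) 0 ⟶ X) :
    ∀ k : ℕ, toCell (identIter I k ≫ x) = one I (toCell x) k
  | 0 => by
    rw [identIter, Category.id_comp]
    rfl
  | k + 1 => by
    rw [identIter, Category.assoc, toCell_identMap, toCell_identIter I x k]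
    rfl

lemma sg_identIter (I : C.Ident) (k : ℕ) :
    sg (C.F ⊤) k ≫ identIter I (k + 1) = identIter I k := by
  rw [identIter, ← Category.assoc, sg_identMap, Category.id_comp]

lemma tg_identIter (I : C.Ident) (k : ℕ) :
    tg (C.F ⊤) k ≫ identIter I (k + 1) = identIter I k := by
  rw [identIter, ← Category.assoc, tg_identMap, Category.id_comp]

lemma rel_iff {X : C.Gpd} {k : ℕ} (u v : cob (C.F ⊤) k ⟶ X) :
    Rel (toCell u) (toCell v) ↔ Hty (C.F ⊤) u v := by
  constructor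
  · rintro ⟨w, h1, h2⟩
    obtain ⟨w, rfl⟩ := toCell_surjective w
    exact ⟨w, toCell_injective (by rw [toCell_sg, h1]), toCell_injective (by rw [toCell_tg, h2])⟩
  · rintro ⟨w, h1, h2⟩
    exact ⟨toCell w, by rw [← toCell_sg, h1], by rw [← toCell_tg, h2]⟩

lemma equivalence_rel (hF : GContr (C.F ⊤)) (X : C.Gpd) (k : ℕ) :
    Equivalence (Rel (X := X) (n := k)) := by
  refine ⟨fun u => ?_, fun {u v} h => ?_, fun {u v w} h h' => ?_⟩
  · obtain ⟨u, rfl⟩ := toCell_surjective u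
    rw [rel_iff]
    exact hF.hty_refl u
  · obtain ⟨u, rfl⟩ := toCell_surjective u
    obtain ⟨v, rfl⟩ := toCell_surjective v
    rw [rel_iff] at h ⊢
    exact hF.hty_symm h
  · obtain ⟨u, rfl⟩ := toCell_surjective u
    obtain ⟨v, rfl⟩ := toCell_surjective v
    obtain ⟨w, rfl⟩ := toCell_surjective w
    rw [rel_iff] at h h' ⊢
    exact hF.hty_trans h h'

lemma loops_iff (I : C.Ident) {X : C.Gpd} (x : cob (C.F ⊤) 0 ⟶ X) {k : ℕ}
    (w : cob (C.F ⊤) (k + 1) ⟶ X) :
    (src (toCell w) = one I (toCell x) k ∧ tgt (toCell w) = one I (toCell x) k) ↔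
      bd (C.F ⊤) (k + 1) ≫ w = bd (C.F ⊤) (k + 1) ≫ identIter I (k + 1) ≫ x := by
  rw [bd_comp_eq_iff, ← Category.assoc (sg (C.F ⊤) k), ← Category.assoc (tg (C.F ⊤) k),
    sg_identIter, tg_identIter, ← toCell_identIter, ← toCell_sg, ← toCell_tg]
  exact ⟨fun h => ⟨toCell_injective h.1, toCell_injective h.2⟩,
    fun h => ⟨congrArg toCell h.1, congrArg toCell h.2⟩⟩

/-- The official weak equivalences are the weak equivalences of the path context. -/
theorem weq_iff_wRaw (hF : GContr (C.F ⊤)) (I : C.Ident) {X Y : C.Gpd} (f : X ⟶ Y) :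
    weq I f ↔ WRaw (C.F ⊤) (identIter I) f := by
  unfold weq WRaw
  refine and_congr ?_ ?_
  · refine (bijective_quotMap_iff (equivalence_rel hF X 0) (equivalence_rel hF Y 0)
      (mapCell f) (fun _ _ h => h.map f)).trans ?_
    refine and_congr ?_ ?_
    · constructor
      · intro h w
        obtain ⟨a, ha⟩ := h (toCell w)
        obtain ⟨a, rfl⟩ := toCell_surjective a
        rw [← toCell_map, rel_iff] at ha
        exact ⟨a, ha⟩
      · intro h b
        obtain ⟨b, rfl⟩ := toCell_surjective b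
        obtain ⟨a, ha⟩ := h b
        refine ⟨toCell a, ?_⟩
        rw [← toCell_map, rel_iff]
        exact ha
    · constructor
      · intro h u v huv
        rw [← rel_iff, toCell_map, toCell_map] at huv
        exact (rel_iff _ _).1 (h _ _ huv)
      · intro h u v huv
        obtain ⟨u, rfl⟩ := toCell_surjective u
        obtain ⟨v, rfl⟩ := toCell_surjective v
        rw [← toCell_map, ← toCell_map, rel_iff] at huv
        exact (rel_iff _ _).2 (h _ _ huv)
  · have heq : ∀ {Z : C.Gpd} (z : cell Z 0) (k : ℕ),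
        Equivalence (fun u v : Loops I z k => Rel u.1 v.1) := by
      intro Z z k
      have h := equivalence_rel hF Z (k + 1)
      exact ⟨fun u => h.refl _, fun h' => h.symm h', fun h' h'' => h.trans h' h''⟩
    constructor
    · intro h x k
      obtain ⟨hs, hi⟩ := (bijective_quotMap_iff (heq (toCell x) k) (heq (mapCell f (toCell x)) k)
        _ _).1 (h (toCell x) k)
      constructor
      · intro w hw
        have hw' := (loops_iff I (x ≫ f) w).2 hw
        rw [toCell_map] at hw'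
        obtain ⟨a, ha⟩ := hs ⟨toCell w, hw'⟩
        obtain ⟨a, ha'⟩ := a
        obtain ⟨a, rfl⟩ := toCell_surjective a
        refine ⟨a, (loops_iff I x a).1 ha', ?_⟩
        change Rel (mapCell f (toCell a)) (toCell w) at ha
        rwa [← toCell_map, rel_iff] at ha
      · intro u v hu hv huv
        have hu' := (loops_iff I x u).2 hu
        have hv' := (loops_iff I x v).2 hv
        rw [← rel_iff, toCell_map, toCell_map] at huv
        exact (rel_iff _ _).1 (hi ⟨toCell u, hu'⟩ ⟨toCell v, hv'⟩ huv)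
    · intro h x k
      obtain ⟨x, rfl⟩ := toCell_surjective x
      obtain ⟨hs, hi⟩ := h x k
      refine (bijective_quotMap_iff (heq (toCell x) k) (heq (mapCell f (toCell x)) k)
        _ _).2 ?_
      constructor
      · rintro ⟨w, hw⟩
        obtain ⟨w, rfl⟩ := toCell_surjective w
        rw [← toCell_map] at hw
        obtain ⟨a, ha, ha'⟩ := hs w ((loops_iff I (x ≫ f) w).1 hw)
        refine ⟨⟨toCell a, (loops_iff I x a).2 ha⟩, ?_⟩
        change Rel (mapCell f (toCell a)) (toCell w)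
        rwa [← toCell_map, rel_iff]
      · rintro ⟨u, hu⟩ ⟨v, hv⟩ huv
        obtain ⟨u, rfl⟩ := toCell_surjective u
        obtain ⟨v, rfl⟩ := toCell_surjective v
        change Rel (mapCell f (toCell u)) (mapCell f (toCell v)) at huv
        change Rel (toCell u) (toCell v)
        rw [← toCell_map, ← toCell_map, rel_iff] at huv
        rw [rel_iff]
        exact hi u v ((loops_iff I x u).1 hu) ((loops_iff I x v).1 hv) huv

/-- The official weak equivalences are the weak equivalences of the path context, for every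
choice of the identity operations. -/
theorem weq_iff (hC : C.IsCoherator) (K0 : C.CylFun ⊤ 0) (I : C.Ident) {X Y : C.Gpd}
    (f : X ⟶ Y) : weq I f ↔ (K0.pathCtx hC).W f := by
  rw [weq_iff_wRaw (gContr hC ⊤) I f]
  exact ((K0.pathCtx hC).W_iff_wRaw f (identIter I)).symm

/-- A coherator has identity operations. -/
theorem exists_ident (hC : C.IsCoherator) : Nonempty C.Ident := by
  have h : ∀ n : ℕ, ∃ κ : C.Hom (Theta0.disc (n + 1)) (Theta0.disc n),
      C.IsLift (C.id (Theta0.disc n)) (C.id (Theta0.disc n)) κ := by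
    intro n
    apply hC.lifts
    cases n with
    | zero => trivial
    | succ n => exact ⟨rfl, rfl⟩
  choose κ hκ using h
  exact ⟨⟨κ, hκ⟩⟩

/-- `Π(f)` is a weak equivalence iff `f` is a weak homotopy equivalence. -/
theorem weq_Pi_iff (hC : C.IsCoherator) (K0 : C.CylFun ⊤ 0) (I : C.Ident) (Δ : DiscFunctor C)
    {Y Z : TopCat.{0}} (f : Y ⟶ Z) : weq I (Δ.Pi.map f) ↔ IsWHE f.hom := by
  rw [weq_iff hC K0]
  exact Δ.W_Pi_iff hC K0 f

end GlobExt

end Vale.Agent.P259
end
end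

section

section

open CategoryTheory Limits

namespace Vale.Agent.P259

set_option linter.unusedSectionVars false

universe u

open PSh

variable {𝓜 : Type u} [Category.{0} 𝓜] [HasColimitsOfSize.{0, 0} 𝓜] [HasLimitsOfSize.{0, 0} 𝓜]

variable {S : Type} [SmallCategory S] {B : S ⥤ 𝓜} {F : Globe ⥤ 𝓜}

/-- The image of a morphism of presheaves. -/
def PSh.Hom.im {K' K : PSh S} (α : Hom K' K) : Sub K where
  mem y := ∃ x, α.app x = y
  res := by
    rintro s t f _ ⟨x, rfl⟩
    exact ⟨K'.res f x, α.nat f x⟩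

/-- The isomorphism of realizations given by inverse morphisms. -/
lemma real.map_isIso {K L : PSh S} (f : Hom K L) (g : Hom L K)
    (h1 : ∀ {s : S} (x : K.obj s), g.app (f.app x) = x)
    (h2 : ∀ {s : S} (x : L.obj s), f.app (g.app x) = x) :
    IsIso (real.map f : real B K ⟶ real B L) := by
  refine ⟨real.map g, ?_, ?_⟩
  · apply real.hom_ext
    intro s x
    rw [real.ι_map_assoc, real.ι_map, h1, Category.comp_id]
  · apply real.hom_ext
    intro s x
    rw [real.ι_map_assoc, real.ι_map, h2, Category.comp_id]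

theorem real_mono_cof (hB : PCofibrant F B) {K' K : PSh S} (α : Hom K' K)
    (hα : ∀ (s : S), Function.Injective (α.app (s := s))) :
    Cof F (real.map α : real B K' ⟶ real B K) := by
  let β : Hom K' α.im.psh :=
    { app := fun x => ⟨α.app x, x, rfl⟩
      nat := fun f x => Subtype.ext (α.nat f x) }
  let γ : Hom α.im.psh K' :=
    { app := fun x => x.2.choose
      nat := by
        intro s t f x
        apply hα
        rw [(α.im.psh.res f x).2.choose_spec, α.nat, x.2.choose_spec] }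
  have h1 : ∀ {s : S} (x : K'.obj s), γ.app (β.app x) = x := fun x =>
    hα _ (β.app x).2.choose_spec
  have h2 : ∀ {s : S} (x : α.im.psh.obj s), β.app (γ.app x) = x := fun x =>
    Subtype.ext x.2.choose_spec
  have := real.map_isIso (B := B) β γ h1 h2
  have e : (real.map α : real B K' ⟶ real B K) = real.map β ≫ real.incl B α.im := by
    rw [real.map_comp]
    rfl
  rw [e]
  exact MorphismProperty.comp_mem _ _ _ (MorphismProperty.llp_of_isIso _ _)
    (real_incl_cof _ hB)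

/-- The inclusion between subpresheaves. -/
@[simps]
def PSh.Sub.homOfLE {K : PSh S} {L L' : Sub K} (h : ∀ {s : S} (x : K.obj s), L.mem x → L'.mem x) :
    Hom L.psh L'.psh where
  app x := ⟨x.1, h x.1 x.2⟩
  nat _ _ := rfl

/-- The intersection of two subpresheaves. -/
abbrev PSh.Sub.inf {K : PSh S} (L L' : Sub K) : Sub K where
  mem x := L.mem x ∧ L'.mem x
  res f _ h := ⟨L.res f h.1, L'.res f h.2⟩

theorem real_isPushout {K : PSh S} (L L' : Sub K)
    (h : ∀ {s : S} (x : K.obj s), L.mem x ∨ L'.mem x) :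
    IsPushout (real.map (Sub.homOfLE (L := L.inf L') (L' := L) (fun _ h => h.1)))
      (real.map (Sub.homOfLE (L := L.inf L') (L' := L') (fun _ h => h.2)))
      (real.incl B L) (real.incl B L') := by
  classical
  have w : real.map (B := B) (Sub.homOfLE (L := L.inf L') (L' := L) (fun _ h => h.1)) ≫
      real.incl B L = real.map (Sub.homOfLE (L := L.inf L') (L' := L') (fun _ h => h.2)) ≫
        real.incl B L' := by
    rw [real.map_comp, real.map_comp]
    rfl
  have key : ∀ (s : PushoutCocone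
      (real.map (B := B) (Sub.homOfLE (L := L.inf L') (L' := L) (fun _ h => h.1)))
      (real.map (Sub.homOfLE (L := L.inf L') (L' := L') (fun _ h => h.2)))) {r : S}
      (x : K.obj r) (hx : L.mem x) (hx' : L'.mem x),
      real.ι (K := L.psh) ⟨x, hx⟩ ≫ s.inl = real.ι (K := L'.psh) ⟨x, hx'⟩ ≫ s.inr := by
    intro s r x hx hx'
    have := real.ι (B := B) (K := (L.inf L').psh) ⟨x, hx, hx'⟩ ≫= s.condition
    rw [real.ι_map_assoc, real.ι_map_assoc] at this
    exact this
  refine ⟨⟨w⟩, ⟨PushoutCocone.IsColimit.mk w (fun s => real.desc (fun {r} x =>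
    if hx : L.mem x then real.ι (K := L.psh) ⟨x, hx⟩ ≫ s.inl else
      real.ι (K := L'.psh) ⟨x, (h x).resolve_left hx⟩ ≫ s.inr) ?_) ?_ ?_ ?_⟩⟩
  · intro a b f x
    by_cases hx : L.mem x
    · rw [dif_pos hx, dif_pos (L.res f hx), real.w_assoc]
    · rw [dif_neg hx]
      by_cases hx' : L.mem (K.res f x)
      · rw [dif_pos hx', real.w_assoc,
          key s (K.res f x) hx' (L'.res f ((h x).resolve_left hx))]
      · rw [dif_neg hx', real.w_assoc]
  · intro s
    apply real.hom_ext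
    intro r x
    rw [real.ι_map_assoc, real.ι_desc]
    exact dif_pos x.2
  · intro s
    apply real.hom_ext
    intro r x
    rw [real.ι_map_assoc, real.ι_desc]
    by_cases hx : L.mem x.1
    · exact (dif_pos hx).trans (key s x.1 hx x.2)
    · exact dif_neg hx
  · intro s m h1 h2
    apply real.hom_ext
    intro r x
    rw [real.ι_desc]
    by_cases hx : L.mem x
    · rw [dif_pos hx, ← h1, real.ι_map_assoc]
      rfl
    · rw [dif_neg hx, ← h2, real.ι_map_assoc]
      rfl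

/-- The union of two subpresheaves with contractible realizations and contractible
intersection. -/
theorem contr_union (hF : Good F) (hB : PCofibrant F B) {K : PSh S} (L L' : Sub K)
    (h : ∀ {s : S} (x : K.obj s), L.mem x ∨ L'.mem x)
    (h0 : Contr F (real B (L.inf L').psh)) (h1 : Contr F (real B L.psh))
    (h2 : Contr F (real B L'.psh)) : Contr F (real B K) := by
  have c : Cof F (real.map (B := B)
      (Sub.homOfLE (L := L.inf L') (L' := L') (fun _ h => h.2))) := by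
    apply real_mono_cof hB
    intro s x y hxy
    exact Subtype.ext (congrArg (fun z => z.1) hxy)
  have c' := Cof.an hF c (real_cofibrant hB) h0 h2
  exact hF.anContr _ (real_cofibrant hB) h1
    (MorphismProperty.of_isPushout (real_isPushout L L' h) c')

end Vale.Agent.P259
end
end

section

section

open CategoryTheory Limits Opposite

namespace Vale.Agent.P259

open scoped unitInterval

open PSh

set_option linter.unusedSectionVars false

/-- A category of cubes, mapping to spaces, with a cylinder functor. -/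
structure TestCat (S : Type) [SmallCategory S] where
  T : S ⥤ TopCat.{0}
  cube : ∀ s, ∃ n, T.obj s = cubeT n
  pt : S
  ptTerminal : IsTerminal pt
  ptCube : T.obj pt = cubeT 0
  cyl : S ⥤ S
  i0 : 𝟭 S ⟶ cyl
  i1 : 𝟭 S ⟶ cyl
  p : cyl ⟶ 𝟭 S
  i0_p : ∀ s, i0.app s ≫ p.app s = 𝟙 s
  i1_p : ∀ s, i1.app s ≫ p.app s = 𝟙 s
  time : ∀ s, C(T.obj (cyl.obj s), I)
  time_map : ∀ {s t : S} (f : s ⟶ t) (x : T.obj (cyl.obj s)),
    time t (T.map (cyl.map f) x) = time s x
  time_i0 : ∀ (s : S) (x : T.obj s), time s (T.map (i0.app s) x) = 0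
  time_i1 : ∀ (s : S) (x : T.obj s), time s (T.map (i1.app s) x) = 1

variable {S : Type} [SmallCategory S]

/-- The presheaf of singular cubes of a space. -/
@[simps]
def SingP (T : S ⥤ TopCat.{0}) (Y : TopCat.{0}) : PSh S where
  obj s := T.obj s ⟶ Y
  res f g := T.map f ≫ g
  res_id x := by simp
  res_comp f g x := by simp

/-- Functoriality of singular cubes. -/
@[simps]
def SingP.map (T : S ⥤ TopCat.{0}) {Y Y' : TopCat.{0}} (f : Y ⟶ Y') :
    PSh.Hom (SingP T Y) (SingP T Y') where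
  app y := y ≫ f
  nat _ _ := Category.assoc _ _ _

section

variable {𝓜 : Type 1} [Category.{0} 𝓜] [HasLimits 𝓜] [HasColimits 𝓜]
variable (T : S ⥤ TopCat.{0}) (B : S ⥤ 𝓜)

/-- The functor `Γ`. -/
noncomputable def Gam : TopCat.{0} ⥤ 𝓜 where
  obj Y := real B (SingP T Y)
  map f := real.map (SingP.map T f)
  map_id Y := by
    apply real.hom_ext
    intro s x
    rw [real.ι_map, Category.comp_id]
    congr 1
  map_comp f g := by
    apply real.hom_ext
    intro s x
    rw [real.ι_map, real.ι_map_assoc, real.ι_map]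
    congr 1

variable {T B}

/-- The canonical map attached to a singular cube. -/
noncomputable def Gam.el {Y : TopCat.{0}} {s : S} (y : T.obj s ⟶ Y) : B.obj s ⟶ (Gam T B).obj Y :=
  real.ι (K := SingP T Y) y

lemma Gam.map_el {Y : TopCat.{0}} {s t : S} (f : s ⟶ t) (y : T.obj t ⟶ Y) :
    B.map f ≫ (Gam.el y : B.obj t ⟶ (Gam T B).obj Y) = Gam.el (T.map f ≫ y) :=
  real.w (K := SingP T Y) f y

lemma Gam.el_map {Y Y' : TopCat.{0}} {s : S} (y : T.obj s ⟶ Y) (f : Y ⟶ Y') :
    (Gam.el y : B.obj s ⟶ (Gam T B).obj Y) ≫ (Gam T B).map f = Gam.el (y ≫ f) :=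
  real.ι_map _ _

lemma Gam.hom_ext {Y : TopCat.{0}} {X : 𝓜} {f g : (Gam T B).obj Y ⟶ X}
    (h : ∀ {s : S} (y : T.obj s ⟶ Y), Gam.el y ≫ f = Gam.el y ≫ g) : f = g :=
  real.hom_ext (K := SingP T Y) (fun y => h y)

/-- Maps out of `Γ(Y)`. -/
noncomputable def Gam.desc {Y : TopCat.{0}} {X : 𝓜} (φ : ∀ s : S, (T.obj s ⟶ Y) → (B.obj s ⟶ X))
    (h : ∀ (s t : S) (f : s ⟶ t) (y : T.obj t ⟶ Y), B.map f ≫ φ t y = φ s (T.map f ≫ y)) :
    (Gam T B).obj Y ⟶ X :=
  real.desc (K := SingP T Y) (fun {s} y => φ s y) (fun {s t} f y => h s t f y)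

@[reassoc]
lemma Gam.el_desc {Y : TopCat.{0}} {X : 𝓜} (φ : ∀ s : S, (T.obj s ⟶ Y) → (B.obj s ⟶ X))
    (h : ∀ (s t : S) (f : s ⟶ t) (y : T.obj t ⟶ Y), B.map f ≫ φ t y = φ s (T.map f ≫ y))
    {s : S} (y : T.obj s ⟶ Y) : Gam.el y ≫ Gam.desc φ h = φ s y :=
  real.ι_desc (K := SingP T Y) (fun {s} y => φ s y) (fun {s t} f y => h s t f y) y

/-- Natural transformations out of `Γ`. -/
noncomputable def Gam.ofB {A : TopCat.{0} ⥤ 𝓜} (a : B ⟶ T ⋙ A) : Gam T B ⟶ A where
  app Y := Gam.desc (fun s y => a.app s ≫ A.map y) (fun s t f y => by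
    rw [← Category.assoc, a.naturality, Category.assoc, Functor.comp_map, ← A.map_comp])
  naturality Y Y' f := by
    apply Gam.hom_ext
    intro s y
    rw [← Category.assoc, Gam.el_map, Gam.el_desc, Gam.el_desc_assoc, Category.assoc, A.map_comp]

lemma Gam.el_ofB {A : TopCat.{0} ⥤ 𝓜} (a : B ⟶ T ⋙ A) {Y : TopCat.{0}} {s : S}
    (y : T.obj s ⟶ Y) : Gam.el y ≫ (Gam.ofB a).app Y = a.app s ≫ A.map y := by
  have hn : ∀ (s t : S) (f : s ⟶ t) (y : T.obj t ⟶ Y),
      B.map f ≫ a.app t ≫ A.map y = a.app s ≫ A.map (T.map f ≫ y) := fun s t f y => by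
    rw [← Category.assoc, a.naturality, Category.assoc, Functor.comp_map, ← A.map_comp]
  exact Gam.el_desc (fun s y => a.app s ≫ A.map y) hn y

/-- The universal transformation. -/
noncomputable def Gam.e : B ⟶ T ⋙ Gam T B where
  app s := Gam.el (𝟙 _)
  naturality s t f := by
    rw [Gam.map_el, Functor.comp_map, Gam.el_map]
    congr 1

lemma Gam.e_ofB {A : TopCat.{0} ⥤ 𝓜} (a : B ⟶ T ⋙ A) :
    (Gam.e : B ⟶ T ⋙ Gam T B) ≫ Functor.whiskerLeft T (Gam.ofB a) = a := by
  ext s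
  simp only [NatTrans.comp_app, Functor.whiskerLeft_app]
  refine (Gam.el_ofB a (𝟙 (T.obj s))).trans ?_
  rw [A.map_id]
  exact Category.comp_id _

lemma Gam.el_eq {Y : TopCat.{0}} {s : S} (y : T.obj s ⟶ Y) :
    (Gam.el y : B.obj s ⟶ (Gam T B).obj Y) =
      (Gam.e : B ⟶ T ⋙ Gam T B).app s ≫ (Gam T B).map y := by
  refine Eq.trans ?_ (Gam.el_map _ _).symm
  rw [Category.id_comp]

lemma Gam.nat_ext {A : TopCat.{0} ⥤ 𝓜} {a b : Gam T B ⟶ A}
    (h : (Gam.e : B ⟶ T ⋙ Gam T B) ≫ Functor.whiskerLeft T a =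
      Gam.e ≫ Functor.whiskerLeft T b) : a = b := by
  ext Y
  apply Gam.hom_ext
  intro s y
  have h1 := congr_app h s
  simp only [NatTrans.comp_app, Functor.whiskerLeft_app] at h1
  rw [Gam.el_eq, Category.assoc, Category.assoc, a.naturality, b.naturality, ← Category.assoc,
    h1, Category.assoc]

variable {F : Globe ⥤ 𝓜}

/-- The lifting property of `Γ`. -/
theorem Gam.lift (hB : PCofibrant F B) (hT : ∀ s, ∃ n, T.obj s = cubeT n)
    (A A' : TopCat.{0} ⥤ 𝓜) (p : A ⟶ A') (hp : ∀ n, TrivFib F (p.app (cubeT n)))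
    (b : Gam T B ⟶ A') : ∃ a : Gam T B ⟶ A, a ≫ p = b := by
  have hp' : (TrivFib F).functorCategory S (Functor.whiskerLeft T p) := by
    have key : ∀ X : TopCat.{0}, (∃ n, X = cubeT n) → TrivFib F (p.app X) := by
      rintro _ ⟨n, rfl⟩
      exact hp n
    intro s
    exact key _ (hT s)
  have := hB _ hp'
  have sq : CommSq (initial.to (T ⋙ A)) (initial.to B) (Functor.whiskerLeft T p)
      (Gam.e ≫ Functor.whiskerLeft T b) := ⟨initial.hom_ext _ _⟩
  refine ⟨Gam.ofB sq.lift, Gam.nat_ext ?_⟩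
  rw [Functor.whiskerLeft_comp, ← Category.assoc, Gam.e_ofB, sq.fac_right]

/-- `Γ` sends injective maps to cofibrations. -/
theorem Gam.cof (hB : PCofibrant F B) {Y Y' : TopCat.{0}} (f : Y ⟶ Y')
    (hf : Function.Injective f) : Cof F ((Gam T B).map f) := by
  apply real_mono_cof hB
  intro s x y hxy
  change T.obj s ⟶ Y at x y
  change x ≫ f = y ≫ f at hxy
  apply ConcreteCategory.hom_ext
  intro t
  exact hf (ConcreteCategory.congr_hom hxy t)

/-- The value of `Γ` at an empty space. -/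
theorem Gam.empty (hT : ∀ s, Nonempty (T.obj s)) (Y : TopCat.{0}) (hY : IsEmpty Y) :
    Nonempty (IsInitial ((Gam T B).obj Y)) := by
  refine ⟨IsInitial.ofUniqueHom (fun X => Gam.desc (fun s y => (hY.false (y (hT s).some)).elim)
    (fun s t f y => (hY.false (y (hT t).some)).elim)) ?_⟩
  intro X m
  apply Gam.hom_ext
  intro s y
  exact (hY.false (y (hT s).some)).elim

/-- The functor `X ↦ X × X`. -/
noncomputable def sqF (𝓜 : Type 1) [Category.{0} 𝓜] [HasLimits 𝓜] : 𝓜 ⥤ 𝓜 where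
  obj X := X ⨯ X
  map f := prod.map f f
  map_id _ := prod.map_id_id
  map_comp f g := (prod.map_map f f g g).symm

variable (K : PathCtx 𝓜)

/-- The two ends of a path. -/
noncomputable def endsN : K.P ⟶ sqF 𝓜 where
  app X := prod.lift (K.pm.app X) (K.pp.app X)
  naturality X Y f := by
    apply prod.hom_ext <;> simp [sqF]

lemma comp_endsN_iff {A X : 𝓜} (l : A ⟶ K.P.obj X) (u v : A ⟶ X) :
    l ≫ (endsN K).app X = prod.lift u v ↔ l ≫ K.pm.app X = u ∧ l ≫ K.pp.app X = v := by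
  have h1 : l ≫ (endsN K).app X =
      (prod.lift (l ≫ K.pm.app X) (l ≫ K.pp.app X) :
        A ⟶ (𝟭 𝓜).obj X ⨯ (𝟭 𝓜).obj X) := prod.comp_lift _ _ _
  constructor
  · intro h
    rw [h1] at h
    have h2 := congrArg (fun z : A ⟶ (𝟭 𝓜).obj X ⨯ (𝟭 𝓜).obj X => z ≫ prod.fst) h
    have h3 := congrArg (fun z : A ⟶ (𝟭 𝓜).obj X ⨯ (𝟭 𝓜).obj X => z ≫ prod.snd) h
    rw [prod.lift_fst] at h2
    rw [prod.lift_snd] at h3
    exact ⟨h2.trans (prod.lift_fst _ _), h3.trans (prod.lift_snd _ _)⟩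
  · rintro ⟨rfl, rfl⟩
    exact h1

/-- Two maps from a projectively cofibrant diagram to a levelwise contractible diagram are
homotopic. -/
lemma exists_pathDiag (hB : PCofibrant K.F B) {X : S ⥤ 𝓜} (hX : ∀ s, Contr K.F (X.obj s))
    (u v : B ⟶ X) : ∃ l : B ⟶ X ⋙ K.P, l ≫ Functor.whiskerLeft X K.pm = u ∧
      l ≫ Functor.whiskerLeft X K.pp = v := by
  let t : B ⟶ X ⋙ sqF 𝓜 :=
    { app := fun e => prod.lift (u.app e) (v.app e)
      naturality := fun e e' f => by
        apply prod.hom_ext <;> simp [sqF] }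
  have := hB (Functor.whiskerLeft X (endsN K)) (fun e => K.contr _ (hX e))
  have sq : CommSq (initial.to (X ⋙ K.P)) (initial.to B) (Functor.whiskerLeft X (endsN K)) t :=
    ⟨initial.hom_ext _ _⟩
  refine ⟨sq.lift, ?_, ?_⟩
  · ext e
    exact ((comp_endsN_iff K _ _ _).1 (congr_app sq.fac_right e)).1
  · ext e
    exact ((comp_endsN_iff K _ _ _).1 (congr_app sq.fac_right e)).2

section Homotopy

variable (Q : TestCat S)

/-- The singular cube of the cylinder given by a homotopy. -/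
def hcube {Y Y' : TopCat.{0}} {f g : C(Y, Y')} (H : f.Homotopy g) {s : S} (y : Q.T.obj s ⟶ Y) :
    Q.T.obj (Q.cyl.obj s) ⟶ Y' :=
  TopCat.ofHom (H.toContinuousMap.comp ((Q.time s).prodMk (Q.T.map (Q.p.app s) ≫ y).hom))

lemma hcube_apply {Y Y' : TopCat.{0}} {f g : C(Y, Y')} (H : f.Homotopy g) {s : S}
    (y : Q.T.obj s ⟶ Y) (x : Q.T.obj (Q.cyl.obj s)) :
    hcube Q H y x = H (Q.time s x, y (Q.T.map (Q.p.app s) x)) := rfl

lemma map_hcube {Y Y' : TopCat.{0}} {f g : C(Y, Y')} (H : f.Homotopy g) {s t : S} (φ : s ⟶ t)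
    (y : Q.T.obj t ⟶ Y) :
    Q.T.map (Q.cyl.map φ) ≫ hcube Q H y = hcube Q H (Q.T.map φ ≫ y) := by
  apply ConcreteCategory.hom_ext
  intro x
  rw [ConcreteCategory.comp_apply, hcube_apply, hcube_apply, Q.time_map,
    ConcreteCategory.comp_apply]
  have h := Q.p.naturality φ
  have h2 := ConcreteCategory.congr_hom (congrArg Q.T.map h) x
  rw [Q.T.map_comp, Q.T.map_comp, ConcreteCategory.comp_apply, ConcreteCategory.comp_apply] at h2
  rw [h2]
  rfl

lemma i0_hcube {Y Y' : TopCat.{0}} {f g : C(Y, Y')} (H : f.Homotopy g) {s : S}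
    (y : Q.T.obj s ⟶ Y) :
    Q.T.map (Q.i0.app s) ≫ hcube Q H y = y ≫ TopCat.ofHom f := by
  apply ConcreteCategory.hom_ext
  intro x
  rw [ConcreteCategory.comp_apply, hcube_apply, Q.time_i0]
  have h3 : Q.T.map (Q.i0.app s) ≫ Q.T.map (Q.p.app s) = 𝟙 (Q.T.obj s) := by
    rw [← Q.T.map_comp, Q.i0_p]
    exact Q.T.map_id s
  have h2 : Q.T.map (Q.p.app s) (Q.T.map (Q.i0.app s) x) = x :=
    ConcreteCategory.congr_hom h3 x
  rw [h2]
  exact H.apply_zero _

lemma i1_hcube {Y Y' : TopCat.{0}} {f g : C(Y, Y')} (H : f.Homotopy g) {s : S}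
    (y : Q.T.obj s ⟶ Y) :
    Q.T.map (Q.i1.app s) ≫ hcube Q H y = y ≫ TopCat.ofHom g := by
  apply ConcreteCategory.hom_ext
  intro x
  rw [ConcreteCategory.comp_apply, hcube_apply, Q.time_i1]
  have h3 : Q.T.map (Q.i1.app s) ≫ Q.T.map (Q.p.app s) = 𝟙 (Q.T.obj s) := by
    rw [← Q.T.map_comp, Q.i1_p]
    exact Q.T.map_id s
  have h2 : Q.T.map (Q.p.app s) (Q.T.map (Q.i1.app s) x) = x :=
    ConcreteCategory.congr_hom h3 x
  rw [h2]
  exact H.apply_one _

/-- `Γ` preserves homotopies. -/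
theorem Gam.homotopy (hB : PCofibrant K.F B) (hB' : ∀ s, Contr K.F (B.obj s))
    {Y Y' : TopCat.{0}} (f g : Y ⟶ Y') (hfg : f.hom.Homotopic g.hom) :
    ∃ h : (Gam Q.T B).obj Y ⟶ K.P.obj ((Gam Q.T B).obj Y'),
      h ≫ K.pm.app _ = (Gam Q.T B).map f ∧ h ≫ K.pp.app _ = (Gam Q.T B).map g := by
  obtain ⟨H⟩ := hfg
  obtain ⟨l, hl0, hl1⟩ := exists_pathDiag K hB (X := Q.cyl ⋙ B) (fun s => hB' _)
    ((Functor.leftUnitor B).inv ≫ Functor.whiskerRight Q.i0 B)
    ((Functor.leftUnitor B).inv ≫ Functor.whiskerRight Q.i1 B)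
  have e0 : ∀ s, l.app s ≫ K.pm.app _ = B.map (Q.i0.app s) := fun s => by
    have := congr_app hl0 s
    simpa using this
  have e1 : ∀ s, l.app s ≫ K.pp.app _ = B.map (Q.i1.app s) := fun s => by
    have := congr_app hl1 s
    simpa using this
  refine ⟨Gam.desc (fun s y => l.app s ≫ K.P.map (Gam.el (hcube Q H y))) ?_, ?_, ?_⟩
  · intro s t φ y
    have h1 := l.naturality φ
    rw [← Category.assoc, h1, Category.assoc, Functor.comp_map, ← K.P.map_comp]
    change l.app s ≫ K.P.map (B.map (Q.cyl.map φ) ≫ Gam.el (hcube Q H y)) = _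
    rw [Gam.map_el, map_hcube]
  · apply Gam.hom_ext
    intro s y
    rw [Gam.el_desc_assoc, Category.assoc, K.pm.naturality, ← Category.assoc]
    refine (congrArg (fun z => z ≫ _) (e0 s)).trans ?_
    rw [Gam.el_map]
    refine (Gam.map_el _ _).trans ?_
    rw [i0_hcube]
    rfl
  · apply Gam.hom_ext
    intro s y
    rw [Gam.el_desc_assoc, Category.assoc, K.pp.naturality, ← Category.assoc]
    refine (congrArg (fun z => z ≫ _) (e1 s)).trans ?_
    rw [Gam.el_map]
    refine (Gam.map_el _ _).trans ?_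
    rw [i1_hcube]
    rfl

lemma contr_of_iso {F : Globe ⥤ 𝓜} {X Y : 𝓜} (f : X ⟶ Y) (g : Y ⟶ X) (h : g ≫ f = 𝟙 Y)
    (hX : Contr F X) : Contr F Y := by
  intro j β
  obtain ⟨w, hw⟩ := hX j (β ≫ g)
  exact ⟨w ≫ f, by rw [← Category.assoc, hw, Category.assoc, h, Category.comp_id]⟩

/-- `Γ` of a point is contractible. -/
lemma Gam.contr_pt {F : Globe ⥤ 𝓜} (hB' : ∀ s, Contr F (B.obj s)) :
    Contr F ((Gam Q.T B).obj (Q.T.obj Q.pt)) := by
  have hu : ∀ (s : S) (y : Q.T.obj s ⟶ Q.T.obj Q.pt), y = Q.T.map (Q.ptTerminal.from s) := by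
    have key : ∀ X : TopCat.{0}, X = cubeT 0 → ∀ (W : TopCat.{0}) (y z : W ⟶ X), y = z := by
      rintro _ rfl W y z
      apply ConcreteCategory.hom_ext
      intro x
      exact Subsingleton.elim (α := Fin 0 → I) _ _
    intro s y
    exact key _ Q.ptCube _ _ _
  refine contr_of_iso (X := B.obj Q.pt) (Gam.el (𝟙 _))
    (Gam.desc (fun s y => B.map (Q.ptTerminal.from s)) ?_) ?_ (hB' Q.pt)
  · intro s t f y
    rw [← B.map_comp]
    congr 1
    exact Q.ptTerminal.hom_ext _ _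
  · apply Gam.hom_ext
    intro s y
    rw [Gam.el_desc_assoc, Gam.map_el, Category.comp_id, Category.comp_id]
    rw [← hu s y]

/-- An object which is a homotopy retract of a contractible object is contractible. -/
lemma contr_of_htpy {X Y : 𝓜} (f : X ⟶ Y) (g : Y ⟶ X) (h : Y ⟶ K.P.obj Y)
    (h0 : h ≫ K.pm.app Y = g ≫ f) (h1 : h ≫ K.pp.app Y = 𝟙 Y) (hX : Contr K.F X) :
    Contr K.F Y := by
  intro j β
  obtain ⟨w, hw⟩ := hX j (β ≫ g)
  have := K.pm_triv Y (bd K.F j) (MorphismProperty.ofHoms.mk j)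
  have sq : CommSq (β ≫ h) (bd K.F j) (K.pm.app Y) (w ≫ f) := ⟨by
    rw [Category.assoc, h0, ← Category.assoc, ← Category.assoc, hw]⟩
  refine ⟨sq.lift ≫ K.pp.app Y, ?_⟩
  rw [← Category.assoc, sq.fac_left, Category.assoc, h1]
  exact Category.comp_id _

/-- `Γ` of a contractible space is contractible. -/
theorem Gam.contr (hB : PCofibrant K.F B) (hB' : ∀ s, Contr K.F (B.obj s)) (Y : TopCat.{0})
    (hY : ContractibleSpace Y) : Contr K.F ((Gam Q.T B).obj Y) := by
  obtain ⟨y, hy⟩ := id_nullhomotopic Y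
  have hne : Nonempty (Q.T.obj Q.pt) := by
    rw [Q.ptCube]
    exact ⟨(fun i => i.elim0 : Fin 0 → I)⟩
  let f : Q.T.obj Q.pt ⟶ Y := TopCat.ofHom (ContinuousMap.const _ y)
  let g : Y ⟶ Q.T.obj Q.pt := TopCat.ofHom (ContinuousMap.const _ hne.some)
  obtain ⟨h, h0, h1⟩ := Gam.homotopy K Q hB hB' (g ≫ f) (𝟙 Y) hy.symm
  refine contr_of_htpy K ((Gam Q.T B).map f) ((Gam Q.T B).map g) h ?_ ?_ (Gam.contr_pt Q hB')
  · rw [h0, Functor.map_comp]
  · rw [h1, CategoryTheory.Functor.map_id]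

end Homotopy

/-- `Γ` preserves coproducts. -/
theorem Gam.coprod (hT : ∀ s, ConnectedSpace (T.obj s)) {J : Type} (Y : J → TopCat.{0})
    (c : Cofan Y) (hc : Nonempty (IsColimit c)) :
    Nonempty (IsColimit ((Gam T B).mapCocone c)) := by
  obtain ⟨hc⟩ := hc
  let e : c.pt ≅ TopCat.of (Σ j, Y j) :=
    hc.coconePointUniqueUpToIso (TopCat.sigmaCofanIsColimit.{0, 0} Y)
  have he : ∀ j, c.inj j ≫ e.hom = TopCat.sigmaι Y j := fun j =>
    hc.comp_coconePointUniqueUpToIso_hom _ _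
  have hex : ∀ (s : S) (y : T.obj s ⟶ c.pt), ∃ (j : J) (z : T.obj s ⟶ Y j), z ≫ c.inj j = y := by
    intro s y
    have := hT s
    obtain ⟨j, z, hz⟩ := ContinuousMap.exists_lift_sigma (y ≫ e.hom).hom
    refine ⟨j, TopCat.ofHom z, ?_⟩
    rw [← cancel_mono e.hom, Category.assoc, he]
    apply ConcreteCategory.hom_ext
    intro x
    exact (congrArg (fun f => f x) hz).symm
  have huniq : ∀ (s : S) (j j' : J) (z : T.obj s ⟶ Y j) (z' : T.obj s ⟶ Y j'),
      z ≫ c.inj j = z' ≫ c.inj j' → ∀ {X : 𝓜} (φ : ∀ j, (Gam T B).obj (Y j) ⟶ X),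
        Gam.el z ≫ φ j = Gam.el z' ≫ φ j' := by
    intro s j j' z z' h X φ
    have h1 : z ≫ TopCat.sigmaι Y j = z' ≫ TopCat.sigmaι Y j' := by
      rw [← he, ← he, ← Category.assoc, ← Category.assoc, h]
    have := hT s
    have hx : ∀ x : T.obj s, (⟨j, z x⟩ : Σ j, Y j) = ⟨j', z' x⟩ := fun x =>
      ConcreteCategory.congr_hom h1 x
    obtain ⟨x0⟩ : Nonempty (T.obj s) := inferInstance
    obtain rfl : j = j' := congrArg Sigma.fst (hx x0)
    have : z = z' := by
      apply ConcreteCategory.hom_ext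
      intro x
      exact eq_of_heq (Sigma.mk.inj (hx x)).2
    rw [this]
  choose jj zz hzz using hex
  refine ⟨{ desc := fun s => Gam.desc (fun r y => Gam.el (zz r y) ≫ s.ι.app ⟨jj r y⟩) ?_,
            fac := ?_, uniq := ?_ }⟩
  · intro r t f y
    rw [← Category.assoc, Gam.map_el]
    exact huniq r (jj t y) (jj r (T.map f ≫ y)) (T.map f ≫ zz t y) (zz r (T.map f ≫ y)) (by
      rw [Category.assoc, hzz, hzz]) (fun j => s.ι.app ⟨j⟩)
  · rintro s ⟨j⟩
    apply Gam.hom_ext
    intro r y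
    change Gam.el y ≫ (Gam T B).map (c.ι.app ⟨j⟩) ≫ _ = _
    rw [← Category.assoc, Gam.el_map, Gam.el_desc]
    exact huniq r _ _ _ _ (hzz _ _) (fun j => s.ι.app ⟨j⟩)
  · intro s m hm
    apply Gam.hom_ext
    intro r y
    rw [Gam.el_desc, ← hm ⟨jj r y⟩, ← Category.assoc]
    congr 1
    refine Eq.trans ?_ (Gam.el_map _ _).symm
    exact congrArg _ (hzz r y).symm

/-- `Γ` preserves sequential colimits which are compatible with cubes. -/
theorem Gam.seq (hT : ∀ s, ∃ n, T.obj s = cubeT n) (D : ℕ ⥤ TopCat.{0}) (c : Cocone D)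
    (hinj : ∀ n, Function.Injective (c.ι.app n))
    (hfac : ∀ (k : ℕ) (f : cubeT k ⟶ c.pt), ∃ (n : ℕ) (g : cubeT k ⟶ D.obj n),
      g ≫ c.ι.app n = f) :
    Nonempty (IsColimit ((Gam T B).mapCocone c)) := by
  have hex : ∀ (s : S) (y : T.obj s ⟶ c.pt), ∃ (n : ℕ) (z : T.obj s ⟶ D.obj n),
      z ≫ c.ι.app n = y := by
    have key : ∀ X : TopCat.{0}, (∃ k, X = cubeT k) → ∀ y : X ⟶ c.pt,
        ∃ (n : ℕ) (z : X ⟶ D.obj n), z ≫ c.ι.app n = y := by
      rintro _ ⟨k, rfl⟩ y
      exact hfac k y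
    intro s y
    exact key _ (hT s) y
  have hmono : ∀ (n : ℕ) (X : TopCat.{0}) (z z' : X ⟶ D.obj n),
      z ≫ c.ι.app n = z' ≫ c.ι.app n → z = z' := by
    intro n X z z' h
    apply ConcreteCategory.hom_ext
    intro x
    exact hinj n (ConcreteCategory.congr_hom h x)
  have huniq : ∀ (s : S) (n m : ℕ) (z : T.obj s ⟶ D.obj n) (z' : T.obj s ⟶ D.obj m),
      z ≫ c.ι.app n = z' ≫ c.ι.app m → ∀ (t : Cocone (D ⋙ Gam T B)),
        Gam.el z ≫ t.ι.app n = Gam.el z' ≫ t.ι.app m := by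
    have key : ∀ (s : S) (n m : ℕ) (hnm : n ≤ m) (z : T.obj s ⟶ D.obj n)
        (z' : T.obj s ⟶ D.obj m), z ≫ c.ι.app n = z' ≫ c.ι.app m →
        ∀ (t : Cocone (D ⋙ Gam T B)), Gam.el z ≫ t.ι.app n = Gam.el z' ≫ t.ι.app m := by
      intro s n m hnm z z' h t
      have h1 : z ≫ D.map (homOfLE hnm) = z' := by
        apply hmono
        rw [Category.assoc, c.w, h]
      rw [← h1, ← Gam.el_map, Category.assoc]
      exact congrArg _ (t.w (homOfLE hnm)).symm
    intro s n m z z' h t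
    rcases le_total n m with hnm | hnm
    · exact key s n m hnm z z' h t
    · exact (key s m n hnm z' z h.symm t).symm
  choose nn zz hzz using hex
  refine ⟨{ desc := fun s => Gam.desc (fun r y => Gam.el (zz r y) ≫ s.ι.app (nn r y)) ?_,
            fac := ?_, uniq := ?_ }⟩
  · intro r t f y
    rw [← Category.assoc, Gam.map_el]
    exact huniq r (nn t y) (nn r (T.map f ≫ y)) (T.map f ≫ zz t y) (zz r (T.map f ≫ y)) (by
      rw [Category.assoc, hzz, hzz]) s
  · intro s n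
    apply Gam.hom_ext
    intro r y
    change Gam.el y ≫ (Gam T B).map (c.ι.app n) ≫ _ = _
    rw [← Category.assoc, Gam.el_map, Gam.el_desc]
    exact huniq r _ _ _ _ (hzz _ _) s
  · intro s m hm
    apply Gam.hom_ext
    intro r y
    rw [Gam.el_desc, ← hm (nn r y), ← Category.assoc]
    congr 1
    refine Eq.trans ?_ (Gam.el_map _ _).symm
    exact congrArg _ (hzz r y).symm

end

end Vale.Agent.P259
end
end

section

section

open CategoryTheory Limits unitInterval

namespace Vale.Agent.P259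

set_option linter.unusedSectionVars false

universe u

open PSh

/-- The functions on a cube which are constant or affine in one coordinate. -/
def IsAff {m : ℕ} (φ : (Fin m → I) → ℝ) : Prop :=
  (∃ c : ℝ, ∀ x, φ x = c) ∨ ∃ (j : Fin m) (α β : ℝ), ∀ x, φ x = α * x j + β

lemma IsAff.affine {m : ℕ} {φ : (Fin m → I) → ℝ} (h : IsAff φ) (α β : ℝ) :
    IsAff (fun x => α * φ x + β) := by
  rcases h with ⟨c, hc⟩ | ⟨j, a, b, hj⟩
  · exact Or.inl ⟨α * c + β, fun x => by simp only [hc]⟩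
  · exact Or.inr ⟨j, α * a, α * b + β, fun x => by simp only [hj]; ring⟩

lemma IsAff.congr {m : ℕ} {φ ψ : (Fin m → I) → ℝ} (h : IsAff φ) (e : ∀ x, φ x = ψ x) :
    IsAff ψ := by
  have : φ = ψ := funext e
  rwa [← this]

/-- The category of cubes. -/
structure Cub where
  dim : ℕ

namespace Cub

/-- Morphisms of cubes. -/
@[ext]
structure Hom (a b : Cub) where
  fn : (Fin a.dim → I) → (Fin b.dim → I)
  aff : ∀ i, IsAff (fun x => (fn x i : ℝ))

instance : SmallCategory Cub where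
  Hom := Hom
  id a := ⟨id, fun i => Or.inr ⟨i, 1, 0, fun x => by simp⟩⟩
  comp f g := ⟨g.fn ∘ f.fn, fun i => by
    rcases g.aff i with ⟨c, hc⟩ | ⟨j, α, β, hj⟩
    · exact Or.inl ⟨c, fun x => hc _⟩
    · have := (f.aff j).affine α β
      simpa only [Function.comp_apply, hj] using this⟩
  id_comp _ := rfl
  comp_id _ := rfl
  assoc _ _ _ := rfl

@[simp] lemma comp_fn {a b c : Cub} (f : a ⟶ b) (g : b ⟶ c) (x : Fin a.dim → I) :
    (f ≫ g).fn x = g.fn (f.fn x) := rfl

@[simp] lemma id_fn {a : Cub} (x : Fin a.dim → I) : (𝟙 a : a ⟶ a).fn x = x := rfl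

@[ext]
lemma hom_ext {a b : Cub} {f g : a ⟶ b} (h : ∀ x i, f.fn x i = g.fn x i) : f = g :=
  Hom.ext (funext fun x => funext fun i => h x i)

lemma continuous_fn {a b : Cub} (f : a ⟶ b) : Continuous f.fn := by
  refine continuous_pi (fun i => ?_)
  rw [continuous_induced_rng]
  rcases f.aff i with ⟨c, hc⟩ | ⟨j, α, β, hj⟩
  · exact continuous_const.congr (fun x => (hc x).symm)
  · refine Continuous.congr ?_ (fun x => (hj x).symm)
    fun_prop

/-- The grid sieve given by a list of cuts. -/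
def grid {m : ℕ} (C : List (Fin m × ℝ)) {a : Cub} (f : a ⟶ (⟨m⟩ : Cub)) : Prop :=
  ∀ p ∈ C, (∀ x, (f.fn x p.1 : ℝ) ≤ p.2) ∨ (∀ x, p.2 ≤ (f.fn x p.1 : ℝ))

/-- The pullback of a cut along a map of cubes. -/
lemma cut_pull {m n : ℕ} (j : (⟨n⟩ : Cub) ⟶ ⟨m⟩) (p : Fin m × ℝ) :
    ∃ q : List (Fin n × ℝ), q.length ≤ 1 ∧ ∀ {a : Cub} (g : a ⟶ ⟨n⟩),
      ((∀ x, ((g ≫ j).fn x p.1 : ℝ) ≤ p.2) ∨ (∀ x, p.2 ≤ ((g ≫ j).fn x p.1 : ℝ))) ↔ grid q g := by
  have triv : ∀ c : ℝ, (∀ x, (j.fn x p.1 : ℝ) = c) →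
      ∃ q : List (Fin n × ℝ), q.length ≤ 1 ∧ ∀ {a : Cub} (g : a ⟶ ⟨n⟩),
      ((∀ x, ((g ≫ j).fn x p.1 : ℝ) ≤ p.2) ∨ (∀ x, p.2 ≤ ((g ≫ j).fn x p.1 : ℝ))) ↔
        grid q g := by
    intro c hc
    refine ⟨[], by simp, fun g => ?_⟩
    simp only [comp_fn, hc, grid, List.not_mem_nil, false_imp_iff, implies_true, iff_true]
    rcases le_total c p.2 with h | h
    · exact Or.inl (fun _ => h)
    · exact Or.inr (fun _ => h)
  rcases j.aff p.1 with ⟨c, hc⟩ | ⟨e, α, β, he⟩
  · exact triv c hc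
  · rcases lt_trichotomy α 0 with hα | hα | hα
    · refine ⟨[(e, (p.2 - β) / α)], by simp, fun g => ?_⟩
      simp only [comp_fn, he, grid, List.mem_singleton, forall_eq]
      rw [or_comm]
      refine or_congr ?_ ?_
      · refine forall_congr' (fun x => ?_)
        rw [le_div_iff_of_neg hα]
        constructor <;> intro h <;> linarith
      · refine forall_congr' (fun x => ?_)
        rw [div_le_iff_of_neg hα]
        constructor <;> intro h <;> linarith
    · exact triv β (fun x => by have := he x; simp only [hα, zero_mul, zero_add] at this; exact this)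
    · refine ⟨[(e, (p.2 - β) / α)], by simp, fun g => ?_⟩
      simp only [comp_fn, he, grid, List.mem_singleton, forall_eq]
      refine or_congr ?_ ?_
      · refine forall_congr' (fun x => ?_)
        rw [le_div_iff₀ hα]
        constructor <;> intro h <;> linarith
      · refine forall_congr' (fun x => ?_)
        rw [div_le_iff₀ hα]
        constructor <;> intro h <;> linarith

lemma grid_append {m : ℕ} (C C' : List (Fin m × ℝ)) {a : Cub} (f : a ⟶ (⟨m⟩ : Cub)) :
    grid (C ++ C') f ↔ grid C f ∧ grid C' f := by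
  simp only [grid, List.mem_append]
  constructor
  · intro h
    exact ⟨fun p hp => h p (Or.inl hp), fun p hp => h p (Or.inr hp)⟩
  · rintro ⟨h1, h2⟩ p (hp | hp)
    · exact h1 p hp
    · exact h2 p hp

lemma grid_pull {m n : ℕ} (j : (⟨n⟩ : Cub) ⟶ ⟨m⟩) (C : List (Fin m × ℝ)) :
    ∃ C' : List (Fin n × ℝ), C'.length ≤ C.length ∧ ∀ {a : Cub} (g : a ⟶ ⟨n⟩),
      grid C (g ≫ j) ↔ grid C' g := by
  induction C with
  | nil => exact ⟨[], le_rfl, fun g => by simp [grid]⟩
  | cons p C ih =>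
    obtain ⟨C', h1, h2⟩ := ih
    obtain ⟨q, h3, h4⟩ := cut_pull j p
    refine ⟨q ++ C', ?_, fun g => ?_⟩
    · rw [List.length_append, List.length_cons]
      omega
    · rw [grid_append, ← h4, ← h2]
      simp [grid]

end Cub

end Vale.Agent.P259
end
end

section

section

open CategoryTheory Limits unitInterval

namespace Vale.Agent.P259

set_option linter.unusedSectionVars false

universe u

open PSh

variable {𝓜 : Type u} [Category.{0} 𝓜] [HasColimitsOfSize.{0, 0} 𝓜] [HasLimitsOfSize.{0, 0} 𝓜]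

lemma Contr.of_isIso {F : Globe ⥤ 𝓜} {X Y : 𝓜} (h : Contr F X) (f : X ⟶ Y) [IsIso f] :
    Contr F Y := by
  intro j β
  obtain ⟨w, hw⟩ := h j (β ≫ inv f)
  exact ⟨w ≫ f, by rw [← Category.assoc, hw, Category.assoc, IsIso.inv_hom_id, Category.comp_id]⟩

/-- An injective morphism of presheaves is an isomorphism to its image. -/
lemma real.im_isIso {S : Type} [SmallCategory S] {B : S ⥤ 𝓜} {K' K : PSh S} (α : PSh.Hom K' K)
    (hα : ∀ (s : S), Function.Injective (α.app (s := s))) (A : Sub K)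
    (hA : ∀ {s : S} (x : K.obj s), A.mem x ↔ ∃ y, α.app y = x) :
    ∃ f : real B K' ⟶ real B A.psh, IsIso f := by
  let β : PSh.Hom K' A.psh :=
    { app := fun x => ⟨α.app x, (hA _).2 ⟨x, rfl⟩⟩
      nat := fun f x => Subtype.ext (α.nat f x) }
  let γ : PSh.Hom A.psh K' :=
    { app := fun x => ((hA _).1 x.2).choose
      nat := by
        intro s t f x
        apply hα
        rw [((hA _).1 (A.psh.res f x).2).choose_spec, α.nat, ((hA _).1 x.2).choose_spec] }
  have h1 : ∀ {s : S} (x : K'.obj s), γ.app (β.app x) = x := fun x =>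
    hα _ ((hA _).1 (β.app x).2).choose_spec
  have h2 : ∀ {s : S} (x : A.psh.obj s), β.app (γ.app x) = x := fun x =>
    Subtype.ext ((hA _).1 x.2).choose_spec
  exact ⟨real.map β, real.map_isIso (B := B) β γ h1 h2⟩

lemma real.contr_im {S : Type} [SmallCategory S] {B : S ⥤ 𝓜} {F : Globe ⥤ 𝓜} {K' K : PSh S}
    (α : PSh.Hom K' K) (hα : ∀ (s : S), Function.Injective (α.app (s := s))) (A : Sub K)
    (hA : ∀ {s : S} (x : K.obj s), A.mem x ↔ ∃ y, α.app y = x)
    (h : Contr F (real B K')) : Contr F (real B A.psh) := by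
  obtain ⟨f, hf⟩ := real.im_isIso (B := B) α hα A hA
  exact h.of_isIso f

lemma real.ofYo_isIso {S : Type} [SmallCategory S] (B : S ⥤ 𝓜) (s : S) :
    IsIso (real.ofYo s : real B (yo s) ⟶ B.obj s) := by
  refine ⟨real.ι (K := yo s) (𝟙 s), ?_, ?_⟩
  · apply real.hom_ext
    intro r g
    rw [real.ι_ofYo_assoc, real.w, Category.comp_id]
    congr 1
    exact Category.comp_id g
  · rw [real.ι_ofYo, B.map_id]

namespace Cub

variable {B : Cub ⥤ 𝓜} {F : Globe ⥤ 𝓜}

lemma pull_contr {n m : ℕ} (j : (⟨n⟩ : Cub) ⟶ ⟨m⟩) (hj : Function.Injective j.fn)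
    (L : Sub (yo (⟨m⟩ : Cub))) (A : Sub L.psh)
    (hA : ∀ {a : Cub} (f : L.psh.obj a), A.mem f ↔ ∃ g : a ⟶ ⟨n⟩, g ≫ j = f.1)
    (h : Contr F (real B (L.pull (s := ⟨n⟩) j).psh)) : Contr F (real B A.psh) := by
  let α : PSh.Hom (L.pull (s := ⟨n⟩) j).psh L.psh :=
    { app := fun g => ⟨g.1 ≫ j, g.2⟩
      nat := fun f x => Subtype.ext (Category.assoc _ _ _) }
  refine real.contr_im α ?_ A ?_ h
  · intro s g g' hg
    have h1 : g.1 ≫ j = g'.1 ≫ j := congrArg (fun z => z.1) hg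
    apply Subtype.ext
    apply Cub.hom_ext
    intro x i
    have h2 := hj (congrFun (congrArg Hom.fn h1) x)
    rw [h2]
  · intro s f
    rw [hA]
    constructor
    · rintro ⟨g, hg⟩
      refine ⟨⟨g, ?_⟩, Subtype.ext hg⟩
      change L.mem (g ≫ j)
      rw [hg]
      exact f.2
    · rintro ⟨g, hg⟩
      exact ⟨g.1, congrArg (fun z => z.1) hg⟩

/-- The lower part of the cube, cut at `a` in the direction `c`. -/
noncomputable def lo {m : ℕ} (c : Fin m) (a : ℝ) (h0 : 0 < a) (h1 : a < 1) :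
    (⟨m⟩ : Cub) ⟶ ⟨m⟩ where
  fn x i := if i = c then ⟨a * x c, by
    have := (x c).2.1; have := (x c).2.2; constructor
    · positivity
    · nlinarith⟩ else x i
  aff i := by
    by_cases h : i = c
    · exact Or.inr ⟨c, a, 0, fun x => by simp [h]⟩
    · exact Or.inr ⟨i, 1, 0, fun x => by simp [h]⟩

/-- The upper part of the cube, cut at `a` in the direction `c`. -/
noncomputable def hi {m : ℕ} (c : Fin m) (a : ℝ) (h0 : 0 < a) (h1 : a < 1) :
    (⟨m⟩ : Cub) ⟶ ⟨m⟩ where
  fn x i := if i = c then ⟨a + (1 - a) * x c, by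
    have := (x c).2.1; have := (x c).2.2; constructor
    · nlinarith
    · nlinarith⟩ else x i
  aff i := by
    by_cases h : i = c
    · exact Or.inr ⟨c, 1 - a, a, fun x => by simp [h]; ring⟩
    · exact Or.inr ⟨i, 1, 0, fun x => by simp [h]⟩

/-- The middle face of the cube, cut at `a` in the direction `c`. -/
noncomputable def mid {m : ℕ} (c : Fin (m + 1)) (a : ℝ) (h0 : 0 < a) (h1 : a < 1) :
    (⟨m⟩ : Cub) ⟶ ⟨m + 1⟩ where
  fn x := c.insertNth ⟨a, h0.le, h1.le⟩ x
  aff i := by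
    rcases Fin.eq_self_or_eq_succAbove c i with h | ⟨k, h⟩
    · exact Or.inl ⟨a, fun x => by simp [h]⟩
    · exact Or.inr ⟨k, 1, 0, fun x => by simp [h]⟩

lemma lo_injective {m : ℕ} (c : Fin m) (a : ℝ) (h0 : 0 < a) (h1 : a < 1) :
    Function.Injective (lo c a h0 h1).fn := by
  intro x y h
  funext i
  have hi := congrFun h i
  by_cases e : i = c
  · subst e
    simp only [lo, if_true] at hi
    have := congrArg (Subtype.val) hi
    simp only at this
    exact Subtype.ext (mul_left_cancel₀ h0.ne' this)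
  · simpa [lo, e] using hi

lemma hi_injective {m : ℕ} (c : Fin m) (a : ℝ) (h0 : 0 < a) (h1 : a < 1) :
    Function.Injective (hi c a h0 h1).fn := by
  intro x y h
  funext i
  have hx := congrFun h i
  by_cases e : i = c
  · subst e
    simp only [hi, if_true] at hx
    have := congrArg (Subtype.val) hx
    simp only at this
    have h2 : (1 - a) * (x i : ℝ) = (1 - a) * y i := by linarith
    exact Subtype.ext (mul_left_cancel₀ (by linarith : (1 : ℝ) - a ≠ 0) h2)
  · simpa [hi, e] using hx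

lemma mid_injective {m : ℕ} (c : Fin (m + 1)) (a : ℝ) (h0 : 0 < a) (h1 : a < 1) :
    Function.Injective (mid c a h0 h1).fn := by
  intro x y h
  funext i
  have hi := congrFun h (c.succAbove i)
  simpa [mid] using hi

lemma lo_fac {m : ℕ} (c : Fin m) (a : ℝ) (h0 : 0 < a) (h1 : a < 1) {b : Cub}
    (f : b ⟶ ⟨m⟩) : (∀ x, (f.fn x c : ℝ) ≤ a) ↔ ∃ g : b ⟶ ⟨m⟩, g ≫ lo c a h0 h1 = f := by
  constructor
  · intro h
    refine ⟨⟨fun x i => if i = c then ⟨f.fn x c / a, by
      have := (f.fn x c).2.1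
      constructor
      · positivity
      · rw [div_le_one h0]; exact h x⟩ else f.fn x i, ?_⟩, ?_⟩
    · intro i
      by_cases e : i = c
      · have := (f.aff c).affine (1 / a) 0
        simp only [e, if_true]
        refine this.congr ?_
        intro x; ring
      · simpa [e] using f.aff i
    · apply Cub.hom_ext
      intro x i
      by_cases e : i = c
      · subst e
        apply Subtype.ext
        simp only [comp_fn, lo, if_true]
        field_simp
      · simp [lo, e]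
  · rintro ⟨g, rfl⟩ x
    have := (g.fn x c).2.2
    simp only [comp_fn, lo, if_true]
    nlinarith

lemma hi_fac {m : ℕ} (c : Fin m) (a : ℝ) (h0 : 0 < a) (h1 : a < 1) {b : Cub}
    (f : b ⟶ ⟨m⟩) : (∀ x, a ≤ (f.fn x c : ℝ)) ↔ ∃ g : b ⟶ ⟨m⟩, g ≫ hi c a h0 h1 = f := by
  have h1' : 0 < 1 - a := by linarith
  constructor
  · intro h
    refine ⟨⟨fun x i => if i = c then ⟨(f.fn x c - a) / (1 - a), by
      have := (f.fn x c).2.2
      have := h x
      constructor
      · apply div_nonneg <;> linarith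
      · rw [div_le_one h1']; linarith⟩ else f.fn x i, ?_⟩, ?_⟩
    · intro i
      by_cases e : i = c
      · have := (f.aff c).affine (1 / (1 - a)) (- a / (1 - a))
        simp only [e, if_true]
        refine this.congr ?_
        intro x; ring
      · simpa [e] using f.aff i
    · apply Cub.hom_ext
      intro x i
      by_cases e : i = c
      · subst e
        apply Subtype.ext
        simp only [comp_fn, hi, if_true]
        field_simp
        ring
      · simp [hi, e]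
  · rintro ⟨g, rfl⟩ x
    have := (g.fn x c).2.1
    simp only [comp_fn, hi, if_true]
    nlinarith

lemma mid_fac {m : ℕ} (c : Fin (m + 1)) (a : ℝ) (h0 : 0 < a) (h1 : a < 1) {b : Cub}
    (f : b ⟶ ⟨m + 1⟩) : ((∀ x, (f.fn x c : ℝ) ≤ a) ∧ (∀ x, a ≤ (f.fn x c : ℝ))) ↔
      ∃ g : b ⟶ ⟨m⟩, g ≫ mid c a h0 h1 = f := by
  constructor
  · rintro ⟨h, h'⟩
    refine ⟨⟨fun x i => f.fn x (c.succAbove i), fun i => f.aff _⟩, ?_⟩
    apply Cub.hom_ext
    intro x i
    rcases Fin.eq_self_or_eq_succAbove c i with e | ⟨k, e⟩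
    · subst e
      apply Subtype.ext
      simp only [comp_fn, mid, Fin.insertNth_apply_same]
      exact le_antisymm (h' x) (h x)
    · subst e
      simp [mid]
  · rintro ⟨g, rfl⟩
    simp [mid]

/-- Grid sieves have contractible realization. -/
theorem grid_contr (hF : Good F) (hB : PCofibrant F B) (hB' : ∀ s, Contr F (B.obj s)) (n : ℕ) :
    ∀ (m : ℕ) (C : List (Fin m × ℝ)), C.length ≤ n → ∀ (L : Sub (yo (⟨m⟩ : Cub))),
      (∀ {a : Cub} (f : a ⟶ ⟨m⟩), L.mem (s := a) f ↔ grid C f) → Contr F (real B L.psh) := by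
  induction n with
  | zero =>
    intro m C hC L hL
    have hC' : C = [] := List.eq_nil_of_length_eq_zero (Nat.le_zero.1 hC)
    subst hC'
    have h1 : Contr F (real B (yo (⟨m⟩ : Cub))) := by
      have := real.ofYo_isIso B (⟨m⟩ : Cub)
      exact (hB' ⟨m⟩).of_isIso (inv (real.ofYo (⟨m⟩ : Cub)))
    refine real.contr_im (PSh.Hom.id _) (fun _ _ _ h => h) L ?_ h1
    intro s x
    rw [hL]
    simp [grid]
  | succ n ih =>
    intro m C hC L hL
    rcases C with _ | ⟨⟨c, a⟩, C⟩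
    · exact ih m [] (by simp) L hL
    have hC' : C.length ≤ n := by simpa using hC
    by_cases ha0 : a ≤ 0
    · refine ih m C hC' L (fun f => ?_)
      rw [hL]
      simp only [grid, List.mem_cons, forall_eq_or_imp]
      constructor
      · exact fun h => h.2
      · exact fun h => ⟨Or.inr (fun x => ha0.trans (f.fn x c).2.1), h⟩
    by_cases ha1 : 1 ≤ a
    · refine ih m C hC' L (fun f => ?_)
      rw [hL]
      simp only [grid, List.mem_cons, forall_eq_or_imp]
      constructor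
      · exact fun h => h.2
      · exact fun h => ⟨Or.inl (fun x => (f.fn x c).2.2.trans ha1), h⟩
    have h0 : 0 < a := lt_of_not_ge ha0
    have h1 : a < 1 := lt_of_not_ge ha1
    obtain ⟨m, rfl⟩ : ∃ m', m = m' + 1 := by
      cases m with
      | zero => exact c.elim0
      | succ m => exact ⟨m, rfl⟩
    have hL' : ∀ {b : Cub} (f : b ⟶ ⟨m + 1⟩), L.mem (s := b) f ↔
        (((∀ x, (f.fn x c : ℝ) ≤ a) ∨ (∀ x, a ≤ (f.fn x c : ℝ))) ∧ grid C f) := by
      intro b f
      rw [hL]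
      simp [grid]
    have key : ∀ {k : ℕ} (j : (⟨k⟩ : Cub) ⟶ ⟨m + 1⟩) (hj : ∀ {b : Cub} (g : b ⟶ ⟨k⟩),
        ((∀ x, ((g ≫ j).fn x c : ℝ) ≤ a) ∨ (∀ x, a ≤ ((g ≫ j).fn x c : ℝ)))),
        Contr F (real B (L.pull (s := ⟨k⟩) j).psh) := by
      intro k j hj
      obtain ⟨C', h2, h3⟩ := grid_pull j C
      refine ih k C' (h2.trans hC') _ (fun g => ?_)
      rw [← h3]
      change L.mem (g ≫ j) ↔ _
      rw [hL']
      exact ⟨fun h => h.2, fun h => ⟨hj g, h⟩⟩
    let A : Sub L.psh :=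
      { mem := fun f => ∀ x, (f.1.fn x c : ℝ) ≤ a
        res := fun g f h x => h _ }
    let A' : Sub L.psh :=
      { mem := fun f => ∀ x, a ≤ (f.1.fn x c : ℝ)
        res := fun g f h x => h _ }
    refine contr_union hF hB A A' (fun f => ((hL' f.1).1 f.2).1) ?_ ?_ ?_
    · refine pull_contr (mid c a h0 h1) (mid_injective c a h0 h1) L _ (fun f => ?_) (key _ ?_)
      · exact mid_fac c a h0 h1 f.1
      · intro b g
        exact Or.inl ((mid_fac c a h0 h1 _).2 ⟨g, rfl⟩).1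
    · refine pull_contr (lo c a h0 h1) (lo_injective c a h0 h1) L _ (fun f => ?_) (key _ ?_)
      · exact lo_fac c a h0 h1 f.1
      · intro b g
        exact Or.inl ((lo_fac c a h0 h1 _).2 ⟨g, rfl⟩)
    · refine pull_contr (hi c a h0 h1) (hi_injective c a h0 h1) L _ (fun f => ?_) (key _ ?_)
      · exact hi_fac c a h0 h1 f.1
      · intro b g
        exact Or.inr ((hi_fac c a h0 h1 _).2 ⟨g, rfl⟩)

end Cub

end Vale.Agent.P259
end
end

section

section

open CategoryTheory Limits unitInterval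

namespace Vale.Agent.P259

set_option linter.unusedSectionVars false

universe u

open PSh

/-- The geometric cube. -/
abbrev cubeS (a : Cub) : TopCat.{0} := TopCat.of (Fin a.dim → I)

/-- The map of geometric cubes. -/
def cubeMap {a b : Cub} (f : a ⟶ b) : cubeS a ⟶ cubeS b :=
  TopCat.ofHom ⟨f.fn, Cub.continuous_fn f⟩

@[simp] lemma cubeMap_apply {a b : Cub} (f : a ⟶ b) (t : cubeS a) : cubeMap f t = f.fn t := rfl

lemma cubeMap_id (a : Cub) : cubeMap (𝟙 a) = 𝟙 (cubeS a) := rfl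

lemma cubeMap_comp {a b c : Cub} (f : a ⟶ b) (g : b ⟶ c) :
    cubeMap (f ≫ g) = cubeMap f ≫ cubeMap g := rfl

/-- The geometric cubes as a functor. -/
@[simps]
def cubeF : Cub ⥤ TopCat.{0} where
  obj := cubeS
  map := cubeMap

/-- The singular presheaf of a space. -/
abbrev sing (Y : TopCat.{0}) : PSh Cub where
  obj a := cubeS a ⟶ Y
  res f x := cubeMap f ≫ x
  res_id x := by rw [cubeMap_id, Category.id_comp]
  res_comp f g x := by rw [cubeMap_comp, Category.assoc]

/-- The small singular presheaf. -/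
def small {Y : TopCat.{0}} {ι : Type} (U : ι → Set Y) : Sub (sing Y) where
  mem x := ∃ i, ∀ t, x t ∈ U i
  res f x := by
    rintro ⟨i, hi⟩
    exact ⟨i, fun t => hi _⟩

/-- The list of cuts of the uniform grid. -/
noncomputable def cuts (m N : ℕ) : List (Fin m × ℝ) :=
  (Finset.univ.product ((Finset.range (N + 1)).image (fun k : ℕ => (k : ℝ) / N))).toList

lemma mem_cuts {m N : ℕ} (j : Fin m) (k : ℕ) (hk : k ≤ N) : (j, (k : ℝ) / N) ∈ cuts m N := by
  rw [cuts, Finset.mem_toList]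
  refine Finset.mem_product.2 ⟨Finset.mem_univ _, Finset.mem_image.2 ⟨k, ?_, rfl⟩⟩
  rw [Finset.mem_range]
  omega

lemma grid_close {m N : ℕ} (hN : 0 < N) {a : Cub} (f : a ⟶ ⟨m⟩) (h : Cub.grid (cuts m N) f)
    (t t' : Fin a.dim → I) (j : Fin m) : ((f.fn t' j : I) : ℝ) - ((f.fn t j : I) : ℝ) ≤ 1 / N := by
  by_contra hlt
  rw [not_le] at hlt
  have hN' : (0 : ℝ) < N := by exact_mod_cast hN
  set s : ℝ := (f.fn t j : ℝ) with hs
  set s' : ℝ := (f.fn t' j : ℝ) with hs'
  have h0 : 0 ≤ s := (f.fn t j).2.1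
  have h1 : s' ≤ 1 := (f.fn t' j).2.2
  set k : ℕ := ⌊s * N⌋₊ + 1 with hk
  have hk1 : s * N < k := by
    rw [hk]; push_cast; exact Nat.lt_floor_add_one _
  have hk2 : (k : ℝ) ≤ s * N + 1 := by
    rw [hk]; push_cast
    have := Nat.floor_le (mul_nonneg h0 hN'.le)
    linarith
  have h2 : s * N + 1 < s' * N := by
    have := mul_lt_mul_of_pos_right hlt hN'
    rw [one_div, inv_mul_cancel₀ hN'.ne'] at this
    linarith
  have hkN : k ≤ N := by
    have : (k : ℝ) < N := by
      calc (k : ℝ) ≤ s * N + 1 := hk2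
        _ < s' * N := h2
        _ ≤ 1 * N := by gcongr
        _ = N := one_mul _
    exact_mod_cast this.le
  rcases h _ (mem_cuts j k hkN) with hc | hc
  · have := hc t'
    rw [le_div_iff₀ hN'] at this
    change s' * N ≤ k at this
    linarith
  · have := hc t
    rw [div_le_iff₀ hN'] at this
    change (k : ℝ) ≤ s * N at this
    linarith

/-- Lebesgue number: fine grids are small. -/
lemma exists_grid_small {m : ℕ} {ι : Type} (U : ι → Set (Fin m → I)) (hU : ∀ i, IsOpen (U i))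
    (hU' : ∀ x, ∃ i, x ∈ U i) : ∃ C : List (Fin m × ℝ), ∀ {a : Cub} (f : a ⟶ ⟨m⟩),
      Cub.grid C f → ∃ i, ∀ t, f.fn t ∈ U i := by
  obtain ⟨δ, hδ, h⟩ := lebesgue_number_lemma_of_metric (isCompact_univ (X := Fin m → I)) hU
    (fun x _ => Set.mem_iUnion.2 (hU' x))
  obtain ⟨N, hN⟩ := exists_nat_one_div_lt hδ
  refine ⟨cuts m (N + 1), fun {a} f hf => ?_⟩
  obtain ⟨i, hi⟩ := h (f.fn (fun _ => 0)) (Set.mem_univ _)
  refine ⟨i, fun t => hi ?_⟩
  rw [Metric.mem_ball, dist_pi_lt_iff hδ]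
  intro j
  have h1 := grid_close (Nat.succ_pos N) f hf t (fun _ => 0) j
  have h2 := grid_close (Nat.succ_pos N) f hf (fun _ => 0) t j
  push_cast at h1 h2
  rw [Subtype.dist_eq, Real.dist_eq, abs_lt]
  constructor <;> linarith

variable {𝓜 : Type u} [Category.{0} 𝓜] [HasColimitsOfSize.{0, 0} 𝓜] [HasLimitsOfSize.{0, 0} 𝓜]

variable {B : Cub ⥤ 𝓜} {F : Globe ⥤ 𝓜}

/-- A sieve on a cube which contains a grid sieve has contractible realization. -/
lemma sieve_contr (hF : Good F) (hB : PCofibrant F B) (hB' : ∀ s, Contr F (B.obj s)) {m : ℕ}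
    (R : Sub (yo (⟨m⟩ : Cub))) (C : List (Fin m × ℝ))
    (h : ∀ {a : Cub} (f : a ⟶ ⟨m⟩), Cub.grid C f → R.mem (s := a) f) :
    Contr F (real B R.psh) := by
  let G : Sub (yo (⟨m⟩ : Cub)) :=
    { mem := fun {a} f => Cub.grid C f
      res := fun {a b} g f hf p hp => by
        rcases hf p hp with h | h
        · exact Or.inl (fun x => h _)
        · exact Or.inr (fun x => h _) }
  let L : Sub R.psh :=
    { mem := fun f => Cub.grid C f.1
      res := fun {a b} g f hf => G.res g hf }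
  have hG : Contr F (real B G.psh) := Cub.grid_contr hF hB hB' _ m C le_rfl G (fun _ => Iff.rfl)
  have hL : Contr F (real B L.psh) := by
    let α : PSh.Hom G.psh R.psh :=
      { app := fun f => ⟨f.1, h f.1 f.2⟩
        nat := fun _ _ => rfl }
    refine real.contr_im α ?_ L ?_ hG
    · intro s x y hxy
      exact Subtype.ext (congrArg (fun z => z.1) hxy)
    · intro s x
      constructor
      · exact fun hx => ⟨⟨x.1, hx⟩, rfl⟩
      · rintro ⟨y, rfl⟩
        exact y.2
  refine hF.anContr _ (real_cofibrant hB) hL (claimB L hF hB hB' ?_)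
  rintro ⟨⟨n⟩, g⟩
  obtain ⟨C', -, hC'⟩ := Cub.grid_pull (n := n) g.1 C
  refine Cub.grid_contr hF hB hB' _ n C' le_rfl _ (fun f => ?_)
  rw [← hC']

/-- The small cells theorem. -/
theorem small_an (hF : Good F) (hB : PCofibrant F B) (hB' : ∀ s, Contr F (B.obj s))
    {Y : TopCat.{0}} {ι : Type} (U : ι → Set Y) (hU : ∀ i, IsOpen (U i))
    (hU' : ∀ y, ∃ i, y ∈ U i) : AN F 0 (real.incl B (small U)) := by
  refine claimB (small U) hF hB hB' ?_
  rintro ⟨⟨m⟩, x⟩
  obtain ⟨C, hC⟩ := exists_grid_small (m := m) (fun i => x ⁻¹' (U i))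
    (fun i => (hU i).preimage x.hom.continuous) (fun t => hU' (x t))
  exact sieve_contr hF hB hB' _ C (fun f hf => hC f hf)

end Vale.Agent.P259
end
end

section

section

open CategoryTheory Limits unitInterval

namespace Vale.Agent.P259

namespace Cub

/-- The cylinder functor on cubes. -/
def cyl : Cub ⥤ Cub where
  obj a := ⟨a.dim + 1⟩
  map {a b} f :=
    { fn := fun x => Fin.cons (x 0) (f.fn (Fin.tail x))
      aff := fun i => by
        refine Fin.cases ?_ (fun i => ?_) i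
        · exact Or.inr ⟨0, 1, 0, fun x => by simp⟩
        · rcases f.aff i with ⟨c, hc⟩ | ⟨j, α, β, hj⟩
          · exact Or.inl ⟨c, fun x => by simpa using hc (Fin.tail x)⟩
          · exact Or.inr ⟨j.succ, α, β, fun x => by simpa [Fin.tail] using hj (Fin.tail x)⟩ }
  map_id a := by
    apply Cub.hom_ext
    intro x i
    refine Fin.cases ?_ (fun i => ?_) i
    · simp
    · simp [Fin.tail]
  map_comp f g := by
    apply Cub.hom_ext
    intro x i
    refine Fin.cases ?_ (fun i => ?_) i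
    · simp
    · simp

/-- The inclusion of an end of the cylinder. -/
def iend (e : I) : 𝟭 Cub ⟶ cyl where
  app a :=
    { fn := fun x => Fin.cons (α := fun _ => I) e x
      aff := fun i => by
        refine Fin.cases ?_ (fun i => ?_) i
        · exact Or.inl ⟨e, fun x => by simp⟩
        · exact Or.inr ⟨i, 1, 0, fun x => by simp⟩ }
  naturality a b f := by
    apply Cub.hom_ext
    intro x i
    refine Fin.cases ?_ (fun i => ?_) i
    · rfl
    · rfl

/-- The projection of the cylinder. -/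
def cylP : cyl ⟶ 𝟭 Cub where
  app a :=
    { fn := fun x => Fin.tail (α := fun _ => I) x
      aff := fun i => Or.inr ⟨i.succ, 1, 0, fun x => by simp [Fin.tail]⟩ }
  naturality a b f := by
    apply Cub.hom_ext
    intro x i
    rfl

lemma iend_cylP (e : I) (a : Cub) : (iend e).app a ≫ cylP.app a = 𝟙 a := by
  apply Cub.hom_ext
  intro x i
  rfl

/-- The time coordinate of the cylinder. -/
def time (a : Cub) : C(cubeS (cyl.obj a), I) :=
  ⟨fun x => x (0 : Fin (a.dim + 1)), continuous_apply (0 : Fin (a.dim + 1))⟩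

lemma time_map {a b : Cub} (f : a ⟶ b) (x : cubeS (cyl.obj a)) :
    time b (cubeMap (cyl.map f) x) = time a x := rfl

lemma time_iend (e : I) (a : Cub) (x : cubeS a) :
    time a (cubeMap ((iend e).app a) x) = e := rfl

/-- The point is terminal. -/
def ptTerminal : IsTerminal (⟨0⟩ : Cub) :=
  IsTerminal.ofUniqueHom (fun a => ⟨fun _ => Fin.elim0, fun i => i.elim0⟩)
    (fun a f => by
      apply Cub.hom_ext
      intro x i
      exact i.elim0)

end Cub

end Vale.Agent.P259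
end
end

section

section

open CategoryTheory Limits unitInterval

namespace Vale.Agent.P259

set_option linter.unusedSectionVars false

universe u

open PSh

section

variable {𝓜 : Type u} [Category.{0} 𝓜] [HasColimitsOfSize.{0, 0} 𝓜] [HasLimitsOfSize.{0, 0} 𝓜]

variable {S : Type} [SmallCategory S] {B : S ⥤ 𝓜}

/-- The realization preserves the pushouts given by covers by two subobjects. -/
theorem real_isPushout' {K0 K1 K2 K : PSh S} (f : PSh.Hom K0 K1) (g : PSh.Hom K0 K2)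
    (h : PSh.Hom K1 K) (k : PSh.Hom K2 K)
    (hh : ∀ (s : S), Function.Injective (h.app (s := s)))
    (hk : ∀ (s : S), Function.Injective (k.app (s := s)))
    (w : ∀ {s : S} (x : K0.obj s), h.app (f.app x) = k.app (g.app x))
    (cov : ∀ {s : S} (x : K.obj s), (∃ y, h.app y = x) ∨ (∃ z, k.app z = x))
    (inter : ∀ {s : S} (y : K1.obj s) (z : K2.obj s), h.app y = k.app z →
      ∃ x, f.app x = y ∧ g.app x = z) :
    IsPushout (real.map (B := B) f) (real.map g) (real.map h) (real.map k) := by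
  classical
  have w' : real.map (B := B) f ≫ real.map h = real.map g ≫ real.map k := by
    apply real.hom_ext
    intro s x
    rw [real.ι_map_assoc, real.ι_map, real.ι_map_assoc, real.ι_map, w]
  let φ : ∀ (s : PushoutCocone (real.map (B := B) f) (real.map g)) {r : S} (x : K.obj r),
      B.obj r ⟶ s.pt := fun s {r} x =>
    if hx : ∃ y, h.app y = x then real.ι hx.choose ≫ s.inl else
      real.ι ((cov x).resolve_left hx).choose ≫ s.inr
  have φ1 : ∀ (s : PushoutCocone (real.map (B := B) f) (real.map g)) {r : S} (y : K1.obj r),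
      φ s (h.app y) = real.ι y ≫ s.inl := by
    intro s r y
    have hx : ∃ y', h.app y' = h.app y := ⟨y, rfl⟩
    simp only [φ]
    rw [dif_pos hx, hh _ hx.choose_spec]
  have φ2 : ∀ (s : PushoutCocone (real.map (B := B) f) (real.map g)) {r : S} (z : K2.obj r),
      φ s (k.app z) = real.ι z ≫ s.inr := by
    intro s r z
    by_cases hx : ∃ y, h.app y = k.app z
    · obtain ⟨y, hy⟩ := hx
      obtain ⟨x, hx1, hx2⟩ := inter y z hy
      rw [← hy, φ1, ← hx1, ← hx2]
      have := real.ι x ≫= s.condition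
      rwa [real.ι_map_assoc, real.ι_map_assoc] at this
    · simp only [φ]
      rw [dif_neg hx, hk _ ((cov (k.app z)).resolve_left hx).choose_spec]
  refine ⟨⟨w'⟩, ⟨PushoutCocone.IsColimit.mk w' (fun s => real.desc (φ s) ?_) ?_ ?_ ?_⟩⟩
  · intro a b q x
    rcases cov x with ⟨y, rfl⟩ | ⟨z, rfl⟩
    · rw [φ1, ← h.nat, φ1, real.w_assoc]
    · rw [φ2, ← k.nat, φ2, real.w_assoc]
  · intro s
    apply real.hom_ext
    intro r x
    rw [real.ι_map_assoc, real.ι_desc, φ1]
  · intro s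
    apply real.hom_ext
    intro r x
    rw [real.ι_map_assoc, real.ι_desc, φ2]
  · intro s m h1 h2
    apply real.hom_ext
    intro r x
    rw [real.ι_desc]
    rcases cov x with ⟨y, rfl⟩ | ⟨z, rfl⟩
    · rw [φ1, ← h1, real.ι_map_assoc]
    · rw [φ2, ← h2, real.ι_map_assoc]

/-- Existence of a projectively cofibrant diagram of contractible objects. -/
theorem exists_testDiag {F : Globe ⥤ 𝓜} (hF : Good F) (S : Type) [SmallCategory S] :
    ∃ B : S ⥤ 𝓜, PCofibrant F B ∧ ∀ s, Contr F (B.obj s) := by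
  have := hF.soaCof (E := S)
  let T : S ⥤ 𝓜 := (Functor.const S).obj (⊤_ 𝓜)
  have h := MorphismProperty.factorizationData (PCof F S) ((TrivFib F).functorCategory S)
    (initial.to T)
  refine ⟨h.Z, ?_, fun s => ?_⟩
  · have : initial.to h.Z = h.i := initial.hom_ext _ _
    rw [PCofibrant, this]
    exact h.hi
  · refine TrivFib.contr (h.hp s) ?_
    intro j β
    exact ⟨terminal.from _, terminalIsTerminal.hom_ext _ _⟩

end

section

variable {𝓜 : Type u} [Category.{0} 𝓜] [HasLimits 𝓜] [HasColimits 𝓜]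

/-- The standing hypotheses for a path context. -/
theorem PathCtx.good (K : PathCtx 𝓜) (h1 : ∀ n, IsFinitelyPresentable.{0} (sph K.F n))
    (h2 : ∀ n, IsFinitelyPresentable.{0} (cob K.F n)) : Good K.F where
  fpS := h1
  fpD := h2
  anContr _ _ f hA hA' hf := K.contr_of_W f hA' (K.W_of_AN f hA hf)

/-- Functoriality of the singular presheaf. -/
@[simps]
def singMap {Y Y' : TopCat.{0}} (f : Y ⟶ Y') : PSh.Hom (sing Y) (sing Y') where
  app x := x ≫ f
  nat _ _ := Category.assoc _ _ _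

/-- The singular `∞`-groupoid of a space. -/
noncomputable abbrev gam (B : Cub ⥤ 𝓜) : TopCat.{0} ⥤ 𝓜 where
  obj Y := real B (sing Y)
  map f := real.map (singMap f)
  map_id Y := by
    apply real.hom_ext
    intro s x
    rw [real.ι_map, Category.comp_id]
    congr 1
  map_comp f g := by
    apply real.hom_ext
    intro s x
    rw [real.ι_map, real.ι_map_assoc, real.ι_map]
    congr 1

variable {B : Cub ⥤ 𝓜} {F : Globe ⥤ 𝓜}

theorem gam_excision (hF : Good F) (hB : PCofibrant F B) (hB' : ∀ s, Contr F (B.obj s))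
    (Y : Type) [TopologicalSpace Y] (U V : Set Y) (hU : IsOpen U) (hV : IsOpen V)
    (hUV : U ∪ V = Set.univ) : AN F 0
      (pushout.desc ((gam B).map (subV U)) ((gam B).map (subV V)) (by
        rw [← (gam B).map_comp, ← (gam B).map_comp]; rfl) :
        pushout ((gam B).map (subI (Set.inter_subset_left (s := U) (t := V))))
          ((gam B).map (subI (Set.inter_subset_right (s := U) (t := V)))) ⟶
            (gam B).obj (TopCat.of Y)) := by
  let W : Bool → Set Y := fun b => if b then U else V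
  have hW : ∀ b, IsOpen (W b) := by
    intro b
    cases b
    · exact hV
    · exact hU
  have hW' : ∀ y, ∃ b, y ∈ W b := by
    intro y
    have : y ∈ U ∪ V := by rw [hUV]; trivial
    rcases this with h | h
    · exact ⟨true, h⟩
    · exact ⟨false, h⟩
  have han := small_an (Y := TopCat.of Y) hF hB hB' W hW hW'
  let h : PSh.Hom (sing (TopCat.of U)) (small (Y := TopCat.of Y) W).psh :=
    { app := fun x => ⟨x ≫ subV U, true, fun t => (x t).2⟩
      nat := fun _ _ => rfl }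
  let k : PSh.Hom (sing (TopCat.of V)) (small (Y := TopCat.of Y) W).psh :=
    { app := fun x => ⟨x ≫ subV V, false, fun t => (x t).2⟩
      nat := fun _ _ => rfl }
  have hp := real_isPushout' (B := B)
    (singMap (subI (Set.inter_subset_left (s := U) (t := V))))
    (singMap (subI (Set.inter_subset_right (s := U) (t := V)))) h k ?_ ?_ ?_ ?_ ?_
  · have key : ∀ q : pushout ((gam B).map (subI (Set.inter_subset_left (s := U) (t := V))))
          ((gam B).map (subI (Set.inter_subset_right (s := U) (t := V)))) ⟶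
            (gam B).obj (TopCat.of Y), pushout.inl _ _ ≫ q = (gam B).map (subV U) →
            pushout.inr _ _ ≫ q = (gam B).map (subV V) → AN F 0 q := by
      intro q h1 h2
      have e1 : q = hp.isoPushout.inv ≫ real.incl B (small (Y := TopCat.of Y) W) := by
        apply pushout.hom_ext
        · rw [h1]
          change _ = pushout.inl _ _ ≫ hp.isoPushout.inv ≫ _
          rw [hp.inl_isoPushout_inv_assoc, real.map_comp]
          rfl
        · rw [h2]
          change _ = pushout.inr _ _ ≫ hp.isoPushout.inv ≫ _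
          rw [hp.inr_isoPushout_inv_assoc, real.map_comp]
          rfl
      rw [e1]
      exact MorphismProperty.comp_mem _ _ _ (MorphismProperty.llp_of_isIso _ _) han
    exact key _ (pushout.inl_desc _ _ _) (pushout.inr_desc _ _ _)
  · intro s x y hxy
    have h1 : x ≫ subV U = y ≫ subV U := congrArg (fun z => z.1) hxy
    ext t
    exact congrArg (fun z => z t) h1
  · intro s x y hxy
    have h1 : x ≫ subV V = y ≫ subV V := congrArg (fun z => z.1) hxy
    ext t
    exact congrArg (fun z => z t) h1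
  · intro s x
    rfl
  · rintro s ⟨x, b, hb⟩
    cases b
    · right
      exact ⟨TopCat.ofHom ⟨fun t => ⟨x t, hb t⟩, x.hom.continuous.subtype_mk _⟩, rfl⟩
    · left
      exact ⟨TopCat.ofHom ⟨fun t => ⟨x t, hb t⟩, x.hom.continuous.subtype_mk _⟩, rfl⟩
  · intro s y z hyz
    have h1 : y ≫ subV U = z ≫ subV V := congrArg (fun z => z.1) hyz
    have h2 : ∀ t, (y t).1 = (z t).1 := fun t => congrArg (fun z => z t) h1
    refine ⟨TopCat.ofHom ⟨fun t => ⟨(y t).1, (y t).2, by rw [h2]; exact (z t).2⟩,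
      (continuous_subtype_val.comp y.hom.continuous).subtype_mk _⟩, rfl, ?_⟩
    ext t
    exact h2 t

end

end Vale.Agent.P259
end
end

section

section

open CategoryTheory Limits Opposite

namespace Vale.Agent.P259

open scoped unitInterval

open PSh

/-- The category of cubes as a test category. -/
def cubT : TestCat Cub where
  T := cubeF
  cube s := ⟨s.dim, rfl⟩
  pt := ⟨0⟩
  ptTerminal := Cub.ptTerminal
  ptCube := rfl
  cyl := Cub.cyl
  i0 := Cub.iend 0
  i1 := Cub.iend 1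
  p := Cub.cylP
  i0_p s := Cub.iend_cylP 0 s
  i1_p s := Cub.iend_cylP 1 s
  time := Cub.time
  time_map f x := Cub.time_map f x
  time_i0 s x := Cub.time_iend 0 s x
  time_i1 s x := Cub.time_iend 1 s x

variable {𝓜 : Type 1} [Category.{0} 𝓜] [HasLimits 𝓜] [HasColimits 𝓜]

/-- The functor `Γ` built from singular cubes. -/
noncomputable abbrev GamC (B : Cub ⥤ 𝓜) : TopCat.{0} ⥤ 𝓜 := Gam cubeF B

/-- Corestriction of a continuous map. -/
def corS {Y : Type} [TopologicalSpace Y] {U : Set Y} {W : TopCat.{0}} (x : W ⟶ TopCat.of Y)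
    (h : ∀ t, x t ∈ U) : W ⟶ TopCat.of U :=
  TopCat.ofHom ⟨fun t => ⟨x t, h t⟩, by
    apply Continuous.subtype_mk
    exact x.hom.continuous⟩

lemma corS_comp {Y : Type} [TopologicalSpace Y] {U : Set Y} {W : TopCat.{0}}
    (x : W ⟶ TopCat.of Y) (h : ∀ t, x t ∈ U) : corS x h ≫ subV U = x := rfl

lemma comp_corS {Y : Type} [TopologicalSpace Y] {U : Set Y} {W W' : TopCat.{0}} (f : W' ⟶ W)
    (x : W ⟶ TopCat.of Y) (h : ∀ t, x t ∈ U) :
    f ≫ corS x h = corS (f ≫ x) (fun t => h (f t)) := rfl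

lemma corS_subI {Y : Type} [TopologicalSpace Y] {U V : Set Y} (hUV : U ⊆ V) {W : TopCat.{0}}
    (x : W ⟶ TopCat.of Y) (h : ∀ t, x t ∈ U) :
    corS x h ≫ subI hUV = corS x (fun t => hUV (h t)) := rfl

section Excision

variable {Y : Type} [TopologicalSpace Y] (U V : Set Y)

/-- The two sets of the cover. -/
def cov : Bool → Set Y := fun b => bif b then U else V

/-- The presheaf of cubes which are contained in `U` or in `V`. -/
abbrev smP : PSh Cub := (small (Y := TopCat.of Y) (cov U V)).psh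

/-- The realization of the presheaf of small cubes. -/
noncomputable def smR (B : Cub ⥤ 𝓜) : 𝓜 := real B (smP U V)

/-- The map attached to a small cube. -/
noncomputable def smEl (B : Cub ⥤ 𝓜) {a : Cub} (x : cubeF.obj a ⟶ TopCat.of Y)
    (h : (∀ t, x t ∈ U) ∨ (∀ t, x t ∈ V)) : B.obj a ⟶ smR U V B :=
  real.ι (K := smP U V) ⟨x, h.elim (fun h => ⟨true, h⟩) (fun h => ⟨false, h⟩)⟩

lemma map_smEl (B : Cub ⥤ 𝓜) {a b : Cub} (f : a ⟶ b) (x : cubeF.obj b ⟶ TopCat.of Y)
    (h : (∀ t, x t ∈ U) ∨ (∀ t, x t ∈ V)) :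
    B.map f ≫ smEl U V B x h = smEl U V B (cubeF.map f ≫ x)
      (h.imp (fun h _ => h _) (fun h _ => h _)) :=
  real.w (K := smP U V) f _

lemma smEl_hom_ext {B : Cub ⥤ 𝓜} {X : 𝓜} {f g : smR U V B ⟶ X}
    (h : ∀ {a : Cub} (x : cubeF.obj a ⟶ TopCat.of Y) (h : (∀ t, x t ∈ U) ∨ (∀ t, x t ∈ V)),
      smEl U V B x h ≫ f = smEl U V B x h ≫ g) : f = g := by
  refine real.hom_ext (K := smP U V) (fun {a} x => ?_)
  obtain ⟨x, b, hb⟩ := x
  cases b
  · exact h x (Or.inr hb)
  · exact h x (Or.inl hb)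

lemma exists_smDesc {B : Cub ⥤ 𝓜} {X : 𝓜}
    (φ : ∀ (a : Cub) (x : cubeF.obj a ⟶ TopCat.of Y), ((∀ t, x t ∈ U) ∨ (∀ t, x t ∈ V)) →
      (B.obj a ⟶ X))
    (hφ : ∀ (a b : Cub) (f : a ⟶ b) (x : cubeF.obj b ⟶ TopCat.of Y)
      (h : (∀ t, x t ∈ U) ∨ (∀ t, x t ∈ V)),
      B.map f ≫ φ b x h = φ a (cubeF.map f ≫ x) (h.imp (fun h _ => h _) (fun h _ => h _))) :
    ∃ f : smR U V B ⟶ X, ∀ (a : Cub) (x : cubeF.obj a ⟶ TopCat.of Y)
      (h : (∀ t, x t ∈ U) ∨ (∀ t, x t ∈ V)), smEl U V B x h ≫ f = φ a x h := by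
  have hor : ∀ {a : Cub} (x : (smP U V).obj a), (∀ t, x.1 t ∈ U) ∨ (∀ t, x.1 t ∈ V) := by
    rintro a ⟨x, b, hb⟩
    cases b
    · exact Or.inr hb
    · exact Or.inl hb
  refine ⟨real.desc (K := smP U V) (fun {a} x => φ a x.1 (hor x))
    (fun {a b} f x => hφ a b f x.1 (hor x)), fun a x h => ?_⟩
  exact real.ι_desc (K := smP U V) (fun {a} x => φ a x.1 (hor x))
    (fun {a b} f x => hφ a b f x.1 (hor x)) _

/-- The map from cubes of `U`. -/
noncomputable def mU (B : Cub ⥤ 𝓜) : (GamC B).obj (TopCat.of U) ⟶ smR U V B :=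
  Gam.desc (fun a x => smEl U V B (x ≫ subV U) (Or.inl fun t => (x t).2)) (fun a b f x => by
    rw [map_smEl]
    rfl)

/-- The map from cubes of `V`. -/
noncomputable def mV (B : Cub ⥤ 𝓜) : (GamC B).obj (TopCat.of V) ⟶ smR U V B :=
  Gam.desc (fun a x => smEl U V B (x ≫ subV V) (Or.inr fun t => (x t).2)) (fun a b f x => by
    rw [map_smEl]
    rfl)

lemma el_mU {B : Cub ⥤ 𝓜} {a : Cub} (x : cubeF.obj a ⟶ TopCat.of U) :
    (Gam.el x : B.obj a ⟶ (GamC B).obj (TopCat.of U)) ≫ mU U V B =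
      smEl U V B (x ≫ subV U) (Or.inl fun t => (x t).2) :=
  Gam.el_desc _ _ _

lemma el_mV {B : Cub ⥤ 𝓜} {a : Cub} (x : cubeF.obj a ⟶ TopCat.of V) :
    (Gam.el x : B.obj a ⟶ (GamC B).obj (TopCat.of V)) ≫ mV U V B =
      smEl U V B (x ≫ subV V) (Or.inr fun t => (x t).2) :=
  Gam.el_desc _ _ _

theorem isPushout_sm (B : Cub ⥤ 𝓜) :
    IsPushout ((GamC B).map (subI (Set.inter_subset_left (s := U) (t := V))))
      ((GamC B).map (subI (Set.inter_subset_right (s := U) (t := V))))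
      (mU U V B) (mV U V B) := by
  classical
  have w : (GamC B).map (subI (Set.inter_subset_left (s := U) (t := V))) ≫
      mU U V B = (GamC B).map (subI (Set.inter_subset_right (s := U) (t := V))) ≫
        mV U V B := by
    apply Gam.hom_ext
    intro a x
    rw [← Category.assoc, ← Category.assoc, Gam.el_map, Gam.el_map, el_mU, el_mV]
    rfl
  have key : ∀ (s : PushoutCocone ((GamC B).map (subI (Set.inter_subset_left (s := U) (t := V))))
      ((GamC B).map (subI (Set.inter_subset_right (s := U) (t := V))))) {a : Cub}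
      (x : cubeF.obj a ⟶ TopCat.of Y) (hx : ∀ t, x t ∈ U) (hx' : ∀ t, x t ∈ V),
      Gam.el (corS x hx) ≫ s.inl = Gam.el (corS x hx') ≫ s.inr := by
    intro s a x hx hx'
    have h := congrArg (fun z => Gam.el (corS x (U := U ∩ V) fun t => ⟨hx t, hx' t⟩) ≫ z)
      s.condition
    rw [← Category.assoc, ← Category.assoc, Gam.el_map, Gam.el_map] at h
    exact h
  have hdesc : ∀ (s : PushoutCocone
      ((GamC B).map (subI (Set.inter_subset_left (s := U) (t := V))))
      ((GamC B).map (subI (Set.inter_subset_right (s := U) (t := V))))),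
      ∃ f : smR U V B ⟶ s.pt, (∀ (a : Cub) (x : cubeF.obj a ⟶ TopCat.of Y)
        (h : ∀ t, x t ∈ U), smEl U V B x (Or.inl h) ≫ f = Gam.el (corS x h) ≫ s.inl) ∧
        (∀ (a : Cub) (x : cubeF.obj a ⟶ TopCat.of Y)
        (h : ∀ t, x t ∈ V), smEl U V B x (Or.inr h) ≫ f = Gam.el (corS x h) ≫ s.inr) := by
    intro s
    obtain ⟨f, hf⟩ := exists_smDesc (B := B) (X := s.pt) U V (fun a x h =>
      if hx : ∀ t, x t ∈ U then Gam.el (corS x hx) ≫ s.inl else
        Gam.el (corS x (h.resolve_left hx)) ≫ s.inr) (by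
      intro a b f x h
      by_cases hx : ∀ t, x t ∈ U
      · have hx2 : ∀ t, (cubeF.map f ≫ x) t ∈ U := fun t => hx _
        rw [dif_pos hx, dif_pos hx2, ← Category.assoc, Gam.map_el]
        rfl
      · rw [dif_neg hx]
        by_cases hx' : ∀ t, (cubeF.map f ≫ x) t ∈ U
        · rw [dif_pos hx', ← Category.assoc, Gam.map_el]
          exact (key s (cubeF.map f ≫ x) hx' (fun t => h.resolve_left hx _)).symm
        · rw [dif_neg hx', ← Category.assoc, Gam.map_el]
          rfl)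
    refine ⟨f, fun a x h => ?_, fun a x h => ?_⟩
    · rw [hf, dif_pos h]
    · rw [hf]
      by_cases hx : ∀ t, x t ∈ U
      · rw [dif_pos hx]
        exact key s x hx h
      · rw [dif_neg hx]
  choose d hd1 hd2 using hdesc
  refine ⟨⟨w⟩, ⟨PushoutCocone.IsColimit.mk w d ?_ ?_ ?_⟩⟩
  · intro s
    apply Gam.hom_ext
    intro a x
    rw [← Category.assoc, el_mU, hd1]
    rfl
  · intro s
    apply Gam.hom_ext
    intro a x
    rw [← Category.assoc, el_mV, hd2]
    rfl
  · intro s m h1 h2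
    apply smEl_hom_ext
    intro a x h
    rcases h with h | h
    · rw [hd1 s a x h, ← h1, ← Category.assoc, el_mU]
      rfl
    · rw [hd2 s a x h, ← h2, ← Category.assoc, el_mV]
      rfl

/-- The inclusion of small cubes. -/
noncomputable def smIncl (B : Cub ⥤ 𝓜) : smR U V B ⟶ (GamC B).obj (TopCat.of Y) :=
  real.incl B (small (Y := TopCat.of Y) (cov U V))

lemma smEl_incl (B : Cub ⥤ 𝓜) {a : Cub} (x : cubeF.obj a ⟶ TopCat.of Y)
    (h : (∀ t, x t ∈ U) ∨ (∀ t, x t ∈ V)) : smEl U V B x h ≫ smIncl U V B = Gam.el x :=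
  real.ι_map _ _

end Excision

/-- Excision. -/
theorem GamC.excision {F : Globe ⥤ 𝓜} (hF : Good F) {B : Cub ⥤ 𝓜} (hB : PCofibrant F B)
    (hB' : ∀ s, Contr F (B.obj s)) (Y : Type) [TopologicalSpace Y] (U V : Set Y)
    (hU : IsOpen U) (hV : IsOpen V) (hUV : U ∪ V = Set.univ) :
    AN F 0
      (pushout.desc ((GamC B).map (subV U)) ((GamC B).map (subV V)) (by
        rw [← Functor.map_comp, ← Functor.map_comp]; rfl) :
        pushout ((GamC B).map (subI (Set.inter_subset_left (s := U) (t := V))))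
          ((GamC B).map (subI (Set.inter_subset_right (s := U) (t := V)))) ⟶
            (GamC B).obj (TopCat.of Y)) := by
  have h1 : AN F 0 (smIncl U V B) := by
    apply small_an hF hB hB'
    · intro b
      cases b
      · exact hV
      · exact hU
    · intro y
      rcases (Set.mem_union y U V).1 (hUV ▸ Set.mem_univ y) with h | h
      · exact ⟨true, h⟩
      · exact ⟨false, h⟩
  have e : (pushout.desc ((GamC B).map (subV U)) ((GamC B).map (subV V)) (by
        rw [← Functor.map_comp, ← Functor.map_comp]; rfl) :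
        pushout ((GamC B).map (subI (Set.inter_subset_left (s := U) (t := V))))
          ((GamC B).map (subI (Set.inter_subset_right (s := U) (t := V)))) ⟶
            (GamC B).obj (TopCat.of Y)) = (isPushout_sm U V B).isoPushout.inv ≫
        smIncl U V B := by
    apply pushout.hom_ext
    · rw [pushout.inl_desc, (isPushout_sm U V B).inl_isoPushout_inv_assoc]
      apply Gam.hom_ext
      intro a x
      rw [Gam.el_map, ← Category.assoc, el_mU, smEl_incl]
    · rw [pushout.inr_desc, (isPushout_sm U V B).inr_isoPushout_inv_assoc]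
      apply Gam.hom_ext
      intro a x
      rw [Gam.el_map, ← Category.assoc, el_mV, smEl_incl]
  rw [e]
  exact MorphismProperty.comp_mem _ _ _ (MorphismProperty.llp_of_isIso _ _) h1

/-- Assembly of the data of `Γ`. -/
theorem exists_gammaData (K : PathCtx 𝓜) (Pi : TopCat.{0} ⥤ 𝓜) (hF : Good K.F)
    {B : Cub ⥤ 𝓜} (hB : PCofibrant K.F B) (hB' : ∀ s, Contr K.F (B.obj s))
    (hPi : ∀ n, Contr K.F (Pi.obj (cubeT n))) : Nonempty (GammaData K Pi) := by
  have hcub : ∀ s : Cub, ∃ n, cubeF.obj s = cubeT n := fun s => ⟨s.dim, rfl⟩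
  -- the transformation `u`
  obtain ⟨u, -⟩ := Gam.lift (T := cubeF) hB hcub Pi ((Functor.const _).obj (⊤_ 𝓜))
    { app := fun _ => terminal.from _ } (fun n => (contr_iff_trivFib terminalIsTerminal).1 (hPi n))
    { app := fun _ => terminal.from _ }
  have hconn : ∀ s : Cub, ConnectedSpace (cubeF.obj s) := fun s => by
    change ConnectedSpace (Fin s.dim → I)
    infer_instance
  exact ⟨
    { Γ := GamC B
      u := u
      lift := fun A B' p hp b => Gam.lift hB hcub A B' p hp b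
      cof := fun f hf => Gam.cof hB f hf
      empty := fun Y hY => Gam.empty (fun s => (hconn s).toNonempty) Y hY
      contr := fun Y hY => Gam.contr K cubT hB hB' Y hY
      homotopy := fun f g h => Gam.homotopy K cubT hB hB' f g h
      excision := fun Y _ U V hU hV hUV => GamC.excision hF hB hB' Y U V hU hV hUV
      coprod := fun Y c hc => Gam.coprod hconn Y c hc
      seq := fun D c hc hinj hfac => Gam.seq hcub D c hinj hfac }⟩

/-- Existence of the data of `Γ`. -/
theorem exists_gammaData_of_fp (K : PathCtx 𝓜) (Pi : TopCat.{0} ⥤ 𝓜)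
    (h1 : ∀ n, IsFinitelyPresentable.{0} (sph K.F n))
    (h2 : ∀ n, IsFinitelyPresentable.{0} (cob K.F n))
    (hPi : ∀ n, Contr K.F (Pi.obj (cubeT n))) : Nonempty (GammaData K Pi) := by
  obtain ⟨B, hB, hB'⟩ := exists_testDiag (K.good h1 h2) Cub
  exact exists_gammaData K Pi (K.good h1 h2) hB hB' hPi

end Vale.Agent.P259
end
end

section

section

open CategoryTheory Limits Opposite

namespace Vale.Agent.P259

open GlobExt

variable {C : GlobExt}

/-- Existence of the functor `Γ` for `C`-∞-groupoids. -/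
theorem exists_gammaData_gpd (hC : C.IsCoherator) (K0 : C.CylFun ⊤ 0)
    (Pi : TopCat.{0} ⥤ C.Gpd) (hPi : ∀ n, Contr (C.F ⊤) (Pi.obj (cubeT n))) :
    Nonempty (GammaData (K0.pathCtx hC) Pi) :=
  exists_gammaData_of_fp (K0.pathCtx hC) Pi (fun n => presentable_sph C ⊤ n)
    (fun n => presentable_cob C ⊤ n) hPi

end Vale.Agent.P259
end
end

section

section

open CategoryTheory Limits Opposite

namespace Vale.Agent.P259

open Theta0

universe u

section Nerve

variable {A : Type} [SmallCategory A] {𝒯 : Type u} [Category.{0} 𝒯]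

/-- The presheaf `Hom(D(-), Y)`, functorially in `Y`. -/
def nervePre (D : A ⥤ 𝒯) : 𝒯 ⥤ (Aᵒᵖ ⥤ Type) where
  obj Y := D.op ⋙ yoneda.obj Y
  map f := Functor.whiskerLeft D.op (yoneda.map f)

/-- Comparison with the restricted Yoneda embedding of Mathlib. -/
def nervePreIso (D : A ⥤ 𝒯) : Presheaf.restrictedULiftYoneda.{0} D ≅ nervePre D :=
  Functor.isoWhiskerRight uliftYonedaIsoYoneda.{0} ((Functor.whiskeringLeft _ _ _).obj D.op)

variable [HasColimitsOfSize.{0, 0} 𝒯]

/-- The realization of a presheaf: the left adjoint of `nervePre D`. -/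
noncomputable def realPre (D : A ⥤ 𝒯) : (Aᵒᵖ ⥤ Type) ⥤ 𝒯 :=
  (uliftYoneda.{0} : A ⥤ Aᵒᵖ ⥤ Type).leftKanExtension D

/-- The adjunction between the realization and the nerve. -/
noncomputable def realPreAdj (D : A ⥤ 𝒯) : realPre D ⊣ nervePre D :=
  (Presheaf.uliftYonedaAdjunction.{0} ((uliftYoneda.{0} : A ⥤ Aᵒᵖ ⥤ Type).leftKanExtension D)
    ((uliftYoneda.{0} : A ⥤ Aᵒᵖ ⥤ Type).leftKanExtensionUnit D)).ofNatIsoRight (nervePreIso D)

noncomputable instance (D : A ⥤ 𝒯) : PreservesColimitsOfSize.{0, 0} (realPre D) :=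
  (realPreAdj D).leftAdjoint_preservesColimits

/-- The realization of a representable presheaf `S` is `D(S)`. -/
noncomputable def realPreYoneda (D : A ⥤ 𝒯) : yoneda ⋙ realPre D ≅ D :=
  Functor.isoWhiskerRight uliftYonedaIsoYoneda.{0}.symm (realPre D) ≪≫
    (asIso ((uliftYoneda.{0} : A ⥤ Aᵒᵖ ⥤ Type).leftKanExtensionUnit D)).symm

end Nerve

/-! ### Compact generation -/

/-- Colimits of compactly generated spaces are compactly generated. -/
lemma compactlyGenerated_of_isColimit {J : Type*} [Category* J] {F : J ⥤ TopCat.{0}}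
    (c : Cocone F) (hc : IsColimit c) (h : ∀ j, UCompactlyGeneratedSpace.{0} (F.obj j)) :
    UCompactlyGeneratedSpace.{0} c.pt := by
  apply uCompactlyGeneratedSpace_of_isOpen
  intro s hs
  rw [TopCat.isOpen_iff_of_isColimit c hc]
  intro j
  apply UCompactlyGeneratedSpace.isOpen
  intro S f
  exact hs S ((c.ι.app j).hom.comp f)

lemma compactlyGenerated_of_iso {X Y : TopCat.{0}} (e : X ≅ Y)
    [UCompactlyGeneratedSpace.{0} X] : UCompactlyGeneratedSpace.{0} Y :=
  uCompactlyGeneratedSpace_of_coinduced e.hom.hom.continuous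
    (TopCat.homeoOfIso e).coinduced_eq.symm

lemma compactlyGenerated_of_isPushout {A B X Y : TopCat.{0}} {f : A ⟶ X} {g : A ⟶ B}
    {inl : X ⟶ Y} {inr : B ⟶ Y} (sq : IsPushout f g inl inr)
    [UCompactlyGeneratedSpace.{0} A] [UCompactlyGeneratedSpace.{0} X]
    [UCompactlyGeneratedSpace.{0} B] : UCompactlyGeneratedSpace.{0} Y := by
  refine compactlyGenerated_of_isColimit _ sq.isColimit ?_
  rintro (_ | _ | _)
  all_goals assumption

/-- The realization of a presheaf is compactly generated. -/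
lemma compactlyGenerated_realPre {A : Type} [SmallCategory A] (D : A ⥤ TopCat.{0})
    (h : ∀ S, UCompactlyGeneratedSpace.{0} (D.obj S)) (X : Aᵒᵖ ⥤ Type) :
    UCompactlyGeneratedSpace.{0} ((realPre D).obj X) := by
  refine compactlyGenerated_of_isColimit _
    (isColimitOfPreserves (realPre D) (Presheaf.colimitOfRepresentable X)) ?_
  intro S
  have := h S.unop.fst.unop
  exact compactlyGenerated_of_iso
    ((asIso ((uliftYoneda.{0} : A ⥤ Aᵒᵖ ⥤ Type).leftKanExtensionUnit D)).app S.unop.fst.unop)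

namespace DiscFunctor

variable {C : GlobExt} (Δ : DiscFunctor C)

/-- The realization functor attached to a disc functor. -/
noncomputable def real : C.Gpd ⥤ TopCat.{0} :=
  (C.isMd ⊤).ι ⋙ realPre Δ.D

/-- The adjunction between the realization and the fundamental `∞`-groupoid. -/
noncomputable def adj : Δ.real ⊣ Δ.Pi :=
  (realPreAdj Δ.D).restrictFullyFaithful (iC := (C.isMd ⊤).ι) (iD := 𝟭 TopCat.{0})
    (C.isMd ⊤).fullyFaithfulι (Functor.FullyFaithful.id _) (Iso.refl _) (Iso.refl _)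

noncomputable instance : PreservesColimitsOfSize.{0, 0} Δ.real :=
  Δ.adj.leftAdjoint_preservesColimits

/-- The realization of the representable `∞`-groupoid `S` is `D(S)`. -/
noncomputable def realY : C.y ⊤ ⋙ Δ.real ≅ Δ.D :=
  Functor.isoWhiskerLeft yoneda (((Adjunction.ofIsRightAdjoint (C.isMd ⊤).ι).comp
    Δ.adj).leftAdjointUniq (realPreAdj Δ.D)) ≪≫ realPreYoneda Δ.D

/-- The realization of the discs. -/
noncomputable def realF : C.F ⊤ ⋙ Δ.real ≅ ballF :=
  Functor.isoWhiskerLeft C.discF Δ.realY ≪≫ Δ.disc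

lemma compactlyGenerated_D (S : C.Obj) : UCompactlyGeneratedSpace.{0} (Δ.D.obj S) := by
  obtain ⟨S⟩ := S
  induction S using Theta0.induction' with
  | disc i =>
    have : UCompactlyGeneratedSpace.{0} (ballF.obj (Globe.D i)) :=
      inferInstanceAs (UCompactlyGeneratedSpace.{0} (Ball i))
    exact compactlyGenerated_of_iso (Δ.disc.symm.app (Globe.D i))
  | glue t j i hl hi ih =>
    have h1 : ∀ n, UCompactlyGeneratedSpace.{0} (Δ.D.obj (.of (Theta0.disc n))) := by
      intro n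
      have : UCompactlyGeneratedSpace.{0} (ballF.obj (Globe.D n)) :=
        inferInstanceAs (UCompactlyGeneratedSpace.{0} (Ball n))
      exact compactlyGenerated_of_iso (Δ.disc.symm.app (Globe.D n))
    have h2 : UCompactlyGeneratedSpace.{0} ((C.J ⋙ Δ.D).obj (Theta0.disc j)) := h1 j
    have h3 : UCompactlyGeneratedSpace.{0} ((C.J ⋙ Δ.D).obj (Theta0.disc i)) := h1 i
    have h4 : UCompactlyGeneratedSpace.{0} ((C.J ⋙ Δ.D).obj ⟨t⟩) := ih
    exact compactlyGenerated_of_isPushout (Δ.glue t j i hl hi)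

lemma compactlyGenerated_real (X : C.Gpd) : UCompactlyGeneratedSpace.{0} (Δ.real.obj X) :=
  compactlyGenerated_realPre Δ.D Δ.compactlyGenerated_D X.obj

end DiscFunctor

end Vale.Agent.P259
end
end

section

section

open CategoryTheory Limits Opposite

namespace Vale.Agent.P259

/-- Every point of a pushout of spaces comes from one of the two pieces. -/
lemma topPushout_cases {A B X Y : TopCat.{0}} {f : A ⟶ X} {g : A ⟶ B} {inl : X ⟶ Y} {inr : B ⟶ Y}
    (sq : IsPushout f g inl inr) (y : Y) : (∃ x : X, inl x = y) ∨ ∃ b : B, inr b = y := by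
  rcases Types.eq_or_eq_of_isPushout (sq.map (forget TopCat.{0})) y with ⟨x, hx⟩ | ⟨x, hx⟩
  · exact Or.inl ⟨x, hx⟩
  · exact Or.inr ⟨x, hx⟩

section

variable {𝓜 : Type 1} [Category.{0} 𝓜] [HasColimits 𝓜] (F : Globe ⥤ 𝓜)
  (R : 𝓜 ⥤ TopCat.{0}) (e : F ⋙ R ≅ ballF)

/-- The realization of a disc is a ball. -/
noncomputable def cobR (n : ℕ) : R.obj (cob F n) ≅ ballData.obj n := e.app (Globe.D n)

omit [HasColimits 𝓜] in
lemma sg_cobR (n : ℕ) : R.map (sg F n) ≫ (cobR F R e (n + 1)).hom =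
    (cobR F R e n).hom ≫ ballData.s n := by
  have h := e.hom.naturality (Globe.σ n)
  rw [show ballF.map (Globe.σ n) = ballData.s n from ballData.functor_σ n] at h
  exact h

omit [HasColimits 𝓜] in
lemma tg_cobR (n : ℕ) : R.map (tg F n) ≫ (cobR F R e (n + 1)).hom =
    (cobR F R e n).hom ≫ ballData.t n := by
  have h := e.hom.naturality (Globe.τ n)
  rw [show ballF.map (Globe.τ n) = ballData.t n from ballData.functor_τ n] at h
  exact h

/-- The realization of the boundary inclusion, with values in the ball. -/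
noncomputable def bdR (n : ℕ) : R.obj (sph F n) ⟶ ballData.obj n :=
  R.map (bd F n) ≫ (cobR F R e n).hom

lemma hemS_bdR (n : ℕ) : R.map (hemS F n) ≫ bdR F R e (n + 1) =
    (cobR F R e n).hom ≫ ballData.s n := by
  rw [bdR, ← Category.assoc, ← R.map_comp, hemS_bd, sg_cobR]

lemma hemT_bdR (n : ℕ) : R.map (hemT F n) ≫ bdR F R e (n + 1) =
    (cobR F R e n).hom ≫ ballData.t n := by
  rw [bdR, ← Category.assoc, ← R.map_comp, hemT_bd, tg_cobR]

lemma bdR_props [PreservesColimits R] (n : ℕ) : Function.Injective (bdR F R e n) ∧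
    CompactSpace (R.obj (sph F n)) ∧ ∀ x : Ball n, x ∈ Set.range (bdR F R e n) ↔ ‖x.1‖ ^ 2 = 1 := by
  induction n with
  | zero =>
    have hi : IsInitial (R.obj (sph F 0)) := (isInitialSphZero F).isInitialObj R _
    have hemp : IsEmpty (R.obj (sph F 0)) := by
      have f : R.obj (sph F 0) ⟶ TopCat.of PEmpty := hi.to _
      exact ⟨fun x => (f x).elim⟩
    refine ⟨fun x => hemp.elim x, inferInstance, fun x => ⟨?_, ?_⟩⟩
    · rintro ⟨y, -⟩
      exact hemp.elim y
    · intro hx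
      exfalso
      have h0 : x.1 = 0 := Subsingleton.elim _ _
      rw [h0, norm_zero] at hx
      norm_num at hx
  | succ n ih =>
    obtain ⟨-, -, ih3⟩ := ih
    have sq := (isPushout_sph F n).map R
    let φ : R.obj (cob F n) → Ball n := fun a => (cobR F R e n).hom a
    let ψ : Ball n → R.obj (cob F n) := fun a => (cobR F R e n).inv a
    have hS : ∀ a : R.obj (cob F n), bdR F R e (n + 1) (R.map (hemS F n) a) =
        hemi false n (φ a) := fun a =>
      congrArg (fun φ : R.obj (cob F n) ⟶ ballData.obj (n + 1) => φ a) (hemS_bdR F R e n)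
    have hT : ∀ a : R.obj (cob F n), bdR F R e (n + 1) (R.map (hemT F n) a) =
        hemi true n (φ a) := fun a =>
      congrArg (fun φ : R.obj (cob F n) ⟶ ballData.obj (n + 1) => φ a) (hemT_bdR F R e n)
    have inv_hom : ∀ x : Ball n, φ (ψ x) = x := fun x =>
      congrArg (fun φ : ballData.obj n ⟶ ballData.obj n => φ x) (cobR F R e n).inv_hom_id
    have hom_inj : Function.Injective φ := (TopCat.homeoOfIso (cobR F R e n)).injective
    have glueB : ∀ a : R.obj (cob F n), ‖(φ a).1‖ ^ 2 = 1 →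
        R.map (hemS F n) a = R.map (hemT F n) a := by
      intro a ha
      obtain ⟨c, hc⟩ := (ih3 _).2 ha
      have h1 : R.map (bd F n) c = a := hom_inj hc
      rw [← h1]
      exact congrArg (fun φ : R.obj (sph F n) ⟶ R.obj (sph F (n + 1)) => φ c) sq.w
    have mixed : ∀ a a' : R.obj (cob F n), hemi false n (φ a) =
        hemi true n (φ a') → R.map (hemS F n) a = R.map (hemT F n) a' := by
      intro a a' h
      have h1 := congrArg (projB n) h
      rw [projB_hemi, projB_hemi] at h1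
      have h2 : a = a' := hom_inj h1
      subst h2
      apply glueB
      have h3 := congrArg (fun x : Ball (n + 1) => x.1 (Fin.last n)) h
      change snocE _ _ (Fin.last n) = snocE _ _ (Fin.last n) at h3
      rw [snocE_last, snocE_last] at h3
      simp only [sgn] at h3
      set b : Ball n := φ a with hb
      have h4 := (mem_ball_iff b.1).1 b.2
      have h5 : Real.sqrt (1 - ‖b.1‖ ^ 2) = 0 := by linarith
      rw [Real.sqrt_eq_zero (by linarith)] at h5
      linarith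
    refine ⟨?_, ?_, ?_⟩
    · intro x y hxy
      rcases topPushout_cases sq x with ⟨a, rfl⟩ | ⟨a, rfl⟩ <;>
      rcases topPushout_cases sq y with ⟨a', rfl⟩ | ⟨a', rfl⟩
      · rw [hS, hS] at hxy
        rw [hom_inj (hemi_injective _ _ hxy)]
      · rw [hS, hT] at hxy
        exact mixed _ _ hxy
      · rw [hS, hT] at hxy
        exact (mixed _ _ hxy.symm).symm
      · rw [hT, hT] at hxy
        rw [hom_inj (hemi_injective _ _ hxy)]
    · have hB : CompactSpace (ballData.obj n) := inferInstanceAs (CompactSpace (Ball n))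
      have hc : CompactSpace (R.obj (cob F n)) :=
        (TopCat.homeoOfIso (cobR F R e n)).symm.compactSpace
      constructor
      have h1 : (Set.univ : Set (R.obj (sph F (n + 1)))) =
          Set.range (R.map (hemS F n)) ∪ Set.range (R.map (hemT F n)) := by
        symm
        rw [Set.eq_univ_iff_forall]
        intro x
        exact topPushout_cases sq x
      rw [h1]
      exact (isCompact_range (R.map (hemS F n)).hom.continuous).union
        (isCompact_range (R.map (hemT F n)).hom.continuous)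
    · intro x
      constructor
      · rintro ⟨y, rfl⟩
        rcases topPushout_cases sq y with ⟨a, rfl⟩ | ⟨a, rfl⟩
        · rw [hS]; exact norm_hemi _ _
        · rw [hT]; exact norm_hemi _ _
      · intro hx
        obtain ⟨b, hb⟩ := exists_hemi_eq x hx
        cases b
        · refine ⟨R.map (hemS F n) (ψ (projB n x)), ?_⟩
          rw [hS, inv_hom, hb]
        · refine ⟨R.map (hemT F n) (ψ (projB n x)), ?_⟩
          rw [hT, inv_hom, hb]

/-- The realization of the boundary of a disc is the boundary sphere of the ball. -/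
theorem isSphereInc_bd [PreservesColimits R] (e : F ⋙ R ≅ ballF) (n : ℕ) :
    IsSphereInc (R.map (bd F n)) := by
  obtain ⟨h1, h2, h3⟩ := bdR_props F R e n
  have hT2 : T2Space (ballData.obj n) := inferInstanceAs (T2Space (Ball n))
  have h4 : Topology.IsClosedEmbedding (bdR F R e n) :=
    (bdR F R e n).hom.continuous.isClosedEmbedding h1
  let θ := TopCat.homeoOfIso (cobR F R e n)
  have h5 : ∀ x, bdR F R e n x = θ (R.map (bd F n) x) := fun x => rfl
  refine ⟨?_, Unit, fun _ => n, ⟨⟨fun x => ⟨(), θ x⟩, fun x => θ.symm x.2, fun x => ?_,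
    fun x => ?_⟩, ?_, ?_⟩, ?_⟩
  · have h6 : (R.map (bd F n) : R.obj (sph F n) → R.obj (cob F n)) =
        θ.symm ∘ bdR F R e n := by
      funext x
      exact (θ.symm_apply_apply _).symm
    rw [h6]
    exact θ.symm.isClosedEmbedding.comp h4
  · exact θ.symm_apply_apply x
  · exact congrArg (Sigma.mk ()) (θ.apply_symm_apply x.2)
  · exact continuous_sigmaMk.comp θ.continuous
  · exact θ.symm.continuous.comp (continuous_sigma_iff.2 fun _ => continuous_id)
  · intro x
    have h7 := h3 (θ x)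
    have h8 : x ∈ Set.range (R.map (bd F n)) ↔ θ x ∈ Set.range (bdR F R e n) := by
      constructor
      · rintro ⟨c, rfl⟩
        exact ⟨c, h5 c⟩
      · rintro ⟨c, hc⟩
        rw [h5] at hc
        exact ⟨c, θ.injective hc⟩
    have h9 : ∀ y : Ball n, ‖y.1‖ ^ 2 = 1 ↔ ‖y.1‖ = 1 := fun y =>
      pow_eq_one_iff_of_nonneg (norm_nonneg y.1) (by norm_num)
    exact h8.trans (h7.trans (h9 _))

end

namespace DiscFunctor

variable {C : GlobExt} (Δ : DiscFunctor C)

/-- The realization of the boundary of a disc is the boundary sphere of the ball. -/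
theorem isSphereInc_real_bd (n : ℕ) : IsSphereInc (Δ.real.map (bd (C.F ⊤) n)) :=
  isSphereInc_bd (C.F ⊤) Δ.real Δ.realF n

end DiscFunctor

end Vale.Agent.P259
end
end

section

section

/-!
The homotopy hypothesis for an arbitrary coherator and an arbitrary disc functor.
-/

open CategoryTheory Limits Opposite

namespace Vale.Agent.P259

open Theta0 GlobExt CompactlyGenerated

variable {C : GlobExt}

/-- A topological space which is compactly generated, as an object of `CompactlyGenerated`. -/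
def toCG (X : TopCat.{0}) (h : UCompactlyGeneratedSpace.{0} X) : CompactlyGenerated.{0, 0} :=
  @CompactlyGenerated.mk X h

/-- Morphisms of `CompactlyGenerated` from morphisms of `TopCat`. -/
def homCG {X Y : CompactlyGenerated.{0, 0}} (f : X.toTop ⟶ Y.toTop) : X ⟶ Y :=
  fullyFaithfulCompactlyGeneratedToTop.preimage (X := X) (Y := Y) f

lemma map_homCG {X Y : CompactlyGenerated.{0, 0}} (f : X.toTop ⟶ Y.toTop) :
    compactlyGeneratedToTop.map (homCG f) = f := rfl

lemma homCG_comp {X Y Z : CompactlyGenerated.{0, 0}} (f : X.toTop ⟶ Y.toTop)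
    (g : Y.toTop ⟶ Z.toTop) : homCG (f ≫ g) = homCG f ≫ homCG g := rfl

lemma homCG_id (X : CompactlyGenerated.{0, 0}) : homCG (𝟙 X.toTop) = 𝟙 X := rfl

/-- The realization functor with values in compactly generated spaces. -/
noncomputable def DiscFunctor.realCG (Δ : DiscFunctor C) : C.Gpd ⥤ CompactlyGenerated.{0, 0} where
  obj X := toCG (Δ.real.obj X) (Δ.compactlyGenerated_real X)
  map f := homCG (Δ.real.map f)
  map_id X := congrArg homCG (Δ.real.map_id X)
  map_comp f g := congrArg homCG (Δ.real.map_comp f g)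

/-- The fundamental `∞`-groupoid functor on compactly generated spaces. -/
noncomputable def DiscFunctor.PiCG (Δ : DiscFunctor C) : CompactlyGenerated.{0, 0} ⥤ C.Gpd :=
  compactlyGeneratedToTop ⋙ Δ.Pi

/-- The unit of the adjunction at cellular objects is a weak equivalence. -/
theorem DiscFunctor.weq_unit (hC : C.IsCoherator) (I : C.Ident) (Δ : DiscFunctor C)
    {X : C.Gpd} (S : CellSeq (C.F ⊤) X) : weq I (Δ.adj.unit.app X) := by
  obtain ⟨K0⟩ := exists_cylFun_zero hC
  obtain ⟨Gd⟩ := exists_gammaData_gpd hC K0 Δ.Pi (fun n => by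
    have := contractible_cubeT n
    exact Δ.contr_Pi _)
  obtain ⟨Sc⟩ := exists_sigmaCat hC K0 Δ Gd
  rw [weq_iff hC K0]
  exact W_unit_cellSeq' Sc Δ.adj (fun n => Δ.isSphereInc_real_bd n) S

section

variable (hC : C.IsCoherator) (I : C.Ident)

include hC

lemma weq_of_trivFib {X Y : C.Gpd} {f : X ⟶ Y} (h : TrivFib (C.F ⊤) f) : weq I f := by
  obtain ⟨K0⟩ := exists_cylFun_zero hC
  rw [weq_iff hC K0]
  exact (K0.pathCtx hC).trivFib_le_W _ h

lemma weq_comp {X Y Z : C.Gpd} {f : X ⟶ Y} {g : Y ⟶ Z} (h : weq I f) (h' : weq I g) :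
    weq I (f ≫ g) := by
  obtain ⟨K0⟩ := exists_cylFun_zero hC
  rw [weq_iff hC K0] at h h' ⊢
  exact PathCtx.W.comp h h'

lemma weq_of_comp {X Y Z : C.Gpd} {f : X ⟶ Y} {g : Y ⟶ Z} (h : weq I f)
    (h' : weq I (f ≫ g)) : weq I g := by
  obtain ⟨K0⟩ := exists_cylFun_zero hC
  rw [weq_iff hC K0] at h h' ⊢
  exact PathCtx.W.of_comp h h'

lemma weq_Pi {Y Z : TopCat.{0}} (Δ : DiscFunctor C) (f : Y ⟶ Z) :
    weq I (Δ.Pi.map f) ↔ IsWHE f.hom := by
  obtain ⟨K0⟩ := exists_cylFun_zero hC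
  exact weq_Pi_iff hC K0 I Δ f

end

lemma DiscFunctor.counit_nat (Δ : DiscFunctor C) {Q : C.Gpd ⥤ C.Gpd} (q : Q ⟶ 𝟭 C.Gpd)
    {Y Z : TopCat.{0}} (f : Y ⟶ Z) :
    Δ.real.map (Q.map (Δ.Pi.map f)) ≫ Δ.real.map (q.app (Δ.Pi.obj Z)) ≫ Δ.adj.counit.app Z =
      (Δ.real.map (q.app (Δ.Pi.obj Y)) ≫ Δ.adj.counit.app Y) ≫ f := by
  have h1 : Q.map (Δ.Pi.map f) ≫ q.app (Δ.Pi.obj Z) = q.app (Δ.Pi.obj Y) ≫ Δ.Pi.map f :=
    q.naturality (Δ.Pi.map f)
  have h2 : Δ.real.map (Δ.Pi.map f) ≫ Δ.adj.counit.app Z = Δ.adj.counit.app Y ≫ f :=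
    Δ.adj.counit.naturality f
  calc
    _ = Δ.real.map (Q.map (Δ.Pi.map f) ≫ q.app (Δ.Pi.obj Z)) ≫ Δ.adj.counit.app Z := by
      rw [Functor.map_comp, Category.assoc]
    _ = Δ.real.map (q.app (Δ.Pi.obj Y)) ≫ Δ.real.map (Δ.Pi.map f) ≫ Δ.adj.counit.app Z := by
      rw [h1, Functor.map_comp, Category.assoc]
    _ = _ := by rw [h2, Category.assoc]

/-- **The homotopy hypothesis**: for every coherator `C` and every disc functor `Δ`, the
fundamental `∞`-groupoid functor preserves (and reflects) weak equivalences and induces an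
equivalence of localized categories. -/
theorem homotopyHypothesis (hC : C.IsCoherator) (I : C.Ident) (Δ : DiscFunctor C) :
    ∃ h : wheCG ≤ (weq I).inverseImage Δ.PiCG,
      (LocalizerMorphism.mk Δ.PiCG h : LocalizerMorphism wheCG (weq I)).IsLocalizedEquivalence := by
  have h : wheCG ≤ (weq I).inverseImage Δ.PiCG := fun Y Z f hf => (weq_Pi hC I Δ _).2 hf
  refine ⟨h, ?_⟩
  obtain ⟨Q, q, hq, hQ⟩ := C.exists_cofRep ⊤
  have hu : ∀ X, weq I (Δ.adj.unit.app (Q.obj X)) := fun X => Δ.weq_unit hC I (hQ X).some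
  have hq' : ∀ X, weq I (q.app X) := fun X => weq_of_trivFib hC I (hq X)
  -- the counit
  let e : Δ.PiCG ⋙ Q ⋙ Δ.realCG ⟶ 𝟭 CompactlyGenerated.{0, 0} :=
    { app := fun Y => homCG (X := (Δ.PiCG ⋙ Q ⋙ Δ.realCG).obj Y) (Y := Y)
        (Δ.real.map (q.app (Δ.Pi.obj Y.toTop)) ≫ Δ.adj.counit.app Y.toTop)
      naturality := fun Y Z f => by
        apply fullyFaithfulCompactlyGeneratedToTop.map_injective
        exact Δ.counit_nat q (compactlyGeneratedToTop.map f) }
  refine isLocalizedEquivalence_of_zigzag wheCG (weq I) Δ.PiCG h (Q ⋙ Δ.realCG) ?_ Q q hq'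
    { app := fun X => Δ.adj.unit.app (Q.obj X)
      naturality := fun X Y f => Δ.adj.unit.naturality (Q.map f) } hu e ?_
  · intro X Y f hf
    change IsWHE (Δ.real.map (Q.map f)).hom
    rw [← weq_Pi hC I Δ]
    have hQf : weq I (Q.map f) := by
      obtain ⟨K0⟩ := exists_cylFun_zero hC
      have h1 := weq_comp hC I (hq' X) hf
      have h2 : Q.map f ≫ q.app Y = q.app X ≫ f := q.naturality f
      have h3 := hq' Y
      rw [← h2] at h1
      rw [weq_iff hC K0] at h1 h3 ⊢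
      exact PathCtx.W.of_comp' h3 h1
    refine weq_of_comp hC I (hu X) ?_
    have h4 : Δ.adj.unit.app (Q.obj X) ≫ Δ.Pi.map (Δ.real.map (Q.map f)) =
        Q.map f ≫ Δ.adj.unit.app (Q.obj Y) := (Δ.adj.unit.naturality (Q.map f)).symm
    rw [h4]
    exact weq_comp hC I hQf (hu Y)
  · intro Y
    change IsWHE (Δ.real.map (q.app (Δ.Pi.obj Y.toTop)) ≫ Δ.adj.counit.app Y.toTop).hom
    rw [← weq_Pi hC I Δ]
    refine weq_of_comp hC I (hu (Δ.Pi.obj Y.toTop)) ?_
    have h5 : Δ.adj.unit.app (Q.obj (Δ.Pi.obj Y.toTop)) ≫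
        Δ.Pi.map (Δ.real.map (q.app (Δ.Pi.obj Y.toTop)) ≫ Δ.adj.counit.app Y.toTop) =
        q.app (Δ.Pi.obj Y.toTop) := by
      rw [Functor.map_comp, ← Category.assoc]
      have h6 : Δ.adj.unit.app (Q.obj (Δ.Pi.obj Y.toTop)) ≫
          Δ.Pi.map (Δ.real.map (q.app (Δ.Pi.obj Y.toTop))) =
          q.app (Δ.Pi.obj Y.toTop) ≫ Δ.adj.unit.app (Δ.Pi.obj Y.toTop) :=
        (Δ.adj.unit.naturality (q.app (Δ.Pi.obj Y.toTop))).symm
      rw [h6, Category.assoc, Δ.adj.right_triangle_components]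
      exact Category.comp_id _
    rw [h5]
    exact hq' _

end Vale.Agent.P259
end
end

section

section

/-!
Weak equivalences of the statement: transport along bijections of cells, and comparison with the
weak equivalences of the development.
-/

open CategoryTheory Limits Opposite

namespace Vale.Agent.P259

namespace S

universe u u'

/-- The relation there is a cell from `u` to `v`. -/
def RA {a : ℕ → Type} (d : Bool → ∀ n, a (Nat.succ n) → a n) {n : ℕ} (u v : a n) : Prop :=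
  ∃ w : a (Nat.succ n), d false n w = u ∧ d true n w = v

/-- The elementwise form of weak equivalences. -/
def WA {a a' : ℕ → Type} (d : Bool → ∀ n, a (Nat.succ n) → a n)
    (d' : Bool → ∀ n, a' (Nat.succ n) → a' n) (c : ∀ n, a 0 → a n) (c' : ∀ n, a' 0 → a' n)
    (f : ∀ n, a n → a' n) : Prop :=
  (∀ v : a' 0, ∃ u, ∀ w, RA d' (f 0 w) v ↔ RA d w u) ∧
  ∀ (x : a 0) (n : ℕ) (v : a' (Nat.succ n)), (∀ b, d' b n v = c' n (f 0 x)) →
    ∃ u, (∀ b, d b n u = c n x) ∧ ∀ w, (∀ b, d b n w = c n x) → (RA d' (f _ w) v ↔ RA d w u)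

lemma RA_map {a α : ℕ → Type} {d : Bool → ∀ n, a (Nat.succ n) → a n}
    {δ : Bool → ∀ n, α (Nat.succ n) → α n} (φ : ∀ n, a n ≃ α n)
    (hφ : ∀ b n w, φ n (d b n w) = δ b n (φ _ w)) {n : ℕ} (u v : a n) :
    RA δ (φ n u) (φ n v) ↔ RA d u v := by
  constructor
  · rintro ⟨w, h1, h2⟩
    obtain ⟨w, rfl⟩ := (φ _).surjective w
    rw [← hφ] at h1 h2
    exact ⟨w, (φ n).injective h1, (φ n).injective h2⟩
  · rintro ⟨w, rfl, rfl⟩
    exact ⟨φ _ w, (hφ _ _ _).symm, (hφ _ _ _).symm⟩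

theorem WA_congr {a a' α α' : ℕ → Type} {d : Bool → ∀ n, a (Nat.succ n) → a n}
    {d' : Bool → ∀ n, a' (Nat.succ n) → a' n} {δ : Bool → ∀ n, α (Nat.succ n) → α n}
    {δ' : Bool → ∀ n, α' (Nat.succ n) → α' n} {c : ∀ n, a 0 → a n} {c' : ∀ n, a' 0 → a' n}
    {γ : ∀ n, α 0 → α n} {γ' : ∀ n, α' 0 → α' n} {f : ∀ n, a n → a' n} {g : ∀ n, α n → α' n}
    (φ : ∀ n, a n ≃ α n) (ψ : ∀ n, a' n ≃ α' n)
    (hφ : ∀ b n w, φ n (d b n w) = δ b n (φ _ w))
    (hψ : ∀ b n w, ψ n (d' b n w) = δ' b n (ψ _ w))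
    (cφ : ∀ n x, φ n (c n x) = γ n (φ 0 x)) (cψ : ∀ n x, ψ n (c' n x) = γ' n (ψ 0 x))
    (hf : ∀ n w, ψ n (f n w) = g n (φ n w)) :
    WA d d' c c' f ↔ WA δ δ' γ γ' g := by
  have e1 : ∀ (n : ℕ) (w : a n) (v : a' n), RA δ' (g n (φ n w)) (ψ n v) ↔ RA d' (f n w) v := by
    intro n w v
    rw [← hf, RA_map ψ hψ]
  have e2 : ∀ (n : ℕ) (x : a 0) (w : a (Nat.succ n)),
      (∀ b, δ b n (φ _ w) = γ n (φ 0 x)) ↔ ∀ b, d b n w = c n x := by
    intro n x w
    refine forall_congr' fun b => ?_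
    rw [← hφ, ← cφ]
    exact (φ n).injective.eq_iff
  have e3 : ∀ (n : ℕ) (x : a 0) (v : a' (Nat.succ n)),
      (∀ b, δ' b n (ψ _ v) = γ' n (g 0 (φ 0 x))) ↔ ∀ b, d' b n v = c' n (f 0 x) := by
    intro n x v
    refine forall_congr' fun b => ?_
    rw [← hψ, ← hf, ← cψ]
    exact (ψ n).injective.eq_iff
  unfold WA
  refine and_congr ?_ ?_
  · rw [← (ψ 0).forall_congr_right]
    refine forall_congr' fun v => ?_
    rw [← (φ 0).exists_congr_right]
    refine exists_congr fun u => ?_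
    rw [← (φ 0).forall_congr_right]
    refine forall_congr' fun w => ?_
    rw [e1, RA_map φ hφ]
  · rw [← (φ 0).forall_congr_right]
    refine forall_congr' fun x => forall_congr' fun n => ?_
    rw [← (ψ _).forall_congr_right]
    refine forall_congr' fun v => ?_
    rw [e3]
    refine imp_congr Iff.rfl ?_
    rw [← (φ _).exists_congr_right]
    refine exists_congr fun u => ?_
    rw [e2]
    refine and_congr Iff.rfl ?_
    rw [← (φ _).forall_congr_right]
    refine forall_congr' fun w => ?_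
    rw [e2, e1, RA_map φ hφ]

section

variable {K : Type u} [Category.{0} K] {B : ℕ → K} (d : Bool → ∀ {n}, B n ⟶ B (Nat.succ n))
  (c : ∀ {n}, B n ⟶ B 0)

/-- The elementwise form of the weak equivalences of the statement. -/
lemma we_iff_WA {X Y : K} (f : X ⟶ Y) : we d c f ↔
    WA (a := fun n => B n ⟶ X) (a' := fun n => B n ⟶ Y) (fun b _ w => d b ≫ w)
      (fun b _ w => d b ≫ w) (fun _ x => c ≫ x) (fun _ x => c ≫ x) (fun _ w => w ≫ f) :=
  Iff.rfl

variable {K' : Type u'} [Category.{0} K'] {B' : ℕ → K'}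
  (d' : Bool → ∀ {n}, B' n ⟶ B' (Nat.succ n)) (c' : ∀ {n}, B' n ⟶ B' 0)

/-- Weak equivalences are preserved by bijections of cells. -/
theorem we_congr {X Y : K} (f : X ⟶ Y) {X' Y' : K'} (f' : X' ⟶ Y')
    (φ : ∀ n, (B n ⟶ X) ≃ (B' n ⟶ X')) (ψ : ∀ n, (B n ⟶ Y) ≃ (B' n ⟶ Y'))
    (hφ : ∀ b n (w : B (Nat.succ n) ⟶ X), φ n (d b ≫ w) = d' b ≫ φ _ w)
    (hψ : ∀ b n (w : B (Nat.succ n) ⟶ Y), ψ n (d b ≫ w) = d' b ≫ ψ _ w)
    (cφ : ∀ n (x : B 0 ⟶ X), φ n (c ≫ x) = c' ≫ φ 0 x)
    (cψ : ∀ n (x : B 0 ⟶ Y), ψ n (c ≫ x) = c' ≫ ψ 0 x)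
    (hf : ∀ n (w : B n ⟶ X), ψ n (w ≫ f) = φ n w ≫ f') : we d c f ↔ we d' c' f' := by
  rw [we_iff_WA, we_iff_WA]
  exact WA_congr φ ψ hφ hψ cφ cψ hf

end

/-- Weak equivalences in terms of surjectivity and injectivity on classes. -/
theorem WA_iff {a a' : ℕ → Type} {d : Bool → ∀ n, a (Nat.succ n) → a n}
    {d' : Bool → ∀ n, a' (Nat.succ n) → a' n} {c : ∀ n, a 0 → a n} {c' : ∀ n, a' 0 → a' n}
    {f : ∀ n, a n → a' n} (hd : ∀ n, Equivalence (RA d (n := n)))
    (hd' : ∀ n, Equivalence (RA d' (n := n))) (hf : ∀ b n w, f n (d b n w) = d' b n (f _ w))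
    (hc : ∀ n x, f n (c n x) = c' n (f 0 x)) :
    WA d d' c c' f ↔
      ((∀ v : a' 0, ∃ u, RA d' (f 0 u) v) ∧ (∀ u v : a 0, RA d' (f 0 u) (f 0 v) → RA d u v)) ∧
      ∀ (x : a 0) (n : ℕ),
        (∀ v : a' (Nat.succ n), (∀ b, d' b n v = c' n (f 0 x)) →
          ∃ u, (∀ b, d b n u = c n x) ∧ RA d' (f _ u) v) ∧
        ∀ u v : a (Nat.succ n), (∀ b, d b n u = c n x) → (∀ b, d b n v = c n x) →
          RA d' (f _ u) (f _ v) → RA d u v := by
  have hR : ∀ {n : ℕ} {u v : a n}, RA d u v → RA d' (f n u) (f n v) := by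
    rintro n u v ⟨w, rfl, rfl⟩
    exact ⟨f _ w, (hf _ _ _).symm, (hf _ _ _).symm⟩
  constructor
  · rintro ⟨h1, h2⟩
    refine ⟨⟨fun v => ?_, fun u v huv => ?_⟩, fun x n => ⟨fun v hv => ?_, fun u v hu hv huv => ?_⟩⟩
    · obtain ⟨u, hu⟩ := h1 v
      exact ⟨u, (hu u).2 ((hd _).refl u)⟩
    · obtain ⟨t, ht⟩ := h1 (f 0 v)
      exact (hd _).trans ((ht u).1 huv) ((hd _).symm ((ht v).1 ((hd' _).refl _)))
    · obtain ⟨u, hu, hu'⟩ := h2 x n v hv
      exact ⟨u, hu, (hu' u hu).2 ((hd _).refl u)⟩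
    · obtain ⟨t, ht, ht'⟩ := h2 x n (f _ v) (fun b => by rw [← hf, hv, hc])
      exact (hd _).trans ((ht' u hu).1 huv) ((hd _).symm ((ht' v hv).1 ((hd' _).refl _)))
  · rintro ⟨⟨h1, h1'⟩, h2⟩
    refine ⟨fun v => ?_, fun x n v hv => ?_⟩
    · obtain ⟨u, hu⟩ := h1 v
      refine ⟨u, fun w => ⟨fun h => h1' _ _ ((hd' _).trans h ((hd' _).symm hu)), fun h => ?_⟩⟩
      exact (hd' _).trans (hR h) hu
    · obtain ⟨u, hu, hu'⟩ := (h2 x n).1 v hv
      refine ⟨u, hu, fun w hw => ⟨fun h => (h2 x n).2 _ _ hw hu ((hd' _).trans h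
        ((hd' _).symm hu')), fun h => ?_⟩⟩
      exact (hd' _).trans (hR h) hu'

section

variable {𝓜 : Type u} [Category.{0} 𝓜] [HasPushouts 𝓜] [HasInitial 𝓜] {F : Globe ⥤ 𝓜}

/-- Comparison of the weak equivalences of the statement and of the development. -/
theorem we_iff_wRaw_cob (hF : GContr F) (idc : ∀ k, cob F k ⟶ cob F 0)
    (h0 : ∀ k, sg F k ≫ idc (k + 1) = idc k) (h1 : ∀ k, tg F k ≫ idc (k + 1) = idc k)
    {X Y : 𝓜} (f : X ⟶ Y) :
    we (B := fun n => cob F n) (fun b {n} => bif b then tg F n else sg F n) (fun {n} => idc n) f ↔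
      WRaw F idc f := by
  have key : ∀ {Z : 𝓜} (n : ℕ) (u v : cob F n ⟶ Z),
      RA (a := fun n => cob F n ⟶ Z) (fun b n w => (bif b then tg F n else sg F n) ≫ w) u v ↔
        Hty F u v := fun n u v => Iff.rfl
  have he : ∀ (Z : 𝓜) (n : ℕ), Equivalence (RA (a := fun n => cob F n ⟶ Z)
      (fun b n w => (bif b then tg F n else sg F n) ≫ w) (n := n)) := by
    intro Z n
    refine ⟨fun u => hF.hty_refl u, fun h => hF.hty_symm h, fun h h' => hF.hty_trans h h'⟩
  have hb : ∀ {Z : 𝓜} (x : cob F 0 ⟶ Z) (n : ℕ) (w : cob F (n + 1) ⟶ Z),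
      (∀ b : Bool, (bif b then tg F n else sg F n) ≫ w = idc n ≫ x) ↔
        bd F (n + 1) ≫ w = bd F (n + 1) ≫ idc (n + 1) ≫ x := by
    intro Z x n w
    rw [bd_comp_eq_iff, ← Category.assoc (sg F n), ← Category.assoc (tg F n), h0, h1]
    constructor
    · intro h
      exact ⟨h false, h true⟩
    · rintro ⟨h, h'⟩ b
      cases b
      · exact h
      · exact h'
  rw [we_iff_WA, WA_iff (he X) (he Y) (fun b n w => Category.assoc _ _ _)
    (fun n x => Category.assoc _ _ _)]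
  refine and_congr Iff.rfl ?_
  refine forall_congr' fun x => forall_congr' fun n => ?_
  refine and_congr ?_ ?_
  · refine forall_congr' fun v => imp_congr (hb _ _ _) (exists_congr fun u => ?_)
    exact and_congr (hb _ _ _) Iff.rfl
  · refine forall_congr' fun u => forall_congr' fun v => ?_
    exact imp_congr (hb _ _ _) (imp_congr (hb _ _ _) Iff.rfl)

end

end S

end Vale.Agent.P259
end
end

section

section

/-!
The Euclidean balls of the statement and of the development.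
-/

open CategoryTheory Limits Opposite CompactlyGenerated

namespace Vale.Agent.P259

namespace S

namespace IsBall

variable {B : ℕ → CompactlyGenerated.{0, 0}} {d : Bool → ∀ {n}, B n ⟶ B n.succ} (h : IsBall d)

/-- The comparison map with the Euclidean ball. -/
noncomputable def toBall (n : ℕ) (x : B n) : Ball n := ⟨WithLp.toLp 2 (h.e n x), by
  rw [mem_ball_iff, EuclideanSpace.real_norm_sq_eq]
  exact (h.range n).subset ⟨x, rfl⟩⟩

lemma toBall_continuous (n : ℕ) : Continuous (h.toBall n) :=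
  Continuous.subtype_mk ((PiLp.continuous_toLp 2 _).comp (h.emb n).continuous) _

lemma isEmbedding_toBall (n : ℕ) : Topology.IsEmbedding (h.toBall n) :=
  Topology.IsEmbedding.of_comp (h.toBall_continuous n)
    (g := fun x : Ball n => WithLp.ofLp x.1)
    ((PiLp.continuous_ofLp 2 _).comp continuous_subtype_val) (h.emb n)

lemma surjective_toBall (n : ℕ) : Function.Surjective (h.toBall n) := by
  intro y
  have hy := (mem_ball_iff y.1).1 y.2
  rw [EuclideanSpace.real_norm_sq_eq] at hy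
  obtain ⟨x, hx⟩ := (h.range n).superset hy
  exact ⟨x, Subtype.ext (congrArg (WithLp.toLp 2) hx)⟩

/-- The homeomorphism with the Euclidean ball. -/
noncomputable def homeo (n : ℕ) : B n ≃ₜ Ball n :=
  (h.isEmbedding_toBall n).toHomeomorphOfSurjective (h.surjective_toBall n)

lemma homeo_apply (n : ℕ) (x : B n) : h.homeo n x = h.toBall n x := rfl

lemma homeo_face (b : Bool) (n : ℕ) (x : B n) :
    h.homeo (n + 1) ((d b).hom.hom x) = hemi b n (h.homeo n x) := by
  apply Subtype.ext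
  change WithLp.toLp 2 (h.e (n + 1) _) = snocE (WithLp.toLp 2 (h.e n x)) _
  rw [h.face]
  unfold snocE
  congr 2
  rw [EuclideanSpace.real_norm_sq_eq]
  cases b <;> rfl

/-- The isomorphism with the Euclidean ball. -/
noncomputable def iso (n : ℕ) : (B n).toTop ≅ ballData.obj n :=
  TopCat.isoOfHomeo (h.homeo n)

lemma map_iso (b : Bool) (n : ℕ) :
    (compactlyGeneratedToTop.map (d b) : (B n).toTop ⟶ (B (n + 1)).toTop) ≫ (h.iso (n + 1)).hom =
      (h.iso n).hom ≫ ballData.st b n := by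
  apply TopCat.hom_ext
  apply ContinuousMap.ext
  intro x
  have h1 := h.homeo_face b n x
  cases b
  · exact h1
  · exact h1

/-- The cells of `Π(X)` are the maps from the balls to `X`. -/
noncomputable def cellEquiv {C : GlobExt} (Δ : DiscFunctor C) (n : ℕ)
    (X : CompactlyGenerated.{0, 0}) : (cob (C.F ⊤) n ⟶ Δ.PiCG.obj X) ≃ (B n ⟶ X) :=
  Equiv.ofBijective (fun w => homCG (X := B n) (Y := X)
    (TopCat.ofHom ((Δ.toBall w).comp (h.homeo n : C(B n, Ball n))))) (by
    constructor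
    · intro w w' hw
      apply Δ.toBall_injective
      apply ContinuousMap.ext
      intro x
      obtain ⟨x, rfl⟩ := (h.homeo n).surjective x
      exact congrArg (fun t : B n ⟶ X => t.hom.hom x) hw
    · intro u
      obtain ⟨w, hw⟩ := Δ.toBall_surjective
        (u.hom.hom.comp ((h.homeo n).symm : C(Ball n, B n)))
      refine ⟨w, ?_⟩
      have : (Δ.toBall w).comp (h.homeo n : C(B n, Ball n)) = u.hom.hom := by
        rw [hw]
        apply ContinuousMap.ext
        intro x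
        exact congrArg u.hom.hom ((h.homeo n).symm_apply_apply x)
      apply fullyFaithfulCompactlyGeneratedToTop.map_injective
      apply TopCat.hom_ext
      exact this)

lemma cellEquiv_apply {C : GlobExt} (Δ : DiscFunctor C) (n : ℕ) (X : CompactlyGenerated.{0, 0})
    (w : cob (C.F ⊤) n ⟶ Δ.PiCG.obj X) (x : B n) :
    (h.cellEquiv Δ n X w).hom.hom x = Δ.toBall w (h.homeo n x) := rfl

/-- Morphisms of compactly generated spaces are determined by their values. -/
lemma cg_ext {X Y : CompactlyGenerated.{0, 0}} {f g : X ⟶ Y}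
    (hfg : ∀ x, f.hom.hom x = g.hom.hom x) : f = g := by
  apply fullyFaithfulCompactlyGeneratedToTop.map_injective
  apply TopCat.hom_ext
  exact ContinuousMap.ext hfg

lemma toBall_stg {C : GlobExt} (Δ : DiscFunctor C) {Y : TopCat.{0}} (b : Bool) {k : ℕ}
    (w : cob (C.F ⊤) (k + 1) ⟶ Δ.Pi.obj Y) (z : Ball k) :
    Δ.toBall ((bif b then tg (C.F ⊤) k else sg (C.F ⊤) k) ≫ w) z = Δ.toBall w (hemi b k z) := by
  cases b
  · exact congrArg (fun t : C(Ball k, Y) => t z) (Δ.toBall_sg w)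
  · exact congrArg (fun t : C(Ball k, Y) => t z) (Δ.toBall_tg w)

include h in
/-- The weak equivalences of the statement between compactly generated spaces are the weak
homotopy equivalences. -/
theorem we_iff_whe {C : GlobExt} (hC : C.IsCoherator) (Δ : DiscFunctor C)
    (c : ∀ {n}, B n ⟶ B 0) {X Y : CompactlyGenerated.{0, 0}} (f : X ⟶ Y) :
    we d c f ↔ wheCG f := by
  obtain ⟨I⟩ := GlobExt.exists_ident hC
  refine Iff.trans (Iff.symm ?_) ((we_iff_wRaw_cob (GlobExt.gContr hC ⊤) (GlobExt.identIter I)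
    (GlobExt.sg_identIter I) (GlobExt.tg_identIter I) (Δ.PiCG.map f)).trans
      (Δ.wRaw_Pi_iff (GlobExt.identIter I) (compactlyGeneratedToTop.map f)))
  refine we_congr _ _ _ _ _ _ (fun n => h.cellEquiv Δ n X) (fun n => h.cellEquiv Δ n Y)
    ?_ ?_ ?_ ?_ ?_
  · intro b n w
    apply cg_ext
    intro x
    change Δ.toBall ((bif b then tg (C.F ⊤) n else sg (C.F ⊤) n) ≫ w) (h.homeo n x) =
      Δ.toBall w (h.homeo (n + 1) ((d b).hom.hom x))
    rw [h.homeo_face]
    exact toBall_stg Δ b w _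
  · intro b n w
    apply cg_ext
    intro x
    change Δ.toBall ((bif b then tg (C.F ⊤) n else sg (C.F ⊤) n) ≫ w) (h.homeo n x) =
      Δ.toBall w (h.homeo (n + 1) ((d b).hom.hom x))
    rw [h.homeo_face]
    exact toBall_stg Δ b w _
  · intro n x
    apply cg_ext
    intro z
    exact Δ.toBall_const _ x _ _
  · intro n x
    apply cg_ext
    intro z
    exact Δ.toBall_const _ x _ _
  · intro n w
    apply cg_ext
    intro z
    exact congrArg (fun t : C(Ball n, Y.toTop) => t (h.homeo n z))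
      (Δ.toBall_map w (compactlyGeneratedToTop.map f))

/-- Balls from isomorphisms with the Euclidean balls. -/
noncomputable def ofIso (i : ∀ n, (B n).toTop ≅ ballData.obj n)
    (hi : ∀ b n, (compactlyGeneratedToTop.map (d b) : (B n).toTop ⟶ (B (n + 1)).toTop) ≫
      (i (n + 1)).hom = (i n).hom ≫ ballData.st b n) : IsBall d where
  e n x := WithLp.ofLp ((i n).hom.hom x : Ball n).1
  emb n := by
    have h1 : Topology.IsEmbedding (fun x : B n => ((i n).hom.hom x : Ball n)) :=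
      (TopCat.homeoOfIso (i n)).isEmbedding
    exact (PiLp.homeomorph 2 (fun _ : Fin n => ℝ)).isEmbedding.comp
      (Topology.IsEmbedding.subtypeVal.comp h1)
  range n := by
    ext y
    constructor
    · rintro ⟨x, rfl⟩
      have h1 := (mem_ball_iff ((i n).hom.hom x : Ball n).1).1 ((i n).hom.hom x : Ball n).2
      rw [EuclideanSpace.real_norm_sq_eq] at h1
      exact h1
    · intro hy
      have hy' : WithLp.toLp 2 y ∈ Metric.closedBall (0 : EuclideanSpace ℝ (Fin n)) 1 := by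
        rw [mem_ball_iff, EuclideanSpace.real_norm_sq_eq]
        exact hy
      obtain ⟨x, hx⟩ := (TopCat.homeoOfIso (i n)).surjective (⟨WithLp.toLp 2 y, hy'⟩ : Ball n)
      exact ⟨x, congrArg (fun t : Ball n => WithLp.ofLp t.1) hx⟩
  face b n x := by
    have h1 := congrArg (fun t : (B n).toTop ⟶ ballData.obj (n + 1) => (t.hom x : Ball (n + 1)))
      (hi b n)
    have h2 : ((i (n + 1)).hom.hom ((d b).hom.hom x) : Ball (n + 1)) =
        hemi b n ((i n).hom.hom x : Ball n) := by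
      refine h1.trans ?_
      cases b <;> rfl
    refine (congrArg (fun t : Ball (n + 1) => WithLp.ofLp t.1) h2).trans ?_
    change Fin.snoc (α := fun _ => ℝ) _ _ = _
    congr 1
    rw [EuclideanSpace.real_norm_sq_eq]
    cases b <;> rfl

end IsBall

end S

end Vale.Agent.P259
end
end

section

section

/-!
Disc functors of the statement and of the development.
-/

open CategoryTheory Limits Opposite CompactlyGenerated

namespace Vale.Agent.P259

open Theta0

namespace S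

universe u

/-- Pushout squares in terms of maps to an object. -/
lemma isPushout_iff_bijOn {K : Type u} [Category.{0} K] {Z X Y P : K} {f : Z ⟶ X} {g : Z ⟶ Y}
    {inl : X ⟶ P} {inr : Y ⟶ P} :
    IsPushout f g inl inr ↔ ∀ U : K, Set.BijOn (fun x : P ⟶ U => (inl ≫ x, inr ≫ x)) Set.univ
      {p | f ≫ p.1 = g ≫ p.2} := by
  constructor
  · intro h U
    refine ⟨fun x _ => ?_, fun x _ y _ hxy => ?_, fun p hp => ?_⟩
    · exact h.w_assoc x
    · exact h.hom_ext (congrArg Prod.fst hxy) (congrArg Prod.snd hxy)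
    · exact ⟨h.desc p.1 p.2 hp, Set.mem_univ _, Prod.ext (h.inl_desc _ _ _) (h.inr_desc _ _ _)⟩
  · intro h
    have w : f ≫ inl = g ≫ inr := by
      have := (h P).mapsTo (Set.mem_univ (𝟙 P))
      simpa using this
    refine ⟨⟨w⟩, ⟨PushoutCocone.IsColimit.mk w
      (fun s => ((h s.pt).surjOn (show (s.inl, s.inr) ∈ _ from s.condition)).choose)
      (fun s => congrArg Prod.fst
        ((h s.pt).surjOn (show (s.inl, s.inr) ∈ _ from s.condition)).choose_spec.2)
      (fun s => congrArg Prod.snd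
        ((h s.pt).surjOn (show (s.inl, s.inr) ∈ _ from s.condition)).choose_spec.2)
      (fun s m h1 h2 => ?_)⟩⟩
    apply (h s.pt).injOn (Set.mem_univ _) (Set.mem_univ _)
    refine Eq.trans ?_
      ((h s.pt).surjOn (show (s.inl, s.inr) ∈ _ from s.condition)).choose_spec.2.symm
    exact Prod.ext h1 h2

lemma isPushout_iff_bijOn' {K : Type u} [Category.{0} K] {Z W X Y P : K} {f : Z ⟶ X}
    {f1 : Z ⟶ W} {f2 : W ⟶ X} {g g' : Z ⟶ Y} {inl inl' : X ⟶ P} {inr inr' : Y ⟶ P}
    (e1 : f = f1 ≫ f2) (e2 : g = g') (e3 : inl = inl') (e4 : inr = inr') :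
    IsPushout f g inl inr ↔ ∀ U : K, Set.BijOn (fun x : P ⟶ U => (inl' ≫ x, inr' ≫ x)) Set.univ
      {p | f1 ≫ f2 ≫ p.1 = g' ≫ p.2} := by
  subst e1 e2 e3 e4
  rw [isPushout_iff_bijOn]
  simp only [Category.assoc]

/-- The gluing condition of the statement is the preservation of globular sums. -/
theorem gl_iff_preservesGlue (A : Ext) {K : Type u} [Category.{0} K] (F : A.C ⥤ K) :
    (∀ Y, Gl A.G F Y) ↔ PreservesGlue (A.GE.J ⋙ A.Φ ⋙ F) := by
  have key : ∀ {l : ℕ} (t : Tab l) (j i : ℕ) (hl : j < l) (hi : j < i),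
      IsPushout ((A.GE.J ⋙ A.Φ ⋙ F).map (face true hl ≫ lastIncl t))
        ((A.GE.J ⋙ A.Φ ⋙ F).map (face false hi)) ((A.GE.J ⋙ A.Φ ⋙ F).map (inl t j i hl hi))
        ((A.GE.J ⋙ A.Φ ⋙ F).map (inr t j i hl hi)) ↔
      ∀ U : K, Set.BijOn (fun x : F.obj (A.G.o ⟨t.glue j i hl hi⟩) ⟶ U =>
        (F.map (A.G.s (.inl t j i hl hi)) ≫ x, F.map (A.G.s (.last (t.glue j i hl hi))) ≫ x))
        Set.univ {p | F.map (A.G.s (.face true hl)) ≫ F.map (A.G.s (.last t)) ≫ p.1 =
          F.map (A.G.s (.face false hi)) ≫ p.2} := by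
    intro l t j i hl hi
    have e1 : (A.GE.J ⋙ A.Φ ⋙ F).map (face true hl ≫ lastIncl t) =
        F.map (A.G.s (.face true hl)) ≫ F.map (A.G.s (.last t)) := by
      change F.map (A.incl (face true hl ≫ lastIncl t)) = _
      rw [A.incl_comp, A.incl_face, A.incl_last]
      exact F.map_comp _ _
    have e2 : (A.GE.J ⋙ A.Φ ⋙ F).map (face false hi) = F.map (A.G.s (.face false hi)) :=
      congrArg (fun f : A.G.o (disc j) ⟶ A.G.o (disc i) => F.map f) (A.incl_face false hi)
    have e3 : (A.GE.J ⋙ A.Φ ⋙ F).map (inl t j i hl hi) = F.map (A.G.s (.inl t j i hl hi)) :=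
      congrArg (fun f : A.G.o ⟨t⟩ ⟶ A.G.o ⟨t.glue j i hl hi⟩ => F.map f)
        (A.incl_inl t j i hl hi)
    have e4 : (A.GE.J ⋙ A.Φ ⋙ F).map (inr t j i hl hi) =
        F.map (A.G.s (.last (t.glue j i hl hi))) :=
      congrArg (fun f : A.G.o (disc i) ⟶ A.G.o ⟨t.glue j i hl hi⟩ => F.map f)
        (A.incl_last (t.glue j i hl hi))
    exact isPushout_iff_bijOn' e1 e2 e3 e4
  constructor
  · intro h l t j i hl hi
    exact (key t j i hl hi).2 (fun U => h U t j i hl hi)
  · intro h U l t j i hl hi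
    exact (key t j i hl hi).1 (h t j i hl hi) U

/-- Preservation of globular sums is invariant under isomorphisms. -/
lemma preservesGlue_of_iso {K : Type u} [Category.{0} K] {R R' : Theta0 ⥤ K} (e : R ≅ R')
    (h : PreservesGlue R) : PreservesGlue R' := fun t j i hl hi =>
  (h t j i hl hi).of_iso (e.app _) (e.app _) (e.app _) (e.app _) (e.hom.naturality _)
    (e.hom.naturality _) (e.hom.naturality _) (e.hom.naturality _)

/-- Pushouts of compactly generated spaces are pushouts of topological spaces. -/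
lemma isPushout_map_cg {Z X Y P : CompactlyGenerated.{0, 0}} {f : Z ⟶ X} {g : Z ⟶ Y}
    {inl : X ⟶ P} {inr : Y ⟶ P} (h : IsPushout f g inl inr) :
    IsPushout (compactlyGeneratedToTop.map f) (compactlyGeneratedToTop.map g)
      (compactlyGeneratedToTop.map inl) (compactlyGeneratedToTop.map inr) := by
  have sq := IsPushout.of_hasPushout (compactlyGeneratedToTop.map f)
    (compactlyGeneratedToTop.map g)
  have hP : UCompactlyGeneratedSpace.{0}
      (pushout (compactlyGeneratedToTop.map f) (compactlyGeneratedToTop.map g) : TopCat) := by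
    have h1 : UCompactlyGeneratedSpace.{0} (compactlyGeneratedToTop.obj Z) := Z.is_compactly_generated
    have h2 : UCompactlyGeneratedSpace.{0} (compactlyGeneratedToTop.obj X) := X.is_compactly_generated
    have h3 : UCompactlyGeneratedSpace.{0} (compactlyGeneratedToTop.obj Y) := Y.is_compactly_generated
    exact compactlyGenerated_of_isPushout sq
  let Q : CompactlyGenerated.{0, 0} := toCG _ hP
  let il : X ⟶ Q := homCG (X := X) (Y := Q) (pushout.inl _ _)
  let ir : Y ⟶ Q := homCG (X := Y) (Y := Q) (pushout.inr _ _)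
  have sq' : IsPushout f g il ir := by
    refine IsPushout.of_map_of_faithful compactlyGeneratedToTop ?_
    exact sq
  have e1 : inl ≫ (h.isoIsPushout _ _ sq').hom = il := h.inl_isoIsPushout_hom _ _ sq'
  have e2 : inr ≫ (h.isoIsPushout _ _ sq').hom = ir := h.inr_isoIsPushout_hom _ _ sq'
  refine sq.of_iso' (Iso.refl _) (Iso.refl _) (Iso.refl _)
    (compactlyGeneratedToTop.mapIso (h.isoIsPushout _ _ sq')) ?_ ?_ ?_ ?_
  · exact (Category.id_comp _).trans (Category.comp_id _).symm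
  · exact (Category.id_comp _).trans (Category.comp_id _).symm
  · exact (Category.id_comp _).trans (congrArg compactlyGeneratedToTop.map e1).symm
  · exact (Category.id_comp _).trans (congrArg compactlyGeneratedToTop.map e2).symm

/-- The coglobular object of the balls of a disc functor. -/
lemma map_disc_face (A : Ext) (F : A.C ⥤ CompactlyGenerated.{0, 0}) (b : Bool) {n m : ℕ}
    (h : n < m) :
    (A.GE.discF ⋙ A.Φ ⋙ F ⋙ compactlyGeneratedToTop).map (Globe.face b h) =
      compactlyGeneratedToTop.map (F.map (A.G.s (.face b h))) :=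
  congrArg (fun f : A.G.o (disc n) ⟶ A.G.o (disc m) => compactlyGeneratedToTop.map (F.map f))
    (A.incl_face b h)

/-- The comparison of the balls. -/
noncomputable def discIso (A : Ext) (F : A.C ⥤ CompactlyGenerated.{0, 0})
    (h : IsBall fun b {n} => F.map (A.G.s (.face b n.lt_succ_self))) :
    A.GE.discF ⋙ A.Φ ⋙ F ⋙ compactlyGeneratedToTop ≅ ballF :=
  NatIso.ofComponents (fun X => h.iso X.dim) (fun {X Y} f =>
    (Globe.natTrans (F := A.GE.discF ⋙ A.Φ ⋙ F ⋙ compactlyGeneratedToTop) (G := ballF)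
      (fun n => (h.iso n).hom)
      (fun n => by
        have h1 := h.map_iso false n
        have h2 := map_disc_face A F false n.lt_succ_self
        have h3 : ballF.map (Globe.σ n) = ballData.s n := ballData.functor_σ n
        exact (congrArg (fun t : (F.obj (A.G.o (disc n))).toTop ⟶
          (F.obj (A.G.o (disc (n + 1)))).toTop => t ≫ (h.iso (n + 1)).hom) h2).trans
          (h1.trans (congrArg (fun t : ballData.obj n ⟶ ballData.obj (n + 1) =>
            (h.iso n).hom ≫ t) h3.symm)))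
      (fun n => by
        have h1 := h.map_iso true n
        have h2 := map_disc_face A F true n.lt_succ_self
        have h3 : ballF.map (Globe.τ n) = ballData.t n := ballData.functor_τ n
        exact (congrArg (fun t : (F.obj (A.G.o (disc n))).toTop ⟶
          (F.obj (A.G.o (disc (n + 1)))).toTop => t ≫ (h.iso (n + 1)).hom) h2).trans
          (h1.trans (congrArg (fun t : ballData.obj n ⟶ ballData.obj (n + 1) =>
            (h.iso n).hom ≫ t) h3.symm)))).naturality f)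

/-- The disc functor of the development attached to a disc functor of the statement. -/
noncomputable def IsDisc.toDisc {A : Ext} {F : A.C ⥤ CompactlyGenerated.{0, 0}}
    (h : IsDisc A.G F) : DiscFunctor A.GE where
  D := A.Φ ⋙ F ⋙ compactlyGeneratedToTop
  glue t j i hl hi := isPushout_map_cg ((gl_iff_preservesGlue A F).1 h.1 t j i hl hi)
  disc := discIso A F h.2.some

/-- A disc functor of the development with values in compactly generated spaces. -/
noncomputable def discCG {C : GlobExt} (Δ : DiscFunctor C) :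
    C.Obj ⥤ CompactlyGenerated.{0, 0} where
  obj S := toCG (Δ.D.obj S) (Δ.compactlyGenerated_D S)
  map f := homCG (Δ.D.map f)
  map_id S := congrArg homCG (Δ.D.map_id S)
  map_comp f g := congrArg homCG (Δ.D.map_comp f g)

lemma preservesGlue_discCG {C : GlobExt} (Δ : DiscFunctor C) :
    PreservesGlue (C.J ⋙ discCG Δ) := fun t j i hl hi =>
  IsPushout.of_map_of_faithful compactlyGeneratedToTop (Δ.glue t j i hl hi)

/-- The comparison of a disc functor with its transport to the category of the statement. -/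
noncomputable def discCGIso (A : Ext) [A.Φ.IsEquivalence] (Δ : DiscFunctor A.GE) :
    discCG Δ ≅ A.Φ ⋙ A.Φ.inv ⋙ discCG Δ :=
  Functor.isoWhiskerRight A.Φ.asEquivalence.unitIso (discCG Δ)

/-- The comparison of the balls. -/
noncomputable def discCGBall (A : Ext) [A.Φ.IsEquivalence] (Δ : DiscFunctor A.GE) :
    A.GE.discF ⋙ A.Φ ⋙ (A.Φ.inv ⋙ discCG Δ) ⋙ compactlyGeneratedToTop ≅ ballF :=
  Functor.isoWhiskerLeft A.GE.discF (Functor.isoWhiskerRight (discCGIso A Δ).symm
    compactlyGeneratedToTop) ≪≫ Δ.disc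

/-- The existence of disc functors, from the development. -/
theorem exists_isDisc (A : Ext) [A.Φ.IsEquivalence] (Δ : DiscFunctor A.GE) :
    ∃ F, IsDisc A.G F := by
  refine ⟨A.Φ.inv ⋙ discCG Δ, (gl_iff_preservesGlue A _).2 (preservesGlue_of_iso
    (Functor.isoWhiskerLeft A.GE.J (discCGIso A Δ)) (preservesGlue_discCG Δ)),
    ⟨IsBall.ofIso (fun n => (discCGBall A Δ).app (Globe.D n)) ?_⟩⟩
  intro b n
  have h1 := (discCGBall A Δ).hom.naturality (Globe.face b n.lt_succ_self)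
  rw [map_disc_face] at h1
  refine h1.trans ?_
  have h3 : ballF.map (Globe.face b n.lt_succ_self) = ballData.st b n :=
    ballData.face_succ b n.lt_succ_self
  exact congrArg (fun t : ballData.obj n ⟶ ballData.obj (n + 1) =>
    ((discCGBall A Δ).app (Globe.D n)).hom ≫ t) h3

end S

end Vale.Agent.P259
end
end

section

section

/-!
Equivalences of localized categories: from the development to the statement.
-/

open CategoryTheory

namespace Vale.Agent.P259

namespace S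

/-- Comparison of the two formulations of an equivalence of localized categories. -/
theorem locEq_of_equiv {K L M : Type 1} [Category.{0} K] [Category.{0} L] [Category.{0} M]
    (P : K ⥤ L) (S : ObjectProperty L) (W : MorphismProperty K) (W' : MorphismProperty L)
    (E : S.FullSubcategory ⥤ M) [E.IsEquivalence] (WM : MorphismProperty M) [WM.RespectsIso]
    (hE : W'.inverseImage S.ι = WM.inverseImage E) (h : ∀ Y, S (P.obj Y)) (Q : K ⥤ M)
    (e : S.lift P h ⋙ E ≅ Q) (hQ : W ≤ WM.inverseImage Q)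
    (hloc : (LocalizerMorphism.mk Q hQ : LocalizerMorphism W WM).IsLocalizedEquivalence) :
    LocEq P S W W' := by
  refine ⟨h, ?_, ?_⟩
  · intro X Y f hf
    have h1 : WM (Q.map f) := hQ f hf
    have h2 : WM (E.map ((S.lift P h).map f)) :=
      (WM.arrow_mk_iso_iff (Arrow.isoMk (e.app X) (e.app Y) (e.hom.naturality f).symm)).2 h1
    have h3 : (W'.inverseImage S.ι) ((S.lift P h).map f) := by
      rw [hE]
      exact h2
    exact h3
  · let W1 := W'.inverseImage S.ι
    let Ψ : LocalizerMorphism W1 WM := ⟨E, hE.le⟩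
    have i1 : Ψ.functor.IsEquivalence := inferInstanceAs E.IsEquivalence
    have i2 : Ψ.IsInduced := ⟨hE.symm⟩
    have i3 : Ψ.IsLocalizedEquivalence := Ψ.isLocalizedEquivalence_of_isInduced
    let G := Ψ.localizedFunctor W1.Q WM.Q
    have i4 : G.IsEquivalence := inferInstance
    have sq : E ⋙ WM.Q ≅ W1.Q ⋙ G := (Ψ.catCommSq W1.Q WM.Q).iso
    let Θ : LocalizerMorphism W WM := ⟨Q, hQ⟩
    have i6 : Θ.IsLocalizedEquivalence := hloc
    have i5 : (Θ.functor ⋙ WM.Q).IsLocalization W :=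
      LocalizerMorphism.IsLocalizedEquivalence.isLocalization Θ WM.Q
    change (Q ⋙ WM.Q).IsLocalization W at i5
    refine Functor.IsLocalization.of_equivalence_target (Q ⋙ WM.Q) W _ G.asEquivalence.symm ?_
    exact Functor.isoWhiskerRight (Functor.isoWhiskerRight e.symm WM.Q ≪≫
        Functor.associator _ _ _ ≪≫ Functor.isoWhiskerLeft (S.lift P h) sq) G.inv ≪≫
      Functor.associator _ _ _ ≪≫ Functor.isoWhiskerLeft (S.lift P h)
        (Functor.associator _ _ _ ≪≫
          Functor.isoWhiskerLeft W1.Q G.asEquivalence.unitIso.symm ≪≫ Functor.rightUnitor _)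

end S

end Vale.Agent.P259
end
end

section

section

/-!
The categories of groupoids of the statement and of the development are equivalent.
-/

open CategoryTheory Limits Opposite

namespace Vale.Agent.P259

open Theta0

namespace S

/-! ### The comparison functor is an equivalence -/

instance (A : Ext) : A.Φ.Faithful where
  map_injective h := h

instance (A : Ext) : A.Φ.Full where
  map_surjective f := ⟨f, rfl⟩

instance (A : Ext) : A.Φ.EssSurj where
  mem_essImage c := by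
    obtain ⟨S, hS⟩ := A.G.bij.surjective c
    exact ⟨.of S, ⟨eqToIso hS⟩⟩

instance (A : Ext) : A.Φ.IsEquivalence where

/-! ### Groupoids -/

variable {A : Ext}

lemma act_eq (X : A.Cᵒᵖ ⥤ Type) {S T : Theta0} (φ : A.H S T)
    (x : X.obj (op (A.G.o T))) :
    GlobExt.act (C := A.GE) (A.Φ.op ⋙ X) φ x = X.map (Quiver.Hom.op φ) x := rfl

lemma yonedaEquiv_map_comp (X : A.Cᵒᵖ ⥤ Type) {c c' : A.C} (f : c ⟶ c')
    (g : yoneda.obj c' ⟶ X) : yonedaEquiv (yoneda.map f ≫ g) = X.map f.op (yonedaEquiv g) :=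
  (yonedaEquiv_naturality g f).symm

/-- The gluing condition in terms of elements. -/
lemma gl_iff (X : A.Cᵒᵖ ⥤ Type) : Gl A.G yoneda X ↔
    Glues fun {S T} (x : Str S T) (y : X.obj (op (A.G.o T))) => X.map (A.G.s x).op y := by
  constructor
  · intro hX l t j n h h'
    have hb := hX t j n h h'
    refine ⟨?_, ?_, ?_⟩
    · intro x _
      have h1 := hb.mapsTo (Set.mem_univ (yonedaEquiv.symm x))
      have h2 := congrArg yonedaEquiv h1
      simp only [yonedaEquiv_map_comp, Equiv.apply_symm_apply] at h2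
      exact h2
    · intro x _ y _ hxy
      have h1 := hb.injOn (Set.mem_univ (yonedaEquiv.symm x)) (Set.mem_univ (yonedaEquiv.symm y)) (by
        apply Prod.ext
        · apply yonedaEquiv.injective
          simp only [yonedaEquiv_map_comp, Equiv.apply_symm_apply]
          exact congrArg Prod.fst hxy
        · apply yonedaEquiv.injective
          simp only [yonedaEquiv_map_comp, Equiv.apply_symm_apply]
          exact congrArg Prod.snd hxy)
      exact yonedaEquiv.symm.injective h1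
    · rintro ⟨a, b⟩ hab
      obtain ⟨x, -, hx⟩ := hb.surjOn (show (yonedaEquiv.symm a, yonedaEquiv.symm b) ∈ _ by
        apply yonedaEquiv.injective
        simp only [yonedaEquiv_map_comp, Equiv.apply_symm_apply]
        exact hab)
      refine ⟨yonedaEquiv x, Set.mem_univ _, ?_⟩
      apply Prod.ext
      · have h1 := congrArg (fun p => yonedaEquiv p.1) hx
        simp only [yonedaEquiv_map_comp, Equiv.apply_symm_apply] at h1
        exact h1
      · have h1 := congrArg (fun p => yonedaEquiv p.2) hx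
        simp only [yonedaEquiv_map_comp, Equiv.apply_symm_apply] at h1
        exact h1
  · intro hX l t j n h h'
    have hb := hX t j n h h'
    refine ⟨?_, ?_, ?_⟩
    · intro x _
      have h1 := hb.mapsTo (Set.mem_univ (yonedaEquiv x))
      apply yonedaEquiv.injective
      simp only [yonedaEquiv_map_comp]
      exact h1
    · intro x _ y _ hxy
      have h1 := hb.injOn (Set.mem_univ (yonedaEquiv x)) (Set.mem_univ (yonedaEquiv y)) (by
        apply Prod.ext
        · have h1 := congrArg (fun p => yonedaEquiv p.1) hxy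
          simp only [yonedaEquiv_map_comp] at h1
          exact h1
        · have h1 := congrArg (fun p => yonedaEquiv p.2) hxy
          simp only [yonedaEquiv_map_comp] at h1
          exact h1)
      exact yonedaEquiv.injective h1
    · rintro ⟨a, b⟩ hab
      obtain ⟨x, -, hx⟩ := hb.surjOn (show (yonedaEquiv a, yonedaEquiv b) ∈ _ by
        have h1 := congrArg yonedaEquiv hab
        simp only [yonedaEquiv_map_comp] at h1
        exact h1)
      refine ⟨yonedaEquiv.symm x, Set.mem_univ _, ?_⟩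
      apply Prod.ext
      · apply yonedaEquiv.injective
        simp only [yonedaEquiv_map_comp, Equiv.apply_symm_apply]
        exact congrArg Prod.fst hx
      · apply yonedaEquiv.injective
        simp only [yonedaEquiv_map_comp, Equiv.apply_symm_apply]
        exact congrArg Prod.snd hx

/-- The relation between the structure maps. -/
lemma glue_w (A : Ext) {l : ℕ} (t : Tab l) (j n : ℕ) (h : j < l) (h' : j < n) :
    A.G.s (.face true h) ≫ A.G.s (.last t) ≫ A.G.s (.inl t j n h h') =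
      A.G.s (.face false h') ≫ A.G.s (.last (t.glue j n h h')) := by
  have h1 := (A.G.glue _ t j n h h').mapsTo (Set.mem_univ (𝟙 (A.G.o ⟨t.glue j n h h'⟩)))
  simp only [Category.comp_id] at h1
  exact h1

lemma glues_iff_seg (X : A.Cᵒᵖ ⥤ Type) :
    (Glues fun {S T} (x : Str S T) (y : X.obj (op (A.G.o T))) => X.map (A.G.s x).op y) ↔
      GlobExt.Seg (C := A.GE) (A.Φ.op ⋙ X) := by
  have einl : ∀ {l : ℕ} (t : Tab l) (j n : ℕ) (h : j < l) (h' : j < n)
      (y : X.obj (op (A.G.o ⟨t.glue j n h h'⟩))),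
      GlobExt.act (C := A.GE) (A.Φ.op ⋙ X) (A.GE.incl (Theta0.inl t j n h h')) y =
        X.map (A.G.s (.inl t j n h h')).op y := by
    intro l t j n h h' y
    rw [← A.incl_inl]
    rfl
  have elast : ∀ {l : ℕ} (t : Tab l) (j n : ℕ) (h : j < l) (h' : j < n)
      (y : X.obj (op (A.G.o ⟨t.glue j n h h'⟩))),
      GlobExt.act (C := A.GE) (A.Φ.op ⋙ X) (A.GE.incl (Theta0.inr t j n h h')) y =
        X.map (A.G.s (.last (t.glue j n h h'))).op y := by
    intro l t j n h h' y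
    rw [← A.incl_last]
    rfl
  have ef : ∀ {l : ℕ} (t : Tab l) (j : ℕ) (h : j < l) (y : X.obj (op (A.G.o ⟨t⟩))),
      GlobExt.act (C := A.GE) (A.Φ.op ⋙ X) (A.GE.incl (face true h ≫ lastIncl t)) y =
        X.map (A.G.s (.face true h)).op (X.map (A.G.s (.last t)).op y) := by
    intro l t j h y
    have h1 : A.GE.incl (face true h ≫ lastIncl t) = A.G.s (.face true h) ≫ A.G.s (.last t) := by
      rw [← A.incl_last, ← A.incl_face]
      exact A.incl_comp _ _
    rw [h1, act_eq]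
    have h2 : (Quiver.Hom.op (A.G.s (.face true h) ≫ A.G.s (.last t))) =
      (A.G.s (.last t)).op ≫ (A.G.s (.face true h)).op := rfl
    rw [h2, X.map_comp]
    rfl
  have ef' : ∀ {j n : ℕ} (h : j < n) (y : X.obj (op (A.G.o (disc n)))),
      GlobExt.act (C := A.GE) (A.Φ.op ⋙ X) (A.GE.incl (face false h)) y =
        X.map (A.G.s (.face false h)).op y := by
    intro j n h y
    rw [← A.incl_face]
    rfl
  constructor
  · intro hX
    apply GlobExt.Seg.of
    · intro l t j i hl hi x x' h1 h2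
      have h1' := (einl t j i hl hi x).symm.trans (h1.trans (einl t j i hl hi x'))
      have h2' := (elast t j i hl hi x).symm.trans (h2.trans (elast t j i hl hi x'))
      exact (hX t j i hl hi).injOn (Set.mem_univ x) (Set.mem_univ x') (Prod.ext h1' h2')
    · intro l t j i hl hi x z h
      have h0 := (ef t j hl x).symm.trans (h.trans (ef' hi z))
      obtain ⟨y, -, hy⟩ := (hX t j i hl hi).surjOn (show (x, z) ∈ _ from h0)
      exact ⟨y, (einl t j i hl hi y).trans (congrArg Prod.fst hy),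
        (elast t j i hl hi y).trans (congrArg Prod.snd hy)⟩
  · intro hX l t j i hl hi
    refine ⟨?_, ?_, ?_⟩
    · intro x _
      change X.map (A.G.s (.face true hl)).op (X.map (A.G.s (.last t)).op
        (X.map (A.G.s (.inl t j i hl hi)).op x)) =
        X.map (A.G.s (.face false hi)).op (X.map (A.G.s (.last (t.glue j i hl hi))).op x)
      have h1 := congrArg (fun f => X.map (Quiver.Hom.op f) x) (glue_w A t j i hl hi)
      simp only [op_comp, X.map_comp] at h1
      exact h1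
    · intro x _ x' _ hxx
      apply hX.ext_glue t j i hl hi
      · exact (einl t j i hl hi x).trans ((congrArg Prod.fst hxx).trans (einl t j i hl hi x').symm)
      · exact (elast t j i hl hi x).trans
          ((congrArg Prod.snd hxx).trans (elast t j i hl hi x').symm)
    · rintro ⟨x, z⟩ h
      obtain ⟨y, hy1, hy2⟩ := hX.exists_glue t j i hl hi x z
        ((ef t j hl x).trans (Eq.trans h (ef' hi z).symm))
      exact ⟨y, Set.mem_univ _, Prod.ext ((einl t j i hl hi y).symm.trans hy1)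
        ((elast t j i hl hi y).symm.trans hy2)⟩

theorem gl_iff_isSegal (X : A.Cᵒᵖ ⥤ Type) :
    Gl A.G yoneda X ↔ A.GE.IsSegal (A.Φ.op ⋙ X) := by
  rw [gl_iff, glues_iff_seg]
  exact ⟨fun h => h.isSegal, fun h => ⟨h⟩⟩

/-- Groupoids of the statement are groupoids of the development. -/
theorem gl_iff_isMd (X : A.Cᵒᵖ ⥤ Type) :
    Gl A.G yoneda X ↔ A.GE.isMd ⊤ (A.Φ.op ⋙ X) := by
  rw [gl_iff, glues_iff_seg]
  constructor
  · intro h
    refine ⟨h.isSegal, fun k hk => ?_⟩
    have : (⊤ : ℕ∞) ≤ k := hk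
    simp at this
  · intro h
    exact ⟨h.1⟩

/-! ### The equivalence of categories -/

/-- Precomposition with the comparison functor. -/
noncomputable abbrev Ext.pre (A : Ext) : (A.Cᵒᵖ ⥤ Type) ⥤ (A.GE.Objᵒᵖ ⥤ Type) :=
  (Functor.whiskeringLeft _ _ _).obj A.Φ.op

instance (A : Ext) : A.pre.IsEquivalence := inferInstance

/-- The groupoids of the statement. -/
abbrev Ext.glP (A : Ext) : ObjectProperty (A.Cᵒᵖ ⥤ Type) := Gl A.G yoneda

/-- The category of groupoids of the statement. -/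
abbrev Ext.Gp (A : Ext) : Type 1 := A.glP.FullSubcategory

/-- The comparison of the categories of groupoids. -/
noncomputable def Ext.E (A : Ext) : A.Gp ⥤ A.GE.Gpd :=
  ObjectProperty.lift _ (A.glP.ι ⋙ A.pre) (fun X => (gl_iff_isMd X.obj).1 X.property)

instance (A : Ext) : A.E.Faithful := by
  unfold Ext.E
  infer_instance

instance (A : Ext) : A.E.Full := by
  unfold Ext.E
  infer_instance

lemma isMd_of_iso (C : GlobExt) (m : ℕ∞) {X Y : C.Objᵒᵖ ⥤ Type} (e : X ≅ Y)
    (h : C.isMd m X) : C.isMd m Y := by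
  rw [GlobExt.isMd_eq] at h ⊢
  exact ObjectProperty.prop_of_iso _ e h

instance (A : Ext) : A.E.EssSurj where
  mem_essImage Z := by
    let X := A.pre.objPreimage Z.obj
    let e : A.pre.obj X ≅ Z.obj := A.pre.objObjPreimageIso Z.obj
    have h1 : A.GE.isMd ⊤ (A.pre.obj X) := isMd_of_iso _ _ e.symm Z.property
    exact ⟨⟨X, (gl_iff_isMd X).2 h1⟩, ⟨ObjectProperty.isoMk _ e⟩⟩

instance (A : Ext) : A.E.IsEquivalence where

/-! ### Weak equivalences -/

/-- Transport of the relation between cells along compatible bijections. -/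
lemma rel_transport {K L : Type*} [Category K] [Category L] {B : ℕ → K} {B' : ℕ → L}
    (d : Bool → ∀ {n}, B n ⟶ B (Nat.succ n)) (d' : Bool → ∀ {n}, B' n ⟶ B' (Nat.succ n))
    {X : K} {X' : L} (κ : ∀ n, (B n ⟶ X) ≃ (B' n ⟶ X'))
    (hd : ∀ b n (u : B (Nat.succ n) ⟶ X), κ n (d b ≫ u) = d' b ≫ κ n.succ u)
    {n : ℕ} (u v : B n ⟶ X) :
    (∃ w, d' false ≫ w = κ n u ∧ d' true ≫ w = κ n v) ↔ ∃ w, d false ≫ w = u ∧ d true ≫ w = v := by
  constructor
  · rintro ⟨w, h1, h2⟩
    obtain ⟨w, rfl⟩ := (κ n.succ).surjective w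
    rw [← hd] at h1 h2
    exact ⟨w, (κ n).injective h1, (κ n).injective h2⟩
  · rintro ⟨w, rfl, rfl⟩
    exact ⟨κ _ w, (hd _ _ _).symm, (hd _ _ _).symm⟩

/-- Transport of weak equivalences along compatible bijections. -/
theorem we_transport {K L : Type*} [Category.{0} K] [Category.{0} L] {B : ℕ → K} {B' : ℕ → L}
    (d : Bool → ∀ {n}, B n ⟶ B (Nat.succ n)) (d' : Bool → ∀ {n}, B' n ⟶ B' (Nat.succ n))
    (c : ∀ {n}, B n ⟶ B 0) (c' : ∀ {n}, B' n ⟶ B' 0)
    {X Y : K} {X' Y' : L} (f : X ⟶ Y) (f' : X' ⟶ Y')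
    (κ : ∀ n, (B n ⟶ X) ≃ (B' n ⟶ X')) (μ : ∀ n, (B n ⟶ Y) ≃ (B' n ⟶ Y'))
    (hd : ∀ b n (u : B (Nat.succ n) ⟶ X), κ n (d b ≫ u) = d' b ≫ κ n.succ u)
    (hd' : ∀ b n (u : B (Nat.succ n) ⟶ Y), μ n (d b ≫ u) = d' b ≫ μ n.succ u)
    (hc : ∀ n (x : B 0 ⟶ X), κ n (c ≫ x) = c' ≫ κ 0 x)
    (hc' : ∀ n (x : B 0 ⟶ Y), μ n (c ≫ x) = c' ≫ μ 0 x)
    (hf : ∀ n (u : B n ⟶ X), μ n (u ≫ f) = κ n u ≫ f') :
    we (fun b {n} => d b (n := n)) (fun {n} => c (n := n)) f ↔
      we (fun b {n} => d' b (n := n)) (fun {n} => c' (n := n)) f' := by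
  have hR : ∀ {n : ℕ} (u v : B n ⟶ X), (∃ w, d' false ≫ w = κ n u ∧ d' true ≫ w = κ n v) ↔
      ∃ w, d false ≫ w = u ∧ d true ≫ w = v := fun u v => rel_transport d d' κ hd u v
  have hR' : ∀ {n : ℕ} (u v : B n ⟶ Y), (∃ w, d' false ≫ w = μ n u ∧ d' true ≫ w = μ n v) ↔
      ∃ w, d false ≫ w = u ∧ d true ≫ w = v := fun u v => rel_transport d d' μ hd' u v
  have hbX : ∀ {n : ℕ} (x : B 0 ⟶ X) (u : B (Nat.succ n) ⟶ X),
      (∀ b, d' b ≫ κ n.succ u = c' ≫ κ 0 x) ↔ ∀ b, d b ≫ u = c ≫ x := by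
    intro n x u
    constructor
    · intro h b
      apply (κ n).injective
      rw [hd, hc, h]
    · intro h b
      rw [← hd, ← hc, h]
  have hbY : ∀ {n : ℕ} (x : B 0 ⟶ X) (u : B (Nat.succ n) ⟶ Y),
      (∀ b, d' b ≫ μ n.succ u = c' ≫ κ 0 x ≫ f') ↔ ∀ b, d b ≫ u = c ≫ x ≫ f := by
    intro n x u
    constructor
    · intro h b
      apply (μ n).injective
      rw [hd', hc', h, hf]
    · intro h b
      rw [← hd', h, hc', hf]
  refine and_congr ?_ ?_
  · constructor
    · intro h v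
      obtain ⟨v, rfl⟩ := (μ 0).surjective v
      obtain ⟨u, hu⟩ := h v
      refine ⟨κ 0 u, fun w => ?_⟩
      obtain ⟨w, rfl⟩ := (κ 0).surjective w
      rw [← hf]
      exact (hR' _ _).trans ((hu w).trans (hR _ _).symm)
    · intro h v
      obtain ⟨u, hu⟩ := h (μ 0 v)
      obtain ⟨u, rfl⟩ := (κ 0).surjective u
      refine ⟨u, fun w => ?_⟩
      have h1 := hu (κ 0 w)
      rw [← hf] at h1
      exact (hR' _ _).symm.trans (h1.trans (hR _ _))
  · constructor
    · intro h x n v hv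
      obtain ⟨v, rfl⟩ := (μ _).surjective v
      obtain ⟨x, rfl⟩ := (κ 0).surjective x
      obtain ⟨u, hu1, hu2⟩ := h x n v ((hbY x v).1 hv)
      refine ⟨κ _ u, (hbX x u).2 hu1, fun w hw => ?_⟩
      obtain ⟨w, rfl⟩ := (κ _).surjective w
      have h1 := hu2 w ((hbX x w).1 hw)
      rw [← hf]
      exact (hR' _ _).trans (h1.trans (hR _ _).symm)
    · intro h x n v hv
      obtain ⟨u, hu1, hu2⟩ := h (κ 0 x) n (μ _ v) ((hbY x v).2 hv)
      obtain ⟨u, rfl⟩ := (κ _).surjective u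
      refine ⟨u, (hbX x u).1 hu1, fun w hw => ?_⟩
      have h1 := hu2 (κ _ w) ((hbX x w).2 hw)
      rw [← hf] at h1
      exact (hR' _ _).symm.trans (h1.trans (hR _ _))

/-- The weak equivalences of the statement, for the discs of a coglobular object with
contractible globular sums. -/
theorem we_iff_wRaw {K : Type*} [Category.{0} K] [HasPushouts K] [HasInitial K]
    (F : Globe ⥤ K) (hF : GContr F) (idc : ∀ k, cob F k ⟶ cob F 0)
    (hidc : ∀ b k, F.map (Globe.face b (Nat.lt_succ_self k)) ≫ idc (k + 1) = idc k)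
    {X Y : K} (f : X ⟶ Y) :
    we (B := cob F) (fun b {n} => F.map (Globe.face b (Nat.lt_succ_self n)))
      (fun {n} => idc n) f ↔ WRaw F idc f := by
  have hbd : ∀ {Z : K} (x : cob F 0 ⟶ Z) (k : ℕ) (w : cob F (k + 1) ⟶ Z),
      bd F (k + 1) ≫ w = bd F (k + 1) ≫ idc (k + 1) ≫ x ↔
        ∀ b, F.map (Globe.face b (Nat.lt_succ_self k)) ≫ w = idc k ≫ x := by
    intro Z x k w
    rw [bd_comp_eq_iff]
    have e1 : sg F k ≫ idc (k + 1) ≫ x = idc k ≫ x := by
      rw [← Category.assoc]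
      exact congrArg (fun z => z ≫ x) (hidc false k)
    have e2 : tg F k ≫ idc (k + 1) ≫ x = idc k ≫ x := by
      rw [← Category.assoc]
      exact congrArg (fun z => z ≫ x) (hidc true k)
    rw [e1, e2]
    constructor
    · rintro ⟨h1, h2⟩ b
      cases b with
      | false => exact h1
      | true => exact h2
    · intro h
      exact ⟨h false, h true⟩
  refine and_congr ?_ ?_
  · constructor
    · intro h
      refine ⟨fun v => ?_, fun u v huv => ?_⟩
      · obtain ⟨u, hu⟩ := h v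
        exact ⟨u, (hu u).2 (hF.hty_refl u)⟩
      · obtain ⟨u0, hu0⟩ := h (v ≫ f)
        have h1 : Hty F u u0 := (hu0 u).1 huv
        have h2 : Hty F v u0 := (hu0 v).1 (hF.hty_refl _)
        exact hF.hty_trans h1 (hF.hty_symm h2)
    · rintro ⟨hs, hi⟩ v
      obtain ⟨u, hu⟩ := hs v
      refine ⟨u, fun w => ⟨fun h => ?_, fun h => ?_⟩⟩
      · exact hi w u (hF.hty_trans h (hF.hty_symm hu))
      · exact hF.hty_trans (Hty.comp h f) hu
  · constructor
    · intro h x k
      refine ⟨fun w hw => ?_, fun u v hu hv huv => ?_⟩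
      · have hw' := (hbd (x ≫ f) k w).1 (by
          rw [hw])
        obtain ⟨u, hu1, hu2⟩ := h x k w hw'
        exact ⟨u, (hbd x k u).2 hu1, (hu2 u hu1).2 (hF.hty_refl u)⟩
      · have hu' := (hbd x k u).1 hu
        have hv' := (hbd x k v).1 hv
        obtain ⟨u0, hu01, hu02⟩ := h x k (v ≫ f) (fun b => by
          rw [← Category.assoc, hv' b, Category.assoc])
        have h1 : Hty F u u0 := (hu02 u hu').1 huv
        have h2 : Hty F v u0 := (hu02 v hv').1 (hF.hty_refl _)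
        exact hF.hty_trans h1 (hF.hty_symm h2)
    · intro h x k v hv
      obtain ⟨hs, hi⟩ := h x k
      obtain ⟨u, hu1, hu2⟩ := hs v ((hbd (x ≫ f) k v).2 hv)
      refine ⟨u, (hbd x k u).1 hu1, fun w hw => ⟨fun h => ?_, fun h => ?_⟩⟩
      · exact hi w u ((hbd x k w).2 hw) hu1 (hF.hty_trans h (hF.hty_symm hu2))
      · exact hF.hty_trans (Hty.comp h f) hu2

/-- The cells of a groupoid of the statement. -/
noncomputable def cellE {A : Ext} (X : A.Gp) (n : ℕ) :
    (yoneda.obj (A.G.o (disc n)) ⟶ X.obj) ≃ (cob (A.GE.F ⊤) n ⟶ A.E.obj X) :=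
  yonedaEquiv.trans (GlobExt.yEquiv (C := A.GE) (m := ⊤) (.of (disc n)) (A.E.obj X)).symm

lemma cellE_apply {A : Ext} (X : A.Gp) (n : ℕ) (u : yoneda.obj (A.G.o (disc n)) ⟶ X.obj) :
    GlobExt.yEquiv (C := A.GE) (m := ⊤) (.of (disc n)) (A.E.obj X) (cellE X n u) =
      yonedaEquiv u := by
  unfold cellE
  exact Equiv.apply_symm_apply _ _

lemma cellE_left {A : Ext} (X : A.Gp) {n k : ℕ} (φ : A.H (disc n) (disc k))
    (u : yoneda.obj (A.G.o (disc k)) ⟶ X.obj) :
    cellE X n (yoneda.map φ ≫ u) =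
      (A.GE.y ⊤).map (show (.of (disc n) : A.GE.Obj) ⟶ .of (disc k) from φ) ≫ cellE X k u := by
  apply (GlobExt.yEquiv (C := A.GE) (m := ⊤) (.of (disc n)) (A.E.obj X)).injective
  have h1 := GlobExt.yEquiv_naturality_left (C := A.GE) (m := ⊤)
    (show (.of (disc n) : A.GE.Obj) ⟶ .of (disc k) from φ) (cellE X k u)
  refine Eq.trans ?_ h1.symm
  rw [cellE_apply, cellE_apply, yonedaEquiv_map_comp]
  rfl

lemma cellE_right {A : Ext} {X Y : A.Gp} (f : X ⟶ Y) {n : ℕ}
    (u : yoneda.obj (A.G.o (disc n)) ⟶ X.obj) :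
    cellE Y n (u ≫ f.hom) = cellE X n u ≫ A.E.map f := by
  apply (GlobExt.yEquiv (C := A.GE) (m := ⊤) (.of (disc n)) (A.E.obj Y)).injective
  have h1 := GlobExt.yEquiv_naturality_right (C := A.GE) (m := ⊤) (cellE X n u) (A.E.map f)
  refine Eq.trans ?_ h1.symm
  refine (cellE_apply Y n (u ≫ f.hom)).trans ?_
  refine Eq.trans ?_ (congrArg (fun z => (A.E.map f).hom.app (op (.of (disc n))) z)
    (cellE_apply X n u).symm)
  exact yonedaEquiv_comp u f.hom

/-- The weak equivalences of the statement are the weak equivalences of the path context. -/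
theorem we_iff_W {A : Ext} (hC : A.GE.IsCoherator) (K0 : A.GE.CylFun ⊤ 0)
    (q : ∀ n, A.G.o (disc n) ⟶ A.G.o (disc 0))
    (hq : ∀ b n, A.G.s (.face b (Nat.lt_succ_self n)) ≫ q (n + 1) = q n)
    {X Y : A.Gp} (f : X ⟶ Y) :
    we (B := fun n => yoneda.obj (A.G.o (disc n)))
      (fun b {n} => yoneda.map (A.G.s (.face b (Nat.lt_succ_self n))))
      (fun {n} => yoneda.map (q n)) f.hom ↔ (K0.pathCtx hC).W (A.E.map f) := by
  have hface : ∀ b n, (A.GE.F ⊤).map (Globe.face b (Nat.lt_succ_self n)) =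
      (A.GE.y ⊤).map (show (.of (disc n) : A.GE.Obj) ⟶ .of (disc (n + 1)) from
        A.G.s (.face b (Nat.lt_succ_self n))) := by
    intro b n
    have h1 : (show (.of (disc n) : A.GE.Obj) ⟶ .of (disc (n + 1)) from
        A.G.s (.face b (Nat.lt_succ_self n))) = A.GE.J.map (face b (Nat.lt_succ_self n)) :=
      (A.incl_face b (Nat.lt_succ_self n)).symm
    rw [h1]
    rfl
  have h2 := (K0.pathCtx hC).W_iff_wRaw (A.E.map f)
    (fun k => (A.GE.y ⊤).map (show (.of (disc k) : A.GE.Obj) ⟶ .of (disc 0) from q k))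
  refine Iff.trans ?_ h2.symm
  have h3 := we_iff_wRaw (A.GE.F ⊤) (GlobExt.gContr hC ⊤)
    (fun k => (A.GE.y ⊤).map (show (.of (disc k) : A.GE.Obj) ⟶ .of (disc 0) from q k))
    (by
      intro b k
      rw [hface]
      refine ((A.GE.y ⊤).map_comp _ _).symm.trans ?_
      exact congrArg (A.GE.y ⊤).map (hq b k)) (A.E.map f)
  refine Iff.trans ?_ h3
  apply we_transport (B := fun n => yoneda.obj (A.G.o (disc n))) (B' := cob (A.GE.F ⊤))
    (fun b {n} => yoneda.map (A.G.s (.face b (Nat.lt_succ_self n))))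
    (fun b {n} => (A.GE.F ⊤).map (Globe.face b (Nat.lt_succ_self n)))
    (fun {n} => yoneda.map (q n))
    (fun {n} => (A.GE.y ⊤).map (show (.of (disc n) : A.GE.Obj) ⟶ .of (disc 0) from q n))
    f.hom (A.E.map f) (fun n => cellE X n) (fun n => cellE Y n)
  · intro b n u
    rw [hface]
    exact cellE_left X _ u
  · intro b n u
    rw [hface]
    exact cellE_left Y _ u
  · intro n x
    exact cellE_left X _ x
  · intro n x
    exact cellE_left Y _ x
  · intro n u
    exact cellE_right f u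

end S

end Vale.Agent.P259
end
end

section

section

/-!
Uniqueness of the functor from the category of globular sums to a globular extension.
-/

open CategoryTheory Limits Opposite

namespace Vale.Agent.P259

open Theta0

namespace S

section

variable (A : Ext) (I I' : ∀ {S T : Theta0}, (S ⟶ T) → A.H S T)
  (hid : ∀ S : Theta0, I (𝟙 S) = 𝟙 (A.G.o S))
  (hcomp : ∀ {S T U : Theta0} (f : S ⟶ T) (g : T ⟶ U), I (f ≫ g) = I f ≫ I g)
  (hstr : ∀ {S T : Theta0} (x : Str S T), I x.toTheta = A.G.s x)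
  (hid' : ∀ S : Theta0, I' (𝟙 S) = 𝟙 (A.G.o S))
  (hcomp' : ∀ {S T U : Theta0} (f : S ⟶ T) (g : T ⟶ U), I' (f ≫ g) = I' f ≫ I' g)
  (hstr' : ∀ {S T : Theta0} (x : Str S T), I' x.toTheta = A.G.s x)

include hid hcomp hstr hid' hcomp' hstr'

theorem incl_unique_disc {n : ℕ} {T : Theta0} (f : disc n ⟶ T) : I f = I' f := by
  induction T using Theta0.induction' with
  | disc i =>
    obtain ⟨g, rfl⟩ := exists_discMap f
    cases g with
    | id =>
      have h : discMap (𝟙 (Globe.D n)) = 𝟙 (disc n) := discMap_id n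
      change I (discMap (𝟙 (Globe.D n))) = I' (discMap (𝟙 (Globe.D n)))
      rw [h, hid, hid']
    | face b h =>
      exact (hstr (.face b h)).trans (hstr' (.face b h)).symm
  | glue t j i hl hi ih =>
    rcases exists_factor t j i hl hi f with ⟨f', rfl⟩ | ⟨f', rfl⟩
    · rw [hcomp, hcomp', ih]
      congr 1
      exact (hstr (.inl t j i hl hi)).trans (hstr' (.inl t j i hl hi)).symm
    · rw [hcomp, hcomp']
      have h1 : I f' = I' f' := by
        obtain ⟨g, rfl⟩ := exists_discMap f'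
        cases g with
        | id =>
          have h : discMap (𝟙 (Globe.D n)) = 𝟙 (disc n) := discMap_id n
          change I (discMap (𝟙 (Globe.D n))) = I' (discMap (𝟙 (Globe.D n)))
          rw [h, hid, hid']
        | face b h =>
          exact (hstr (.face b h)).trans (hstr' (.face b h)).symm
      rw [h1]
      congr 1
      exact (hstr (.last (t.glue j i hl hi))).trans (hstr' (.last (t.glue j i hl hi))).symm

theorem incl_unique_aux {S T : Theta0} (f : S ⟶ T) : I f = I' f := by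
  induction S using Theta0.induction' with
  | disc i => exact incl_unique_disc A I I' hid hcomp hstr hid' hcomp' hstr' f
  | glue t j i hl hi ih =>
    apply (A.G.glue (A.G.o T) t j i hl hi).injOn (Set.mem_univ _) (Set.mem_univ _)
    refine Prod.ext ?_ ?_
    · change A.G.s (.inl t j i hl hi) ≫ I f = A.G.s (.inl t j i hl hi) ≫ I' f
      have h1 : I (Theta0.inl t j i hl hi ≫ f) = I' (Theta0.inl t j i hl hi ≫ f) := ih _
      rw [hcomp, hcomp'] at h1
      have e1 : I (Theta0.inl t j i hl hi) = A.G.s (.inl t j i hl hi) := hstr (.inl t j i hl hi)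
      have e2 : I' (Theta0.inl t j i hl hi) = A.G.s (.inl t j i hl hi) := hstr' (.inl t j i hl hi)
      rw [e1, e2] at h1
      exact h1
    · change A.G.s (.last (t.glue j i hl hi)) ≫ I f = A.G.s (.last (t.glue j i hl hi)) ≫ I' f
      have h1 : I (Theta0.inr t j i hl hi ≫ f) = I' (Theta0.inr t j i hl hi ≫ f) :=
        incl_unique_disc A I I' hid hcomp hstr hid' hcomp' hstr' _
      rw [hcomp, hcomp'] at h1
      have e1 : I (Theta0.inr t j i hl hi) = A.G.s (.last (t.glue j i hl hi)) :=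
        hstr (.last (t.glue j i hl hi))
      have e2 : I' (Theta0.inr t j i hl hi) = A.G.s (.last (t.glue j i hl hi)) :=
        hstr' (.last (t.glue j i hl hi))
      rw [e1, e2] at h1
      exact h1

end

/-- Uniqueness of the functor `Θ₀ ⟶ A`. -/
theorem Ext.incl_unique (A : Ext) (I : ∀ {S T : Theta0}, (S ⟶ T) → A.H S T)
    (hid : ∀ S : Theta0, I (𝟙 S) = 𝟙 (A.G.o S))
    (hcomp : ∀ {S T U : Theta0} (f : S ⟶ T) (g : T ⟶ U), I (f ≫ g) = I f ≫ I g)
    (hstr : ∀ {S T : Theta0} (x : Str S T), I x.toTheta = A.G.s x) {S T : Theta0} (f : S ⟶ T) :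
    I f = A.incl f :=
  incl_unique_aux A I A.incl hid hcomp hstr A.incl_id A.incl_comp A.incl_str f

end S

end Vale.Agent.P259
end
end

section

section

/-!
Comparison of the globular extensions of the statement with those of the development: objects
and morphisms.
-/

open CategoryTheory Limits Opposite

namespace Vale.Agent.P259

open Theta0

namespace S

lemma glue_w' (D : GlobExt) {l : ℕ} (t : Tab l) (j n : ℕ) (h : j < l) (h' : j < n) {U : Theta0}
    (x : D.Hom (glue t j n h h') U) :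
    D.comp (D.incl (Theta0.face true h)) (D.comp (D.incl (lastIncl t))
        (D.comp (D.incl (inl t j n h h')) x)) =
      D.comp (D.incl (Theta0.face false h')) (D.comp (D.incl (inr t j n h h')) x) := by
  have h1 : D.incl ((Theta0.face true h ≫ lastIncl t) ≫ inl t j n h h') =
      D.incl (Theta0.face false h' ≫ inr t j n h h') :=
    congrArg D.incl (Theta0.isPushout t j n h h').w
  rw [D.incl_comp, D.incl_comp, D.incl_comp] at h1
  rw [← D.assoc, ← D.assoc, ← D.assoc, h1]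

/-- The globular extension of the statement attached to one of the development. -/
noncomputable def OfGE (D : GlobExt) : Ext where
  C := D.Obj
  G :=
    { o := fun S => .of S
      bij := ⟨fun _ _ h => congrArg GlobExt.Obj.sum h, fun X => ⟨X.sum, rfl⟩⟩
      s := fun x => D.incl x.toTheta
      face_face := fun h h' h'' b c => by
        change D.comp (D.incl (Theta0.face b h)) (D.incl (Theta0.face c h')) =
          D.incl (Theta0.face b h'')
        rw [← D.incl_comp, Theta0.face_comp_face]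
      last_D := fun n => D.incl_id (disc n)
      glue := fun U l t j n h h' => by
        refine ⟨?_, ?_, ?_⟩
        · intro x _
          exact glue_w' D t j n h h' x
        · intro x _ y _ hxy
          have h1 : D.comp (D.incl (inl t j n h h')) x = D.comp (D.incl (inl t j n h h')) y :=
            congrArg Prod.fst hxy
          have h2 : D.comp (D.incl (inr t j n h h')) x = D.comp (D.incl (inr t j n h h')) y :=
            congrArg Prod.snd hxy
          obtain ⟨z, -, hz⟩ := D.glue t j n h h' U.sum (D.comp (D.incl (inl t j n h h')) y)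
            (D.comp (D.incl (inr t j n h h')) y) (by
              rw [D.incl_comp, D.assoc]
              exact glue_w' D t j n h h' y)
          exact (hz x ⟨h1, h2⟩).trans (hz y ⟨rfl, rfl⟩).symm
        · rintro ⟨a, b⟩ hab
          obtain ⟨z, ⟨hz1, hz2⟩, -⟩ := D.glue t j n h h' U.sum a b (by
            rw [D.incl_comp, D.assoc]
            exact hab)
          exact ⟨z, Set.mem_univ _, Prod.ext hz1 hz2⟩ }

theorem OfGE_incl (D : GlobExt) {S T : Theta0} (f : S ⟶ T) : (OfGE D).incl f = D.incl f :=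
  ((OfGE D).incl_unique (fun f => D.incl f) (fun S => D.incl_id S)
    (fun f g => D.incl_comp f g) (fun _ => rfl) f).symm

theorem Map.m_id {A B : Ext} (F : Map A B) (S : Theta0) : F.m (𝟙 (A.G.o S)) = 𝟙 (B.G.o S) :=
  F.id S

theorem Map.m_incl {A B : Ext} (F : Map A B) {S T : Theta0} (f : S ⟶ T) :
    F.m (A.incl f) = B.incl f :=
  B.incl_unique (fun f => F.m (A.incl f)) (fun S => by rw [A.incl_id, F.m_id])
    (fun f g => by
      rw [A.incl_comp]
      exact F.comp _ _)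
    (fun x => by rw [A.incl_str, F.str]) f

/-- Morphisms of the development from morphisms of the statement. -/
noncomputable def Map.toGE {A B : Ext} (F : Map A B) : GlobExt.Map A.GE B.GE where
  map f := F.m f
  map_id S := F.m_id S
  map_comp f g := F.comp f g
  map_incl f := F.m_incl f

/-- Morphisms to an extension of the development. -/
noncomputable def Map.toD {A : Ext} {D : GlobExt} (F : Map A (OfGE D)) : GlobExt.Map A.GE D where
  map f := F.m f
  map_id S := F.m_id S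
  map_comp f g := F.comp f g
  map_incl f := (F.m_incl f).trans (OfGE_incl D f)

/-- Morphisms to an extension of the development. -/
noncomputable def Map.ofD {A : Ext} {D : GlobExt} (F : GlobExt.Map A.GE D) : Map A (OfGE D) where
  m f := F.map f
  id S := F.map_id S
  comp f g := F.map_comp f g
  str x := by
    have h := F.map_incl x.toTheta
    exact (congrArg F.map (A.incl_str x).symm).trans h

/-- Morphisms from an extension of the development. -/
noncomputable def Map.ofFrom {D : GlobExt} {A : Ext} (F : GlobExt.Map D A.GE) : Map (OfGE D) A where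
  m f := F.map f
  id S := F.map_id S
  comp f g := F.map_comp f g
  str x := (F.map_incl x.toTheta).trans (A.incl_str x)

/-- Morphisms from an extension of the development. -/
noncomputable def Map.fromD {D : GlobExt} {A : Ext} (F : Map (OfGE D) A) : GlobExt.Map D A.GE where
  map f := F.m f
  map_id S := F.m_id S
  map_comp f g := F.comp f g
  map_incl f := (congrArg F.m (OfGE_incl D f).symm).trans (F.m_incl f)

/-- Morphisms between extensions of the development. -/
noncomputable def Map.of {D E : GlobExt} (F : GlobExt.Map D E) : Map (OfGE D) (OfGE E) where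
  m f := F.map f
  id S := F.map_id S
  comp f g := F.map_comp f g
  str x := F.map_incl x.toTheta

theorem toPar {A : Ext} {n : ℕ} {S : Theta0} {f g : A.H (disc n) S}
    (h : A.GE.Parallel f g) (b : Bool) {m : ℕ} (hm : m < n) :
    cmp (A.G.s (.face b hm)) f = cmp (A.G.s (.face b hm)) g := by
  cases n with
  | zero => exact absurd hm (Nat.not_lt_zero m)
  | succ n =>
    have h0 : ∀ b : Bool, A.G.s (.face b n.lt_succ_self) ≫ f = A.G.s (.face b n.lt_succ_self) ≫ g := by
      intro b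
      rw [← A.incl_face]
      cases b
      · exact h.1
      · exact h.2
    rcases Nat.lt_succ_iff_lt_or_eq.1 hm with h1 | h1
    · change A.G.s (.face b hm) ≫ f = A.G.s (.face b hm) ≫ g
      rw [← A.G.face_face h1 n.lt_succ_self hm b b, Category.assoc, Category.assoc, h0]
    · subst h1
      exact h0 b

lemma parallel_iff {A : Ext} {n : ℕ} {S : Theta0} {f g : A.H (disc n) S} :
    A.GE.Parallel f g ↔ ∀ (b : Bool) {m : ℕ} (hm : m < n),
      cmp (A.G.s (.face b hm)) f = cmp (A.G.s (.face b hm)) g := by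
  constructor
  · intro h b m hm
    exact toPar h b hm
  · intro h
    cases n with
    | zero => trivial
    | succ n =>
      have h0 : ∀ b : Bool, A.incl (Theta0.face b n.lt_succ_self) ≫ f =
          A.incl (Theta0.face b n.lt_succ_self) ≫ g := by
        intro b
        rw [A.incl_face]
        exact h b n.lt_succ_self
      exact ⟨h0 false, h0 true⟩

lemma isLift_iff {A : Ext} {n : ℕ} {S : Theta0} {p : Bool → A.H (disc n) S}
    {f : A.H (disc n.succ) S} : IsLift p f ↔ A.GE.IsLift (p false) (p true) f := by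
  constructor
  · intro h
    have h0 : ∀ b : Bool, A.incl (Theta0.face b n.lt_succ_self) ≫ f = p b := by
      intro b
      rw [A.incl_face]
      exact h b
    exact ⟨h0 false, h0 true⟩
  · rintro ⟨h0, h1⟩ b
    change A.G.s (.face b n.lt_succ_self) ≫ f = p b
    rw [← A.incl_face]
    cases b
    · exact h0
    · exact h1

end S

end Vale.Agent.P259
end
end

section

section

open CategoryTheory Limits

namespace Vale.Agent.P259

open Theta0

namespace GlobExt

/-- The initial globular extension. -/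
noncomputable def thetaExt : GlobExt where
  Hom S T := S ⟶ T
  id S := 𝟙 S
  comp f g := f ≫ g
  id_comp := Category.id_comp
  comp_id := Category.comp_id
  assoc := Category.assoc
  incl f := f
  incl_id _ := rfl
  incl_comp _ _ := rfl
  glue t j i hl hi U a b hab := by
    have sq := Theta0.isPushout t j i hl hi
    let a' : toG.obj ⟨t⟩ ⟶ toG.obj U := a
    let b' : toG.obj (disc i) ⟶ toG.obj U := b
    have hab' : toG.map (face true hl ≫ lastIncl t) ≫ a' = toG.map (face false hi) ≫ b' := hab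
    refine ⟨(sq.desc a' b' hab' : _), ⟨sq.inl_desc _ _ _, sq.inr_desc _ _ _⟩, ?_⟩
    rintro c ⟨h1, h2⟩
    let c' : toG.obj (Theta0.glue t j i hl hi) ⟶ toG.obj U := c
    have : c' = sq.desc a' b' hab' := by
      apply sq.hom_ext
      · exact h1.trans (sq.inl_desc _ _ _).symm
      · exact h2.trans (sq.inr_desc _ _ _).symm
    exact this

lemma glue_w (C : GlobExt) {l : ℕ} (t : Tab l) (j i : ℕ) (hl : j < l) (hi : j < i) :
    C.comp (C.incl (face true hl ≫ lastIncl t)) (C.incl (inl t j i hl hi)) =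
      C.comp (C.incl (face false hi)) (C.incl (inr t j i hl hi)) := by
  rw [← C.incl_comp, ← C.incl_comp]
  congr 1
  exact (Theta0.isPushout t j i hl hi).w

/-- Raw terms of the free extension. -/
inductive Raw (C : GlobExt) (E : Set (Pair C)) : Theta0 → Theta0 → Type
  | of {S T : Theta0} (f : C.Hom S T) : Raw C E S T
  | lift (p : E) : Raw C E (disc (p.1.n + 1)) p.1.S
  | comp {S T U : Theta0} (f : Raw C E S T) (g : Raw C E T U) : Raw C E S U
  | glue {l : ℕ} (t : Tab l) (j i : ℕ) (hl : j < l) (hi : j < i) {U : Theta0}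
      (a : Raw C E ⟨t⟩ U) (b : Raw C E (disc i) U) : Raw C E (Theta0.glue t j i hl hi) U

variable {C : GlobExt} {E : Set (Pair C)}

/-- The partial equivalence relation on raw terms; the terms related to themselves are the
well formed ones. -/
inductive PER : ∀ {S T : Theta0}, Raw C E S T → Raw C E S T → Prop
  | of {S T : Theta0} (f : C.Hom S T) : PER (.of f) (.of f)
  | lift (p : E) : PER (.lift p) (.lift p)
  | comp {S T U : Theta0} {f f' : Raw C E S T} {g g' : Raw C E T U} :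
      PER f f' → PER g g' → PER (.comp f g) (.comp f' g')
  | glue {l : ℕ} (t : Tab l) (j i : ℕ) (hl : j < l) (hi : j < i) {U : Theta0}
      {a a' : Raw C E ⟨t⟩ U} {b b' : Raw C E (disc i) U} : PER a a' → PER b b' →
      PER (.comp (.of (C.incl (face true hl ≫ lastIncl t))) a)
        (.comp (.of (C.incl (face false hi))) b) →
      PER (.glue t j i hl hi a b) (.glue t j i hl hi a' b')
  | symm {S T : Theta0} {f g : Raw C E S T} : PER f g → PER g f
  | trans {S T : Theta0} {f g h : Raw C E S T} : PER f g → PER g h → PER f h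
  | id_comp {S T : Theta0} {f : Raw C E S T} : PER f f → PER (.comp (.of (C.id S)) f) f
  | comp_id {S T : Theta0} {f : Raw C E S T} : PER f f → PER (.comp f (.of (C.id T))) f
  | assoc {S T U V : Theta0} {f : Raw C E S T} {g : Raw C E T U} {h : Raw C E U V} :
      PER f f → PER g g → PER h h → PER (.comp (.comp f g) h) (.comp f (.comp g h))
  | of_comp {S T U : Theta0} (f : C.Hom S T) (g : C.Hom T U) :
      PER (.comp (.of f) (.of g)) (.of (C.comp f g))
  | lift_src (p : E) : PER (.comp (.of (C.incl (σ p.1.n))) (.lift p)) (.of p.1.f)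
  | lift_tgt (p : E) : PER (.comp (.of (C.incl (τ p.1.n))) (.lift p)) (.of p.1.g)
  | glue_inl {l : ℕ} (t : Tab l) (j i : ℕ) (hl : j < l) (hi : j < i) {U : Theta0}
      {a : Raw C E ⟨t⟩ U} {b : Raw C E (disc i) U} : PER a a → PER b b →
      PER (.comp (.of (C.incl (face true hl ≫ lastIncl t))) a)
        (.comp (.of (C.incl (face false hi))) b) →
      PER (.comp (.of (C.incl (inl t j i hl hi))) (.glue t j i hl hi a b)) a
  | glue_inr {l : ℕ} (t : Tab l) (j i : ℕ) (hl : j < l) (hi : j < i) {U : Theta0}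
      {a : Raw C E ⟨t⟩ U} {b : Raw C E (disc i) U} : PER a a → PER b b →
      PER (.comp (.of (C.incl (face true hl ≫ lastIncl t))) a)
        (.comp (.of (C.incl (face false hi))) b) →
      PER (.comp (.of (C.incl (inr t j i hl hi))) (.glue t j i hl hi a b)) b
  | eta {l : ℕ} (t : Tab l) (j i : ℕ) (hl : j < l) (hi : j < i) {U : Theta0}
      {f : Raw C E (Theta0.glue t j i hl hi) U} : PER f f →
      PER (.glue t j i hl hi (.comp (.of (C.incl (inl t j i hl hi))) f)
        (.comp (.of (C.incl (inr t j i hl hi))) f)) f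

lemma PER.left {S T : Theta0} {f g : Raw C E S T} (h : PER f g) : PER f f := h.trans h.symm

lemma PER.right {S T : Theta0} {f g : Raw C E S T} (h : PER f g) : PER g g := h.symm.trans h

/-- The setoid on well formed terms. -/
def perSetoid (C : GlobExt) (E : Set (Pair C)) (S T : Theta0) :
    Setoid {f : Raw C E S T // PER f f} where
  r f g := PER f.1 g.1
  iseqv := ⟨fun f => f.2, fun h => h.symm, fun h h' => h.trans h'⟩

/-- Morphisms of the free extension. -/
def FHom (C : GlobExt) (E : Set (Pair C)) (S T : Theta0) : Type := Quotient (perSetoid C E S T)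

/-- The class of a well formed term. -/
def fmk {S T : Theta0} (f : Raw C E S T) (hf : PER f f) : FHom C E S T :=
  Quotient.mk (perSetoid C E S T) ⟨f, hf⟩

lemma fmk_eq {S T : Theta0} {f g : Raw C E S T} (h : PER f g) :
    fmk f h.left = fmk g h.right :=
  Quotient.sound (s := perSetoid C E S T) h

lemma fmk_eq_iff {S T : Theta0} {f g : Raw C E S T} (hf : PER f f) (hg : PER g g) :
    fmk f hf = fmk g hg ↔ PER f g :=
  ⟨fun h => Quotient.exact (s := perSetoid C E S T) h,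
    fun h => Quotient.sound (s := perSetoid C E S T) h⟩

lemma fmk_surj {S T : Theta0} (x : FHom C E S T) : ∃ f hf, x = fmk f hf := by
  obtain ⟨⟨f, hf⟩, rfl⟩ := Quotient.exists_rep x
  exact ⟨f, hf, rfl⟩

/-- Composition in the free extension. -/
def fcomp {S T U : Theta0} (x : FHom C E S T) (y : FHom C E T U) : FHom C E S U :=
  Quotient.map₂ (fun f g => ⟨.comp f.1 g.1, .comp f.2 g.2⟩)
    (fun _ _ h _ _ h' => PER.comp h h') x y

@[simp] lemma fcomp_mk {S T U : Theta0} {f : Raw C E S T} {g : Raw C E T U} (hf : PER f f)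
    (hg : PER g g) : fcomp (fmk f hf) (fmk g hg) = fmk (.comp f g) (.comp hf hg) := rfl

/-- The free extension. -/
noncomputable def freeExt (C : GlobExt) (E : Set (Pair C)) : GlobExt where
  Hom := FHom C E
  id S := fmk (.of (C.id S)) (.of _)
  comp := fcomp
  id_comp x := by
    obtain ⟨f, hf, rfl⟩ := fmk_surj x
    exact fmk_eq (.id_comp hf)
  comp_id x := by
    obtain ⟨f, hf, rfl⟩ := fmk_surj x
    exact fmk_eq (.comp_id hf)
  assoc x y z := by
    obtain ⟨f, hf, rfl⟩ := fmk_surj x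
    obtain ⟨g, hg, rfl⟩ := fmk_surj y
    obtain ⟨h, hh, rfl⟩ := fmk_surj z
    exact fmk_eq (.assoc hf hg hh)
  incl f := fmk (.of (C.incl f)) (.of _)
  incl_id S := by
    congr 2
    exact C.incl_id S
  incl_comp f g := by
    rw [fcomp_mk]
    refine Eq.trans ?_ (fmk_eq (.of_comp _ _)).symm
    congr 2
    exact C.incl_comp f g
  glue t j i hl hi U x y hxy := by
    obtain ⟨a, ha, rfl⟩ := fmk_surj x
    obtain ⟨b, hb, rfl⟩ := fmk_surj y
    have hab : PER (.comp (.of (C.incl (face true hl ≫ lastIncl t))) a)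
        (.comp (.of (C.incl (face false hi))) b) := (fmk_eq_iff _ _).1 hxy
    refine ⟨fmk (.glue t j i hl hi a b) (.glue t j i hl hi ha hb hab),
      ⟨fmk_eq (.glue_inl t j i hl hi ha hb hab), fmk_eq (.glue_inr t j i hl hi ha hb hab)⟩, ?_⟩
    rintro z ⟨h1, h2⟩
    obtain ⟨c, hc, rfl⟩ := fmk_surj z
    have h1' : PER (.comp (.of (C.incl (inl t j i hl hi))) c) a := (fmk_eq_iff _ _).1 h1
    have h2' : PER (.comp (.of (C.incl (inr t j i hl hi))) c) b := (fmk_eq_iff _ _).1 h2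
    refine (fmk_eq_iff _ _).2 ((PER.eta t j i hl hi hc).symm.trans (.glue t j i hl hi h1' h2' ?_))
    exact (PER.comp (.of _) h1').trans (hab.trans (PER.comp (.of _) h2').symm)

/-- The canonical map to the free extension. -/
noncomputable def toFree (C : GlobExt) (E : Set (Pair C)) : Map C (freeExt C E) where
  map f := fmk (.of f) (.of f)
  map_id _ := rfl
  map_comp f g := (fmk_eq (.of_comp f g)).symm
  map_incl _ := rfl

/-- The adjoined lifts. -/
noncomputable def freeLift (C : GlobExt) (E : Set (Pair C)) (p : E) :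
    (freeExt C E).Hom (disc (p.1.n + 1)) p.1.S := fmk (.lift p) (.lift p)

section Eval

variable {D : GlobExt} (G : Map C D) (l : ∀ p : E, D.Hom (disc (p.1.n + 1)) p.1.S)

open Classical in
/-- Evaluation of raw terms. -/
noncomputable def ev : ∀ {S T : Theta0}, Raw C E S T → Option (D.Hom S T)
  | _, _, .of f => some (G.map f)
  | _, _, .lift p => some (l p)
  | _, _, .comp f g => (ev f).bind (fun x => (ev g).bind (fun y => some (D.comp x y)))
  | _, _, .glue t j i hl hi a b => (ev a).bind (fun x => (ev b).bind (fun y =>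
      if h : D.comp (D.incl (face true hl ≫ lastIncl t)) x = D.comp (D.incl (face false hi)) y
      then some (D.glue t j i hl hi _ x y h).choose else none))

variable {G l}

lemma ev_comp {S T U : Theta0} {f : Raw C E S T} {g : Raw C E T U} {x : D.Hom S T}
    {y : D.Hom T U} (hx : ev G l f = some x) (hy : ev G l g = some y) :
    ev G l (.comp f g) = some (D.comp x y) := by
  simp [ev, hx, hy]

lemma ev_glue {l' : ℕ} (t : Tab l') (j i : ℕ) (hl : j < l') (hi : j < i) {U : Theta0}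
    {a : Raw C E ⟨t⟩ U} {b : Raw C E (disc i) U} {x : D.Hom ⟨t⟩ U} {y : D.Hom (disc i) U}
    (hx : ev G l a = some x) (hy : ev G l b = some y) (z : D.Hom (Theta0.glue t j i hl hi) U)
    (h1 : D.comp (D.incl (inl t j i hl hi)) z = x)
    (h2 : D.comp (D.incl (inr t j i hl hi)) z = y) :
    ev G l (.glue t j i hl hi a b) = some z := by
  have h : D.comp (D.incl (face true hl ≫ lastIncl t)) x =
      D.comp (D.incl (face false hi)) y := by
    rw [← h1, ← h2, ← D.assoc, ← D.assoc, D.glue_w]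
  have h3 : z = (D.glue t j i hl hi _ x y h).choose :=
    (D.glue t j i hl hi _ x y h).choose_spec.2 z ⟨h1, h2⟩
  simp [ev, hx, hy, h, h3]

lemma ev_of_per (hl : ∀ p : E, D.IsLift (G.map p.1.f) (G.map p.1.g) (l p)) {S T : Theta0}
    {f g : Raw C E S T} (h : PER f g) : ∃ x, ev G l f = some x ∧ ev G l g = some x := by
  induction h with
  | of f => exact ⟨_, rfl, rfl⟩
  | lift p => exact ⟨_, rfl, rfl⟩
  | comp _ _ ih1 ih2 =>
    obtain ⟨x, hx, hx'⟩ := ih1
    obtain ⟨y, hy, hy'⟩ := ih2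
    exact ⟨_, ev_comp hx hy, ev_comp hx' hy'⟩
  | glue t j i hl' hi _ _ _ ih1 ih2 ih3 =>
    obtain ⟨x, hx, hx'⟩ := ih1
    obtain ⟨y, hy, hy'⟩ := ih2
    obtain ⟨z, hz, hz'⟩ := ih3
    rw [ev_comp (by rfl) hx, Option.some_inj] at hz
    rw [ev_comp (by rfl) hy, Option.some_inj] at hz'
    have h : D.comp (D.incl (face true hl' ≫ lastIncl t)) x =
        D.comp (D.incl (face false hi)) y := by
      rw [← G.map_incl, ← G.map_incl, hz, hz']
    obtain ⟨c, ⟨h1, h2⟩, -⟩ := D.glue t j i hl' hi _ x y h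
    exact ⟨c, ev_glue t j i hl' hi hx hy c h1 h2, ev_glue t j i hl' hi hx' hy' c h1 h2⟩
  | symm _ ih =>
    obtain ⟨x, hx, hx'⟩ := ih
    exact ⟨x, hx', hx⟩
  | trans _ _ ih1 ih2 =>
    obtain ⟨x, hx, hx'⟩ := ih1
    obtain ⟨y, hy, hy'⟩ := ih2
    rw [hx', Option.some_inj] at hy
    subst hy
    exact ⟨_, hx, hy'⟩
  | id_comp _ ih =>
    obtain ⟨x, hx, -⟩ := ih
    refine ⟨x, ?_, hx⟩
    rw [ev_comp (by rfl) hx, G.map_id, D.id_comp]
  | comp_id _ ih =>
    obtain ⟨x, hx, -⟩ := ih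
    refine ⟨x, ?_, hx⟩
    rw [ev_comp hx (by rfl), G.map_id, D.comp_id]
  | assoc _ _ _ ih1 ih2 ih3 =>
    obtain ⟨x, hx, -⟩ := ih1
    obtain ⟨y, hy, -⟩ := ih2
    obtain ⟨z, hz, -⟩ := ih3
    refine ⟨_, ev_comp (ev_comp hx hy) hz, ?_⟩
    rw [ev_comp hx (ev_comp hy hz), D.assoc]
  | of_comp f g =>
    refine ⟨_, ev_comp (by rfl) (by rfl), ?_⟩
    rw [← G.map_comp]
    rfl
  | lift_src p =>
    refine ⟨_, ev_comp (by rfl) (by rfl), ?_⟩
    rw [G.map_incl, (hl p).1]
    rfl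
  | lift_tgt p =>
    refine ⟨_, ev_comp (by rfl) (by rfl), ?_⟩
    rw [G.map_incl, (hl p).2]
    rfl
  | glue_inl t j i hl' hi _ _ _ ih1 ih2 ih3 =>
    obtain ⟨x, hx, -⟩ := ih1
    obtain ⟨y, hy, -⟩ := ih2
    obtain ⟨z, hz, hz'⟩ := ih3
    rw [ev_comp (by rfl) hx, Option.some_inj] at hz
    rw [ev_comp (by rfl) hy, Option.some_inj] at hz'
    have h : D.comp (D.incl (face true hl' ≫ lastIncl t)) x =
        D.comp (D.incl (face false hi)) y := by
      rw [← G.map_incl, ← G.map_incl, hz, hz']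
    obtain ⟨c, ⟨h1, h2⟩, -⟩ := D.glue t j i hl' hi _ x y h
    refine ⟨x, ?_, hx⟩
    rw [ev_comp (by rfl) (ev_glue t j i hl' hi hx hy c h1 h2), G.map_incl, h1]
  | glue_inr t j i hl' hi _ _ _ ih1 ih2 ih3 =>
    obtain ⟨x, hx, -⟩ := ih1
    obtain ⟨y, hy, -⟩ := ih2
    obtain ⟨z, hz, hz'⟩ := ih3
    rw [ev_comp (by rfl) hx, Option.some_inj] at hz
    rw [ev_comp (by rfl) hy, Option.some_inj] at hz'
    have h : D.comp (D.incl (face true hl' ≫ lastIncl t)) x =
        D.comp (D.incl (face false hi)) y := by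
      rw [← G.map_incl, ← G.map_incl, hz, hz']
    obtain ⟨c, ⟨h1, h2⟩, -⟩ := D.glue t j i hl' hi _ x y h
    refine ⟨y, ?_, hy⟩
    rw [ev_comp (by rfl) (ev_glue t j i hl' hi hx hy c h1 h2), G.map_incl, h2]
  | eta t j i hl' hi _ ih =>
    obtain ⟨x, hx, -⟩ := ih
    refine ⟨x, ?_, hx⟩
    exact ev_glue t j i hl' hi (ev_comp (by rfl) hx) (ev_comp (by rfl) hx) x
      (by rw [G.map_incl]) (by rw [G.map_incl])

lemma exists_ev (hl : ∀ p : E, D.IsLift (G.map p.1.f) (G.map p.1.g) (l p)) {S T : Theta0}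
    (x : FHom C E S T) : ∃ d : D.Hom S T, ∀ f hf, x = fmk f hf → ev G l f = some d := by
  obtain ⟨f, hf, rfl⟩ := fmk_surj x
  obtain ⟨d, hd, -⟩ := ev_of_per hl hf
  refine ⟨d, fun g hg h => ?_⟩
  obtain ⟨d', hd', hd''⟩ := ev_of_per hl ((fmk_eq_iff _ _).1 h)
  rw [hd, Option.some_inj] at hd'
  rw [hd'', hd']

/-- The value of the induced map. -/
noncomputable def evHom (hl : ∀ p : E, D.IsLift (G.map p.1.f) (G.map p.1.g) (l p))
    {S T : Theta0} (x : FHom C E S T) : D.Hom S T := (exists_ev hl x).choose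

lemma ev_eq (hl : ∀ p : E, D.IsLift (G.map p.1.f) (G.map p.1.g) (l p))
    {S T : Theta0} {f : Raw C E S T} (hf : PER f f) : ev G l f = some (evHom hl (fmk f hf)) :=
  (exists_ev hl (fmk f hf)).choose_spec f hf rfl

/-- The induced map. -/
noncomputable def evMap (hl : ∀ p : E, D.IsLift (G.map p.1.f) (G.map p.1.g) (l p)) :
    Map (freeExt C E) D where
  map x := evHom hl x
  map_id S := by
    have h := ev_eq hl (f := .of (C.id S)) (.of _)
    rw [← Option.some_inj]
    refine h.symm.trans ?_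
    change some (G.map (C.id S)) = _
    rw [G.map_id]
  map_comp x y := by
    obtain ⟨f, hf, rfl⟩ := fmk_surj x
    obtain ⟨g, hg, rfl⟩ := fmk_surj y
    have h := ev_eq hl (.comp hf hg)
    rw [← Option.some_inj]
    exact h.symm.trans (ev_comp (ev_eq hl hf) (ev_eq hl hg))
  map_incl f := by
    have h := ev_eq hl (f := .of (C.incl f)) (.of _)
    rw [← Option.some_inj]
    refine h.symm.trans ?_
    change some (G.map (C.incl f)) = _
    rw [G.map_incl]

lemma ev_uniq (G' : Map (freeExt C E) D) (h1 : (toFree C E).comp G' = G)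
    (h2 : ∀ p : E, G'.map (freeLift C E p) = l p) {S T : Theta0} {f g : Raw C E S T}
    (h : PER f g) : (∀ hf, ev G l f = some (G'.map (fmk f hf))) ∧
      (∀ hg, ev G l g = some (G'.map (fmk g hg))) := by
  have h1' : ∀ {S T : Theta0} (f : C.Hom S T), G'.map (fmk (.of f) (.of f)) = G.map f :=
    fun f => congrArg (fun F : Map C D => F.map f) h1
  have hof : ∀ {S T : Theta0} (f : C.Hom S T) (hf : PER (E := E) (.of f) (.of f)),
      ev G l (.of f) = some (G'.map (fmk (.of f) hf)) := by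
    intro S T f hf
    change some (G.map f) = _
    rw [← h1' f]
  have hcomp : ∀ {S T U : Theta0} {f : Raw C E S T} {g : Raw C E T U} (hf : PER f f)
      (hg : PER g g) (_ : ∀ hf, ev G l f = some (G'.map (fmk f hf)))
      (_ : ∀ hf, ev G l g = some (G'.map (fmk g hf))) (hfg : PER (.comp f g) (.comp f g)),
      ev G l (.comp f g) = some (G'.map (fmk (.comp f g) hfg)) := by
    intro S T U f g hf hg ef eg hfg
    rw [ev_comp (ef hf) (eg hg)]
    exact congrArg some (G'.map_comp (fmk f hf) (fmk g hg)).symm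
  have hglue : ∀ {l' : ℕ} (t : Tab l') (j i : ℕ) (hl : j < l') (hi : j < i) {U : Theta0}
      {a : Raw C E ⟨t⟩ U} {b : Raw C E (disc i) U} (ha : PER a a) (hb : PER b b)
      (_ : PER (.comp (.of (C.incl (face true hl ≫ lastIncl t))) a)
        (.comp (.of (C.incl (face false hi))) b))
      (_ : ∀ hf, ev G l a = some (G'.map (fmk a hf)))
      (_ : ∀ hf, ev G l b = some (G'.map (fmk b hf)))
      (hab : PER (.glue t j i hl hi a b) (.glue t j i hl hi a b)),
      ev G l (.glue t j i hl hi a b) = some (G'.map (fmk (.glue t j i hl hi a b) hab)) := by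
    intro l' t j i hl hi U a b ha hb hab ea eb h
    refine ev_glue t j i hl hi (ea ha) (eb hb) _ ?_ ?_
    · rw [← G'.map_incl]
      exact (G'.map_comp _ _).symm.trans
        (congrArg (fun z => G'.map z) (fmk_eq (.glue_inl t j i hl hi ha hb hab)))
    · rw [← G'.map_incl]
      exact (G'.map_comp _ _).symm.trans
        (congrArg (fun z => G'.map z) (fmk_eq (.glue_inr t j i hl hi ha hb hab)))
  induction h with
  | of f => exact ⟨hof f, hof f⟩
  | lift p =>
    have : ∀ hf, ev G l (Raw.lift p) = some (G'.map (fmk (Raw.lift p) hf)) := by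
      intro hf
      change some (l p) = _
      rw [← h2 p]
      rfl
    exact ⟨this, this⟩
  | comp hf hg ih1 ih2 =>
    exact ⟨hcomp hf.left hg.left ih1.1 ih2.1, hcomp hf.right hg.right ih1.2 ih2.2⟩
  | glue t j i hl hi ha hb hab ih1 ih2 ih3 =>
    have hab' := ((PER.comp (.of (C.incl (face true hl ≫ lastIncl t))) ha).symm.trans hab).trans
      (PER.comp (.of (C.incl (face false hi))) hb)
    exact ⟨hglue t j i hl hi ha.left hb.left hab ih1.1 ih2.1,
      hglue t j i hl hi ha.right hb.right hab' ih1.2 ih2.2⟩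
  | symm _ ih => exact ⟨ih.2, ih.1⟩
  | trans _ _ ih1 ih2 => exact ⟨ih1.1, ih2.2⟩
  | id_comp hf ih => exact ⟨hcomp (.of _) hf (hof _) ih.1, ih.1⟩
  | comp_id hf ih => exact ⟨hcomp hf (.of _) ih.1 (hof _), ih.1⟩
  | assoc hf hg hh ih1 ih2 ih3 =>
    exact ⟨hcomp (.comp hf hg) hh (hcomp hf hg ih1.1 ih2.1) ih3.1,
      hcomp hf (.comp hg hh) ih1.1 (hcomp hg hh ih2.1 ih3.1)⟩
  | of_comp f g => exact ⟨hcomp (.of f) (.of g) (hof f) (hof g), hof _⟩
  | lift_src p =>
    refine ⟨hcomp (.of _) (.lift p) (hof _) (fun _ => ?_), hof _⟩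
    change some (l p) = _
    rw [← h2 p]
    rfl
  | lift_tgt p =>
    refine ⟨hcomp (.of _) (.lift p) (hof _) (fun _ => ?_), hof _⟩
    change some (l p) = _
    rw [← h2 p]
    rfl
  | glue_inl t j i hl hi ha hb hab ih1 ih2 ih3 =>
    exact ⟨hcomp (.of _) (.glue t j i hl hi ha hb hab) (hof _)
      (hglue t j i hl hi ha hb hab ih1.1 ih2.1), ih1.1⟩
  | glue_inr t j i hl hi ha hb hab ih1 ih2 ih3 =>
    exact ⟨hcomp (.of _) (.glue t j i hl hi ha hb hab) (hof _)
      (hglue t j i hl hi ha hb hab ih1.1 ih2.1), ih2.1⟩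
  | eta t j i hl hi hf ih =>
    refine ⟨?_, ih.1⟩
    refine hglue t j i hl hi (.comp (.of _) hf) (.comp (.of _) hf) ?_
      (hcomp (.of _) hf (hof _) ih.1) (hcomp (.of _) hf (hof _) ih.1)
    refine (PER.assoc (.of _) (.of _) hf).symm.trans
      (PER.trans (.comp ?_ hf) (PER.assoc (.of _) (.of _) hf))
    refine (PER.of_comp _ _).trans (PER.trans ?_ (PER.of_comp _ _).symm)
    rw [C.glue_w]
    exact .of _

end Eval

/-- The free extension has the universal property. -/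
theorem isFree_freeExt (C : GlobExt) (E : Set (Pair C)) :
    IsFree (toFree C E) E (freeLift C E) where
  isLift p := ⟨fmk_eq (.lift_src p), fmk_eq (.lift_tgt p)⟩
  univ D G l hl := by
    refine ⟨evMap hl, ⟨?_, ?_⟩, ?_⟩
    · ext S T f
      have h := ev_eq hl (f := .of f) (.of f)
      rw [← Option.some_inj]
      exact h.symm
    · intro p
      have h := ev_eq hl (f := .lift p) (.lift p)
      rw [← Option.some_inj]
      exact h.symm
    · rintro G' ⟨h1, h2⟩
      ext S T x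
      obtain ⟨f, hf, rfl⟩ := fmk_surj x
      rw [← Option.some_inj]
      exact ((ev_uniq G' h1 h2 hf).1 hf).symm.trans (ev_eq hl hf)

end GlobExt

end Vale.Agent.P259
end
end

section

section

/-!
Coherators of the statement give coherators of the development.
-/

open CategoryTheory Limits Opposite

namespace Vale.Agent.P259

open Theta0

namespace S

lemma le_iff {S : Theta0} {N : ℕ} : le S N ↔ S.dim ≤ N := by
  obtain @⟨l, t⟩ := S
  change le ⟨t⟩ N ↔ t.dim ≤ N
  induction t with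
  | disc i => exact Iff.rfl
  | glue t j i hl hi ih =>
    change le ⟨t⟩ N ∧ i ≤ N ↔ max t.dim i ≤ N
    rw [ih, max_le_iff]

/-- The pair of the statement attached to a pair of the development. -/
noncomputable def toPair {A : Ext} (P : GlobExt.Pair A.GE) : Pair A where
  n := P.n
  S := P.S
  p b := bif b then P.g else P.f
  par b _ h := toPar P.parallel b h

/-- The pair of the development attached to a pair of the statement. -/
noncomputable def ofPair {A : Ext} (q : Pair A) (h : le q.S q.n.succ) : GlobExt.Pair A.GE where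
  n := q.n
  S := q.S
  f := q.p false
  g := q.p true
  parallel := parallel_iff.2 fun b _ h => q.par b h
  dim_le := le_iff.1 h

lemma toPair_ofPair {A : Ext} (q : Pair A) (h : le q.S q.n.succ) : toPair (ofPair q h) = q := by
  obtain ⟨n, S, p, par⟩ := q
  have e : (fun b : Bool => bif b then p true else p false) = p := by
    funext b
    cases b <;> rfl
  change Pair.mk n S (fun b : Bool => bif b then p true else p false) _ = Pair.mk n S p par
  congr

lemma lift_ofPair {A B : Ext} {F : Map A B} (a : Adj F) (q : Pair A) (h : a.E q)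
    (hq : le q.S q.n.succ) (h' : a.E (toPair (ofPair q hq))) :
    (a.lift (q := toPair (ofPair q hq)) h' : B.H (disc q.n.succ) q.S) = a.lift h := by
  obtain ⟨n, S, p, par⟩ := q
  have e : (fun b : Bool => bif b then p true else p false) = p := by
    funext b
    cases b <;> rfl
  have key : ∀ (p' : Bool → A.H (disc n) S)
      (par' : ∀ b {m} (h : m < n), cmp (A.G.s (.face b h)) (p' false) =
        cmp (A.G.s (.face b h)) (p' true)) (e : p' = p)
      (h' : a.E ⟨n, S, p', par'⟩), a.lift h' = a.lift h := by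
    rintro p' par' rfl h'
    rfl
  exact key _ _ e h'

/-- The map of the development from a free extension. -/
theorem isFree_toGE {A B : Ext} {F : Map A B} (a : Adj F) :
    GlobExt.IsFree F.toGE {P : GlobExt.Pair A.GE | a.E (toPair P)}
      (fun P => a.lift (q := toPair P.1) P.2) where
  isLift P := isLift_iff.1 (a.isLift P.2)
  univ D G l hl := by
    obtain ⟨L, ⟨hL1, hL2⟩, hL3⟩ := a.univ (X := OfGE D) (Map.ofD G)
      (fun {q} h => l ⟨ofPair q (a.dim h), by
        change a.E (toPair (ofPair q (a.dim h)))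
        rw [toPair_ofPair]
        exact h⟩) (by
      intro q h b
      have h1 := hl ⟨ofPair q (a.dim h), by
        change a.E (toPair (ofPair q (a.dim h)))
        rw [toPair_ofPair]
        exact h⟩
      cases b
      · exact h1.1
      · exact h1.2)
    refine ⟨L.toD, ⟨?_, ?_⟩, ?_⟩
    · apply GlobExt.Map.ext
      funext S T f
      exact hL1 f
    · rintro ⟨P, hP⟩
      have h1 := hL2 hP
      exact h1
    · rintro L' ⟨h1, h2⟩
      have h3 : Map.ofD L' = L := hL3 _ ⟨fun f => by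
        have := congrArg (fun K : GlobExt.Map A.GE D => K.map f) h1
        exact this, fun {q} h => by
        have h4 := h2 ⟨ofPair q (a.dim h), by
          change a.E (toPair (ofPair q (a.dim h)))
          rw [toPair_ofPair]
          exact h⟩
        exact (congrArg (fun z : B.H (disc q.n.succ) q.S => L'.map z)
          (lift_ofPair a q h (a.dim h) _)).symm.trans h4⟩
      rw [← h3]
      rfl

/-- The initial globular extension has the morphisms of `Θ₀`. -/
theorem incl_bijective {A : Ext} (h : ∀ X, ∃! _ : Map A X, True) (S T : Theta0) :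
    Function.Bijective (fun f : S ⟶ T => A.incl f) := by
  obtain ⟨F, -, -⟩ := h (OfGE GlobExt.thetaExt)
  have h1 : ∀ {S T : Theta0} (f : S ⟶ T), F.m (A.incl f) = f := by
    intro S T f
    exact (F.m_incl f).trans (OfGE_incl _ f)
  let G : Map (OfGE GlobExt.thetaExt) A :=
    { m := fun f => A.incl f
      id := fun S => A.incl_id S
      comp := fun f g => A.incl_comp f g
      str := fun x => A.incl_str x }
  obtain ⟨K, -, hK⟩ := h A
  have h2 : ∀ {S T : Theta0} (f : A.H S T), A.incl (F.m f) = f := by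
    intro S T f
    let FG : Map A A :=
      { m := fun f => A.incl (F.m f)
        id := fun S => (congrArg A.incl (F.id S)).trans (A.incl_id S)
        comp := fun f g => (congrArg A.incl (F.comp f g)).trans (A.incl_comp _ _)
        str := fun x => (congrArg A.incl (F.str x)).trans (A.incl_str x) }
    let I : Map A A :=
      { m := fun f => f
        id := fun _ => rfl
        comp := fun f g => rfl
        str := fun x => rfl }
    have h3 : FG = I := (hK FG trivial).trans (hK I trivial).symm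
    have h4 : FG.m f = I.m f := by rw [h3]
    exact h4
  constructor
  · intro f g hfg
    have := congrArg F.m hfg
    exact (h1 f).symm.trans (this.trans (h1 g))
  · intro f
    exact ⟨F.m f, h2 f⟩

/-- The tower of the development. -/
noncomputable def Tower.toGE {A : Ext} (t : Tower A) : GlobExt.Tower A.GE where
  stage k := (t.st k).GE
  zero S T := incl_bijective t.zero S T
  next k := (t.next k).toGE
  pairs k := {P | (t.adj k).E (toPair P)}
  lift k P := (t.adj k).lift (q := toPair P.1) P.2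
  free k := isFree_toGE (t.adj k)
  toC k := (t.inc k).toGE
  toC_next k := by
    apply GlobExt.Map.ext
    funext S T f
    exact t.tri k f
  colim D G h := by
    obtain ⟨L, hL1, hL2⟩ := t.colim (X := OfGE D) (fun k => Map.ofD (G k)) (fun k {S T} f => by
      have := congrArg (fun K : GlobExt.Map (t.st k).GE D => K.map f) (h k)
      exact this)
    refine ⟨L.toD, ?_, ?_⟩
    · intro k
      apply GlobExt.Map.ext
      funext S T f
      exact hL1 k f
    · intro L' h'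
      have h3 : Map.ofD L' = L := hL2 _ (fun k {S T} f => by
        have := congrArg (fun K : GlobExt.Map (t.st k).GE D => K.map f) (h' k)
        exact this)
      rw [← h3]
      rfl

/-- Coherators of the statement give coherators of the development. -/
theorem isCoherator_GE {A : Ext} (h : IsCoherator A) : A.GE.IsCoherator where
  tower := h.1.map Tower.toGE
  lifts {n S} f g hfg := by
    obtain ⟨l, hl⟩ := h.2 ⟨n, S, fun b => bif b then g else f, fun b _ hm => toPar hfg b hm⟩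
    exact ⟨l, isLift_iff.1 hl⟩

end S

end Vale.Agent.P259
end
end

section

section

open CategoryTheory Limits Opposite

namespace Vale.Agent.P259

open Theta0

namespace GlobExt

variable {C : GlobExt}

/-- All operations of a globular extension with a tower preserve agreement. -/
lemma Tower.preserves (T : Tower C) {S S' : Theta0} (φ : C.Hom S S') : Preserves C φ := by
  obtain ⟨s, hs⟩ := T.exists_section (presIncl C) presIncl_liftsAlong
  have h1 : (s.map φ).1 = φ := congrArg (fun F : Map C C => F.map φ) hs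
  exact h1 ▸ (s.map φ).2

namespace DimLift

/-- Faces in `C`. -/
noncomputable def fc (C : GlobExt) (b : Bool) {j i : ℕ} (h : j < i) :
    C.Hom (disc j) (disc i) := C.incl (face b h)

lemma fc_fc (b c : Bool) {n m k : ℕ} (h : n < m) (h' : m < k) :
    C.comp (fc C b h) (fc C c h') = fc C b (h.trans h') := by
  unfold fc
  rw [← C.incl_comp, face_comp_face]

/-- A compatible family of iterated degeneracies. -/
structure Degen (C : GlobExt) where
  K : ∀ i : ℕ, C.Hom (disc (i + 1)) (disc i)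
  hK : ∀ (b : Bool) (i : ℕ), C.comp (fc C b (Nat.lt_succ_self i)) (K i) = C.id _

lemma exists_degen (h : ∀ {n : ℕ} {S : Theta0}, S.dim ≤ n + 1 → ∀ f g : C.Hom (disc n) S,
    C.Parallel f g → ∃ w, C.IsLift f g w) : Nonempty (Degen C) := by
  have h1 : ∀ i : ℕ, ∃ w : C.Hom (disc (i + 1)) (disc i),
      C.IsLift (C.id (disc i)) (C.id (disc i)) w := by
    intro i
    exact h (S := disc i) (Nat.le_succ i) _ _ (Parallel.refl _)
  choose K hK using h1
  refine ⟨⟨fun i => K i, ?_⟩⟩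
  intro b i
  cases b with
  | false => exact (hK i).1
  | true => exact (hK i).2

namespace Degen

variable (D : Degen C)

/-- Iterated degeneracies. -/
noncomputable def kap (a i : ℕ) (h : a ≤ i) : C.Hom (disc i) (disc a) :=
  Nat.leRec (motive := fun i _ => C.Hom (disc i) (disc a)) (C.id _)
    (fun {i} _ f => C.comp (D.K i) f) h

lemma kap_self (a : ℕ) : D.kap a a le_rfl = C.id _ := Nat.leRec_self _ _

lemma kap_succ (a i : ℕ) (h : a ≤ i) :
    D.kap a (i + 1) (h.trans (Nat.le_succ i)) = C.comp (D.K i) (D.kap a i h) :=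
  Nat.leRec_succ _ _ h

/-- Low faces of iterated degeneracies. -/
lemma fc_kap (b : Bool) {j a i : ℕ} (h : a ≤ i) (hj : j < a) :
    C.comp (fc C b (hj.trans_le h)) (D.kap a i h) = fc C b hj := by
  induction i, h using Nat.le_induction with
  | base =>
    rw [kap_self, C.comp_id]
  | succ i h ih =>
    rw [D.kap_succ a i h, ← fc_fc b b (hj.trans_le h) (Nat.lt_succ_self i), C.assoc,
      ← C.assoc (fc C b (Nat.lt_succ_self i)), D.hK, C.id_comp, ih]

/-- High faces of iterated degeneracies. -/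
lemma fc_kap' (b : Bool) {a j i : ℕ} (ha : a ≤ j) (h : j < i) :
    C.comp (fc C b h) (D.kap a i (ha.trans h.le)) = D.kap a j ha := by
  induction i with
  | zero => omega
  | succ i ih =>
    rw [D.kap_succ a i (ha.trans (Nat.le_of_lt_succ h))]
    rcases Nat.lt_or_ge j i with h1 | h1
    · rw [← fc_fc b b h1 (Nat.lt_succ_self i), C.assoc,
        ← C.assoc (fc C b (Nat.lt_succ_self i)), D.hK, C.id_comp, ih h1]
    · have h2 : j = i := by omega
      subst h2
      rw [← C.assoc, D.hK, C.id_comp]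

/-- Sections of iterated degeneracies. -/
lemma exists_sec {a i : ℕ} (h : a ≤ i) : ∃ e : C.Hom (disc a) (disc i),
    (∀ (b : Bool) (j : ℕ) (hj : j < a), C.comp (fc C b hj) e = fc C b (hj.trans_le h)) ∧
    (∀ l : ℕ, l < a ∨ a = i → ∀ ψ : disc l ⟶ disc i,
      C.comp (C.incl ψ) (C.comp (D.kap a i h) e) = C.incl ψ) := by
  rcases Nat.lt_or_ge a i with h1 | h1
  · refine ⟨fc C false h1, fun b j hj => fc_fc _ _ _ _, ?_⟩
    intro l hl ψ
    have hl' : l < a := by omega
    obtain ⟨b, rfl⟩ := Theta0.disc_hom_lt (hl'.trans h1) ψ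
    have e1 := D.fc_kap b h hl'
    have e2 := fc_fc (C := C) b false hl' h1
    unfold fc at e1 e2 ⊢
    rw [← C.assoc, e1, e2]
  · have h2 : a = i := by omega
    subst h2
    refine ⟨C.id _, fun b j hj => C.comp_id _, ?_⟩
    intro l _ ψ
    rw [kap_self, C.comp_id, C.comp_id]

end Degen

/-- The inclusion of the last disc in `C`. -/
noncomputable def li (C : GlobExt) {l : ℕ} (t : Tab l) : C.Hom (disc l) ⟨t⟩ :=
  C.incl (lastIncl t)

/-- The left part of a glued globular sum. -/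
noncomputable def il (C : GlobExt) {l : ℕ} (t : Tab l) (j i : ℕ) (hl : j < l) (hi : j < i) :
    C.Hom ⟨t⟩ (Theta0.glue t j i hl hi) := C.incl (inl t j i hl hi)

/-- The right part of a glued globular sum. -/
noncomputable def ir (C : GlobExt) {l : ℕ} (t : Tab l) (j i : ℕ) (hl : j < l) (hi : j < i) :
    C.Hom (disc i) (Theta0.glue t j i hl hi) := C.incl (inr t j i hl hi)

lemma exists_map {l : ℕ} (t : Tab l) (j i : ℕ) (hl : j < l) (hi : j < i) {U : Theta0}
    (a : C.Hom ⟨t⟩ U) (b : C.Hom (disc i) U)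
    (h : C.comp (fc C true hl) (C.comp (li C t) a) = C.comp (fc C false hi) b) :
    ∃ c : C.Hom (Theta0.glue t j i hl hi) U,
      C.comp (il C t j i hl hi) c = a ∧ C.comp (ir C t j i hl hi) c = b := by
  have h' : C.comp (C.incl (face true hl ≫ lastIncl t)) a = C.comp (C.incl (face false hi)) b := by
    rw [C.incl_comp, C.assoc]
    exact h
  obtain ⟨c, hc, -⟩ := C.glue t j i hl hi U a b h'
  exact ⟨c, hc⟩

lemma glue_eq {l : ℕ} (t : Tab l) (j i : ℕ) (hl : j < l) (hi : j < i) :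
    C.comp (fc C true hl) (C.comp (li C t) (il C t j i hl hi)) =
      C.comp (fc C false hi) (ir C t j i hl hi) := by
  have hw : C.comp (C.incl (face true hl ≫ lastIncl t)) (C.incl (inl t j i hl hi)) =
      C.comp (C.incl (face false hi)) (C.incl (inr t j i hl hi)) := (C.isPushout t j i hl hi).w
  rw [C.incl_comp, C.assoc] at hw
  exact hw

/-- The condition on the composite. -/
def Good (C : GlobExt) (m : ℕ) {S : Theta0} (r : C.Hom S S) : Prop :=
  ∀ k : ℕ, k < m → ∀ ψ : disc k ⟶ S, C.comp (C.incl ψ) r = C.incl ψ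

lemma good_glue {m l : ℕ} (t : Tab l) (j i : ℕ) (hl : j < l) (hi : j < i)
    {r : C.Hom (Theta0.glue t j i hl hi) (Theta0.glue t j i hl hi)}
    (h1 : ∀ k : ℕ, k < m → ∀ ψ : disc k ⟶ ⟨t⟩, C.comp (C.incl ψ) (C.comp (il C t j i hl hi) r) =
      C.comp (C.incl ψ) (il C t j i hl hi))
    (h2 : ∀ k : ℕ, k < m → ∀ ψ : disc k ⟶ disc i,
      C.comp (C.incl ψ) (C.comp (ir C t j i hl hi) r) =
      C.comp (C.incl ψ) (ir C t j i hl hi)) : Good C m r := by
  intro k hk ψ
  rcases Theta0.disc_factors t j i hl hi ψ with ⟨ψ', rfl⟩ | ⟨ψ', rfl⟩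
  · rw [C.incl_comp, C.assoc]
    exact h1 k hk ψ'
  · rw [C.incl_comp, C.assoc]
    exact h2 k hk ψ'

/-- The reduction of a table to dimension `m`. -/
structure Red (D : Degen C) (m : ℕ) {l : ℕ} (t : Tab l) where
  l' : ℕ
  t' : Tab l'
  hl' : l' = min l m
  dim : t'.dim ≤ m
  ι : C.Hom ⟨t'⟩ ⟨t⟩
  ρ : C.Hom ⟨t⟩ ⟨t'⟩
  h1 : Good C m (C.comp ρ ι)
  h2 : C.comp (li C t) ρ = C.comp (D.kap l' l (by omega)) (li C t')
  h3 : ∀ (b : Bool) (j : ℕ) (hj : j < l'), C.comp (fc C b hj) (C.comp (li C t') ι) =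
    C.comp (fc C b (lt_of_lt_of_le hj (by omega : l' ≤ l))) (li C t)

lemma exists_red (D : Degen C) (m : ℕ) {l : ℕ} (t : Tab l) : Nonempty (Red D m t) := by
  induction t with
  | disc i =>
    obtain ⟨e, he1, he2⟩ := D.exists_sec (min_le_left i m)
    have e1 : ∀ i, li C (.disc i) = C.id _ := fun i => C.incl_id _
    refine ⟨⟨min i m, .disc (min i m), rfl, min_le_right i m, e, D.kap _ _ (min_le_left i m),
      ?_, ?_, ?_⟩⟩
    · intro k hk ψ
      exact he2 k (by omega) ψ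
    · rw [e1, e1]
      exact (C.id_comp _).trans (C.comp_id _).symm
    · intro b j hj
      rw [e1, e1]
      exact (congrArg (fun k => C.comp (fc C b hj) k) (C.id_comp e)).trans
        ((he1 b j hj).trans (C.comp_id _).symm)
  | @glue l t j i hl hi ih =>
    obtain ⟨R⟩ := ih
    obtain ⟨e, he1, he2⟩ := D.exists_sec (min_le_left i m)
    have hl' := R.hl'
    have hw := glue_eq (C := C) t j i hl hi
    rcases Nat.lt_or_ge j m with hj | hj
    · have hjl : j < R.l' := by omega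
      have hji : j < min i m := by omega
      have hw' := glue_eq (C := C) R.t' j (min i m) hjl hji
      obtain ⟨ι1, ha1, ha2⟩ := exists_map R.t' j (min i m) hjl hji
        (C.comp R.ι (il C t j i hl hi)) (C.comp e (ir C t j i hl hi)) (by
          rw [← C.assoc (li C R.t'), ← C.assoc (fc C true hjl), R.h3 true j hjl, C.assoc, hw,
            ← C.assoc (fc C false hji), he1 false j hji])
      obtain ⟨ρ1, hb1, hb2⟩ := exists_map t j i hl hi
        (C.comp R.ρ (il C R.t' j (min i m) hjl hji))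
        (C.comp (D.kap _ _ (min_le_left i m)) (ir C R.t' j (min i m) hjl hji)) (by
          have e3 := D.fc_kap false (min_le_left i m) hji
          have e4 := D.fc_kap true (show R.l' ≤ l by omega) hjl
          rw [← C.assoc (li C t), R.h2, C.assoc, ← C.assoc (fc C true hl), e4, hw',
            ← C.assoc (fc C false hi), e3])
      have hG : Good C m (C.comp ρ1 ι1) := by
        apply good_glue t j i hl hi
        · intro k hk ψ'
          rw [← C.assoc (il C t j i hl hi), hb1, C.assoc, ha1, ← C.assoc R.ρ, ← C.assoc,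
            R.h1 k hk ψ']
        · intro k hk ψ'
          rw [← C.assoc (ir C t j i hl hi), hb2, C.assoc, ha2, ← C.assoc (D.kap _ _ _), ← C.assoc,
            he2 k (by omega) ψ']
      have hL : ∀ (b : Bool) (j' : ℕ) (hj' : j' < min i m), C.comp (fc C b hj')
          (C.comp (ir C R.t' j (min i m) hjl hji) ι1) =
          C.comp (fc C b (lt_of_lt_of_le hj' (min_le_left i m))) (ir C t j i hl hi) := by
        intro b j' hj'
        rw [ha2, ← C.assoc, he1 b j' hj']
      exact ⟨⟨min i m, .glue R.t' j (min i m) hjl hji, rfl, max_le R.dim (min_le_right i m), ι1, ρ1,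
        hG, hb2, hL⟩⟩
    · -- the case `m ≤ j`
      have hlm : R.l' = m := by omega
      have him : min i m = m := by omega
      obtain ⟨l', t', hl0, dim, ι, ρ, h1, h2, h3⟩ := R
      dsimp only at hlm hl'
      subst hlm
      have hll : l' ≤ l := by omega
      have hli : l' ≤ i := by omega
      obtain ⟨ρ1, hb1, hb2⟩ := exists_map t j i hl hi ρ (C.comp (D.kap _ _ hli) (li C t')) (by
          have e3 := D.fc_kap' false hj hi
          have e4 := D.fc_kap' true hj hl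
          rw [h2, ← C.assoc, ← C.assoc, e4, e3])
      have key : ∀ (b : Bool) (k : ℕ) (hk : k < l'), C.comp (fc C b hk) (C.comp (li C t')
          (C.comp ι (il C t j i hl hi))) =
          C.comp (fc C b (hk.trans_le hli)) (ir C t j i hl hi) := by
        intro b k hk
        have e1 := h3 b k hk
        have hkj : k < j := by omega
        have e2 : fc C b (hk.trans_le hll) = C.comp (fc C b hkj) (fc C true hl) :=
          (fc_fc _ _ _ _).symm
        have e3 : fc C b (hk.trans_le hli) = C.comp (fc C b hkj) (fc C false hi) :=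
          (fc_fc _ _ _ _).symm
        rw [← C.assoc (li C t'), ← C.assoc (fc C b hk), e1, e3, e2, C.assoc,
          C.assoc, C.assoc, hw]
      have hG : Good C l' (C.comp ρ1 (C.comp ι (il C t j i hl hi))) := by
        apply good_glue t j i hl hi
        · intro k hk ψ'
          rw [← C.assoc (il C t j i hl hi), hb1, ← C.assoc ρ, ← C.assoc, h1 k hk ψ']
        · intro k hk ψ'
          obtain ⟨b, rfl⟩ := Theta0.disc_hom_lt (hk.trans_le hli) ψ'
          have e2 := D.fc_kap b hli hk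
          have e3 := key b k hk
          rw [← C.assoc (ir C t j i hl hi), hb2, C.assoc, ← C.assoc (C.incl _)]
          exact (congrArg (fun z => C.comp z _) e2).trans e3
      exact ⟨⟨l', t', him.symm, dim, C.comp ι (il C t j i hl hi), ρ1, hG, hb2, key⟩⟩

end DimLift

open DimLift in
/-- To be a coherator it suffices to have lifts of the parallel pairs `D_n ⇉ S` with
`dim S ≤ n + 1`. -/
theorem isCoherator_of_lifts (T : Tower C)
    (h : ∀ {n : ℕ} {S : Theta0}, S.dim ≤ n + 1 → ∀ f g : C.Hom (disc n) S,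
      C.Parallel f g → ∃ w, C.IsLift f g w) : C.IsCoherator := by
  refine ⟨⟨T⟩, ?_⟩
  intro n S f g hfg
  obtain ⟨D⟩ := DimLift.exists_degen h
  obtain ⟨t⟩ := S
  obtain ⟨R⟩ := exists_red D (n + 1) t
  -- `f = f ≫ ρ ≫ ι`
  have key : ∀ φ : C.Hom (disc n) ⟨t⟩, C.comp φ (C.comp R.ρ R.ι) = φ := by
    intro φ
    have hp := T.preserves φ (yoneda.obj (.of ⟨t⟩ : C.Obj)) (yoneda_seg ⟨t⟩).isSegal n
      (C.comp R.ρ R.ι) (C.id _) (by
        intro k hk ψ
        have h1 := R.h1 k (by omega) ψ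
        exact h1.trans (C.comp_id _).symm)
    have h2 := hp.eq_disc le_rfl
    exact h2.trans (C.comp_id φ)
  obtain ⟨w, hw1, hw2⟩ := h (n := n) (S := ⟨R.t'⟩) R.dim (C.comp f R.ρ) (C.comp g R.ρ) (by
    cases n with
    | zero => trivial
    | succ n =>
      refine ⟨?_, ?_⟩
      · rw [← C.assoc, ← C.assoc, hfg.1]
      · rw [← C.assoc, ← C.assoc, hfg.2])
  refine ⟨C.comp w R.ι, ?_, ?_⟩
  · rw [← C.assoc, hw1, C.assoc, key]
  · rw [← C.assoc, hw2, C.assoc, key]

end GlobExt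

end Vale.Agent.P259
end
end

section

section

open CategoryTheory Limits

namespace Vale.Agent.P259

open Theta0

namespace GlobExt

/-- A sequence of globular extensions. -/
structure Sq where
  stage : ℕ → GlobExt
  next : ∀ k, Map (stage k) (stage (k + 1))

namespace Sq

variable (A : Sq)

/-- Transition maps. -/
noncomputable def tr {i j : ℕ} (h : i ≤ j) : Map (A.stage i) (A.stage j) :=
  Nat.leRec (motive := fun j _ => Map (A.stage i) (A.stage j)) (Map.id _)
    (fun {j} _ F => F.comp (A.next j)) h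

lemma tr_self (i : ℕ) : A.tr (le_refl i) = Map.id _ := Nat.leRec_self _ _

lemma tr_succ {i j : ℕ} (h : i ≤ j) :
    A.tr (h.trans (Nat.le_succ j)) = (A.tr h).comp (A.next j) := Nat.leRec_succ _ _ h

lemma tr_tr {i j k : ℕ} (h : i ≤ j) (h' : j ≤ k) :
    (A.tr h).comp (A.tr h') = A.tr (h.trans h') := by
  induction k, h' using Nat.le_induction with
  | base => rw [tr_self]; rfl
  | succ k h' ih =>
    have h1 := A.tr_succ h'
    have h2 := A.tr_succ (h.trans h')
    exact ((congrArg (fun F => (A.tr h).comp F) h1).trans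
      (congrArg (fun F : Map _ _ => F.comp (A.next k)) ih)).trans h2.symm

lemma tr_tr_map {i j k : ℕ} (h : i ≤ j) (h' : j ≤ k) {S T : Theta0} (f : (A.stage i).Hom S T) :
    (A.tr h').map ((A.tr h).map f) = (A.tr (h.trans h')).map f :=
  congrArg (fun F : Map _ _ => F.map f) (A.tr_tr h h')

lemma tr_self_map {i : ℕ} {S T : Theta0} (f : (A.stage i).Hom S T) :
    (A.tr (le_refl i)).map f = f :=
  congrArg (fun F : Map _ _ => F.map f) (A.tr_self i)

/-- The setoid defining the colimit. -/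
def colSetoid (S T : Theta0) : Setoid (Σ k, (A.stage k).Hom S T) where
  r x y := ∃ (k : ℕ) (hx : x.1 ≤ k) (hy : y.1 ≤ k), (A.tr hx).map x.2 = (A.tr hy).map y.2
  iseqv := by
    refine ⟨fun x => ⟨x.1, le_refl _, le_refl _, rfl⟩, ?_, ?_⟩
    · rintro x y ⟨k, hx, hy, h⟩
      exact ⟨k, hy, hx, h.symm⟩
    · rintro x y z ⟨k, hx, hy, h⟩ ⟨k', hy', hz, h'⟩
      refine ⟨max k k', hx.trans (le_max_left _ _), hz.trans (le_max_right _ _), ?_⟩
      rw [← A.tr_tr_map hx (le_max_left _ _), h, A.tr_tr_map, ← A.tr_tr_map hz (le_max_right _ _),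
        ← h', A.tr_tr_map]

/-- Morphisms of the colimit. -/
def CHom (S T : Theta0) : Type := Quotient (A.colSetoid S T)

/-- The class of a morphism. -/
def cmk (k : ℕ) {S T : Theta0} (f : (A.stage k).Hom S T) : A.CHom S T :=
  Quotient.mk (A.colSetoid S T) ⟨k, f⟩

lemma cmk_eq_iff {i j : ℕ} {S T : Theta0} {f : (A.stage i).Hom S T} {g : (A.stage j).Hom S T} :
    A.cmk i f = A.cmk j g ↔
      ∃ (k : ℕ) (hi : i ≤ k) (hj : j ≤ k), (A.tr hi).map f = (A.tr hj).map g :=
  ⟨fun h => Quotient.exact (s := A.colSetoid S T) h,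
    fun h => Quotient.sound (s := A.colSetoid S T) h⟩

lemma cmk_tr {i j : ℕ} (h : i ≤ j) {S T : Theta0} (f : (A.stage i).Hom S T) :
    A.cmk j ((A.tr h).map f) = A.cmk i f :=
  (A.cmk_eq_iff).2 ⟨j, le_refl j, h, A.tr_self_map _⟩

lemma exists_cmk {S T : Theta0} (x : A.CHom S T) : ∃ k f, x = A.cmk k f := by
  obtain ⟨⟨k, f⟩, rfl⟩ := Quotient.exists_rep x
  exact ⟨k, f, rfl⟩

lemma exists_cmk₂ {S T S' T' : Theta0} (x : A.CHom S T) (y : A.CHom S' T') :
    ∃ k f g, x = A.cmk k f ∧ y = A.cmk k g := by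
  obtain ⟨i, f, rfl⟩ := A.exists_cmk x
  obtain ⟨j, g, rfl⟩ := A.exists_cmk y
  exact ⟨max i j, (A.tr (le_max_left _ _)).map f, (A.tr (le_max_right _ _)).map g,
    (A.cmk_tr _ f).symm, (A.cmk_tr _ g).symm⟩

lemma exists_cmk₃ {S T S' T' S'' T'' : Theta0} (x : A.CHom S T) (y : A.CHom S' T')
    (z : A.CHom S'' T'') :
    ∃ k f g h, x = A.cmk k f ∧ y = A.cmk k g ∧ z = A.cmk k h := by
  obtain ⟨i, f, g, rfl, rfl⟩ := A.exists_cmk₂ x y
  obtain ⟨j, h, rfl⟩ := A.exists_cmk z
  exact ⟨max i j, (A.tr (le_max_left _ _)).map f, (A.tr (le_max_left _ _)).map g,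
    (A.tr (le_max_right _ _)).map h,
    (A.cmk_tr _ f).symm, (A.cmk_tr _ g).symm, (A.cmk_tr _ h).symm⟩

lemma cmk_eq {i : ℕ} {S T : Theta0} {f g : (A.stage i).Hom S T} (h : A.cmk i f = A.cmk i g) :
    ∃ (k : ℕ) (hi : i ≤ k), (A.tr hi).map f = (A.tr hi).map g := by
  obtain ⟨k, hi, _, h⟩ := A.cmk_eq_iff.1 h
  exact ⟨k, hi, h⟩

lemma cmk_eq_mono {i k k' : ℕ} {S T : Theta0} {f g : (A.stage i).Hom S T} (hi : i ≤ k)
    (hk : k ≤ k') (h : (A.tr hi).map f = (A.tr hi).map g) :
    (A.tr (hi.trans hk)).map f = (A.tr (hi.trans hk)).map g := by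
  rw [← A.tr_tr_map hi hk, ← A.tr_tr_map hi hk, h]

/-- Composition in the colimit. -/
noncomputable def ccomp {S T U : Theta0} (x : A.CHom S T) (y : A.CHom T U) : A.CHom S U :=
  Quotient.map₂ (sa := A.colSetoid S T) (sb := A.colSetoid T U) (sc := A.colSetoid S U)
    (fun f g => ⟨max f.1 g.1, (A.stage _).comp ((A.tr (le_max_left _ _)).map f.2)
      ((A.tr (le_max_right _ _)).map g.2)⟩)
    (by
      rintro ⟨i, f⟩ ⟨i', f'⟩ ⟨k, hk, hk', h⟩ ⟨j, g⟩ ⟨j', g'⟩ ⟨l, hl, hl', h'⟩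
      refine ⟨max k l, max_le_max hk hl, max_le_max hk' hl', ?_⟩
      have e1 := congrArg (A.tr (le_max_left k l)).map h
      have e2 := congrArg (A.tr (le_max_right k l)).map h'
      rw [A.tr_tr_map, A.tr_tr_map] at e1 e2
      rw [(A.tr _).map_comp, (A.tr _).map_comp, A.tr_tr_map, A.tr_tr_map, A.tr_tr_map,
        A.tr_tr_map]
      exact congrArg₂ _ e1 e2) x y

lemma ccomp_mk {k : ℕ} {S T U : Theta0} (f : (A.stage k).Hom S T) (g : (A.stage k).Hom T U) :
    A.ccomp (A.cmk k f) (A.cmk k g) = A.cmk k ((A.stage k).comp f g) := by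
  refine (A.cmk_eq_iff).2 ⟨max k k, le_refl _, le_max_left _ _, ?_⟩
  rw [A.tr_self_map, (A.tr _).map_comp]

lemma cmk_incl (i j : ℕ) {S T : Theta0} (f : S ⟶ T) :
    A.cmk i ((A.stage i).incl f) = A.cmk j ((A.stage j).incl f) := by
  refine (A.cmk_eq_iff).2 ⟨max i j, le_max_left _ _, le_max_right _ _, ?_⟩
  rw [(A.tr _).map_incl, (A.tr _).map_incl]

/-- The colimit of a sequence. -/
noncomputable def col : GlobExt where
  Hom := A.CHom
  id S := A.cmk 0 ((A.stage 0).id S)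
  comp := A.ccomp
  id_comp {S T} x := by
    obtain ⟨k, f, rfl⟩ := A.exists_cmk x
    rw [← (A.stage 0).incl_id, A.cmk_incl 0 k, A.ccomp_mk, (A.stage k).incl_id,
      (A.stage k).id_comp]
  comp_id {S T} x := by
    obtain ⟨k, f, rfl⟩ := A.exists_cmk x
    rw [← (A.stage 0).incl_id, A.cmk_incl 0 k, A.ccomp_mk, (A.stage k).incl_id,
      (A.stage k).comp_id]
  assoc x y z := by
    obtain ⟨k, f, g, h, rfl, rfl, rfl⟩ := A.exists_cmk₃ x y z
    rw [A.ccomp_mk, A.ccomp_mk, A.ccomp_mk, A.ccomp_mk, (A.stage k).assoc]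
  incl f := A.cmk 0 ((A.stage 0).incl f)
  incl_id S := by rw [(A.stage 0).incl_id]
  incl_comp f g := by rw [(A.stage 0).incl_comp, A.ccomp_mk]
  glue t j i hl hi U a b hab := by
    obtain ⟨k, a, b, rfl, rfl⟩ := A.exists_cmk₂ a b
    rw [A.cmk_incl 0 k, A.ccomp_mk, A.cmk_incl 0 k, A.ccomp_mk] at hab
    obtain ⟨m, hm, hab⟩ := A.cmk_eq hab
    rw [(A.tr hm).map_comp, (A.tr hm).map_comp, (A.tr hm).map_incl, (A.tr hm).map_incl] at hab
    obtain ⟨c, ⟨h1, h2⟩, -⟩ := (A.stage m).glue t j i hl hi U _ _ hab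
    refine ⟨A.cmk m c, ⟨?_, ?_⟩, ?_⟩
    · rw [A.cmk_incl 0 m, A.ccomp_mk, h1, A.cmk_tr]
    · rw [A.cmk_incl 0 m, A.ccomp_mk, h2, A.cmk_tr]
    · rintro y ⟨h1', h2'⟩
      have h1'' : A.ccomp (A.cmk 0 ((A.stage 0).incl (inl t j i hl hi))) y =
          A.ccomp (A.cmk 0 ((A.stage 0).incl (inl t j i hl hi))) (A.cmk m c) := by
        rw [h1', A.cmk_incl 0 m, A.ccomp_mk, h1, A.cmk_tr]
      have h2'' : A.ccomp (A.cmk 0 ((A.stage 0).incl (inr t j i hl hi))) y =
          A.ccomp (A.cmk 0 ((A.stage 0).incl (inr t j i hl hi))) (A.cmk m c) := by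
        rw [h2', A.cmk_incl 0 m, A.ccomp_mk, h2, A.cmk_tr]
      generalize A.cmk m c = z at h1'' h2''
      obtain ⟨n, y, z, rfl, rfl⟩ := A.exists_cmk₂ y z
      rw [A.cmk_incl 0 n, A.ccomp_mk, A.ccomp_mk] at h1'' h2''
      obtain ⟨p, hp, e1⟩ := A.cmk_eq h1''
      obtain ⟨q, hq, e2⟩ := A.cmk_eq h2''
      have e1' := A.cmk_eq_mono hp (le_max_left p q) e1
      have e2' := A.cmk_eq_mono hq (le_max_right p q) e2
      rw [Map.map_comp, Map.map_comp, Map.map_incl] at e1' e2'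
      rw [← A.cmk_tr (hp.trans (le_max_left p q)) y, ← A.cmk_tr (hp.trans (le_max_left p q)) z]
      congr 1
      refine ((A.stage _).glue t j i hl hi U _ _ ?_).unique ⟨e1', e2'⟩ ⟨rfl, rfl⟩
      rw [← (A.stage _).assoc, ← (A.stage _).assoc, GlobExt.glue_w]

/-- The maps to the colimit. -/
noncomputable def toCol (k : ℕ) : Map (A.stage k) A.col where
  map f := A.cmk k f
  map_id S := by
    change _ = A.cmk 0 _
    rw [← (A.stage k).incl_id, ← (A.stage 0).incl_id, A.cmk_incl 0 k]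
  map_comp f g := (A.ccomp_mk f g).symm
  map_incl f := A.cmk_incl k 0 f

lemma next_toCol (k : ℕ) : (A.next k).comp (A.toCol (k + 1)) = A.toCol k := by
  ext S T f
  have h := A.cmk_tr (Nat.le_succ k) f
  have h' : A.tr (Nat.le_succ k) = A.next k := by
    refine (A.tr_succ (le_refl k)).trans ?_
    rw [A.tr_self]
    rfl
  rw [h'] at h
  exact h

lemma tr_comp {D : GlobExt} (G : ∀ k, Map (A.stage k) D)
    (hG : ∀ k, (A.next k).comp (G (k + 1)) = G k) {i j : ℕ} (h : i ≤ j) :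
    (A.tr h).comp (G j) = G i := by
  induction j, h using Nat.le_induction with
  | base => rw [tr_self]; rfl
  | succ k h ih =>
    rw [← ih, ← hG k]
    exact congrArg (fun F : Map _ _ => F.comp (G (k + 1))) (A.tr_succ h)

/-- The map induced on the colimit. -/
noncomputable def colDesc {D : GlobExt} (G : ∀ k, Map (A.stage k) D)
    (hG : ∀ k, (A.next k).comp (G (k + 1)) = G k) : Map A.col D where
  map {S T} x := Quotient.lift (s := A.colSetoid S T) (fun f => (G f.1).map f.2) (by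
    rintro ⟨i, f⟩ ⟨j, g⟩ ⟨k, hi, hj, h⟩
    have e1 := congrArg (fun F : Map _ _ => F.map f) (A.tr_comp G hG hi)
    have e2 := congrArg (fun F : Map _ _ => F.map g) (A.tr_comp G hG hj)
    exact e1.symm.trans ((congrArg (G k).map h).trans e2)) x
  map_id S := (G 0).map_id S
  map_comp x y := by
    obtain ⟨k, f, g, rfl, rfl⟩ := A.exists_cmk₂ x y
    change Quotient.lift _ _ (A.ccomp (A.cmk k f) (A.cmk k g)) = _
    rw [A.ccomp_mk]
    exact (G k).map_comp f g
  map_incl f := (G 0).map_incl f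

/-- The universal property of the colimit. -/
theorem col_univ (D : GlobExt) (G : ∀ k, Map (A.stage k) D)
    (hG : ∀ k, (A.next k).comp (G (k + 1)) = G k) :
    ∃! G' : Map A.col D, ∀ k, (A.toCol k).comp G' = G k := by
  refine ⟨A.colDesc G hG, fun k => rfl, fun G' h => ?_⟩
  ext S T x
  obtain ⟨k, f, rfl⟩ := A.exists_cmk x
  exact congrArg (fun F : Map _ _ => F.map f) (h k)

/-- Parallel pairs in the colimit come from a finite stage. -/
lemma exists_parallel {n : ℕ} {S : Theta0} (f g : A.col.Hom (disc n) S)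
    (h : A.col.Parallel f g) : ∃ (k : ℕ) (f' g' : (A.stage k).Hom (disc n) S),
      (A.toCol k).map f' = f ∧ (A.toCol k).map g' = g ∧ (A.stage k).Parallel f' g' := by
  obtain ⟨k, f', g', rfl, rfl⟩ := A.exists_cmk₂ f g
  cases n with
  | zero => exact ⟨k, f', g', rfl, rfl, trivial⟩
  | succ n =>
    obtain ⟨h1, h2⟩ := h
    have h1' : A.ccomp (A.cmk 0 ((A.stage 0).incl (σ n))) (A.cmk k f') =
      A.ccomp (A.cmk 0 ((A.stage 0).incl (σ n))) (A.cmk k g') := h1
    have h2' : A.ccomp (A.cmk 0 ((A.stage 0).incl (τ n))) (A.cmk k f') =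
      A.ccomp (A.cmk 0 ((A.stage 0).incl (τ n))) (A.cmk k g') := h2
    rw [A.cmk_incl 0 k, A.ccomp_mk, A.ccomp_mk] at h1' h2'
    obtain ⟨p, hp, e1⟩ := A.cmk_eq h1'
    obtain ⟨q, hq, e2⟩ := A.cmk_eq h2'
    have e1' := A.cmk_eq_mono hp (le_max_left p q) e1
    have e2' := A.cmk_eq_mono hq (le_max_right p q) e2
    rw [Map.map_comp, Map.map_comp, Map.map_incl] at e1' e2'
    exact ⟨max p q, (A.tr (hp.trans (le_max_left p q))).map f',
      (A.tr (hp.trans (le_max_left p q))).map g', A.cmk_tr _ _, A.cmk_tr _ _, e1', e2'⟩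

end Sq

/-- The canonical tower. -/
noncomputable def freeSq : Sq where
  stage k := Nat.rec (motive := fun _ => GlobExt) thetaExt (fun _ C => freeExt C Set.univ) k
  next _ := toFree _ Set.univ

/-- The canonical tower presents its colimit. -/
noncomputable def freeTower : Tower freeSq.col where
  stage := freeSq.stage
  zero _ _ := Function.bijective_id
  next := freeSq.next
  pairs _ := Set.univ
  lift _ p := freeLift _ Set.univ p
  free _ := isFree_freeExt _ Set.univ
  toC := freeSq.toCol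
  toC_next := freeSq.next_toCol
  colim := freeSq.col_univ

theorem freeSq_lifts {n : ℕ} {S : Theta0} (hS : S.dim ≤ n + 1)
    (f g : freeSq.col.Hom (disc n) S) (h : freeSq.col.Parallel f g) :
    ∃ w, freeSq.col.IsLift f g w := by
  obtain ⟨k, f', g', rfl, rfl, h'⟩ := freeSq.exists_parallel f g h
  let p : (Set.univ : Set (Pair (freeSq.stage k))) := ⟨⟨n, S, f', g', h', hS⟩, trivial⟩
  have hl := ((isFree_freeExt (freeSq.stage k) Set.univ).isLift p).map (freeSq.toCol (k + 1))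
  refine ⟨(freeSq.toCol (k + 1)).map (freeLift _ Set.univ p : (freeSq.stage (k + 1)).Hom _ _), ?_⟩
  have e := freeSq.next_toCol k
  have e1 := congrArg (fun F : Map _ _ => F.map f') e
  have e2 := congrArg (fun F : Map _ _ => F.map g') e
  rw [← e1, ← e2]
  exact hl

end GlobExt

end Vale.Agent.P259
end
end

section

section

open CategoryTheory Limits Opposite

namespace Vale.Agent.P259

open Theta0

namespace GlobExt

/-- The free globular extension is a coherator. -/
theorem isCoherator_free : freeSq.col.IsCoherator :=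
  isCoherator_of_lifts freeTower (fun {_ _} hS f g h => freeSq_lifts hS f g h)

/-- Coherators exist. -/
theorem exists_coherator : ∃ C : GlobExt, C.IsCoherator := ⟨_, isCoherator_free⟩

end GlobExt

end Vale.Agent.P259
end
end

section

section

/-!
Existence of coherators, in the form of the statement.
-/

open CategoryTheory Limits Opposite

namespace Vale.Agent.P259

open Theta0

namespace S

lemma le_iff_tab {l : ℕ} (t : Tab l) (N : ℕ) : le ⟨t⟩ N ↔ t.dim ≤ N := by
  induction t with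
  | disc i => exact Iff.rfl
  | glue t j i h h' ih => exact (and_congr ih Iff.rfl).trans max_le_iff.symm

/-- `le` is the comparison of the dimension. -/
theorem le_iff_dim (S : Theta0) (N : ℕ) : le S N ↔ S.dim ≤ N := le_iff_tab S.tab N

section

variable {D : GlobExt}

/-- Parallel pairs in `OfGE D`. -/
lemma parallel_OfGE {n : ℕ} {S : Theta0} {f g : D.Hom (disc n) S} :
    D.Parallel f g ↔ ∀ (b : Bool) {m : ℕ} (hm : m < n),
      cmp (A := OfGE D) ((OfGE D).G.s (.face b hm)) f = cmp ((OfGE D).G.s (.face b hm)) g := by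
  have h0 : D.Parallel f g ↔ (OfGE D).GE.Parallel f g := by
    cases n with
    | zero => exact Iff.rfl
    | succ n =>
      have e : ∀ (i : disc n ⟶ disc (n + 1)) (x : D.Hom (disc (n + 1)) S),
          D.comp ((OfGE D).incl i) x = D.comp (D.incl i) x := fun i x =>
        congrArg (fun i => D.comp i x) (OfGE_incl D i)
      exact ⟨fun h => ⟨(e _ _).trans (h.1.trans (e _ _).symm),
          (e _ _).trans (h.2.trans (e _ _).symm)⟩,
        fun h => ⟨(e _ _).symm.trans (h.1.trans (e _ _)),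
          (e _ _).symm.trans (h.2.trans (e _ _))⟩⟩
  exact h0.trans parallel_iff

lemma isLift_OfGE {n : ℕ} {S : Theta0} {p : Bool → (OfGE D).H (disc n) S}
    {f : (OfGE D).H (disc n.succ) S} : IsLift p f ↔ D.IsLift (p false) (p true) f := by
  rw [isLift_iff]
  change (D.comp ((OfGE D).incl _) f = _ ∧ D.comp ((OfGE D).incl _) f = _) ↔
    (D.comp (D.incl _) f = _ ∧ D.comp (D.incl _) f = _)
  rw [OfGE_incl, OfGE_incl]
  exact Iff.rfl

/-- The pair of the statement attached to a pair of the development. -/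
def lightPair (P : D.Pair) : Pair (OfGE D) where
  n := P.n
  S := P.S
  p b := bif b then P.g else P.f
  par := parallel_OfGE.1 P.parallel

/-- The pair of the development attached to a pair of the statement. -/
def heavyPair (q : Pair (OfGE D)) (h : q.S.dim ≤ q.n + 1) : D.Pair where
  n := q.n
  S := q.S
  f := q.p false
  g := q.p true
  parallel := parallel_OfGE.2 q.par
  dim_le := h

lemma heavy_light (P : D.Pair) : heavyPair (lightPair P) P.dim_le = P := rfl

/-- The pairs of the statement which belong to a set of pairs of the development. -/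
def lightE (E : Set D.Pair) (q : Pair (OfGE D)) : Prop :=
  ∃ h : q.S.dim ≤ q.n + 1, heavyPair q h ∈ E

lemma forall_lightE {E : Set D.Pair} {motive : ∀ q : Pair (OfGE D), lightE E q → Prop}
    (H : ∀ (P : D.Pair) (h : P ∈ E), motive (lightPair P) ⟨P.dim_le, h⟩) :
    ∀ {q : Pair (OfGE D)} (h : lightE E q), motive q h := by
  rintro ⟨n, S, p, par⟩ ⟨hd, hm⟩
  obtain ⟨f, g, rfl⟩ : ∃ f g, p = fun b => bif b then g else f :=
    ⟨p false, p true, by funext b; cases b <;> rfl⟩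
  exact H _ hm

/-- A free extension of the development gives one of the statement. -/
noncomputable def adjOf {D' : GlobExt} {F : GlobExt.Map D D'} {E : Set D.Pair}
    {lift : ∀ p : E, D'.Hom (disc (p.1.n + 1)) p.1.S} (hF : GlobExt.IsFree F E lift) :
    Adj (Map.of F) where
  E := lightE E
  dim := fun {q} h => (le_iff_dim _ _).2 h.1
  lift := fun {q} h => lift ⟨heavyPair q h.1, h.2⟩
  isLift := fun {q} h => isLift_OfGE.2 (hF.isLift ⟨heavyPair q h.1, h.2⟩)
  univ := by
    intro X K m hm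
    have hm' : ∀ p : E, X.GE.IsLift (K.m p.1.f) (K.m p.1.g)
        (m (q := lightPair p.1) ⟨p.1.dim_le, p.2⟩) := fun p =>
      isLift_iff.1 (hm (q := lightPair p.1) ⟨p.1.dim_le, p.2⟩)
    obtain ⟨L, ⟨hL1, hL2⟩, hL3⟩ := hF.univ X.GE (Map.fromD K)
      (fun p => m (q := lightPair p.1) ⟨p.1.dim_le, p.2⟩) hm'
    refine ⟨Map.ofFrom L, ⟨?_, ?_⟩, ?_⟩
    · intro S T f
      exact congrArg (fun G : GlobExt.Map D X.GE => G.map f) hL1
    · intro q h
      exact forall_lightE (motive := fun q h => L.map (lift ⟨heavyPair q h.1, h.2⟩) = m h)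
        (fun P h => hL2 ⟨P, h⟩) h
    · rintro L' ⟨h1, h2⟩
      have h3 : Map.fromD L' = L := by
        refine hL3 _ ⟨?_, ?_⟩
        · refine GlobExt.Map.ext ?_
          funext S T f
          exact h1 f
        · intro p
          exact h2 (q := lightPair p.1) ⟨p.1.dim_le, p.2⟩
      rw [← h3]
      rfl

/-- A tower of the development gives one of the statement. -/
noncomputable def towerOf (T : D.Tower) : Tower (OfGE D) where
  st k := OfGE (T.stage k)
  zero := by
    intro X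
    let F : GlobExt.Map (T.stage 0) X.GE :=
      { map := fun {S U} f => X.incl ((Equiv.ofBijective _ (T.zero S U)).symm f)
        map_id := fun S => by
          have h : (Equiv.ofBijective _ (T.zero S S)).symm ((T.stage 0).id S) = 𝟙 S := by
            rw [Equiv.symm_apply_eq]
            exact ((T.stage 0).incl_id S).symm
          rw [h]
          exact X.incl_id S
        map_comp := fun {S U V} f g => by
          obtain ⟨f, rfl⟩ := (T.zero S U).2 f
          obtain ⟨g, rfl⟩ := (T.zero U V).2 g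
          have h : (Equiv.ofBijective _ (T.zero S V)).symm
              ((T.stage 0).comp ((T.stage 0).incl f) ((T.stage 0).incl g)) = f ≫ g := by
            rw [Equiv.symm_apply_eq]
            exact ((T.stage 0).incl_comp f g).symm
          have hf : (Equiv.ofBijective _ (T.zero S U)).symm ((T.stage 0).incl f) = f := by
            rw [Equiv.symm_apply_eq]
            rfl
          have hg : (Equiv.ofBijective _ (T.zero U V)).symm ((T.stage 0).incl g) = g := by
            rw [Equiv.symm_apply_eq]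
            rfl
          rw [h, hf, hg]
          exact X.incl_comp f g
        map_incl := fun {S U} f => by
          have hf : (Equiv.ofBijective _ (T.zero S U)).symm ((T.stage 0).incl f) = f := by
            rw [Equiv.symm_apply_eq]
            rfl
          rw [hf]
          rfl }
    refine ⟨Map.ofFrom F, trivial, ?_⟩
    intro G _
    have h : ∀ {S U : Theta0} (f : (T.stage 0).Hom S U), G.m f = F.map f := by
      intro S U f
      obtain ⟨f, rfl⟩ := (T.zero S U).2 f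
      rw [F.map_incl]
      exact (congrArg G.m (OfGE_incl (T.stage 0) f).symm).trans (G.m_incl f)
    have h2 : Map.fromD G = F := by
      refine GlobExt.Map.ext ?_
      funext S U f
      exact h f
    rw [← h2]
    rfl
  next k := Map.of (T.next k)
  adj k := adjOf (T.free k)
  inc k := Map.of (T.toC k)
  tri k := by
    intro S U f
    exact congrArg (fun G : GlobExt.Map (T.stage k) D => G.map f) (T.toC_next k)
  colim := by
    intro X K hK
    obtain ⟨L, hL1, hL2⟩ := T.colim X.GE (fun k => Map.fromD (K k)) (by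
      intro k
      refine GlobExt.Map.ext ?_
      funext S U f
      exact hK k f)
    refine ⟨Map.ofFrom L, ?_, ?_⟩
    · intro k S U f
      exact congrArg (fun G : GlobExt.Map (T.stage k) X.GE => G.map f) (hL1 k)
    · intro L' h
      have h3 : Map.fromD L' = L := by
        refine hL2 _ (fun k => ?_)
        refine GlobExt.Map.ext ?_
        funext S U f
        exact h k f
      rw [← h3]
      rfl

/-- A coherator of the development gives one of the statement. -/
theorem isCoherator_OfGE (h : D.IsCoherator) : IsCoherator (OfGE D) := by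
  refine ⟨⟨towerOf h.tower.some⟩, fun q => ?_⟩
  obtain ⟨f, hf⟩ := h.lifts (q.p false) (q.p true) (parallel_OfGE.2 q.par)
  exact ⟨f, isLift_OfGE.2 hf⟩

end

/-- Coherators exist. -/
theorem exists_isCoherator : ∃ A : Ext, IsCoherator A := by
  obtain ⟨D, h⟩ := GlobExt.exists_coherator
  exact ⟨OfGE D, isCoherator_OfGE h⟩

end S

end Vale.Agent.P259
end
end

section

section

/-!
The main theorem, in the form of the statement.
-/

open CategoryTheory Limits Opposite CompactlyGenerated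

namespace Vale.Agent.P259

open Theta0

namespace S

/-- The two forms of the fundamental groupoid functor. -/
noncomputable def piIso {A : Ext} {F : A.C ⥤ CompactlyGenerated.{0, 0}} (hF : IsDisc A.G F)
    (h : ∀ Y, A.glP ((F.op ⋙ coyoneda).flip.obj Y)) :
    A.glP.lift (F.op ⋙ coyoneda).flip h ⋙ A.E ≅ hF.toDisc.PiCG :=
  NatIso.ofComponents (fun Y => ObjectProperty.isoMk _ (NatIso.ofComponents
    (fun S => (fullyFaithfulCompactlyGeneratedToTop.homEquiv (X := F.obj (A.G.o S.unop.sum))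
      (Y := Y)).toIso) (fun _ => rfl))) (fun _ => rfl)

/-- Groupoids are local with respect to the maps from balls. -/
lemma gl_flip {A : Ext} {F : A.C ⥤ CompactlyGenerated.{0, 0}} (hF : IsDisc A.G F)
    (Y : CompactlyGenerated.{0, 0}) : A.glP ((F.op ⋙ coyoneda).flip.obj Y) := by
  refine (gl_iff _).2 ?_
  intro l t j n h h'
  exact hF.1 Y t j n h h'

/-- The homotopy hypothesis, in the form of the statement. -/
theorem locEq (A : Ext) (hA : IsCoherator A) {F : A.C ⥤ CompactlyGenerated.{0, 0}}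
    (hF : IsDisc A.G F) (q : ∀ n, A.G.o (disc n) ⟶ A.G.o (disc 0))
    (hq : ∀ n, IsLift (A := A) (fun _ => q n) (q n.succ))
    (B : ℕ → CompactlyGenerated.{0, 0}) (d : Bool → ∀ {n}, B n ⟶ B n.succ)
    (c : ∀ {n}, B n ⟶ B 0) (hB : Nonempty (IsBall d)) :
    LocEq (F.op ⋙ coyoneda).flip (Gl A.G yoneda) (we d c)
      (we (fun b {n} => yoneda.map (A.G.s (.face b n.lt_succ_self)))
        fun {n} => yoneda.map (q n)) := by
  have hC : A.GE.IsCoherator := isCoherator_GE hA
  obtain ⟨hB⟩ := hB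
  obtain ⟨I⟩ := GlobExt.exists_ident hC
  obtain ⟨K0⟩ := GlobExt.exists_cylFun_zero hC
  have hW : GlobExt.weq I = (K0.pathCtx hC).W := by
    ext X Y f
    exact GlobExt.weq_iff hC K0 I f
  have h3 : we d c = wheCG := by
    ext X Y f
    exact hB.we_iff_whe hC hF.toDisc c f
  have h0 := homotopyHypothesis hC I hF.toDisc
  rw [hW] at h0
  obtain ⟨h1, h2⟩ := h0
  rw [h3]
  refine locEq_of_equiv (F.op ⋙ coyoneda).flip (Gl A.G yoneda) wheCG _ A.E (K0.pathCtx hC).W
    ?_ (gl_flip hF) hF.toDisc.PiCG (piIso hF (gl_flip hF)) h1 h2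
  ext X Y f
  exact we_iff_W hC K0 q (fun b n => hq n b) f

/-- Coherators have disc functors. -/
theorem exists_disc (A : Ext) (hA : IsCoherator A) : ∃ F, IsDisc A.G F := by
  obtain ⟨Δ⟩ := exists_discFunctor (isCoherator_GE hA).tower.some
  exact exists_isDisc A Δ

/-- **The homotopy hypothesis**, in the form of the statement. -/
theorem main {C : Type} [SmallCategory C] : (∃ A, IsCoherator A) ∧ ∀ G : Glob C,
    IsCoherator ⟨C, G⟩ → (∃ F, IsDisc G F) ∧ ∀ F, IsDisc G F →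
    ∀ q : ∀ n, G.o (disc n) ⟶ G.o (disc 0), q 0 = 𝟙 _ →
      (∀ n, IsLift (A := ⟨C, G⟩) (fun _ => q n) (q n.succ)) →
    ∀ (B : ℕ → CompactlyGenerated.{0, 0}) (d : Bool → ∀ {n}, B n ⟶ B n.succ) (c : ∀ {n}, B n ⟶ B 0),
      Nonempty (IsBall d) → LocEq (F.op ⋙ coyoneda).flip (Gl G yoneda) (we d c)
        (we (fun b {n} => yoneda.map (G.s (.face b n.lt_succ_self))) fun {n} => yoneda.map (q n)) := by
  exact ⟨exists_isCoherator, fun G hG => ⟨exists_disc ⟨C, G⟩ hG, fun F hF q _ hq B d c hB =>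
    locEq ⟨C, G⟩ hG hF q hq B d c hB⟩⟩

end S

end Vale.Agent.P259
end
end

section

/-!
Comparison of the two forms of the statement: globular extensions, towers, coherators, disc
functors.
-/

open CategoryTheory

namespace Vale.Agent.P259

open Theta0

namespace StmtB

/-- Structure maps of the first statement. -/
def Str.to {U V : Theta0} : Str U V → S.Str U V
  | .face b h => .face b h
  | .inr t => .last t
  | .inl t j n h h' => .inl t j n h h'

/-- Structure maps of the second statement. -/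
def Str.of {U V : Theta0} : S.Str U V → Str U V
  | .face b h => .face b h
  | .last t => .inr t
  | .inl t j n h h' => .inl t j n h h'

theorem Str.to_of {U V : Theta0} (x : S.Str U V) : (Str.of x).to = x := by
  cases x <;> rfl

theorem Str.of_to {U V : Theta0} (x : Str U V) : Str.of x.to = x := by
  cases x <;> rfl

/-- Globular extensions of the first statement. -/
def Glob.to {C : Type} [SmallCategory C] (G : Glob C) : S.Glob C where
  o := G.o
  bij := G.bij
  s x := G.s (.of x)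
  face_face h h' h'' b c := G.face_face h h' h'' b c
  last_D n := G.last_D n
  glue U _ t j n h h' := G.glue U t j n h h'

/-- Globular extensions of the second statement. -/
def Glob.of {C : Type} [SmallCategory C] (G : S.Glob C) : Glob C where
  o := G.o
  bij := G.bij
  s x := G.s x.to
  face_face h h' h'' b c := G.face_face h h' h'' b c
  last_D n := G.last_D n
  glue U _ t j n h h' := G.glue U t j n h h'

/-- Globular extensions of the first statement. -/
def Ext.to (A : Ext) : S.Ext := ⟨A.C, A.G.to⟩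

/-- Globular extensions of the second statement. -/
def Ext.of (A : S.Ext) : Ext := ⟨A.C, Glob.of A.G⟩

/-- Morphisms of the first statement. -/
def Map.to {A B : Ext} (F : Map A B) : S.Map A.to B.to where
  m f := F.m f
  id U := F.id U
  comp f g := F.comp f g
  str x := F.str (.of x)

/-- Morphisms to an extension of the first statement. -/
def Map.toX {A : Ext} {X : S.Ext} (F : Map A (Ext.of X)) : S.Map A.to X where
  m f := F.m f
  id U := F.id U
  comp f g := F.comp f g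
  str x := (F.str (.of x)).trans (congrArg X.G.s (Str.to_of x))

/-- Morphisms to an extension of the first statement. -/
def Map.ofX {A : Ext} {X : S.Ext} (F : S.Map A.to X) : Map A (Ext.of X) where
  m f := F.m f
  id U := F.id U
  comp f g := F.comp f g
  str x := (congrArg (fun y => F.m (A.G.s y)) (Str.of_to x).symm).trans (F.str x.to)

/-- Pairs of the second statement. -/
def Pair.of {A : Ext} (q : S.Pair A.to) : Pair A := ⟨q.n, q.S, q.p, fun b _ h => q.par b h⟩

/-- Pairs of the first statement. -/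
def Pair.to {A : Ext} (q : Pair A) : S.Pair A.to := ⟨q.dim, q.cod, q.arr, fun b _ h => q.par b h⟩

/-- Adjunctions of lifts. -/
def Adj.to {A B : Ext} {F : Map A B} (D : Adj F) : S.Adj F.to where
  E q := D.E (.of q)
  dim h := D.le h
  lift h := D.g h
  isLift h := D.lift h
  univ {X} K m hm := by
    obtain ⟨L, ⟨h1, h2⟩, h3⟩ := D.univ (X := Ext.of X) (Map.ofX K) (fun {q} h => m (q := q.to) h)
      (fun {q} h => hm (q := q.to) h)
    refine ⟨L.toX, ⟨fun f => h1 f, fun {q} h => h2 (π := .of q) h⟩, ?_⟩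
    rintro y ⟨y1, y2⟩
    have h4 : Map.ofX y = L := h3 _ ⟨fun f => y1 f, fun {q} h => y2 (q := q.to) h⟩
    exact congrArg Map.toX h4

/-- Towers. -/
def Tower.to {A : Ext} (D : Tower A) : S.Tower A.to where
  st k := (D.B k).to
  zero X := by
    obtain ⟨L, -, h⟩ := D.zero (Ext.of X)
    exact ⟨L.toX, trivial, fun y _ => congrArg Map.toX (h (.ofX y) trivial)⟩
  next k := (D.F k).to
  adj k := (D.adj k).to
  inc k := (D.ι k).to
  tri k := fun f => D.tri k f
  colim {X} K hK := by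
    obtain ⟨L, h1, h2⟩ := D.colim (X := Ext.of X) (fun k => .ofX (K k)) (fun k {_ _} f => hK k f)
    exact ⟨L.toX, fun k {_ _} f => h1 k f,
      fun y hy => congrArg Map.toX (h2 (.ofX y) (fun k {_ _} f => hy k f))⟩

theorem IsCoherator.to {A : Ext} (h : IsCoherator A) : S.IsCoherator A.to :=
  ⟨h.1.map Tower.to, fun q => h.2 (.of q)⟩

/-- Morphisms of the second statement. -/
def Map.of {A B : S.Ext} (F : S.Map A B) : Map (Ext.of A) (Ext.of B) where
  m f := F.m f
  id U := F.id U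
  comp f g := F.comp f g
  str x := F.str x.to

/-- Morphisms to an extension of the second statement. -/
def Map.ofY {A : S.Ext} {X : Ext} (F : S.Map A X.to) : Map (Ext.of A) X where
  m f := F.m f
  id U := F.id U
  comp f g := F.comp f g
  str x := (F.str x.to).trans (congrArg X.G.s (Str.of_to x))

/-- Morphisms to an extension of the second statement. -/
def Map.toY {A : S.Ext} {X : Ext} (F : Map (Ext.of A) X) : S.Map A X.to where
  m f := F.m f
  id U := F.id U
  comp f g := F.comp f g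
  str x := (congrArg (fun y => F.m (A.G.s y)) (Str.to_of x).symm).trans (F.str (.of x))

/-- Pairs of the first statement. -/
def Pair.toS {A : S.Ext} (q : Pair (Ext.of A)) : S.Pair A :=
  ⟨q.dim, q.cod, q.arr, fun b _ h => q.par b h⟩

/-- Pairs of the second statement. -/
def Pair.ofS {A : S.Ext} (q : S.Pair A) : Pair (Ext.of A) := ⟨q.n, q.S, q.p, fun b _ h => q.par b h⟩

/-- Adjunctions of lifts. -/
def Adj.of {A B : S.Ext} {F : S.Map A B} (D : S.Adj F) : Adj (Map.of F) where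
  E q := D.E q.toS
  le h := D.dim h
  g h := D.lift h
  lift h := D.isLift h
  univ {X} K m hm := by
    obtain ⟨L, ⟨h1, h2⟩, h3⟩ := D.univ (X := X.to) (Map.toY K) (fun {q} h => m (π := .ofS q) h)
      (fun {q} h => hm (π := .ofS q) h)
    refine ⟨Map.ofY L, ⟨fun f => h1 f, fun {q} h => h2 (q := q.toS) h⟩, ?_⟩
    rintro y ⟨y1, y2⟩
    have h4 : Map.toY y = L := h3 _ ⟨fun f => y1 f, fun {q} h => y2 (π := .ofS q) h⟩
    exact congrArg Map.ofY h4

/-- Towers. -/
def Tower.of {A : S.Ext} (D : S.Tower A) : Tower (Ext.of A) where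
  B k := Ext.of (D.st k)
  zero X := by
    obtain ⟨L, -, h⟩ := D.zero X.to
    exact ⟨.ofY L, trivial, fun y _ => congrArg Map.ofY (h y.toY trivial)⟩
  F k := .of (D.next k)
  adj k := .of (D.adj k)
  ι k := .of (D.inc k)
  tri k := fun f => D.tri k f
  colim {X} K hK := by
    obtain ⟨L, h1, h2⟩ := D.colim (X := X.to) (fun k => (K k).toY) (fun k {_ _} f => hK k f)
    exact ⟨.ofY L, fun k {_ _} f => h1 k f,
      fun y hy => congrArg Map.ofY (h2 y.toY (fun k {_ _} f => hy k f))⟩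

theorem _root_.Vale.Agent.P259.S.IsCoherator.of {A : S.Ext} (h : S.IsCoherator A) :
    IsCoherator (Ext.of A) :=
  ⟨h.1.map Tower.of, fun q => h.2 q.toS⟩

theorem isDisc_to {C : Type} [SmallCategory C] {G : Glob C} {F : C ⥤ CompactlyGenerated.{0, 0}}
    (h : IsDisc G F) : S.IsDisc G.to F := by
  obtain ⟨h1, ⟨h2⟩⟩ := h
  exact ⟨fun Y _ t j n h h' => h1 Y t j n h h', ⟨⟨h2.e, h2.emb, h2.range, h2.face⟩⟩⟩

theorem isDisc_of {C : Type} [SmallCategory C] {G : Glob C} {F : C ⥤ CompactlyGenerated.{0, 0}}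
    (h : S.IsDisc G.to F) : IsDisc G F := by
  obtain ⟨h1, ⟨h2⟩⟩ := h
  exact ⟨fun Y _ t j n h h' => h1 Y t j n h h', ⟨⟨h2.e, h2.emb, h2.range, h2.face⟩⟩⟩

theorem locEq_of {K : Type 1} [Category.{0} K] {P : CompactlyGenerated.{0, 0} ⥤ K}
    {T : ObjectProperty K} {V : MorphismProperty K}
    (h : S.LocEq P T (whe.inverseImage CompactlyGenerated.compactlyGeneratedToTop) V) :
    LocEq P T V := h

end StmtB

end Vale.Agent.P259
end

section

/-!
Weak homotopy equivalences: the form of the second statement.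
-/

open CategoryTheory
open scoped Topology.Homotopy

namespace Vale.Agent.P259

namespace StmtB

/-- Bijectivity of a map between quotients. -/
lemma bijective_quotient_map_iff {A B : Type*} {r : Setoid A} {s : Setoid B} (φ : A → B)
    (h : ∀ a b, r a b → s (φ a) (φ b)) :
    Function.Bijective (Quotient.map (sa := r) (sb := s) φ h) ↔
      ∀ b, ∃ a, ∀ w, s (φ w) b ↔ r w a := by
  constructor
  · rintro ⟨h1, h2⟩ b
    obtain ⟨x, hx⟩ := h2 (Quotient.mk s b)
    obtain ⟨a, rfl⟩ := Quotient.exists_rep x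
    refine ⟨a, fun w => ⟨fun hw => ?_, fun hw => ?_⟩⟩
    · have h3 : Quotient.map (sa := r) (sb := s) φ h (Quotient.mk r w) =
          Quotient.map (sa := r) (sb := s) φ h (Quotient.mk r a) :=
        (Quotient.sound (s := s) hw : Quotient.mk s (φ w) = Quotient.mk s b).trans hx.symm
      exact Quotient.exact (h1 h3)
    · have h3 : Quotient.mk s (φ a) = Quotient.mk s b := hx
      exact s.trans (h w a hw) (Quotient.exact h3)
  · intro H
    constructor
    · intro x y hxy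
      obtain ⟨w, rfl⟩ := Quotient.exists_rep x
      obtain ⟨w', rfl⟩ := Quotient.exists_rep y
      obtain ⟨a, ha⟩ := H (φ w')
      have h1 : s (φ w) (φ w') := Quotient.exact hxy
      exact Quotient.sound (r.trans ((ha w).1 h1) (r.symm ((ha w').1 (s.refl _))))
    · intro y
      obtain ⟨b, rfl⟩ := Quotient.exists_rep y
      obtain ⟨a, ha⟩ := H b
      exact ⟨Quotient.mk r a, Quotient.sound ((ha a).2 (r.refl a))⟩

lemma piZeroMap_bijective_iff {X Y : Type} [TopologicalSpace X] [TopologicalSpace Y] (f : C(X, Y)) :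
    Function.Bijective (piZeroMap f) ↔ ∀ y, ∃ x, ∀ w, Joined (f w) y ↔ Joined w x := by
  have h : ∀ a b : X, pathSetoid X a b → pathSetoid Y (f a) (f b) :=
    fun a b p => ⟨(Nonempty.some p).map f.continuous⟩
  have h1 : piZeroMap f = Quotient.map (sa := pathSetoid X) (sb := pathSetoid Y) f h := by
    funext x
    obtain ⟨x, rfl⟩ := Quotient.exists_rep x
    rfl
  rw [h1]
  exact bijective_quotient_map_iff _ _

lemma piMap_bijective_iff {X Y : Type} [TopologicalSpace X] [TopologicalSpace Y] (f : C(X, Y))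
    (n : ℕ) (x : X) :
    Function.Bijective (piMap f n x) ↔
      ∀ v, ∃ u, ∀ w, GenLoop.Homotopic (loopMap f n x w) v ↔ GenLoop.Homotopic w u :=
  bijective_quotient_map_iff _ _

lemma piMap_zero_bijective {X Y : Type} [TopologicalSpace X] [TopologicalSpace Y] {f : C(X, Y)}
    (x : X) (hf : Function.Bijective (piZeroMap f)) : Function.Bijective (piMap f 0 x) := by
  have h : ∀ a, homotopyGroupEquivZerothHomotopyOfIsEmpty (Fin 0) (f x) (piMap f 0 x a) =
      piZeroMap f (homotopyGroupEquivZerothHomotopyOfIsEmpty (Fin 0) x a) := by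
    intro a
    obtain ⟨a, rfl⟩ := Quotient.exists_rep a
    rfl
  have h1 : piMap f 0 x = (homotopyGroupEquivZerothHomotopyOfIsEmpty (Fin 0) (f x)).symm ∘
      piZeroMap f ∘ homotopyGroupEquivZerothHomotopyOfIsEmpty (Fin 0) x := by
    funext a
    rw [Function.comp_apply, Function.comp_apply, Equiv.eq_symm_apply]
    exact h a
  rw [h1]
  exact (Equiv.bijective _).comp (hf.comp (Equiv.bijective _))

lemma eq_loopMap {X Y : Type} [TopologicalSpace X] [TopologicalSpace Y] (f : C(X, Y))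
    {n : ℕ} {x : X} (g : GenLoop (Fin n) X x → GenLoop (Fin n) Y (f x))
    (hg : ∀ p t, g p t = f (p t)) : g = loopMap f n x := by
  funext p
  ext t
  exact hg p t

/-- The weak homotopy equivalences of the statement are those of the development. -/
theorem whe_iff {X Y : TopCat.{0}} (f : X ⟶ Y) : whe f ↔ IsWHE f.hom := by
  constructor
  · rintro ⟨h0, h⟩
    refine ⟨(piZeroMap_bijective_iff f.hom).2 h0, fun n x => ?_⟩
    exact (piMap_bijective_iff f.hom (n + 1) x).2
      (h (n + 1) x (loopMap f.hom (n + 1) x) (fun _ _ => rfl))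
  · rintro ⟨h0, h⟩
    refine ⟨(piZeroMap_bijective_iff f.hom).1 h0, fun n x g hg => ?_⟩
    have hg' := eq_loopMap f.hom g hg
    subst hg'
    cases n with
    | zero => exact (piMap_bijective_iff f.hom 0 x).1 (piMap_zero_bijective x h0)
    | succ n => exact (piMap_bijective_iff f.hom (n + 1) x).1 (h n x)

theorem whe_eq : whe.inverseImage CompactlyGenerated.compactlyGeneratedToTop = wheCG := by
  ext X Y f
  exact whe_iff _

end StmtB

end Vale.Agent.P259
end

section

/-!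
The homotopy hypothesis, in the form of the second statement: weak homotopy equivalences are
expressed with the homotopy relations of Mathlib.
-/

open CategoryTheory Opposite CompactlyGenerated

namespace Vale.Agent.P259

open Theta0

namespace StmtB

/-- The homotopy hypothesis for one disc functor, in the form of the second statement. -/
theorem locEq {Q : Type} [SmallCategory Q] (J : Glob Q) (h : IsCoherator ⟨Q, J⟩)
    {F : Q ⥤ CompactlyGenerated.{0, 0}} (hF : S.IsDisc J.to F)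
    (c : ∀ n, Ext.H ⟨Q, J⟩ (disc n) (disc 0)) (hc : ∀ n, IsLift (fun _ => c n) (c n.succ)) :
    LocEq (F.op ⋙ coyoneda).flip (Gl J yoneda)
      (we (fun b {n} => yoneda.map (J.s (.face b n.lt_succ_self))) fun {n} => yoneda.map (c n)) := by
  refine locEq_of ?_
  obtain ⟨hB⟩ := hF.2
  have h1 : ∀ W, S.we (fun b {n} => F.map ((Ext.to ⟨Q, J⟩).G.s (.face b n.lt_succ_self)))
      (fun {n} => F.map (c n)) = W → S.LocEq (F.op ⋙ coyoneda).flip (Gl J yoneda) W
      (we (fun b {n} => yoneda.map (J.s (.face b n.lt_succ_self))) fun {n} => yoneda.map (c n)) := by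
    rintro _ rfl
    exact S.locEq (Ext.to ⟨Q, J⟩) h.to hF c hc _ _ _ ⟨hB⟩
  refine h1 _ ?_
  rw [whe_eq]
  ext X Y f
  exact hB.we_iff_whe (S.isCoherator_GE h.to) hF.toDisc _ f

/-- **The homotopy hypothesis**, in the form of the second statement. -/
theorem main {Q : Type} [SmallCategory Q] :
    (∃ A, IsCoherator A) ∧ ∀ J : Glob Q, IsCoherator ⟨Q, J⟩ →
    (∃ F, IsDisc J F) ∧ ∀ F, IsDisc J F →
    ∀ c : ∀ n, Ext.H ⟨Q, J⟩ (disc n) (disc 0), (∀ n, IsLift (fun _ => c n) (c n.succ)) →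
    LocEq (F.op ⋙ coyoneda).flip (Gl J yoneda)
      (we (fun b {n} => yoneda.map (J.s (.face b n.lt_succ_self))) fun {n} => yoneda.map (c n)) := by
  refine ⟨?_, fun J h => ⟨?_, fun F hF c hc => locEq J h (isDisc_to hF) c hc⟩⟩
  · obtain ⟨A, hA⟩ := S.exists_isCoherator
    exact ⟨Ext.of A, hA.of⟩
  · obtain ⟨F, hF⟩ := S.exists_disc (Ext.to ⟨Q, J⟩) h.to
    exact ⟨F, isDisc_of hF⟩

end StmtB

end Vale.Agent.P259
end
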